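import Vale.Agent.P237.Petty.Cor.Grid.N10.HighCov
import Vale.Agent.P237.Petty.Cor.Grid.N10.HighChecks

/-!
# P237: a cell in dimension 10
-/

namespace Vale.Agent.P237.Petty.Cor.Grid.N10.High

theorem covers : ∀ e ∈ cell.rows, cell.Covers table e.1 := by
  simp only [cell, List.forall_mem_cons]
  exact ⟨covers0, covers1, covers2, covers3, covers4, covers5, covers6, covers7, covers8, covers9, covers10, covers11, covers12, covers13, covers14, covers15, covers16, covers17, covers18, covers19, covers20, covers21, covers22, covers23, covers24, covers25, covers26, covers27, covers28, covers29, covers30, covers31, covers32, covers33, covers34, covers35, covers36, covers37, covers38, covers39, covers40, covers41, covers42, covers43, covers44, covers45, List.forall_mem_nil _⟩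

/-- The cell. -/

theorem corCell : CorCell 8 ((13421772 : ℝ) / 16777216) ((41959818 : ℝ) / 16777216) := by
  simpa [cell, par, sR] using Cell.corCell head_ok table_ok pieces_ok rows_ok mean_ok covers

end Vale.Agent.P237.Petty.Cor.Grid.N10.High
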