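import Vale.Agent.P237.Petty.Cor.Grid.N10.HighCert

/-!
# P237: a cell in dimension 10, subdivisions
-/

namespace Vale.Agent.P237.Petty.Cor.Grid.N10.High

def covers0 : cell.Covers table row0.1 :=
  ⟨(.cut .d 0 (.cut .v 16777216 (.cut .v 8388608 (.cut .v 4194304 (.void 4 ⟨0, 0, 100000, 0, 0, 0, 0, 0, 0, ⟨0, 0⟩, 0⟩ 0 0) (.pos 5 .mm ⟨0, 0, 0, 0, 0, 0, 0, 0, 0, ⟨0, 0⟩, 0⟩ 0 0)) (.cut .d (-8388608) (.pos 3 .mm ⟨0, 0, 0, 0, 0, 0, 0, 0, 0, ⟨0, 0⟩, 0⟩ 0 0) (.pos 3 .mm ⟨0, 0, 0, 0, 0, 0, 0, 0, 0, ⟨0, 0⟩, 0⟩ 0 0))) (.cut .v 67108864 (.cut .v 33554432 (.cut .v 25165824 (.cut .v 20971520 (.pos 15 .mp ⟨0, 0, 0, 0, 0, 0, 0, 0, 0, ⟨0, 0⟩, 0⟩ 0 0) (.pos 16 .mp ⟨0, 0,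 0, 0, 0, 0, 0, 0, 0, ⟨0, 0⟩, 0⟩ 0 0)) (.pos 14 .mp ⟨0, 0, 0, 0, 0, 0, 0, 0, 0, ⟨0, 0⟩, 0⟩ 0 0)) (.pos 12 .mp ⟨0, 0, 0, 0, 0, 0, 0, 0, 0, ⟨0, 0⟩, 0⟩ 0 0)) (.void 10 ⟨0, 100000, 0, 0, 0, 0, 0, 0, 0, ⟨0, 0⟩, 0⟩ 0 0))) (.cut .v 16777216 (.cut .v 8388608 (.cut .v 4194304 (.void 4 ⟨0, 0, 52997, 0, 47003, 0, 0, 0, 0, ⟨0, 0⟩, 0⟩ 0 0) (.pos 5 .pm ⟨0, 0, 0, 0, 2055633, 0, 0, 0, 0, ⟨0, 0⟩, 0⟩ 0 0)) (.pos 3 .pm ⟨0, 0, 0, 0, 0, 0, 0, 0, 1048245, ⟨0, 0⟩, 14107901⟩ 0 0)) (.cut .v 67108864 (.cut .d 132240026 (.cut .d 66120013 (.cut .d 33060006 (.cut .v 33554432 (.cut .d 16530003 (.cut .v 25165824 (.cut .d 8265001 (.cut .v 20971520 (.cut .d 4132500 (.cut .v 18874368 (.pos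 17 .pp ⟨0, 0, 0, 0, 0, 0, 0, 0, 0, ⟨0, 0⟩, 0⟩ 0 0) (.pos 18 .pp ⟨0, 0, 0, 0, 0, 0, 0, 0, 0, ⟨0, 0⟩, 0⟩ 0 0)) (.pos 15 .pp ⟨0, 0, 0, 0, 0, 0, 0, 0, 0, ⟨0, 0⟩, 0⟩ 0 0)) (.pos 16 .pp ⟨0, 0, 0, 0, 0, 0, 0, 0, 0, ⟨0, 0⟩, 0⟩ 0 0)) (.pos 13 .pp ⟨0, 0, 0, 0, 0, 0, 0, 0, 0, ⟨0, 0⟩, 0⟩ 0 0)) (.cut .d 8265001 (.pos 14 .pp ⟨0, 0, 0, 0, 0, 0, 0, 0, 0, ⟨0, 0⟩, 0⟩ 0 0) (.pos 14 .pp ⟨0, 0, 0, 0, 0, 0, 0, 0, 0, ⟨0, 0⟩, 0⟩ 0 0))) (.pos 11 .pp ⟨0, 0, 0, 0, 2339176, 0, 0, 0, 0, ⟨0, 0⟩, 0⟩ 0 0)) (.cut .v 50331648 (.cut .d 16530003 (.pos 21 .pp ⟨0, 0, 0, 0, 0, 0, 0, 0, 0, ⟨0, 0⟩, 0⟩ 0 0) (.cut .v 41943040 (.cut .d 24795004 (.pos 23 .pp ⟨0, 12734553, 0, 0, 0, 0, 0, 0, 1374119,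 ⟨0, 0⟩, 25087789⟩ 0 0) (.pos 23 .pp ⟨0, 16187828, 0, 0, 3508822, 0, 0, 0, 1374119, ⟨0, 0⟩, 25087789⟩ 0 0)) (.cut .v 46137344 (.cut .d 24795004 (.cut .v 44040192 (.pos 29 .pp ⟨3200406, 31640781, 0, 0, 0, 0, 0, 0, 0, ⟨0, 0⟩, 0⟩ 0 0) (.pos 30 .pp ⟨4778238, 75001652, 0, 0, 0, 0, 0, 0, 0, ⟨0, 0⟩, 0⟩ 0 0)) (.cut .d 28927505 (.cut .v 44040192 (.cut .s 851968 (.cut .d 26861254 (.pos 29 .pp ⟨9065538, 33387404, 0, 0, 0, 0, 0, 0, 0, ⟨0, 0⟩, 0⟩ 0 0) (.pos 29 .pp ⟨9413560, 37272297, 0, 0, 0, 0, 0, 0, 0, ⟨0, 0⟩, 0⟩ 0 0)) (.pos 29 .pp ⟨3477512, 40262015, 0, 0, 0, 0, 0, 0, 0, ⟨0, 0⟩, 0⟩ 0 0)) (.void 30 ⟨0, 100000, 0, 0, 0, 0, 0, 0, 0, ⟨0, 0⟩, 0⟩ 0 0)) (.pos 27 .pp ⟨4381735,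 48553372, 0, 0, 0, 0, 0, 0, 0, ⟨0, 0⟩, 0⟩ 0 0))) (.void 28 ⟨0, 100000, 0, 0, 0, 0, 0, 0, 0, ⟨0, 0⟩, 0⟩ 0 0)))) (.void 22 ⟨0, 100000, 0, 0, 0, 0, 0, 0, 0, ⟨0, 0⟩, 0⟩ 0 0))) (.cut .v 33554432 (.pos 11 .pp ⟨0, 0, 0, 0, 13036070, 0, 0, 0, 1524900, ⟨0, 0⟩, 19951585⟩ 0 0) (.cut .v 50331648 (.cut .v 41943040 (.pos 23 .pp ⟨13936146, 0, 0, 0, 195561364, 0, 0, 0, 0, ⟨0, 0⟩, 0⟩ 0 0) (.pos 24 .pp ⟨7133205, 73155764, 0, 0, 0, 0, 0, 0, 0, ⟨0, 0⟩, 0⟩ 0 0)) (.void 22 ⟨0, 100000, 0, 0, 0, 0, 0, 0, 0, ⟨0, 0⟩, 0⟩ 0 0)))) (.pos 9 .pp ⟨0, 113789134, 0, 0, 0, 0, 647181, 0, 0, ⟨0, 0⟩, 0⟩ 0 0)) (.pos 9 .pp ⟨0, 0, 0, 0, 8317392, 0, 0, 0, 0, ⟨0, 0⟩, 0⟩ 0 0)) (.void 10 ⟨0, 100000,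 0, 0, 0, 0, 0, 0, 0, ⟨0, 0⟩, 0⟩ 0 0)))),
    by decide +kernel⟩

def covers1 : cell.Covers table row1.1 :=
  ⟨(.cut .d 0 (.cut .v 16777216 (.cut .v 8388608 (.cut .v 4194304 (.void 4 ⟨0, 0, 100000, 0, 0, 0, 0, 0, 0, ⟨0, 0⟩, 0⟩ 0 0) (.pos 5 .mm ⟨0, 0, 0, 0, 0, 0, 0, 0, 0, ⟨0, 0⟩, 0⟩ 0 0)) (.cut .v 12582912 (.pos 6 .mm ⟨0, 0, 0, 0, 0, 0, 0, 0, 0, ⟨0, 0⟩, 0⟩ 0 0) (.pos 7 .mm ⟨0, 0, 0, 0, 0, 0, 0, 0, 0, ⟨0, 0⟩, 0⟩ 0 0))) (.cut .v 67108864 (.cut .v 33554432 (.cut .v 25165824 (.cut .v 20971520 (.pos 15 .mp ⟨0, 0, 0, 0, 0, 0, 0, 0, 0, ⟨0, 0⟩, 0⟩ 0 0) (.pos 16 .mp ⟨0, 0, 0, 0, 0, 0, 0, 0, 0, ⟨0, 0⟩, 0⟩ 0 0)) (.pos 14 .mp ⟨0, 0, 0, 0, 0, 0, 0, 0, 0, ⟨0, 0⟩, 0⟩ 0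 0)) (.pos 12 .mp ⟨0, 0, 0, 0, 0, 0, 0, 0, 0, ⟨0, 0⟩, 0⟩ 0 0)) (.pos 10 .mp ⟨3677613, 808077553, 0, 0, 0, 0, 0, 0, 0, ⟨0, 0⟩, 0⟩ 0 0))) (.cut .v 16777216 (.cut .v 8388608 (.void 2 ⟨0, 0, 0, 0, 100000, 0, 0, 0, 0, ⟨0, 0⟩, 0⟩ 0 0) (.pos 3 .pm ⟨0, 0, 0, 0, 2361114, 0, 0, 0, 0, ⟨0, 0⟩, 0⟩ 0 0)) (.cut .v 67108864 (.cut .d 74206918 (.cut .d 37103459 (.cut .v 33554432 (.cut .d 18551729 (.cut .v 25165824 (.cut .d 9275864 (.cut .v 20971520 (.cut .d 4637932 (.pos 15 .pp ⟨0, 0, 0, 0, 0, 0, 0, 0, 0, ⟨0, 0⟩, 0⟩ 0 0) (.pos 15 .pp ⟨0, 0, 0, 0, 3916389, 0, 0, 0, 0, ⟨0, 0⟩, 0⟩ 0 0)) (.pos 16 .pp ⟨0, 0, 0, 0, 0, 0, 0, 0, 0, ⟨0, 0⟩, 0⟩ 0 0)) (.pos 13 .pp ⟨0, 0, 0, 0, 23515206,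 0, 0, 0, 0, ⟨0, 0⟩, 0⟩ 0 0)) (.cut .d 9275864 (.pos 14 .pp ⟨0, 0, 0, 0, 0, 0, 0, 0, 0, ⟨0, 0⟩, 0⟩ 0 0) (.pos 14 .pp ⟨0, 0, 0, 0, 0, 0, 0, 0, 0, ⟨0, 0⟩, 0⟩ 0 0))) (.pos 11 .pp ⟨0, 0, 0, 0, 6478838, 0, 0, 0, 569449, ⟨0, 0⟩, 19951585⟩ 0 0)) (.cut .v 50331648 (.cut .d 18551729 (.pos 21 .pp ⟨0, 3360608, 0, 0, 0, 0, 0, 0, 0, ⟨0, 0⟩, 0⟩ 0 0) (.cut .v 41943040 (.cut .d 27827594 (.cut .v 37748736 (.pos 25 .pp ⟨0, 0, 0, 0, 0, 0, 0, 0, 500363, ⟨0, 0⟩, 24435601⟩ 0 0) (.cut .d 23189661 (.pos 26 .pp ⟨0, 24891567, 0, 0, 0, 0, 0, 0, 0, ⟨0, 0⟩, 0⟩ 0 0) (.pos 26 .pp ⟨0, 31675655, 0, 0, 0, 0, 0, 0, 498855, ⟨0, 0⟩, 25837502⟩ 0 0))) (.void 23 ⟨0, 25915, 0, 0, 74085, 0, 0,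 0, 0, ⟨0, 0⟩, 0⟩ 0 0)) (.cut .d 27827594 (.cut .d 23189661 (.pos 24 .pp ⟨0, 39725860, 0, 0, 0, 0, 0, 0, 0, ⟨0, 0⟩, 0⟩ 0 0) (.pos 24 .pp ⟨0, 56673372, 0, 0, 0, 0, 0, 0, 0, ⟨0, 0⟩, 0⟩ 0 0)) (.void 24 ⟨0, 100000, 0, 0, 0, 0, 0, 0, 0, ⟨0, 0⟩, 0⟩ 0 0)))) (.pos 22 .pp ⟨2587397, 352064161, 0, 0, 0, 0, 0, 0, 0, ⟨0, 0⟩, 0⟩ 0 0))) (.void 9 ⟨0, 31641, 0, 0, 68359, 0, 0, 0, 0, ⟨0, 0⟩, 0⟩ 0 0)) (.void 9 ⟨0, 25915, 0, 0, 74085, 0, 0, 0, 0, ⟨0, 0⟩, 0⟩ 0 0)) (.void 10 ⟨0, 100000, 0, 0, 0, 0, 0, 0, 0, ⟨0, 0⟩, 0⟩ 0 0)))),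
    by decide +kernel⟩

def covers2 : cell.Covers table row2.1 :=
  ⟨(.cut .d 0 (.cut .v 16777216 (.cut .v 8388608 (.cut .v 4194304 (.void 4 ⟨0, 0, 100000, 0, 0, 0, 0, 0, 0, ⟨0, 0⟩, 0⟩ 0 0) (.pos 5 .mm ⟨0, 0, 0, 0, 0, 0, 0, 0, 0, ⟨0, 0⟩, 0⟩ 0 0)) (.cut .v 12582912 (.pos 6 .mm ⟨0, 0, 0, 0, 0, 0, 0, 0, 0, ⟨0, 0⟩, 0⟩ 0 0) (.pos 7 .mm ⟨0, 0, 0, 0, 0, 0, 0, 0, 0, ⟨0, 0⟩, 0⟩ 0 0))) (.cut .v 67108864 (.cut .v 33554432 (.cut .v 25165824 (.cut .v 20971520 (.pos 15 .mp ⟨0, 0, 0, 0, 0, 0, 0, 0, 0, ⟨0, 0⟩, 0⟩ 0 0) (.pos 16 .mp ⟨0, 0, 0, 0, 0, 0, 0, 0, 0, ⟨0, 0⟩, 0⟩ 0 0)) (.pos 14 .mp ⟨0, 0, 0, 0, 0, 0, 0, 0, 0, ⟨0, 0⟩, 0⟩ 0 0)) (.pos 12 .mp ⟨0, 0, 0, 0, 0, 0, 0, 0,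 0, ⟨0, 0⟩, 0⟩ 0 0)) (.pos 10 .mp ⟨4053839, 606115028, 0, 0, 0, 0, 0, 0, 0, ⟨0, 0⟩, 0⟩ 0 0))) (.cut .v 16777216 (.cut .v 8388608 (.void 2 ⟨0, 0, 0, 0, 100000, 0, 0, 0, 0, ⟨0, 0⟩, 0⟩ 0 0) (.pos 3 .pm ⟨0, 0, 0, 0, 2270542, 0, 0, 0, 0, ⟨0, 0⟩, 0⟩ 0 0)) (.cut .v 67108864 (.cut .d 38295820 (.cut .v 33554432 (.cut .d 19147910 (.cut .v 25165824 (.cut .d 9573955 (.cut .v 20971520 (.cut .d 4786977 (.cut .d 2393488 (.pos 15 .pp ⟨0, 0, 0, 0, 0, 0, 0, 0, 0, ⟨0, 0⟩, 0⟩ 0 0) (.pos 15 .pp ⟨0, 0, 0, 0, 0, 0, 0, 0, 0, ⟨0, 0⟩, 0⟩ 0 0)) (.pos 15 .pp ⟨0, 0, 0, 0, 4608457, 0, 0, 0, 0, ⟨0, 0⟩, 0⟩ 0 0)) (.pos 16 .pp ⟨0, 0, 0, 0, 0, 0, 0, 0, 0, ⟨0, 0⟩, 0⟩ 0 0)) (.pos 13 .pp ⟨0,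 0, 0, 0, 18122384, 0, 0, 0, 0, ⟨0, 0⟩, 0⟩ 0 0)) (.cut .d 9573955 (.pos 14 .pp ⟨0, 0, 0, 0, 0, 0, 0, 0, 0, ⟨0, 0⟩, 0⟩ 0 0) (.pos 14 .pp ⟨0, 0, 0, 0, 0, 0, 0, 0, 0, ⟨0, 0⟩, 0⟩ 0 0))) (.pos 11 .pp ⟨0, 0, 0, 0, 11964305, 0, 0, 0, 480096, ⟨0, 0⟩, 19951585⟩ 0 0)) (.cut .v 50331648 (.cut .d 19147910 (.pos 21 .pp ⟨0, 8951276, 0, 0, 0, 0, 0, 0, 0, ⟨0, 0⟩, 0⟩ 0 0) (.cut .v 41943040 (.cut .d 28721865 (.cut .d 23934887 (.cut .v 37748736 (.pos 25 .pp ⟨0, 17357341, 0, 0, 0, 0, 0, 0, 421850, ⟨0, 0⟩, 24435601⟩ 0 0) (.pos 26 .pp ⟨0, 29458269, 0, 0, 0, 0, 0, 0, 0, ⟨0, 0⟩, 0⟩ 0 0)) (.pos 23 .pp ⟨0, 39180864, 0, 0, 5214760, 0, 0, 0, 432624, ⟨0, 0⟩, 25087789⟩ 0 0)) (.void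 23 ⟨0, 44318, 0, 0, 55682, 0, 0, 0, 0, ⟨0, 0⟩, 0⟩ 0 0)) (.void 24 ⟨0, 100000, 0, 0, 0, 0, 0, 0, 0, ⟨0, 0⟩, 0⟩ 0 0))) (.pos 22 .pp ⟨2594759, 282226226, 0, 0, 0, 0, 0, 0, 0, ⟨0, 0⟩, 0⟩ 0 0))) (.void 9 ⟨0, 47137, 0, 0, 52863, 0, 0, 0, 0, ⟨0, 0⟩, 0⟩ 0 0)) (.void 10 ⟨0, 100000, 0, 0, 0, 0, 0, 0, 0, ⟨0, 0⟩, 0⟩ 0 0)))),
    by decide +kernel⟩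

def covers3 : cell.Covers table row3.1 :=
  ⟨(.cut .d 0 (.cut .v 16777216 (.cut .v 8388608 (.cut .v 4194304 (.void 4 ⟨0, 0, 100000, 0, 0, 0, 0, 0, 0, ⟨0, 0⟩, 0⟩ 0 0) (.pos 5 .mm ⟨0, 0, 0, 0, 0, 0, 0, 0, 0, ⟨0, 0⟩, 0⟩ 0 0)) (.cut .v 12582912 (.pos 6 .mm ⟨0, 0, 0, 0, 0, 0, 0, 0, 0, ⟨0, 0⟩, 0⟩ 0 0) (.cut .v 14680064 (.pos 35 .mm ⟨0, 0, 0, 0, 0, 0, 0, 0, 0, ⟨0, 0⟩, 0⟩ 0 0) (.pos 36 .mm ⟨0, 0, 0, 0, 0, 0, 0, 0, 0, ⟨0, 0⟩, 0⟩ 0 0)))) (.cut .v 67108864 (.cut .v 33554432 (.cut .v 25165824 (.pos 13 .mp ⟨0, 0, 0, 0, 0, 0, 0, 0, 0, ⟨0, 0⟩, 0⟩ 0 0) (.pos 14 .mp ⟨0, 0, 0, 0, 0, 0, 0, 0, 0, ⟨0, 0⟩, 0⟩ 0 0)) (.pos 12 .mp ⟨0, 0, 0, 0, 0, 0, 0, 0, 0, ⟨0, 0⟩, 0⟩ 0 0))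 (.pos 10 .mp ⟨4184022, 406638646, 0, 0, 0, 0, 0, 0, 0, ⟨0, 0⟩, 0⟩ 0 0))) (.cut .v 16777216 (.cut .v 8388608 (.void 2 ⟨0, 0, 0, 0, 100000, 0, 0, 0, 0, ⟨0, 0⟩, 0⟩ 0 0) (.pos 3 .pm ⟨0, 0, 0, 0, 2052202, 0, 0, 0, 0, ⟨0, 0⟩, 0⟩ 0 0)) (.cut .v 67108864 (.cut .d 28636973 (.cut .v 33554432 (.cut .d 14318486 (.cut .v 25165824 (.cut .d 7159243 (.cut .v 20971520 (.cut .d 3579621 (.pos 15 .pp ⟨0, 0, 0, 0, 0, 0, 0, 0, 0, ⟨0, 0⟩, 0⟩ 0 0) (.pos 15 .pp ⟨0, 0, 0, 0, 0, 0, 0, 0, 0, ⟨0, 0⟩, 0⟩ 0 0)) (.pos 16 .pp ⟨0, 0, 0, 0, 0, 0, 0, 0, 0, ⟨0, 0⟩, 0⟩ 0 0)) (.pos 13 .pp ⟨0, 0, 0, 0, 1759623, 0, 0, 0, 0, ⟨0, 0⟩, 0⟩ 0 0)) (.pos 14 .pp ⟨0, 0, 0, 0, 0, 0, 0, 0, 0, ⟨0, 0⟩, 0⟩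 0 0)) (.cut .d 21477729 (.pos 11 .pp ⟨0, 0, 0, 0, 5692402, 0, 0, 0, 330495, ⟨0, 0⟩, 19951585⟩ 0 0) (.pos 11 .pp ⟨0, 14078017, 0, 0, 0, 0, 0, 0, 397725, ⟨0, 0⟩, 19951585⟩ 0 0))) (.cut .v 50331648 (.cut .d 14318486 (.pos 21 .pp ⟨0, 0, 0, 0, 0, 0, 0, 0, 0, ⟨0, 0⟩, 0⟩ 0 0) (.cut .v 41943040 (.cut .d 21477729 (.pos 23 .pp ⟨0, 18700102, 0, 0, 0, 0, 0, 0, 0, ⟨0, 0⟩, 0⟩ 0 0) (.pos 23 .pp ⟨0, 35684279, 0, 0, 0, 0, 0, 0, 359496, ⟨0, 0⟩, 25087789⟩ 0 0)) (.pos 24 .pp ⟨0, 92439608, 0, 0, 0, 0, 0, 0, 0, ⟨0, 0⟩, 0⟩ 0 0))) (.pos 22 .pp ⟨2852038, 230358967, 0, 0, 0, 0, 0, 0, 0, ⟨0, 0⟩, 0⟩ 0 0))) (.void 9 ⟨0, 58205, 0, 0, 41795, 0, 0, 0, 0, ⟨0, 0⟩, 0⟩ 0 0)) (.void 10 ⟨0,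 100000, 0, 0, 0, 0, 0, 0, 0, ⟨0, 0⟩, 0⟩ 0 0)))),
    by decide +kernel⟩

def covers4 : cell.Covers table row4.1 :=
  ⟨(.cut .d 0 (.cut .v 16777216 (.cut .v 8388608 (.cut .v 4194304 (.void 4 ⟨0, 0, 100000, 0, 0, 0, 0, 0, 0, ⟨0, 0⟩, 0⟩ 0 0) (.pos 5 .mm ⟨0, 0, 0, 0, 0, 0, 0, 0, 0, ⟨0, 0⟩, 0⟩ 0 0)) (.cut .v 12582912 (.pos 6 .mm ⟨0, 0, 0, 0, 0, 0, 0, 0, 0, ⟨0, 0⟩, 0⟩ 0 0) (.cut .v 14680064 (.pos 35 .mm ⟨0, 0, 0, 0, 0, 0, 0, 0, 0, ⟨0, 0⟩, 0⟩ 0 0) (.pos 36 .mm ⟨0, 0, 0, 0, 0, 0, 0, 0, 0, ⟨0, 0⟩, 0⟩ 0 0)))) (.cut .v 67108864 (.cut .v 33554432 (.cut .v 25165824 (.pos 13 .mp ⟨0, 0, 0, 0, 0, 0, 0, 0, 0, ⟨0, 0⟩, 0⟩ 0 0) (.pos 14 .mp ⟨0, 0, 0, 0, 0, 0, 0, 0, 0, ⟨0,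 0⟩, 0⟩ 0 0)) (.pos 12 .mp ⟨0, 0, 0, 0, 0, 0, 0, 0, 0, ⟨0, 0⟩, 0⟩ 0 0)) (.pos 10 .mp ⟨4424184, 341734673, 0, 0, 0, 0, 0, 0, 0, ⟨0, 0⟩, 0⟩ 0 0))) (.cut .v 16777216 (.cut .v 8388608 (.void 2 ⟨0, 0, 0, 0, 100000, 0, 0, 0, 0, ⟨0, 0⟩, 0⟩ 0 0) (.cut .v 12582912 (.pos 6 .pm ⟨0, 0, 0, 0, 0, 0, 0, 0, 0, ⟨0, 0⟩, 0⟩ 0 0) (.cut .d 22734344 (.cut .d 11367172 (.pos 7 .pm ⟨0, 0, 0, 0, 833509, 0, 0, 0, 0, ⟨0, 0⟩, 0⟩ 0 0) (.void 7 ⟨0, 0, 0, 0, 100000, 0, 0, 0, 0, ⟨0, 0⟩, 0⟩ 0 0)) (.void 7 ⟨0, 0, 0, 0, 100000, 0, 0, 0, 0, ⟨0, 0⟩, 0⟩ 0 0)))) (.cut .v 67108864 (.cut .d 22734344 (.cut .v 33554432 (.cut .v 25165824 (.cut .d 11367172 (.cut .v 20971520 (.cut .d 5683586 (.cut .d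 2841793 (.pos 15 .pp ⟨0, 0, 0, 0, 0, 0, 0, 0, 0, ⟨0, 0⟩, 0⟩ 0 0) (.pos 15 .pp ⟨0, 0, 0, 0, 0, 0, 0, 0, 0, ⟨0, 0⟩, 0⟩ 0 0)) (.pos 15 .pp ⟨0, 0, 0, 0, 0, 0, 0, 0, 0, ⟨0, 0⟩, 0⟩ 0 0)) (.pos 16 .pp ⟨0, 0, 0, 0, 0, 0, 0, 0, 0, ⟨0, 0⟩, 0⟩ 0 0)) (.pos 13 .pp ⟨0, 0, 0, 0, 4393750, 0, 0, 0, 0, ⟨0, 0⟩, 0⟩ 0 0)) (.cut .d 11367172 (.pos 14 .pp ⟨0, 0, 0, 0, 0, 0, 0, 0, 0, ⟨0, 0⟩, 0⟩ 0 0) (.cut .d 17050758 (.pos 14 .pp ⟨0, 0, 0, 0, 0, 0, 0, 0, 0, ⟨0, 0⟩, 0⟩ 0 0) (.pos 14 .pp ⟨0, 11267126, 0, 0, 0, 0, 0, 0, 315543, ⟨0, 0⟩, 22080058⟩ 0 0)))) (.cut .v 50331648 (.cut .d 11367172 (.pos 21 .pp ⟨0, 0, 0, 0, 0, 0, 0, 0, 0, ⟨0, 0⟩, 0⟩ 0 0) (.cut .d 17050758 (.pos 21 .pp ⟨0,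 0, 0, 0, 0, 0, 0, 0, 0, ⟨0, 0⟩, 0⟩ 0 0) (.pos 21 .pp ⟨0, 35341526, 0, 0, 0, 0, 0, 0, 0, ⟨0, 0⟩, 0⟩ 0 0))) (.pos 22 .pp ⟨0, 195291002, 0, 0, 0, 0, 0, 0, 0, ⟨0, 0⟩, 0⟩ 0 0))) (.cut .v 33554432 (.void 11 ⟨0, 62692, 0, 0, 37308, 0, 0, 0, 0, ⟨0, 0⟩, 0⟩ 0 0) (.void 12 ⟨0, 100000, 0, 0, 0, 0, 0, 0, 0, ⟨0, 0⟩, 0⟩ 0 0))) (.void 10 ⟨0, 100000, 0, 0, 0, 0, 0, 0, 0, ⟨0, 0⟩, 0⟩ 0 0)))),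
    by decide +kernel⟩

def covers5 : cell.Covers table row5.1 :=
  ⟨(.cut .d 0 (.cut .v 16777216 (.cut .v 8388608 (.cut .v 4194304 (.void 4 ⟨0, 0, 100000, 0, 0, 0, 0, 0, 0, ⟨0, 0⟩, 0⟩ 0 0) (.pos 5 .mm ⟨0, 0, 0, 0, 0, 0, 0, 0, 0, ⟨0, 0⟩, 0⟩ 0 0)) (.cut .v 12582912 (.pos 6 .mm ⟨0, 0, 0, 0, 0, 0, 0, 0, 0, ⟨0, 0⟩, 0⟩ 0 0) (.cut .d (-8388608) (.pos 7 .mm ⟨0, 0, 0, 0, 0, 0, 0, 0, 0, ⟨0, 0⟩, 0⟩ 0 0) (.cut .v 14680064 (.pos 35 .mm ⟨0, 0, 0, 0, 0, 0, 0, 0, 0, ⟨0, 0⟩, 0⟩ 0 0) (.pos 36 .mm ⟨0, 0, 0, 0, 0, 0, 0, 0, 0, ⟨0, 0⟩, 0⟩ 0 0))))) (.cut .v 67108864 (.cut .v 33554432 (.cut .v 25165824 (.pos 13 .mp ⟨0, 0, 0, 0, 0, 0, 0, 0, 0, ⟨0, 0⟩, 0⟩ 0 0) (.pos 14 .mp ⟨0,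 0, 0, 0, 0, 0, 0, 0, 0, ⟨0, 0⟩, 0⟩ 0 0)) (.pos 12 .mp ⟨0, 0, 0, 0, 0, 0, 0, 0, 0, ⟨0, 0⟩, 0⟩ 0 0)) (.pos 10 .mp ⟨4775460, 288783020, 0, 0, 0, 0, 0, 0, 0, ⟨0, 0⟩, 0⟩ 0 0))) (.cut .v 16777216 (.cut .v 8388608 (.void 2 ⟨0, 0, 0, 0, 100000, 0, 0, 0, 0, ⟨0, 0⟩, 0⟩ 0 0) (.cut .v 12582912 (.pos 6 .pm ⟨0, 0, 0, 0, 0, 0, 0, 0, 0, ⟨0, 0⟩, 0⟩ 0 0) (.cut .d 18454939 (.cut .d 9227469 (.pos 7 .pm ⟨0, 0, 0, 0, 0, 0, 0, 0, 0, ⟨0, 0⟩, 0⟩ 0 0) (.void 7 ⟨0, 0, 0, 0, 100000, 0, 0, 0, 0, ⟨0, 0⟩, 0⟩ 0 0)) (.void 7 ⟨0, 0, 0, 0, 100000, 0, 0, 0, 0, ⟨0, 0⟩, 0⟩ 0 0)))) (.cut .v 67108864 (.cut .v 33554432 (.cut .d 18454939 (.cut .v 25165824 (.cut .d 9227469 (.cut .d 4613734 (.pos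 13 .pp ⟨0, 0, 0, 0, 0, 0, 0, 0, 0, ⟨0, 0⟩, 0⟩ 0 0) (.pos 13 .pp ⟨0, 0, 0, 0, 0, 0, 0, 0, 0, ⟨0, 0⟩, 0⟩ 0 0)) (.pos 13 .pp ⟨0, 0, 0, 0, 0, 0, 0, 0, 0, ⟨0, 0⟩, 0⟩ 0 0)) (.pos 14 .pp ⟨0, 996127, 0, 0, 0, 0, 0, 0, 0, ⟨0, 0⟩, 0⟩ 0 0)) (.cut .v 25165824 (.pos 13 .pp ⟨0, 7347614, 0, 0, 0, 0, 0, 0, 259763, ⟨0, 0⟩, 18567042⟩ 0 0) (.pos 14 .pp ⟨0, 22395198, 0, 0, 0, 0, 0, 0, 272936, ⟨0, 0⟩, 22080058⟩ 0 0))) (.cut .d 18454939 (.pos 12 .pp ⟨0, 27695506, 0, 0, 0, 0, 0, 0, 0, ⟨0, 0⟩, 0⟩ 0 0) (.void 12 ⟨0, 100000, 0, 0, 0, 0, 0, 0, 0, ⟨0, 0⟩, 0⟩ 0 0))) (.void 10 ⟨0, 100000, 0, 0, 0, 0, 0, 0, 0, ⟨0, 0⟩, 0⟩ 0 0)))),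
    by decide +kernel⟩

def covers6 : cell.Covers table row6.1 :=
  ⟨(.cut .d 0 (.cut .v 16777216 (.cut .v 8388608 (.cut .v 4194304 (.void 4 ⟨0, 0, 100000, 0, 0, 0, 0, 0, 0, ⟨0, 0⟩, 0⟩ 0 0) (.pos 5 .mm ⟨0, 0, 4168555, 0, 0, 0, 0, 0, 0, ⟨0, 0⟩, 0⟩ 0 0)) (.cut .v 12582912 (.pos 6 .mm ⟨0, 0, 0, 0, 0, 171666, 0, 0, 0, ⟨0, 0⟩, 0⟩ 0 0) (.cut .d (-8388608) (.pos 7 .mm ⟨0, 0, 0, 0, 0, 180140, 0, 0, 0, ⟨0, 0⟩, 0⟩ 0 0) (.cut .v 14680064 (.pos 35 .mm ⟨0, 0, 0, 0, 0, 0, 0, 0, 0, ⟨0, 0⟩, 0⟩ 0 0) (.pos 36 .mm ⟨0, 0, 0, 0, 0, 0, 0, 0, 0, ⟨0, 0⟩, 0⟩ 0 0))))) (.cut .v 67108864 (.cut .v 33554432 (.pos 11 .mp ⟨0, 0, 0, 0, 0, 0, 0, 0, 0, ⟨0, 0⟩, 0⟩ 0 0) (.pos 12 .mp ⟨0, 0,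 0, 0, 0, 0, 0, 0, 0, ⟨0, 0⟩, 0⟩ 0 0)) (.pos 10 .mp ⟨3879258, 140630450, 0, 0, 0, 0, 0, 0, 0, ⟨0, 0⟩, 0⟩ 0 0))) (.cut .v 16777216 (.cut .v 8388608 (.void 2 ⟨0, 0, 0, 0, 100000, 0, 0, 0, 0, ⟨0, 0⟩, 0⟩ 0 0) (.cut .v 12582912 (.pos 6 .pm ⟨0, 0, 0, 0, 0, 0, 0, 0, 0, ⟨0, 0⟩, 0⟩ 0 0) (.cut .d 14953607 (.pos 7 .pm ⟨0, 0, 0, 0, 0, 0, 0, 0, 0, ⟨0, 0⟩, 0⟩ 0 0) (.void 7 ⟨0, 0, 0, 0, 100000, 0, 0, 0, 0, ⟨0, 0⟩, 0⟩ 0 0)))) (.cut .v 67108864 (.cut .v 33554432 (.cut .v 25165824 (.cut .d 14953607 (.cut .d 7476803 (.pos 13 .pp ⟨0, 0, 0, 0, 0, 0, 0, 0, 0, ⟨0, 0⟩, 0⟩ 0 0) (.pos 13 .pp ⟨0, 0, 0, 0, 0, 0, 0, 0, 0, ⟨0, 0⟩, 0⟩ 0 0)) (.pos 13 .pp ⟨0, 5769079, 0, 0, 0, 0, 0, 0,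 201132, ⟨0, 0⟩, 18567042⟩ 0 0)) (.cut .d 14953607 (.pos 14 .pp ⟨0, 0, 0, 0, 0, 0, 0, 0, 0, ⟨0, 0⟩, 0⟩ 0 0) (.cut .v 29360128 (.pos 19 .pp ⟨0, 15145062, 0, 0, 0, 0, 0, 0, 0, ⟨0, 0⟩, 0⟩ 0 0) (.pos 20 .pp ⟨0, 27810912, 0, 0, 0, 0, 0, 0, 0, ⟨0, 0⟩, 0⟩ 0 0)))) (.cut .d 14953607 (.pos 12 .pp ⟨0, 36695721, 0, 0, 0, 0, 0, 0, 0, ⟨0, 0⟩, 0⟩ 0 0) (.void 12 ⟨0, 100000, 0, 0, 0, 0, 0, 0, 0, ⟨0, 0⟩, 0⟩ 0 0))) (.pos 10 .pp ⟨5119489, 847831102, 0, 0, 0, 0, 0, 0, 0, ⟨0, 0⟩, 0⟩ 0 0)))),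
    by decide +kernel⟩

def covers7 : cell.Covers table row7.1 :=
  ⟨(.cut .d 0 (.cut .v 16777216 (.cut .v 8388608 (.cut .v 4194304 (.void 4 ⟨0, 0, 100000, 0, 0, 0, 0, 0, 0, ⟨0, 0⟩, 0⟩ 0 0) (.pos 5 .mm ⟨0, 0, 3129785, 0, 0, 0, 0, 0, 0, ⟨0, 0⟩, 0⟩ 0 0)) (.cut .v 12582912 (.cut .d (-8388608) (.pos 6 .mm ⟨0, 0, 0, 0, 0, 175023, 0, 0, 0, ⟨0, 0⟩, 0⟩ 0 0) (.pos 6 .mm ⟨0, 0, 0, 0, 0, 0, 0, 0, 0, ⟨0, 0⟩, 0⟩ 0 0)) (.cut .v 14680064 (.cut .d (-8388608) (.pos 35 .mm ⟨0, 0, 0, 0, 0, 184746, 0, 0, 0, ⟨0, 0⟩, 0⟩ 0 0) (.pos 35 .mm ⟨0, 0, 0, 0, 0, 0, 0, 0, 0, ⟨0, 0⟩, 0⟩ 0 0)) (.pos 36 .mm ⟨0, 0, 0, 0, 0, 222652, 0, 0, 0, ⟨0, 0⟩, 0⟩ 0 0)))) (.cut .v 67108864 (.cut .v 33554432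 (.pos 11 .mp ⟨0, 0, 0, 0, 0, 0, 0, 0, 0, ⟨0, 0⟩, 0⟩ 0 0) (.pos 12 .mp ⟨0, 0, 0, 0, 0, 0, 0, 0, 0, ⟨0, 0⟩, 0⟩ 0 0)) (.pos 10 .mp ⟨5119133, 0, 0, 0, 0, 0, 0, 0, 0, ⟨0, 0⟩, 0⟩ 0 0))) (.cut .v 16777216 (.cut .v 8388608 (.cut .v 4194304 (.void 4 ⟨0, 0, 50000, 0, 50000, 0, 0, 0, 0, ⟨0, 0⟩, 0⟩ 0 0) (.pos 5 .pm ⟨0, 0, 0, 0, 0, 0, 0, 0, 0, ⟨0, 0⟩, 0⟩ 0 0)) (.cut .v 12582912 (.pos 6 .pm ⟨0, 0, 0, 0, 0, 0, 0, 0, 0, ⟨0, 0⟩, 0⟩ 0 0) (.cut .d 12260274 (.cut .v 14680064 (.pos 35 .pm ⟨0, 0, 0, 0, 0, 0, 0, 0, 0, ⟨0, 0⟩, 0⟩ 0 0) (.pos 36 .pm ⟨0, 0, 0, 0, 0, 0, 0, 0, 0, ⟨0, 0⟩, 0⟩ 0 0)) (.pos 7 .pm ⟨0, 0, 0, 0, 0, 0, 0, 0, 0, ⟨0, 0⟩, 0⟩ 0 0)))) (.cut .v 67108864 (.cut .v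 33554432 (.cut .v 25165824 (.cut .d 12260274 (.pos 13 .pp ⟨0, 0, 0, 0, 0, 0, 0, 0, 0, ⟨0, 0⟩, 0⟩ 0 0) (.cut .v 20971520 (.pos 15 .pp ⟨0, 1629719, 0, 0, 0, 0, 0, 0, 0, ⟨0, 0⟩, 0⟩ 0 0) (.pos 16 .pp ⟨0, 7735402, 0, 0, 0, 0, 0, 0, 0, ⟨0, 0⟩, 0⟩ 0 0))) (.cut .d 12260274 (.pos 14 .pp ⟨0, 0, 0, 0, 0, 0, 0, 0, 0, ⟨0, 0⟩, 0⟩ 0 0) (.pos 14 .pp ⟨0, 22397048, 0, 0, 0, 0, 0, 0, 0, ⟨0, 0⟩, 0⟩ 0 0))) (.cut .d 12260274 (.pos 12 .pp ⟨0, 0, 0, 0, 0, 0, 0, 0, 0, ⟨0, 0⟩, 0⟩ 0 0) (.pos 12 .pp ⟨0, 79410427, 0, 0, 0, 0, 0, 0, 0, ⟨0, 0⟩, 0⟩ 0 0))) (.pos 10 .pp ⟨5428112, 647007473, 0, 0, 0, 0, 0, 0, 0, ⟨0, 0⟩, 0⟩ 0 0)))),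
    by decide +kernel⟩

def covers8 : cell.Covers table row8.1 :=
  ⟨(.cut .d 0 (.cut .v 16777216 (.cut .v 8388608 (.cut .v 4194304 (.void 4 ⟨0, 0, 100000, 0, 0, 0, 0, 0, 0, ⟨0, 0⟩, 0⟩ 0 0) (.pos 5 .mm ⟨0, 0, 2264811, 0, 0, 0, 0, 0, 0, ⟨0, 0⟩, 0⟩ 0 0)) (.cut .v 12582912 (.pos 6 .mm ⟨0, 0, 0, 0, 0, 222424, 0, 0, 0, ⟨0, 0⟩, 0⟩ 0 0) (.cut .v 14680064 (.cut .d (-8388608) (.pos 35 .mm ⟨0, 0, 0, 0, 0, 263046, 0, 0, 0, ⟨0, 0⟩, 0⟩ 0 0) (.pos 35 .mm ⟨0, 0, 0, 0, 0, 0, 0, 0, 0, ⟨0, 0⟩, 0⟩ 0 0)) (.pos 36 .mm ⟨0, 0, 0, 0, 0, 0, 0, 0, 0, ⟨0, 0⟩, 0⟩ 0 0)))) (.cut .v 67108864 (.cut .v 33554432 (.pos 11 .mp ⟨0, 0, 0, 0, 0, 0, 0, 0, 0, ⟨0, 0⟩, 0⟩ 0 0) (.pos 12 .mp ⟨0,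 0, 0, 0, 0, 0, 0, 0, 0, ⟨0, 0⟩, 0⟩ 0 0)) (.pos 10 .mp ⟨5438100, 0, 0, 0, 0, 0, 0, 0, 0, ⟨0, 0⟩, 0⟩ 0 0))) (.cut .v 16777216 (.cut .v 8388608 (.cut .v 4194304 (.void 4 ⟨0, 0, 50000, 0, 50000, 0, 0, 0, 0, ⟨0, 0⟩, 0⟩ 0 0) (.pos 5 .pm ⟨0, 0, 0, 0, 0, 0, 0, 0, 0, ⟨0, 0⟩, 0⟩ 0 0)) (.cut .v 12582912 (.pos 6 .pm ⟨0, 0, 0, 0, 0, 0, 0, 0, 0, ⟨0, 0⟩, 0⟩ 0 0) (.cut .d 10285164 (.cut .v 14680064 (.pos 35 .pm ⟨0, 0, 0, 0, 0, 0, 0, 0, 0, ⟨0, 0⟩, 0⟩ 0 0) (.pos 36 .pm ⟨0, 0, 0, 0, 0, 0, 0, 0, 0, ⟨0, 0⟩, 0⟩ 0 0)) (.pos 7 .pm ⟨0, 0, 0, 0, 0, 0, 0, 0, 0, ⟨0, 0⟩, 0⟩ 0 0)))) (.cut .v 67108864 (.cut .v 33554432 (.cut .v 25165824 (.cut .d 10285164 (.pos 13 .pp ⟨0, 0, 0, 0, 0,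 0, 0, 0, 0, ⟨0, 0⟩, 0⟩ 0 0) (.cut .v 20971520 (.pos 15 .pp ⟨0, 1361181, 0, 0, 0, 0, 0, 0, 0, ⟨0, 0⟩, 0⟩ 0 0) (.pos 16 .pp ⟨0, 7751940, 0, 0, 0, 0, 0, 0, 0, ⟨0, 0⟩, 0⟩ 0 0))) (.pos 14 .pp ⟨0, 16915248, 0, 0, 0, 0, 0, 0, 0, ⟨0, 0⟩, 0⟩ 0 0)) (.pos 12 .pp ⟨0, 44777489, 0, 0, 0, 0, 0, 0, 0, ⟨0, 0⟩, 0⟩ 0 0)) (.pos 10 .pp ⟨5599020, 479717753, 0, 0, 0, 0, 0, 0, 0, ⟨0, 0⟩, 0⟩ 0 0)))),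
    by decide +kernel⟩

def covers9 : cell.Covers table row9.1 :=
  ⟨(.cut .d 0 (.cut .v 16777216 (.cut .v 8388608 (.cut .v 4194304 (.void 4 ⟨0, 0, 100000, 0, 0, 0, 0, 0, 0, ⟨0, 0⟩, 0⟩ 0 0) (.pos 5 .mm ⟨0, 0, 1366309, 0, 0, 0, 0, 0, 0, ⟨0, 0⟩, 0⟩ 0 0)) (.cut .v 12582912 (.pos 6 .mm ⟨0, 0, 0, 0, 0, 213883, 0, 0, 0, ⟨0, 0⟩, 0⟩ 0 0) (.cut .v 14680064 (.pos 35 .mm ⟨0, 0, 0, 0, 0, 0, 0, 0, 0, ⟨0, 0⟩, 0⟩ 0 0) (.pos 36 .mm ⟨0, 0, 0, 0, 0, 0, 0, 0, 0, ⟨0, 0⟩, 0⟩ 0 0)))) (.cut .v 67108864 (.cut .v 33554432 (.pos 11 .mp ⟨0, 0, 0, 0, 0, 0, 0, 0, 0, ⟨0, 0⟩, 0⟩ 0 0) (.pos 12 .mp ⟨0, 0, 0, 0, 0, 0, 0, 0, 0, ⟨0, 0⟩, 0⟩ 0 0)) (.pos 10 .mp ⟨5496228, 0, 0, 0, 0, 0, 0, 0,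 0, ⟨0, 0⟩, 0⟩ 0 0))) (.cut .v 16777216 (.cut .v 8388608 (.cut .v 4194304 (.void 4 ⟨0, 0, 50000, 0, 50000, 0, 0, 0, 0, ⟨0, 0⟩, 0⟩ 0 0) (.pos 5 .pm ⟨0, 0, 0, 0, 0, 0, 0, 0, 0, ⟨0, 0⟩, 0⟩ 0 0)) (.cut .v 12582912 (.pos 6 .pm ⟨0, 0, 0, 0, 0, 0, 0, 0, 0, ⟨0, 0⟩, 0⟩ 0 0) (.cut .d 9070610 (.cut .v 14680064 (.cut .d 4535305 (.pos 35 .pm ⟨0, 0, 0, 0, 0, 0, 0, 0, 0, ⟨0, 0⟩, 0⟩ 0 0) (.pos 35 .pm ⟨0, 0, 0, 0, 0, 0, 0, 0, 0, ⟨0, 0⟩, 0⟩ 0 0)) (.pos 36 .pm ⟨0, 0, 0, 0, 0, 0, 0, 0, 0, ⟨0, 0⟩, 0⟩ 0 0)) (.pos 7 .pm ⟨0, 0, 0, 0, 0, 0, 0, 0, 0, ⟨0, 0⟩, 0⟩ 0 0)))) (.cut .v 67108864 (.cut .v 33554432 (.cut .v 25165824 (.cut .d 9070610 (.pos 13 .pp ⟨0, 0, 0, 0, 0, 0, 0, 0, 0,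 ⟨0, 0⟩, 0⟩ 0 0) (.pos 13 .pp ⟨0, 4006829, 0, 0, 0, 0, 0, 0, 0, ⟨0, 0⟩, 0⟩ 0 0)) (.pos 14 .pp ⟨0, 15784751, 0, 0, 0, 0, 0, 0, 0, ⟨0, 0⟩, 0⟩ 0 0)) (.pos 12 .pp ⟨0, 41771165, 0, 0, 0, 0, 0, 0, 0, ⟨0, 0⟩, 0⟩ 0 0)) (.pos 10 .pp ⟨5641618, 379049178, 0, 0, 0, 0, 0, 0, 0, ⟨0, 0⟩, 0⟩ 0 0)))),
    by decide +kernel⟩

def covers10 : cell.Covers table row10.1 :=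
  ⟨(.cut .d 0 (.cut .v 16777216 (.cut .v 8388608 (.cut .v 4194304 (.void 4 ⟨0, 0, 100000, 0, 0, 0, 0, 0, 0, ⟨0, 0⟩, 0⟩ 0 0) (.pos 5 .mm ⟨0, 0, 664621, 0, 0, 0, 0, 0, 0, ⟨0, 0⟩, 0⟩ 0 0)) (.cut .v 12582912 (.pos 6 .mm ⟨0, 0, 0, 0, 0, 0, 0, 0, 0, ⟨0, 0⟩, 0⟩ 0 0) (.pos 7 .mm ⟨0, 0, 0, 0, 0, 0, 0, 0, 0, ⟨0, 0⟩, 0⟩ 0 0))) (.cut .v 67108864 (.pos 9 .mp ⟨0, 0, 0, 0, 0, 0, 0, 0, 0, ⟨0, 0⟩, 0⟩ 0 0) (.pos 10 .mp ⟨6034598, 0, 0, 0, 0, 0, 0, 0, 0, ⟨0, 0⟩, 0⟩ 0 0))) (.cut .v 16777216 (.cut .v 8388608 (.cut .v 4194304 (.void 4 ⟨0, 0, 50000, 0, 50000, 0, 0, 0, 0, ⟨0, 0⟩, 0⟩ 0 0) (.pos 5 .pm ⟨0, 0, 0, 0, 0, 0, 0, 0, 0, ⟨0, 0⟩, 0⟩ 0 0)) (.cut .d 8004398 (.cut .v 12582912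 (.pos 6 .pm ⟨0, 0, 0, 0, 0, 0, 0, 0, 0, ⟨0, 0⟩, 0⟩ 0 0) (.cut .v 14680064 (.cut .d 4002199 (.pos 35 .pm ⟨0, 0, 0, 0, 0, 0, 0, 0, 0, ⟨0, 0⟩, 0⟩ 0 0) (.pos 35 .pm ⟨0, 0, 0, 0, 0, 0, 0, 0, 0, ⟨0, 0⟩, 0⟩ 0 0)) (.pos 36 .pm ⟨0, 0, 0, 0, 0, 0, 0, 0, 0, ⟨0, 0⟩, 0⟩ 0 0))) (.pos 3 .pm ⟨0, 0, 0, 0, 0, 0, 0, 0, 0, ⟨0, 0⟩, 0⟩ 0 0))) (.cut .v 67108864 (.cut .v 33554432 (.cut .v 25165824 (.cut .d 8004398 (.pos 13 .pp ⟨0, 0, 0, 0, 0, 0, 0, 0, 0, ⟨0, 0⟩, 0⟩ 0 0) (.pos 13 .pp ⟨0, 2364049, 0, 0, 0, 0, 0, 0, 0, ⟨0, 0⟩, 0⟩ 0 0)) (.pos 14 .pp ⟨0, 16789795, 0, 0, 0, 0, 0, 0, 0, ⟨0, 0⟩, 0⟩ 0 0)) (.pos 12 .pp ⟨0, 41133024, 0, 0, 0, 0, 0, 0, 0, ⟨0, 0⟩, 0⟩ 0 0)) (.pos 10 .pp ⟨6034598,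 289959137, 0, 0, 0, 0, 0, 0, 0, ⟨0, 0⟩, 0⟩ 0 0)))),
    by decide +kernel⟩

def covers11 : cell.Covers table row11.1 :=
  ⟨(.cut .d 0 (.cut .v 16777216 (.cut .v 8388608 (.cut .v 4194304 (.void 4 ⟨0, 0, 100000, 0, 0, 0, 0, 0, 0, ⟨0, 0⟩, 0⟩ 0 0) (.pos 5 .mm ⟨0, 0, 215029, 0, 0, 0, 0, 0, 0, ⟨0, 0⟩, 0⟩ 0 0)) (.cut .v 12582912 (.pos 6 .mm ⟨0, 0, 0, 0, 0, 0, 0, 0, 0, ⟨0, 0⟩, 0⟩ 0 0) (.pos 7 .mm ⟨0, 0, 0, 0, 0, 0, 0, 0, 0, ⟨0, 0⟩, 0⟩ 0 0))) (.cut .v 268435456 (.cut .v 67108864 (.pos 9 .mp ⟨0, 0, 0, 0, 0, 0, 0, 0, 0, ⟨0, 0⟩, 0⟩ 0 0) (.pos 10 .mp ⟨7174970, 0, 0, 0, 0, 0, 0, 0, 0, ⟨0, 0⟩, 0⟩ 0 0)) (.void 43 ⟨0, 100000, 0, 0, 0, 0, 0, 0, 0, ⟨0, 0⟩, 0⟩ 0 0))) (.cut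 .v 16777216 (.cut .v 8388608 (.cut .v 4194304 (.void 4 ⟨0, 0, 50000, 0, 50000, 0, 0, 0, 0, ⟨0, 0⟩, 0⟩ 0 0) (.pos 5 .pm ⟨0, 0, 0, 0, 0, 0, 0, 0, 0, ⟨0, 0⟩, 0⟩ 0 0)) (.cut .v 12582912 (.cut .d 7172869 (.cut .d 3586434 (.pos 6 .pm ⟨0, 0, 0, 0, 0, 0, 0, 0, 0, ⟨0, 0⟩, 0⟩ 0 0) (.pos 6 .pm ⟨0, 0, 0, 0, 0, 0, 0, 0, 0, ⟨0, 0⟩, 0⟩ 0 0)) (.pos 6 .pm ⟨0, 0, 0, 0, 0, 0, 0, 0, 0, ⟨0, 0⟩, 0⟩ 0 0)) (.cut .d 7172869 (.cut .v 14680064 (.cut .d 3586434 (.pos 35 .pm ⟨0, 0, 0, 0, 0, 0, 0, 0, 0, ⟨0, 0⟩, 0⟩ 0 0) (.pos 35 .pm ⟨0, 0, 0, 0, 0, 0, 0, 0, 0, ⟨0, 0⟩, 0⟩ 0 0)) (.pos 36 .pm ⟨0, 0, 0, 0, 0, 0, 0, 0, 0, ⟨0, 0⟩, 0⟩ 0 0)) (.pos 7 .pm ⟨0, 0, 0, 0, 0, 0, 0, 0, 0, ⟨0, 0⟩, 0⟩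 0 0)))) (.cut .v 268435456 (.cut .v 67108864 (.cut .v 33554432 (.cut .v 25165824 (.pos 13 .pp ⟨0, 0, 0, 0, 0, 0, 0, 0, 0, ⟨0, 0⟩, 0⟩ 0 0) (.pos 14 .pp ⟨0, 17000128, 0, 0, 0, 0, 0, 0, 0, ⟨0, 0⟩, 0⟩ 0 0)) (.pos 12 .pp ⟨0, 39711730, 0, 0, 0, 0, 0, 0, 0, ⟨0, 0⟩, 0⟩ 0 0)) (.pos 10 .pp ⟨7174970, 238730560, 0, 0, 0, 0, 0, 0, 0, ⟨0, 0⟩, 0⟩ 0 0)) (.void 43 ⟨0, 0, 0, 100000, 0, 0, 0, 0, 0, ⟨0, 0⟩, 0⟩ 0 0)))),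
    by decide +kernel⟩

def covers12 : cell.Covers table row12.1 :=
  ⟨(.cut .d 0 (.cut .v 16777216 (.cut .v 8388608 (.cut .v 4194304 (.void 4 ⟨0, 0, 100000, 0, 0, 0, 0, 0, 0, ⟨0, 0⟩, 0⟩ 0 0) (.pos 5 .mm ⟨0, 0, 602810, 0, 0, 0, 0, 0, 0, ⟨0, 0⟩, 0⟩ 0 0)) (.cut .v 12582912 (.pos 6 .mm ⟨0, 0, 0, 0, 0, 0, 0, 0, 0, ⟨0, 0⟩, 0⟩ 0 0) (.pos 7 .mm ⟨0, 0, 0, 0, 0, 0, 0, 0, 0, ⟨0, 0⟩, 0⟩ 0 0))) (.cut .v 268435456 (.cut .v 67108864 (.pos 9 .mp ⟨0, 0, 0, 0, 0, 0, 0, 0, 0, ⟨0, 0⟩, 0⟩ 0 0) (.pos 10 .mp ⟨7236954, 0, 0, 0, 0, 0, 0, 0, 0, ⟨0, 0⟩, 0⟩ 0 0)) (.void 43 ⟨62439, 37561, 0, 0, 0, 0, 0, 0, 0, ⟨0, 0⟩, 0⟩ 0 0))) (.cut .v 16777216 (.cut .v 8388608 (.cut .v 4194304 (.void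 4 ⟨0, 0, 50000, 0, 50000, 0, 0, 0, 0, ⟨0, 0⟩, 0⟩ 0 0) (.pos 5 .pm ⟨0, 0, 0, 0, 0, 0, 0, 0, 0, ⟨0, 0⟩, 0⟩ 0 0)) (.cut .v 12582912 (.cut .d 6320185 (.cut .d 3160092 (.cut .v 10485760 (.pos 37 .pm ⟨0, 0, 0, 0, 0, 0, 0, 0, 0, ⟨0, 0⟩, 0⟩ 0 0) (.pos 38 .pm ⟨0, 0, 0, 0, 0, 0, 0, 0, 0, ⟨0, 0⟩, 0⟩ 0 0)) (.pos 6 .pm ⟨0, 0, 0, 0, 0, 0, 0, 0, 0, ⟨0, 0⟩, 0⟩ 0 0)) (.pos 6 .pm ⟨0, 0, 0, 0, 0, 0, 0, 0, 0, ⟨0, 0⟩, 0⟩ 0 0)) (.cut .d 6320185 (.cut .d 3160092 (.pos 7 .pm ⟨0, 0, 0, 0, 0, 0, 0, 0, 0, ⟨0, 0⟩, 0⟩ 0 0) (.pos 7 .pm ⟨0, 0, 0, 0, 0, 0, 0, 0, 0, ⟨0, 0⟩, 0⟩ 0 0)) (.pos 7 .pm ⟨0, 0, 0, 0, 0, 0, 0, 0, 0, ⟨0, 0⟩, 0⟩ 0 0)))) (.cut .v 268435456 (.cut .v 67108864 (.cut .v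 33554432 (.pos 11 .pp ⟨0, 2080885, 0, 0, 0, 0, 0, 0, 0, ⟨0, 0⟩, 0⟩ 0 0) (.pos 12 .pp ⟨0, 36230822, 0, 0, 0, 0, 0, 0, 0, ⟨0, 0⟩, 0⟩ 0 0)) (.pos 10 .pp ⟨7236954, 204201076, 0, 0, 0, 0, 0, 0, 0, ⟨0, 0⟩, 0⟩ 0 0)) (.void 43 ⟨0, 0, 0, 100000, 0, 0, 0, 0, 0, ⟨0, 0⟩, 0⟩ 0 0)))),
    by decide +kernel⟩

def covers13 : cell.Covers table row13.1 :=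
  ⟨(.cut .d 0 (.cut .v 16777216 (.cut .v 8388608 (.cut .v 4194304 (.void 4 ⟨0, 0, 100000, 0, 0, 0, 0, 0, 0, ⟨0, 0⟩, 0⟩ 0 0) (.pos 5 .mm ⟨0, 0, 1895776, 0, 0, 0, 0, 0, 0, ⟨0, 0⟩, 0⟩ 0 0)) (.cut .v 12582912 (.cut .d (-8388608) (.void 6 ⟨0, 0, 100000, 0, 0, 0, 0, 0, 0, ⟨0, 0⟩, 0⟩ 0 0) (.cut .d (-4194304) (.pos 6 .mm ⟨0, 0, 79004, 0, 0, 346429, 0, 0, 0, ⟨0, 0⟩, 0⟩ 0 0) (.cut .v 10485760 (.pos 37 .mm ⟨0, 0, 0, 0, 0, 0, 0, 0, 0, ⟨0, 0⟩, 0⟩ 0 0) (.cut .d (-2097152) (.pos 38 .mm ⟨0, 0, 0, 0, 0, 0, 0, 0, 0, ⟨0, 0⟩, 0⟩ 0 0) (.pos 38 .mm ⟨0, 0, 0, 0, 0, 0, 0, 0, 0, ⟨0, 0⟩, 0⟩ 0 0))))) (.pos 7 .mm ⟨760829, 0, 0, 0, 0, 0, 0, 0, 0, ⟨0, 0⟩, 0⟩ 0 0))) (.cut .v 268435456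 (.cut .v 67108864 (.pos 9 .mp ⟨0, 0, 0, 0, 0, 0, 0, 0, 0, ⟨0, 0⟩, 0⟩ 0 0) (.pos 10 .mp ⟨6776240, 0, 0, 0, 0, 0, 0, 0, 0, ⟨0, 0⟩, 0⟩ 0 0)) (.void 43 ⟨61538, 38462, 0, 0, 0, 0, 0, 0, 0, ⟨0, 0⟩, 0⟩ 0 0))) (.cut .v 16777216 (.cut .v 8388608 (.cut .v 4194304 (.pos 4 .pm ⟨0, 0, 43076723, 0, 41672286, 0, 0, 0, 0, ⟨0, 0⟩, 0⟩ 0 0) (.pos 5 .pm ⟨0, 0, 0, 0, 0, 0, 0, 0, 0, ⟨0, 0⟩, 0⟩ 0 0)) (.cut .v 12582912 (.cut .v 10485760 (.pos 37 .pm ⟨0, 0, 0, 0, 0, 0, 0, 0, 0, ⟨0, 0⟩, 0⟩ 0 0) (.pos 38 .pm ⟨0, 0, 0, 0, 0, 0, 0, 0, 0, ⟨0, 0⟩, 0⟩ 0 0)) (.pos 7 .pm ⟨0, 0, 0, 0, 0, 0, 0, 0, 0, ⟨0, 0⟩, 0⟩ 0 0))) (.cut .v 268435456 (.cut .v 67108864 (.cut .v 33554432 (.pos 11 .pp ⟨0,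 0, 0, 0, 0, 0, 0, 0, 0, ⟨0, 0⟩, 0⟩ 0 0) (.pos 12 .pp ⟨0, 29056144, 0, 0, 0, 0, 0, 0, 0, ⟨0, 0⟩, 0⟩ 0 0)) (.pos 10 .pp ⟨6776240, 186251868, 0, 0, 0, 0, 0, 0, 0, ⟨0, 0⟩, 0⟩ 0 0)) (.void 43 ⟨0, 0, 0, 100000, 0, 0, 0, 0, 0, ⟨0, 0⟩, 0⟩ 0 0)))),
    by decide +kernel⟩

def covers14 : cell.Covers table row14.1 :=
  ⟨(.cut .d 0 (.cut .v 16777216 (.cut .v 8388608 (.cut .v 4194304 (.void 4 ⟨0, 0, 100000, 0, 0, 0, 0, 0, 0, ⟨0, 0⟩, 0⟩ 0 0) (.pos 5 .mm ⟨0, 0, 3793572, 0, 0, 0, 0, 0, 0, ⟨0, 0⟩, 0⟩ 0 0)) (.cut .d (-8388608) (.pos 3 .mm ⟨1366846, 0, 14261275, 0, 0, 0, 0, 0, 0, ⟨0, 0⟩, 0⟩ 0 0) (.cut .v 12582912 (.cut .d (-4194304) (.pos 6 .mm ⟨0, 0, 798798, 0, 0, 346212,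 0, 0, 0, ⟨0, 0⟩, 0⟩ 0 0) (.cut .v 10485760 (.pos 37 .mm ⟨0, 0, 0, 0, 0, 0, 0, 0, 0, ⟨0, 0⟩, 0⟩ 0 0) (.cut .d (-2097152) (.pos 38 .mm ⟨0, 0, 0, 0, 0, 0, 0, 0, 0, ⟨0, 0⟩, 0⟩ 0 0) (.pos 38 .mm ⟨0, 0, 0, 0, 0, 0, 0, 0, 0, ⟨0, 0⟩, 0⟩ 0 0)))) (.pos 7 .mm ⟨875312, 0, 0, 0, 0, 0, 0, 0, 0, ⟨0, 0⟩, 0⟩ 0 0)))) (.cut .v 268435456 (.cut .v 67108864 (.cut .v 33554432 (.pos 11 .mp ⟨1699671, 0, 0, 0, 0, 0, 0, 0, 0, ⟨0, 0⟩, 0⟩ 0 0) (.pos 12 .mp ⟨9369760, 0, 0, 0, 0, 0, 0, 0, 0, ⟨0, 0⟩, 0⟩ 0 0)) (.pos 10 .mp ⟨24483798, 0, 0, 0, 0, 0, 0, 0, 0, ⟨0, 0⟩, 0⟩ 0 0)) (.void 43 ⟨60664, 39336, 0, 0, 0, 0, 0, 0, 0, ⟨0, 0⟩, 0⟩ 0 0))) (.cut .v 16777216 (.cut .v 8388608 (.cut .v 4194304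 (.cut .v 2097152 (.void 46 ⟨0, 0, 50000, 0, 50000, 0, 0, 0, 0, ⟨0, 0⟩, 0⟩ 0 0) (.pos 47 .pm ⟨0, 0, 2649439, 0, 0, 0, 0, 0, 0, ⟨0, 0⟩, 0⟩ 0 0)) (.pos 5 .pm ⟨0, 0, 0, 0, 0, 0, 0, 0, 0, ⟨0, 0⟩, 0⟩ 0 0)) (.cut .v 12582912 (.pos 6 .pm ⟨0, 0, 0, 0, 0, 0, 0, 0, 0, ⟨0, 0⟩, 0⟩ 0 0) (.pos 7 .pm ⟨0, 0, 0, 0, 0, 0, 0, 0, 0, ⟨0, 0⟩, 0⟩ 0 0))) (.cut .v 268435456 (.cut .v 67108864 (.pos 9 .pp ⟨0, 4296266, 0, 0, 0, 0, 0, 0, 0, ⟨0, 0⟩, 0⟩ 0 0) (.pos 10 .pp ⟨24483798, 223855118, 0, 0, 0, 0, 0, 0, 0, ⟨0, 0⟩, 0⟩ 0 0)) (.void 43 ⟨0, 0, 0, 100000, 0, 0, 0, 0, 0, ⟨0, 0⟩, 0⟩ 0 0)))),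
    by decide +kernel⟩

def covers15 : cell.Covers table row15.1 :=
  ⟨(.cut .d 0 (.cut .v 16777216 (.cut .v 8388608 (.cut .v 4194304 (.void 4 ⟨0, 0, 100000, 0, 0, 0, 0, 0, 0, ⟨0, 0⟩, 0⟩ 0 0) (.pos 5 .mm ⟨0, 0, 7407518, 0, 0, 0, 0, 0, 0, ⟨0, 0⟩, 0⟩ 0 0)) (.cut .d (-8388608) (.pos 3 .mm ⟨6967462, 0, 18792703, 0, 0, 0, 0, 0, 0, ⟨0, 0⟩, 0⟩ 0 0) (.cut .v 12582912 (.cut .d (-4194304) (.pos 6 .mm ⟨357412, 0, 5645020, 0, 0, 1116316, 0, 0, 0, ⟨0, 0⟩, 0⟩ 0 0) (.pos 6 .mm ⟨0, 0, 0, 0, 0, 0, 0, 0, 0, ⟨0, 0⟩, 0⟩ 0 0)) (.cut .s 11108352 (.pos 7 .mm ⟨3161529, 0, 0, 0, 0, 0, 0, 0, 0, ⟨0, 0⟩, 0⟩ 0 0) (.pos 7 .mm ⟨6783082, 0, 1802101, 0, 0, 0, 0, 0, 0, ⟨0, 0⟩, 0⟩ 0 0)))))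 (.cut .v 268435456 (.cut .v 67108864 (.cut .v 33554432 (.cut .d (-8388608) (.pos 11 .mp ⟨22530265, 0, 5386621, 0, 0, 0, 0, 0, 0, ⟨0, 0⟩, 0⟩ 0 0) (.pos 11 .mp ⟨7168907, 0, 0, 0, 0, 0, 0, 0, 0, ⟨0, 0⟩, 0⟩ 0 0)) (.pos 12 .mp ⟨43920046, 0, 0, 0, 0, 0, 0, 0, 0, ⟨0, 0⟩, 0⟩ 0 0)) (.pos 10 .mp ⟨172496118, 48456548, 0, 0, 0, 0, 0, 0, 0, ⟨0, 0⟩, 0⟩ 0 0)) (.void 43 ⟨57354, 42896, 0, 0, 0, 0, 0, 0, 0, ⟨0, 0⟩, 0⟩ 0 0))) (.cut .v 16777216 (.cut .v 8388608 (.cut .v 4194304 (.cut .v 2097152 (.void 46 ⟨0, 0, 50000, 0, 50000, 0, 0, 0, 0, ⟨0, 0⟩, 0⟩ 0 0) (.pos 47 .pm ⟨0, 0, 3249035, 0, 0, 0, 0, 0, 0, ⟨0, 0⟩, 0⟩ 0 0)) (.pos 5 .pm ⟨0, 0, 0, 0, 0, 0, 0, 0, 0, ⟨0, 0⟩, 0⟩ 0 0))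 (.cut .v 12582912 (.pos 6 .pm ⟨0, 0, 0, 0, 0, 0, 0, 0, 0, ⟨0, 0⟩, 0⟩ 0 0) (.pos 7 .pm ⟨0, 0, 0, 0, 0, 0, 0, 0, 0, ⟨0, 0⟩, 0⟩ 0 0))) (.cut .v 268435456 (.cut .v 67108864 (.pos 9 .pp ⟨0, 0, 0, 0, 0, 0, 0, 0, 0, ⟨0, 0⟩, 0⟩ 0 0) (.pos 10 .pp ⟨41852582, 312821270, 0, 0, 0, 0, 0, 0, 0, ⟨0, 0⟩, 0⟩ 0 0)) (.void 43 ⟨0, 0, 0, 100000, 0, 0, 0, 0, 0, ⟨0, 0⟩, 0⟩ 0 0)))),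
    by decide +kernel⟩

def covers16 : cell.Covers table row16.1 :=
  ⟨(.cut .d 0 (.cut .v 16777216 (.cut .v 8388608 (.cut .v 4194304 (.void 4 ⟨0, 0, 100000, 0, 0, 0, 0, 0, 0, ⟨0, 0⟩, 0⟩ 0 0) (.pos 5 .mm ⟨0, 0, 14239432, 0, 0, 0, 0, 0, 0, ⟨0, 0⟩, 0⟩ 0 0)) (.cut .d (-8388608) (.pos 3 .mm ⟨20626777, 0, 32279060, 0, 0, 0, 0, 0, 0, ⟨0, 0⟩, 0⟩ 0 0) (.cut .v 12582912 (.pos 6 .mm ⟨0, 0, 12960195, 0, 0, 4502720, 0, 0, 0, ⟨0, 0⟩, 0⟩ 0 0) (.cut .s 11534336 (.pos 7 .mm ⟨11302037, 0, 2791337, 0, 0, 0, 0, 0, 0, ⟨0, 0⟩, 0⟩ 0 0) (.pos 7 .mm ⟨16318922, 0, 5822690, 0, 0, 0, 0, 0, 0, ⟨0, 0⟩, 0⟩ 0 0))))) (.cut .v 268435456 (.cut .v 67108864 (.cut .v 33554432 (.cut .d (-8388608)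 (.pos 11 .mp ⟨73294950, 0, 14304282, 0, 0, 0, 0, 0, 0, ⟨0, 0⟩, 0⟩ 0 0) (.pos 11 .mp ⟨21317280, 0, 0, 0, 0, 0, 0, 0, 0, ⟨0, 0⟩, 0⟩ 0 0)) (.pos 12 .mp ⟨107568262, 0, 0, 0, 0, 0, 0, 0, 0, ⟨0, 0⟩, 0⟩ 0 0)) (.cut .v 134217728 (.pos 48 .mp ⟨331246151, 0, 0, 0, 0, 0, 0, 0, 0, ⟨0, 0⟩, 0⟩ 0 0) (.void 49 ⟨59059, 40941, 0, 0, 0, 0, 0, 0, 0, ⟨0, 0⟩, 0⟩ 0 0))) (.void 43 ⟨94023, 0, 0, 5977, 0, 0, 0, 0, 0, ⟨0, 0⟩, 0⟩ 0 0))) (.cut .v 16777216 (.cut .v 8388608 (.cut .v 4194304 (.cut .v 2097152 (.pos 46 .pm ⟨0, 0, 42304062, 0, 20190574, 0, 0, 0, 0, ⟨0, 0⟩, 0⟩ 0 0) (.pos 47 .pm ⟨0, 0, 5446771, 0, 0, 0, 0, 0, 0, ⟨0, 0⟩, 0⟩ 0 0)) (.pos 5 .pm ⟨0, 0, 0, 0, 0, 0, 0, 0, 0, ⟨0,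 0⟩, 0⟩ 0 0)) (.pos 3 .pm ⟨0, 0, 0, 0, 0, 0, 0, 0, 0, ⟨0, 0⟩, 0⟩ 0 0)) (.cut .v 268435456 (.cut .v 67108864 (.pos 9 .pp ⟨0, 0, 0, 0, 0, 0, 0, 0, 0, ⟨0, 0⟩, 0⟩ 0 0) (.pos 10 .pp ⟨92200621, 614820025, 0, 0, 0, 0, 0, 0, 0, ⟨0, 0⟩, 0⟩ 0 0)) (.void 43 ⟨0, 0, 0, 100000, 0, 0, 0, 0, 0, ⟨0, 0⟩, 0⟩ 0 0)))),
    by decide +kernel⟩

def covers17 : cell.Covers table row17.1 :=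
  ⟨(.cut .d 0 (.cut .v 16777216 (.cut .d (-8388608) (.void 1 ⟨0, 0, 100000, 0, 0, 0, 0, 0, 0, ⟨0, 0⟩, 0⟩ 0 0) (.cut .v 8388608 (.cut .v 4194304 (.void 4 ⟨0, 0, 100000, 0, 0, 0, 0, 0, 0, ⟨0, 0⟩, 0⟩ 0 0) (.pos 5 .mm ⟨0, 0, 29020525, 0, 0, 0, 0, 0, 0, ⟨0, 0⟩, 0⟩ 0 0)) (.cut .d (-4194304) (.cut .s 11993088 (.pos 3 .mm ⟨24891867, 0, 35180825, 0, 0, 0, 0, 0, 0, ⟨0, 0⟩, 0⟩ 0 0) (.pos 3 .mm ⟨40665695, 0, 48512069, 0, 0, 0, 0, 0, 0, ⟨0, 0⟩, 0⟩ 0 0)) (.pos 3 .mm ⟨5651129, 0, 16649981, 0, 0, 6583402, 0, 0, 0, ⟨0, 0⟩, 0⟩ 0 0)))) (.cut .v 268435456 (.cut .v 67108864 (.cut .d (-8388608) (.cut .v 33554432 (.pos 11 .mp ⟨269708887, 0, 71060607, 0, 0, 0, 0, 0, 0, ⟨0, 0⟩,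 0⟩ 0 0) (.void 12 ⟨100000, 0, 0, 0, 0, 0, 0, 0, 0, ⟨0, 0⟩, 0⟩ 0 0)) (.cut .v 33554432 (.cut .s 11993088 (.pos 11 .mp ⟨41662416, 0, 0, 0, 0, 0, 0, 0, 0, ⟨0, 0⟩, 0⟩ 0 0) (.pos 11 .mp ⟨64720959, 0, 0, 0, 0, 0, 0, 0, 0, ⟨0, 0⟩, 0⟩ 0 0)) (.pos 12 .mp ⟨156248378, 0, 0, 0, 0, 0, 0, 0, 0, ⟨0, 0⟩, 0⟩ 0 0))) (.cut .v 134217728 (.cut .v 100663296 (.pos 50 .mp ⟨760575206, 0, 0, 0, 0, 0, 0, 0, 0, ⟨0, 0⟩, 0⟩ 0 0) (.pos 51 .mp ⟨1281982058, 0, 0, 0, 0, 0, 0, 0, 0, ⟨0, 0⟩, 0⟩ 0 0)) (.void 49 ⟨58114, 41886, 0, 0, 0, 0, 0, 0, 0, ⟨0, 0⟩, 0⟩ 0 0))) (.void 43 ⟨93773, 0, 0, 6227, 0, 0, 0, 0, 0, ⟨0, 0⟩, 0⟩ 0 0))) (.cut .v 16777216 (.cut .v 8388608 (.cut .v 4194304 (.cut .v 2097152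 (.pos 46 .pm ⟨0, 0, 22642248, 0, 0, 0, 0, 0, 0, ⟨0, 0⟩, 0⟩ 0 0) (.pos 47 .pm ⟨0, 0, 9559170, 0, 0, 0, 0, 0, 0, ⟨0, 0⟩, 0⟩ 0 0)) (.pos 5 .pm ⟨0, 0, 5240437, 0, 0, 0, 0, 0, 0, ⟨0, 0⟩, 0⟩ 0 0)) (.pos 3 .pm ⟨0, 0, 0, 0, 0, 0, 0, 0, 0, ⟨0, 0⟩, 0⟩ 0 0)) (.cut .v 268435456 (.cut .v 67108864 (.pos 9 .pp ⟨0, 0, 0, 0, 0, 0, 0, 0, 0, ⟨0, 0⟩, 0⟩ 0 0) (.pos 10 .pp ⟨196710771, 1649478257, 0, 0, 0, 0, 0, 0, 0, ⟨0, 0⟩, 0⟩ 0 0)) (.void 43 ⟨0, 0, 0, 100000, 0, 0, 0, 0, 0, ⟨0, 0⟩, 0⟩ 0 0)))),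
    by decide +kernel⟩

def covers18 : cell.Covers table row18.1 :=
  ⟨(.cut .d 0 (.cut .v 16777216 (.cut .v 8388608 (.pos 2 .mm ⟨0, 0, 550188596, 0, 0, 0, 0, 0, 0, ⟨0, 0⟩, 0⟩ 0 0) (.cut .d (-8388608) (.void 3 ⟨0, 0, 100000, 0, 0, 0, 0, 0, 0, ⟨0, 0⟩, 0⟩ 0 0) (.cut .d (-4194304) (.cut .l 27690795 (.pos 3 .mm ⟨107139970, 0, 74328879, 0, 0, 0, 0, 0, 0, ⟨0, 0⟩, 0⟩ 0 0) (.pos 3 .mm ⟨72415789, 0, 81398447, 0, 0, 0, 0, 0, 0, ⟨0, 0⟩, 0⟩ 0 0)) (.cut .d (-2097152) (.cut .v 12582912 (.pos 6 .mm ⟨42996273, 0, 52632454, 0, 0, 0, 0, 0, 0, ⟨0, 0⟩, 0⟩ 0 0) (.cut .s 12484608 (.pos 7 .mm ⟨52548799, 0, 9982459, 0, 0, 0, 0, 0, 0, ⟨0, 0⟩, 0⟩ 0 0) (.pos 7 .mm ⟨71209891, 0,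 9874323, 0, 0, 0, 0, 0, 0, ⟨0, 0⟩, 0⟩ 0 0))) (.pos 3 .mm ⟨0, 0, 23500715, 0, 0, 22695112, 0, 0, 0, ⟨0, 0⟩, 0⟩ 0 0))))) (.cut .v 268435456 (.cut .d (-8388608) (.pos 8 .mp ⟨160629360629, 0, 7142799371, 0, 0, 0, 0, 0, 0, ⟨0, 0⟩, 0⟩ 0 0) (.cut .v 67108864 (.cut .v 33554432 (.cut .d (-4194304) (.cut .d (-6291456) (.pos 11 .mp ⟨202511761, 0, 0, 0, 0, 0, 0, 0, 0, ⟨0, 0⟩, 0⟩ 0 0) (.pos 11 .mp ⟨142203032, 0, 0, 0, 0, 0, 0, 0, 0, ⟨0, 0⟩, 0⟩ 0 0)) (.pos 11 .mp ⟨84280542, 0, 0, 0, 0, 0, 0, 0, 0, ⟨0, 0⟩, 0⟩ 0 0)) (.cut .d (-4194304) (.void 12 ⟨100000, 0, 0, 0, 0, 0, 0, 0, 0, ⟨0, 0⟩, 0⟩ 0 0) (.pos 12 .mp ⟨265788994, 0, 0, 0, 0, 0, 0, 0, 0, ⟨0, 0⟩, 0⟩ 0 0))) (.cut .v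 134217728 (.cut .v 100663296 (.pos 50 .mp ⟨886265903, 0, 0, 0, 0, 0, 0, 0, 0, ⟨0, 0⟩, 0⟩ 0 0) (.pos 51 .mp ⟨2662058494, 1922256233, 0, 0, 0, 0, 0, 0, 0, ⟨0, 0⟩, 0⟩ 0 0)) (.void 49 ⟨46801, 53199, 0, 0, 0, 0, 0, 0, 0, ⟨0, 0⟩, 0⟩ 0 0)))) (.void 43 ⟨93555, 0, 0, 6445, 0, 0, 0, 0, 0, ⟨0, 0⟩, 0⟩ 0 0))) (.cut .v 16777216 (.cut .v 8388608 (.cut .v 4194304 (.cut .v 2097152 (.pos 46 .pm ⟨0, 0, 24471099, 0, 0, 0, 0, 0, 0, ⟨0, 0⟩, 0⟩ 0 0) (.pos 47 .pm ⟨0, 0, 24155854, 0, 0, 0, 0, 0, 0, ⟨0, 0⟩, 0⟩ 0 0)) (.pos 5 .pm ⟨0, 0, 19653921, 0, 0, 0, 0, 0, 0, ⟨0, 0⟩, 0⟩ 0 0)) (.pos 3 .pm ⟨0, 0, 0, 0, 0, 0, 0, 0, 0, ⟨0, 0⟩, 0⟩ 0 0)) (.cut .v 268435456 (.cut .v 67108864 (.pos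 9 .pp ⟨0, 0, 0, 0, 0, 0, 0, 0, 0, ⟨0, 0⟩, 0⟩ 0 0) (.cut .v 134217728 (.pos 48 .pp ⟨504681885, 944610567, 0, 0, 0, 0, 0, 0, 0, ⟨0, 0⟩, 0⟩ 0 0) (.void 49 ⟨0, 0, 0, 100000, 0, 0, 0, 0, 0, ⟨0, 0⟩, 0⟩ 0 0))) (.void 43 ⟨0, 0, 0, 100000, 0, 0, 0, 0, 0, ⟨0, 0⟩, 0⟩ 0 0)))),
    by decide +kernel⟩

def covers19 : cell.Covers table row19.1 :=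
  ⟨(.cut .d 0 (.cut .v 16777216 (.cut .v 8388608 (.pos 2 .mm ⟨0, 0, 673142964, 0, 0, 0, 0, 0, 0, ⟨0, 0⟩, 0⟩ 0 0) (.cut .d (-8388608) (.void 3 ⟨0, 0, 100000, 0, 0, 0, 0, 0, 0, ⟨0, 0⟩, 0⟩ 0 0) (.cut .d (-4194304) (.cut .s 12976128 (.pos 3 .mm ⟨133784875, 0, 116118147, 0, 0, 0, 0, 0, 0, ⟨0, 0⟩, 0⟩ 0 0) (.pos 3 .mm ⟨183084962, 0, 142975574, 0, 0, 0, 0, 0, 0, ⟨0, 0⟩, 0⟩ 0 0)) (.cut .d (-2097152) (.cut .v 12582912 (.cut .l 27690795 (.cut .s 12976128 (.pos 6 .mm ⟨62009378, 0, 57650332, 0, 0, 8545914, 0, 0, 0, ⟨0, 0⟩, 0⟩ 0 0) (.pos 6 .mm ⟨115198063, 0, 107036584, 0, 0, 0, 0, 0, 0, ⟨0, 0⟩, 0⟩ 0 0)) (.pos 6 .mm ⟨0, 0, 149691596, 0, 0, 0, 0, 0, 0, ⟨0, 0⟩, 0⟩ 0 0))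 (.cut .l 27690795 (.cut .s 12976128 (.pos 7 .mm ⟨104448623, 0, 0, 0, 0, 0, 0, 0, 0, ⟨0, 0⟩, 0⟩ 0 0) (.cut .d (-3145728) (.pos 7 .mm ⟨186211924, 0, 89398460, 0, 0, 0, 0, 0, 0, ⟨0, 0⟩, 0⟩ 0 0) (.pos 7 .mm ⟨130411396, 0, 3035879, 0, 0, 0, 0, 0, 0, ⟨0, 0⟩, 0⟩ 0 0))) (.pos 7 .mm ⟨90652468, 0, 20857630, 0, 0, 0, 0, 0, 0, ⟨0, 0⟩, 0⟩ 0 0))) (.cut .l 27690795 (.cut .l 20556283 (.cut .d (-1048576) (.cut .d (-1572864) (.cut .v 12582912 (.cut .l 16989027 (.cut .s 12976128 (.pos 6 .mm ⟨13810283, 0, 24566296, 0, 0, 51344726, 0, 0, 0, ⟨0, 0⟩, 0⟩ 0 0) (.cut .d (-1835008) (.pos 6 .mm ⟨54983558, 0, 48158232, 0, 0, 49846212, 0, 0, 0, ⟨0, 0⟩, 0⟩ 0 0) (.pos 6 .mm ⟨0, 0, 20373361,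 0, 0, 79058244, 0, 0, 0, ⟨0, 0⟩, 0⟩ 0 0))) (.pos 6 .mm ⟨60703222, 0, 53714725, 0, 0, 0, 0, 0, 0, ⟨0, 0⟩, 0⟩ 0 0)) (.pos 7 .mm ⟨109051354, 0, 0, 0, 0, 0, 0, 0, 0, ⟨0, 0⟩, 0⟩ 0 0)) (.pos 3 .mm ⟨0, 0, 23511652, 0, 0, 52438240, 0, 0, 0, ⟨0, 0⟩, 0⟩ 0 0)) (.pos 3 .mm ⟨0, 0, 8044644, 0, 0, 0, 0, 0, 0, ⟨0, 0⟩, 0⟩ 0 0)) (.pos 3 .mm ⟨0, 0, 33937255, 0, 0, 0, 0, 0, 0, ⟨0, 0⟩, 0⟩ 0 0)) (.pos 3 .mm ⟨0, 0, 51748006, 0, 0, 0, 0, 0, 0, ⟨0, 0⟩, 0⟩ 0 0)))))) (.cut .v 268435456 (.cut .d (-8388608) (.void 8 ⟨95521, 0, 4479, 0, 0, 0, 0, 0, 0, ⟨0, 0⟩, 0⟩ 0 0) (.cut .v 67108864 (.cut .v 33554432 (.cut .d (-4194304) (.cut .s 12976128 (.cut .v 25165824 (.pos 13 .mp ⟨225438371,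 0, 0, 0, 0, 0, 0, 0, 0, ⟨0, 0⟩, 0⟩ 0 0) (.pos 14 .mp ⟨347572314, 0, 0, 0, 0, 0, 0, 0, 0, ⟨0, 0⟩, 0⟩ 0 0)) (.pos 11 .mp ⟨402335318, 0, 0, 0, 0, 0, 0, 0, 0, ⟨0, 0⟩, 0⟩ 0 0)) (.cut .v 25165824 (.cut .s 12976128 (.pos 13 .mp ⟨129822590, 0, 0, 0, 0, 0, 0, 0, 0, ⟨0, 0⟩, 0⟩ 0 0) (.cut .d (-2097152) (.pos 13 .mp ⟨201556332, 0, 0, 0, 0, 0, 0, 0, 0, ⟨0, 0⟩, 0⟩ 0 0) (.pos 13 .mp ⟨148357751, 0, 0, 0, 0, 0, 0, 0, 0, ⟨0, 0⟩, 0⟩ 0 0))) (.pos 14 .mp ⟨258157299, 0, 0, 0, 0, 0, 0, 0, 0, ⟨0, 0⟩, 0⟩ 0 0))) (.cut .d (-4194304) (.void 12 ⟨100000, 0, 0, 0, 0, 0, 0, 0, 0, ⟨0, 0⟩, 0⟩ 0 0) (.cut .v 50331648 (.pos 21 .mp ⟨419994346, 0, 0, 0, 0, 0, 0, 0, 0, ⟨0, 0⟩, 0⟩ 0 0) (.pos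 22 .mp ⟨716314790, 0, 0, 0, 0, 0, 0, 0, 0, ⟨0, 0⟩, 0⟩ 0 0)))) (.cut .v 134217728 (.cut .d (-4194304) (.void 48 ⟨100000, 0, 0, 0, 0, 0, 0, 0, 0, ⟨0, 0⟩, 0⟩ 0 0) (.cut .v 100663296 (.pos 50 .mp ⟨1362374574, 12833499, 0, 0, 0, 0, 0, 0, 0, ⟨0, 0⟩, 0⟩ 0 0) (.pos 51 .mp ⟨3365310776, 2803463441, 0, 0, 0, 0, 0, 0, 0, ⟨0, 0⟩, 0⟩ 0 0))) (.void 49 ⟨45796, 54204, 0, 0, 0, 0, 0, 0, 0, ⟨0, 0⟩, 0⟩ 0 0)))) (.void 43 ⟨93307, 0, 0, 6693, 0, 0, 0, 0, 0, ⟨0, 0⟩, 0⟩ 0 0))) (.cut .v 16777216 (.cut .v 8388608 (.cut .v 4194304 (.cut .v 2097152 (.pos 46 .pm ⟨0, 0, 29655610, 0, 0, 0, 0, 0, 0, ⟨0, 0⟩, 0⟩ 0 0) (.pos 47 .pm ⟨0, 0, 35185752, 0, 0, 0, 0, 0, 0, ⟨0, 0⟩, 0⟩ 0 0)) (.pos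 5 .pm ⟨0, 0, 26762565, 0, 0, 0, 0, 0, 0, ⟨0, 0⟩, 0⟩ 0 0)) (.pos 3 .pm ⟨0, 0, 0, 0, 0, 0, 0, 0, 0, ⟨0, 0⟩, 0⟩ 0 0)) (.cut .v 268435456 (.cut .v 67108864 (.pos 9 .pp ⟨0, 0, 0, 0, 0, 0, 0, 0, 0, ⟨0, 0⟩, 0⟩ 0 0) (.cut .v 134217728 (.cut .v 100663296 (.pos 50 .pp ⟨801588755, 1263460367, 0, 0, 0, 0, 0, 0, 0, ⟨0, 0⟩, 0⟩ 0 0) (.void 51 ⟨0, 100000, 0, 0, 0, 0, 0, 0, 0, ⟨0, 0⟩, 0⟩ 0 0)) (.void 49 ⟨0, 0, 0, 100000, 0, 0, 0, 0, 0, ⟨0, 0⟩, 0⟩ 0 0))) (.void 43 ⟨0, 0, 0, 100000, 0, 0, 0, 0, 0, ⟨0, 0⟩, 0⟩ 0 0)))),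
    by decide +kernel⟩

def covers20 : cell.Covers table row20.1 :=
  ⟨(.cut .d 0 (.cut .v 16777216 (.cut .v 8388608 (.void 2 ⟨0, 0, 100000, 0, 0, 0, 0, 0, 0, ⟨0, 0⟩, 0⟩ 0 0) (.cut .d (-8388608) (.void 3 ⟨0, 0, 100000, 0, 0, 0, 0, 0, 0, ⟨0, 0⟩, 0⟩ 0 0) (.cut .d (-4194304) (.pos 3 .mm ⟨293611751, 0, 197581706, 0, 0, 0, 0, 0, 0, ⟨0, 0⟩, 0⟩ 0 0) (.cut .d (-2097152) (.cut .v 12582912 (.pos 6 .mm ⟨148765357, 0, 197702283, 0, 0, 0, 0, 0, 0, ⟨0, 0⟩, 0⟩ 0 0) (.cut .l 27690795 (.cut .s 13500416 (.cut .v 14680064 (.pos 35 .mm ⟨168859512, 0, 84718332, 0, 0, 0, 0, 0, 0, ⟨0, 0⟩, 0⟩ 0 0) (.pos 36 .mm ⟨224762977, 0, 0, 0, 0, 0, 0, 0, 0, ⟨0, 0⟩, 0⟩ 0 0)) (.pos 7 .mm ⟨261372368,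 0, 117745350, 0, 0, 0, 0, 0, 0, ⟨0, 0⟩, 0⟩ 0 0)) (.cut .d (-3145728) (.pos 7 .mm ⟨200983569, 0, 147135365, 0, 0, 0, 0, 0, 0, ⟨0, 0⟩, 0⟩ 0 0) (.pos 7 .mm ⟨129331633, 0, 36990793, 0, 0, 0, 0, 0, 0, ⟨0, 0⟩, 0⟩ 0 0)))) (.cut .d (-1048576) (.cut .l 27690795 (.cut .l 20556283 (.cut .v 12582912 (.cut .v 10485760 (.pos 37 .mm ⟨0, 0, 225546672, 0, 0, 0, 0, 0, 0, ⟨0, 0⟩, 0⟩ 0 0) (.cut .d (-1572864) (.cut .s 13500416 (.cut .s 13369344 (.cut .l 16989027 (.pos 38 .mm ⟨54901381, 0, 49166388, 0, 0, 61668249, 0, 0, 0, ⟨0, 0⟩, 0⟩ 0 0) (.pos 38 .mm ⟨89048939, 0, 62937882, 0, 0, 0, 0, 0, 0, ⟨0, 0⟩, 0⟩ 0 0)) (.pos 38 .mm ⟨88469706, 0, 76547654, 0, 0, 42818193, 0, 0, 0, ⟨0,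 0⟩, 0⟩ 0 0)) (.pos 38 .mm ⟨132550986, 0, 98540613, 0, 0, 33358701, 0, 0, 0, ⟨0, 0⟩, 0⟩ 0 0)) (.cut .s 13500416 (.pos 38 .mm ⟨0, 0, 10338171, 0, 0, 74863091, 0, 0, 0, ⟨0, 0⟩, 0⟩ 0 0) (.pos 38 .mm ⟨34930269, 0, 55954976, 0, 0, 96847270, 0, 0, 0, ⟨0, 0⟩, 0⟩ 0 0)))) (.cut .s 13500416 (.pos 7 .mm ⟨149592096, 0, 0, 0, 0, 0, 0, 0, 0, ⟨0, 0⟩, 0⟩ 0 0) (.pos 7 .mm ⟨199303950, 0, 0, 0, 0, 0, 0, 0, 0, ⟨0, 0⟩, 0⟩ 0 0))) (.pos 3 .mm ⟨68619028, 0, 48914811, 0, 0, 0, 0, 0, 0, ⟨0, 0⟩, 0⟩ 0 0)) (.pos 3 .mm ⟨0, 0, 60106889, 0, 0, 0, 0, 0, 0, ⟨0, 0⟩, 0⟩ 0 0)) (.pos 3 .mm ⟨0, 0, 7995231, 0, 0, 42275458, 0, 0, 0, ⟨0, 0⟩, 0⟩ 0 0)))))) (.cut .v 268435456 (.cut .d (-8388608) (.void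 8 ⟨95383, 0, 4617, 0, 0, 0, 0, 0, 0, ⟨0, 0⟩, 0⟩ 0 0) (.cut .v 67108864 (.cut .d (-4194304) (.pos 9 .mp ⟨1593893808, 0, 0, 0, 0, 0, 0, 0, 0, ⟨0, 0⟩, 0⟩ 0 0) (.cut .v 33554432 (.cut .d (-2097152) (.cut .l 27690795 (.pos 11 .mp ⟨491453441, 0, 0, 0, 0, 0, 0, 0, 0, ⟨0, 0⟩, 0⟩ 0 0) (.cut .s 13500416 (.pos 11 .mp ⟨247403532, 0, 0, 0, 0, 0, 0, 0, 0, ⟨0, 0⟩, 0⟩ 0 0) (.pos 11 .mp ⟨368153208, 0, 0, 0, 0, 0, 0, 0, 0, ⟨0, 0⟩, 0⟩ 0 0))) (.cut .s 13500416 (.pos 11 .mp ⟨191624374, 0, 0, 0, 0, 0, 0, 0, 0, ⟨0, 0⟩, 0⟩ 0 0) (.pos 11 .mp ⟨285112423, 0, 0, 0, 0, 0, 0, 0, 0, ⟨0, 0⟩, 0⟩ 0 0))) (.cut .v 50331648 (.cut .d (-2097152) (.pos 21 .mp ⟨920948119, 0, 0, 0, 0, 0, 0, 0,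 0, ⟨0, 0⟩, 0⟩ 0 0) (.pos 21 .mp ⟨615321533, 0, 0, 0, 0, 0, 0, 0, 0, ⟨0, 0⟩, 0⟩ 0 0)) (.pos 22 .mp ⟨1231783166, 0, 0, 0, 0, 0, 0, 0, 0, ⟨0, 0⟩, 0⟩ 0 0)))) (.cut .v 134217728 (.cut .d (-4194304) (.void 48 ⟨100000, 0, 0, 0, 0, 0, 0, 0, 0, ⟨0, 0⟩, 0⟩ 0 0) (.cut .d (-2097152) (.void 48 ⟨100000, 0, 0, 0, 0, 0, 0, 0, 0, ⟨0, 0⟩, 0⟩ 0 0) (.cut .v 100663296 (.cut .l 27690795 (.pos 50 .mp ⟨3281038057, 0, 0, 0, 0, 0, 0, 0, 0, ⟨0, 0⟩, 0⟩ 0 0) (.cut .v 83886080 (.pos 52 .mp ⟨1438821393, 0, 0, 0, 0, 0, 0, 0, 0, ⟨0, 0⟩, 0⟩ 0 0) (.pos 53 .mp ⟨2161759379, 220025718, 0, 0, 0, 0, 0, 0, 0, ⟨0, 0⟩, 0⟩ 0 0))) (.pos 51 .mp ⟨4502902604, 4215433715, 0, 0, 0, 0, 0, 0, 0, ⟨0, 0⟩,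 0⟩ 0 0)))) (.void 49 ⟨44834, 55166, 0, 0, 0, 0, 0, 0, 0, ⟨0, 0⟩, 0⟩ 0 0)))) (.void 43 ⟨93060, 0, 0, 6940, 0, 0, 0, 0, 0, ⟨0, 0⟩, 0⟩ 0 0))) (.cut .v 16777216 (.cut .v 8388608 (.cut .v 4194304 (.cut .v 2097152 (.cut .v 1048576 (.pos 54 .pm ⟨0, 0, 23208818, 0, 0, 0, 0, 0, 0, ⟨0, 0⟩, 0⟩ 0 0) (.pos 55 .pm ⟨0, 0, 34645088, 0, 0, 0, 0, 0, 0, ⟨0, 0⟩, 0⟩ 0 0)) (.pos 47 .pm ⟨0, 0, 47643345, 0, 0, 0, 0, 0, 0, ⟨0, 0⟩, 0⟩ 0 0)) (.pos 5 .pm ⟨0, 0, 88446238, 0, 0, 0, 0, 0, 0, ⟨0, 0⟩, 0⟩ 0 0)) (.pos 3 .pm ⟨0, 0, 37359461, 0, 0, 0, 0, 0, 0, ⟨0, 0⟩, 0⟩ 0 0)) (.cut .v 268435456 (.cut .v 67108864 (.pos 9 .pp ⟨82321542, 0, 0, 0, 0, 0, 0, 0, 0, ⟨0, 0⟩, 0⟩ 0 0) (.cut .v 134217728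 (.cut .v 100663296 (.cut .v 83886080 (.cut .v 75497472 (.pos 56 .pp ⟨1150947269, 900978382, 0, 0, 0, 0, 0, 0, 0, ⟨0, 0⟩, 0⟩ 0 0) (.pos 57 .pp ⟨1642545513, 1785615214, 0, 0, 0, 0, 0, 0, 0, ⟨0, 0⟩, 0⟩ 0 0)) (.pos 53 .pp ⟨2017718587, 2915201232, 0, 0, 0, 0, 0, 0, 0, ⟨0, 0⟩, 0⟩ 0 0)) (.void 51 ⟨0, 100000, 0, 0, 0, 0, 0, 0, 0, ⟨0, 0⟩, 0⟩ 0 0)) (.void 49 ⟨0, 0, 0, 100000, 0, 0, 0, 0, 0, ⟨0, 0⟩, 0⟩ 0 0))) (.void 43 ⟨0, 0, 0, 100000, 0, 0, 0, 0, 0, ⟨0, 0⟩, 0⟩ 0 0)))),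
    by decide +kernel⟩

def covers21 : cell.Covers table row21.1 :=
  ⟨(.cut .d 0 (.cut .v 16777216 (.cut .v 8388608 (.void 2 ⟨0, 0, 100000, 0, 0, 0, 0, 0, 0, ⟨0, 0⟩, 0⟩ 0 0) (.cut .d (-8388608) (.void 3 ⟨64842, 0, 35158, 0, 0, 0, 0, 0, 0, ⟨0, 0⟩, 0⟩ 0 0) (.cut .d (-4194304) (.void 3 ⟨64842, 0, 35158, 0, 0, 0, 0, 0, 0, ⟨0, 0⟩, 0⟩ 0 0) (.cut .d (-2097152) (.cut .l 27690795 (.pos 3 .mm ⟨390271921, 0, 243081018, 0, 0, 0, 0, 0, 0, ⟨0, 0⟩, 0⟩ 0 0) (.pos 3 .mm ⟨282855775, 0, 263285242, 0, 0, 0, 0, 0, 0, ⟨0, 0⟩, 0⟩ 0 0)) (.cut .d (-1048576) (.cut .l 27690795 (.cut .v 12582912 (.cut .s 13959168 (.cut .v 10485760 (.void 37 ⟨0, 0, 100000, 0, 0, 0, 0, 0, 0, ⟨0, 0⟩,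 0⟩ 0 0) (.pos 38 .mm ⟨168996271, 0, 100375502, 0, 0, 21965455, 0, 0, 0, ⟨0, 0⟩, 0⟩ 0 0)) (.pos 6 .mm ⟨116726619, 0, 196855344, 0, 0, 96004582, 0, 0, 0, ⟨0, 0⟩, 0⟩ 0 0)) (.pos 7 .mm ⟨279949716, 0, 0, 0, 0, 0, 0, 0, 0, ⟨0, 0⟩, 0⟩ 0 0)) (.pos 3 .mm ⟨101700350, 0, 91882552, 0, 0, 0, 0, 0, 0, ⟨0, 0⟩, 0⟩ 0 0)) (.pos 3 .mm ⟨0, 0, 36467955, 0, 0, 99553122, 0, 0, 0, ⟨0, 0⟩, 0⟩ 0 0)))))) (.cut .v 268435456 (.cut .d (-8388608) (.void 8 ⟨100000, 0, 0, 0, 0, 0, 0, 0, 0, ⟨0, 0⟩, 0⟩ 0 0) (.cut .d (-4194304) (.void 8 ⟨100000, 0, 0, 0, 0, 0, 0, 0, 0, ⟨0, 0⟩, 0⟩ 0 0) (.cut .v 67108864 (.cut .v 33554432 (.cut .d (-2097152) (.cut .v 25165824 (.pos 13 .mp ⟨578227506, 0, 0,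 0, 0, 0, 0, 0, 0, ⟨0, 0⟩, 0⟩ 0 0) (.pos 14 .mp ⟨899813405, 0, 0, 0, 0, 0, 0, 0, 0, ⟨0, 0⟩, 0⟩ 0 0)) (.cut .v 25165824 (.pos 13 .mp ⟨378001566, 0, 0, 0, 0, 0, 0, 0, 0, ⟨0, 0⟩, 0⟩ 0 0) (.pos 14 .mp ⟨623676474, 0, 0, 0, 0, 0, 0, 0, 0, ⟨0, 0⟩, 0⟩ 0 0))) (.cut .v 50331648 (.cut .d (-2097152) (.pos 21 .mp ⟨1490497078, 0, 0, 0, 0, 0, 0, 0, 0, ⟨0, 0⟩, 0⟩ 0 0) (.pos 21 .mp ⟨1014812981, 0, 0, 0, 0, 0, 0, 0, 0, ⟨0, 0⟩, 0⟩ 0 0)) (.pos 22 .mp ⟨1891525398, 0, 0, 0, 0, 0, 0, 0, 0, ⟨0, 0⟩, 0⟩ 0 0))) (.cut .v 134217728 (.cut .d (-2097152) (.void 48 ⟨100000, 0, 0, 0, 0, 0, 0, 0, 0, ⟨0, 0⟩, 0⟩ 0 0) (.cut .v 100663296 (.cut .l 27690795 (.pos 50 .mp ⟨4435243916, 694618678,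 0, 0, 0, 0, 0, 0, 0, ⟨0, 0⟩, 0⟩ 0 0) (.cut .v 83886080 (.pos 52 .mp ⟨2310333377, 0, 0, 0, 0, 0, 0, 0, 0, ⟨0, 0⟩, 0⟩ 0 0) (.pos 53 .mp ⟨3520271245, 972514946, 0, 0, 0, 0, 0, 0, 0, ⟨0, 0⟩, 0⟩ 0 0))) (.pos 51 .mp ⟨6893785702, 6422784782, 0, 0, 0, 0, 0, 0, 0, ⟨0, 0⟩, 0⟩ 0 0))) (.void 49 ⟨88341, 0, 0, 11659, 0, 0, 0, 0, 0, ⟨0, 0⟩, 0⟩ 0 0))))) (.void 43 ⟨92876, 0, 0, 7124, 0, 0, 0, 0, 0, ⟨0, 0⟩, 0⟩ 0 0))) (.cut .v 16777216 (.cut .v 8388608 (.cut .v 4194304 (.cut .v 2097152 (.cut .v 1048576 (.pos 54 .pm ⟨0, 0, 23163941, 0, 0, 0, 0, 0, 0, ⟨0, 0⟩, 0⟩ 0 0) (.pos 55 .pm ⟨0, 0, 41652281, 0, 0, 0, 0, 0, 0, ⟨0, 0⟩, 0⟩ 0 0)) (.pos 47 .pm ⟨0, 0, 63121537, 0, 0, 0, 0,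 0, 0, ⟨0, 0⟩, 0⟩ 0 0)) (.pos 5 .pm ⟨0, 0, 129938087, 0, 0, 0, 0, 0, 0, ⟨0, 0⟩, 0⟩ 0 0)) (.pos 3 .pm ⟨0, 0, 76002002, 0, 0, 0, 0, 0, 0, ⟨0, 0⟩, 0⟩ 0 0)) (.cut .v 268435456 (.cut .v 67108864 (.pos 9 .pp ⟨235925700, 0, 0, 0, 0, 0, 0, 0, 0, ⟨0, 0⟩, 0⟩ 0 0) (.cut .v 134217728 (.cut .v 100663296 (.cut .v 83886080 (.cut .v 75497472 (.pos 56 .pp ⟨1138520466, 0, 0, 0, 0, 0, 0, 0, 0, ⟨0, 0⟩, 0⟩ 0 0) (.pos 57 .pp ⟨2607561050, 2731785169, 0, 0, 0, 0, 0, 0, 0, ⟨0, 0⟩, 0⟩ 0 0)) (.pos 53 .pp ⟨3121937153, 4385442206, 0, 0, 0, 0, 0, 0, 0, ⟨0, 0⟩, 0⟩ 0 0)) (.void 51 ⟨0, 100000, 0, 0, 0, 0, 0, 0, 0, ⟨0, 0⟩, 0⟩ 0 0)) (.void 49 ⟨0, 0, 0, 100000, 0, 0, 0, 0, 0, ⟨0, 0⟩, 0⟩ 0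 0))) (.void 43 ⟨0, 0, 0, 100000, 0, 0, 0, 0, 0, ⟨0, 0⟩, 0⟩ 0 0)))),
    by decide +kernel⟩

def covers22 : cell.Covers table row22.1 :=
  ⟨(.cut .d 0 (.cut .v 16777216 (.cut .v 8388608 (.void 2 ⟨0, 0, 100000, 0, 0, 0, 0, 0, 0, ⟨0, 0⟩, 0⟩ 0 0) (.cut .d (-8388608) (.void 3 ⟨64324, 0, 35676, 0, 0, 0, 0, 0, 0, ⟨0, 0⟩, 0⟩ 0 0) (.cut .d (-4194304) (.void 3 ⟨64324, 0, 35676, 0, 0, 0, 0, 0, 0, ⟨0, 0⟩, 0⟩ 0 0) (.cut .d (-2097152) (.pos 3 .mm ⟨544261343, 0, 471436152, 0, 0, 0, 0, 0, 0, ⟨0, 0⟩, 0⟩ 0 0) (.cut .v 12582912 (.cut .v 10485760 (.pos 37 .mm ⟨0, 0, 521605312, 0, 0, 0, 0, 0, 0, ⟨0, 0⟩, 0⟩ 0 0) (.cut .d (-1048576) (.pos 38 .mm ⟨301276428, 0, 240082713, 0,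 0, 0, 0, 0, 0, ⟨0, 0⟩, 0⟩ 0 0) (.pos 38 .mm ⟨157302260, 0, 63809705, 0, 0, 80628130, 0, 0, 0, ⟨0, 0⟩, 0⟩ 0 0))) (.cut .d (-1048576) (.cut .s 14319616 (.pos 7 .mm ⟨373436376, 0, 0, 0, 0, 0, 0, 0, 0, ⟨0, 0⟩, 0⟩ 0 0) (.cut .s 14401536 (.pos 7 .mm ⟨426163733, 0, 0, 0, 0, 0, 0, 0, 0, ⟨0, 0⟩, 0⟩ 0 0) (.pos 7 .mm ⟨467255708, 0, 0, 0, 0, 0, 0, 0, 0, ⟨0, 0⟩, 0⟩ 0 0))) (.pos 7 .mm ⟨320181761, 0, 0, 0, 0, 16298914, 0, 0, 0, ⟨0, 0⟩, 0⟩ 0 0))))))) (.cut .v 268435456 (.cut .d (-8388608) (.void 8 ⟨100000, 0, 0, 0, 0, 0, 0, 0, 0, ⟨0, 0⟩, 0⟩ 0 0) (.cut .d (-4194304) (.void 8 ⟨100000, 0, 0, 0, 0, 0, 0, 0, 0, ⟨0, 0⟩, 0⟩ 0 0) (.cut .v 67108864 (.cut .v 33554432 (.cut .d (-2097152)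 (.cut .v 25165824 (.pos 13 .mp ⟨869044067, 0, 0, 0, 0, 0, 0, 0, 0, ⟨0, 0⟩, 0⟩ 0 0) (.pos 14 .mp ⟨1321967735, 0, 0, 0, 0, 0, 0, 0, 0, ⟨0, 0⟩, 0⟩ 0 0)) (.cut .v 25165824 (.cut .d (-1048576) (.pos 13 .mp ⟨623487368, 0, 0, 0, 0, 0, 0, 0, 0, ⟨0, 0⟩, 0⟩ 0 0) (.pos 13 .mp ⟨458152480, 0, 0, 0, 0, 0, 0, 0, 0, ⟨0, 0⟩, 0⟩ 0 0)) (.pos 14 .mp ⟨916333749, 0, 0, 0, 0, 0, 0, 0, 0, ⟨0, 0⟩, 0⟩ 0 0))) (.cut .v 50331648 (.cut .d (-2097152) (.void 21 ⟨100000, 0, 0, 0, 0, 0, 0, 0, 0, ⟨0, 0⟩, 0⟩ 0 0) (.pos 21 .mp ⟨1477567463, 0, 0, 0, 0, 0, 0, 0, 0, ⟨0, 0⟩, 0⟩ 0 0)) (.pos 22 .mp ⟨2649728105, 0, 0, 0, 0, 0, 0, 0, 0, ⟨0, 0⟩, 0⟩ 0 0))) (.cut .v 134217728 (.cut .d (-2097152) (.void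 48 ⟨100000, 0, 0, 0, 0, 0, 0, 0, 0, ⟨0, 0⟩, 0⟩ 0 0) (.cut .d (-1048576) (.void 48 ⟨100000, 0, 0, 0, 0, 0, 0, 0, 0, ⟨0, 0⟩, 0⟩ 0 0) (.cut .v 100663296 (.cut .v 83886080 (.pos 52 .mp ⟨3877145776, 0, 0, 0, 0, 0, 0, 0, 0, ⟨0, 0⟩, 0⟩ 0 0) (.cut .l 27690795 (.pos 53 .mp ⟨6086057959, 3489698751, 0, 0, 0, 0, 0, 0, 0, ⟨0, 0⟩, 0⟩ 0 0) (.cut .v 92274688 (.pos 58 .mp ⟨4224623888, 1373195495, 0, 0, 0, 0, 0, 0, 0, ⟨0, 0⟩, 0⟩ 0 0) (.cut .l 34825306 (.pos 59 .mp ⟨5700457821, 3249812350, 0, 0, 0, 0, 0, 0, 0, ⟨0, 0⟩, 0⟩ 0 0) (.pos 59 .mp ⟨4714157368, 1600118892, 0, 0, 0, 0, 0, 0, 0, ⟨0, 0⟩, 0⟩ 0 0))))) (.cut .d (-524288) (.pos 51 .mp ⟨10181305992, 5432282175, 0, 0, 0, 0,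 0, 0, 0, ⟨0, 0⟩, 0⟩ 0 0) (.pos 51 .mp ⟨7852966399, 7747053506, 0, 0, 0, 0, 0, 0, 0, ⟨0, 0⟩, 0⟩ 0 0))))) (.void 49 ⟨88039, 0, 0, 11961, 0, 0, 0, 0, 0, ⟨0, 0⟩, 0⟩ 0 0))))) (.void 43 ⟨92723, 0, 0, 7277, 0, 0, 0, 0, 0, ⟨0, 0⟩, 0⟩ 0 0))) (.cut .v 16777216 (.cut .v 8388608 (.cut .v 4194304 (.cut .v 2097152 (.cut .v 1048576 (.pos 54 .pm ⟨0, 0, 27957823, 0, 0, 0, 0, 0, 0, ⟨0, 0⟩, 0⟩ 0 0) (.pos 55 .pm ⟨0, 0, 54916396, 0, 0, 0, 0, 0, 0, ⟨0, 0⟩, 0⟩ 0 0)) (.pos 47 .pm ⟨0, 0, 90407710, 0, 0, 0, 0, 0, 0, ⟨0, 0⟩, 0⟩ 0 0)) (.pos 5 .pm ⟨0, 0, 178804319, 0, 0, 0, 0, 0, 0, ⟨0, 0⟩, 0⟩ 0 0)) (.pos 3 .pm ⟨0, 0, 125363369, 0, 0, 0, 0, 0, 0, ⟨0, 0⟩, 0⟩ 0 0)) (.cut .v 268435456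 (.cut .v 67108864 (.cut .v 33554432 (.pos 11 .pp ⟨0, 0, 0, 0, 0, 0, 0, 0, 0, ⟨0, 0⟩, 0⟩ 0 0) (.pos 12 .pp ⟨877199162, 0, 0, 0, 0, 0, 0, 0, 0, ⟨0, 0⟩, 0⟩ 0 0)) (.cut .v 134217728 (.cut .v 100663296 (.cut .l 27690795 (.cut .v 83886080 (.cut .d 1553447 (.cut .d 776723 (.cut .v 75497472 (.pos 56 .pp ⟨2889481705, 763829168, 0, 0, 0, 0, 0, 0, 0, ⟨0, 0⟩, 0⟩ 0 0) (.cut .l 20556283 (.cut .d 388361 (.pos 57 .pp ⟨4417028619, 2731599856, 0, 0, 0, 0, 0, 0, 0, ⟨0, 0⟩, 0⟩ 0 0) (.pos 57 .pp ⟨3411516399, 12163609580, 0, 0, 0, 0, 0, 0, 0, ⟨0, 0⟩, 0⟩ 0 0)) (.pos 57 .pp ⟨3214607170, 1027975655, 0, 0, 0, 0, 0, 0, 0, ⟨0, 0⟩, 0⟩ 0 0))) (.void 52 ⟨0, 100000, 0, 0, 0, 0, 0, 0,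 0, ⟨0, 0⟩, 0⟩ 0 0)) (.void 52 ⟨0, 0, 0, 100000, 0, 0, 0, 0, 0, ⟨0, 0⟩, 0⟩ 0 0)) (.pos 53 .pp ⟨5031274469, 5801819799, 0, 0, 0, 0, 0, 0, 0, ⟨0, 0⟩, 0⟩ 0 0)) (.pos 50 .pp ⟨0, 4220959547, 0, 0, 0, 0, 0, 0, 0, ⟨0, 0⟩, 0⟩ 0 0)) (.void 51 ⟨0, 77348, 0, 22652, 0, 0, 0, 0, 0, ⟨0, 0⟩, 0⟩ 0 0)) (.void 49 ⟨0, 0, 0, 100000, 0, 0, 0, 0, 0, ⟨0, 0⟩, 0⟩ 0 0))) (.void 43 ⟨0, 0, 0, 100000, 0, 0, 0, 0, 0, ⟨0, 0⟩, 0⟩ 0 0)))),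
    by decide +kernel⟩

def covers23 : cell.Covers table row23.1 :=
  ⟨(.cut .d 0 (.cut .v 16777216 (.cut .v 8388608 (.void 2 ⟨0, 0, 100000, 0, 0, 0, 0, 0, 0, ⟨0, 0⟩, 0⟩ 0 0) (.cut .d (-8388608) (.void 3 ⟨63897, 0, 36103, 0, 0, 0, 0, 0, 0, ⟨0, 0⟩, 0⟩ 0 0) (.cut .d (-4194304) (.void 3 ⟨63897, 0, 36103, 0, 0, 0, 0, 0, 0, ⟨0, 0⟩, 0⟩ 0 0) (.cut .d (-2097152) (.pos 3 .mm ⟨777092623, 0, 595913478, 0, 0, 0, 0, 0, 0, ⟨0, 0⟩, 0⟩ 0 0) (.cut .l 27690795 (.cut .d (-1048576) (.cut .v 12582912 (.pos 6 .mm ⟨479184192, 0, 457795383, 0, 0, 0, 0, 0, 0, ⟨0, 0⟩, 0⟩ 0 0) (.cut .l 20556283 (.pos 7 .mm ⟨691540755, 0, 0, 0, 0, 0, 0, 0, 0, ⟨0, 0⟩, 0⟩ 0 0) (.pos 7 .mm ⟨437523865,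 0, 27234396, 0, 0, 0, 0, 0, 0, ⟨0, 0⟩, 0⟩ 0 0))) (.cut .s 14647296 (.cut .v 12582912 (.cut .v 10485760 (.pos 37 .mm ⟨0, 0, 604125690, 0, 0, 0, 0, 0, 0, ⟨0, 0⟩, 0⟩ 0 0) (.cut .v 11534336 (.pos 44 .mm ⟨0, 0, 406354209, 0, 0, 250817063, 0, 0, 0, ⟨0, 0⟩, 0⟩ 0 0) (.pos 45 .mm ⟨290046088, 0, 87063975, 0, 0, 81964519, 0, 0, 0, ⟨0, 0⟩, 0⟩ 0 0))) (.pos 7 .mm ⟨402482410, 0, 0, 0, 0, 43797429, 0, 0, 0, ⟨0, 0⟩, 0⟩ 0 0)) (.pos 3 .mm ⟨0, 0, 0, 0, 0, 715349183, 0, 0, 0, ⟨0, 0⟩, 0⟩ 0 0))) (.pos 3 .mm ⟨232916123, 0, 89297649, 0, 0, 0, 0, 0, 0, ⟨0, 0⟩, 0⟩ 0 0)))))) (.cut .v 268435456 (.cut .d (-8388608) (.void 8 ⟨100000, 0, 0, 0, 0, 0, 0, 0, 0, ⟨0, 0⟩, 0⟩ 0 0) (.cut .d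 (-4194304) (.void 8 ⟨100000, 0, 0, 0, 0, 0, 0, 0, 0, ⟨0, 0⟩, 0⟩ 0 0) (.cut .v 67108864 (.cut .v 33554432 (.cut .d (-2097152) (.pos 11 .mp ⟨1673099125, 0, 0, 0, 0, 0, 0, 0, 0, ⟨0, 0⟩, 0⟩ 0 0) (.cut .v 25165824 (.cut .s 14647296 (.cut .d (-1048576) (.pos 13 .mp ⟨810702448, 0, 0, 0, 0, 0, 0, 0, 0, ⟨0, 0⟩, 0⟩ 0 0) (.pos 13 .mp ⟨584549569, 0, 0, 0, 0, 0, 0, 0, 0, ⟨0, 0⟩, 0⟩ 0 0)) (.pos 13 .mp ⟨954737709, 0, 0, 0, 0, 0, 0, 0, 0, ⟨0, 0⟩, 0⟩ 0 0)) (.pos 14 .mp ⟨1297965919, 0, 0, 0, 0, 0, 0, 0, 0, ⟨0, 0⟩, 0⟩ 0 0))) (.cut .d (-2097152) (.void 12 ⟨100000, 0, 0, 0, 0, 0, 0, 0, 0, ⟨0, 0⟩, 0⟩ 0 0) (.cut .v 50331648 (.pos 21 .mp ⟨2084286963, 0, 0, 0, 0, 0, 0, 0, 0, ⟨0,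 0⟩, 0⟩ 0 0) (.pos 22 .mp ⟨3345062554, 0, 0, 0, 0, 0, 0, 0, 0, ⟨0, 0⟩, 0⟩ 0 0)))) (.cut .v 134217728 (.cut .s 14647296 (.cut .s 14565376 (.cut .d (-2097152) (.void 48 ⟨100000, 0, 0, 0, 0, 0, 0, 0, 0, ⟨0, 0⟩, 0⟩ 0 0) (.cut .d (-1048576) (.void 48 ⟨100000, 0, 0, 0, 0, 0, 0, 0, 0, ⟨0, 0⟩, 0⟩ 0 0) (.cut .v 100663296 (.cut .v 83886080 (.pos 52 .mp ⟨4731938152, 0, 0, 0, 0, 0, 0, 0, 0, ⟨0, 0⟩, 0⟩ 0 0) (.cut .l 27690795 (.pos 53 .mp ⟨6872431766, 3178142933, 0, 0, 0, 0, 0, 0, 0, ⟨0, 0⟩, 0⟩ 0 0) (.cut .v 92274688 (.pos 58 .mp ⟨5005691607, 2677236988, 0, 0, 0, 0, 0, 0, 0, ⟨0, 0⟩, 0⟩ 0 0) (.pos 59 .mp ⟨5754355377, 3337367178, 0, 0, 0, 0, 0, 0, 0, ⟨0, 0⟩, 0⟩ 0 0))))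 (.cut .d (-524288) (.void 51 ⟨100000, 0, 0, 0, 0, 0, 0, 0, 0, ⟨0, 0⟩, 0⟩ 0 0) (.pos 51 .mp ⟨8598207120, 8380946374, 0, 0, 0, 0, 0, 0, 0, ⟨0, 0⟩, 0⟩ 0 0))))) (.pos 48 .mp ⟨14071655865, 6403638448, 0, 0, 0, 0, 0, 0, 0, ⟨0, 0⟩, 0⟩ 0 0)) (.pos 48 .mp ⟨25462322642, 4882864128, 0, 0, 0, 0, 0, 0, 0, ⟨0, 0⟩, 0⟩ 0 0)) (.void 49 ⟨87771, 0, 0, 12229, 0, 0, 0, 0, 0, ⟨0, 0⟩, 0⟩ 0 0))))) (.void 43 ⟨92571, 0, 0, 7429, 0, 0, 0, 0, 0, ⟨0, 0⟩, 0⟩ 0 0))) (.cut .v 16777216 (.cut .v 8388608 (.cut .v 4194304 (.cut .v 2097152 (.cut .v 1048576 (.pos 54 .pm ⟨0, 0, 34850124, 0, 0, 0, 0, 0, 0, ⟨0, 0⟩, 0⟩ 0 0) (.pos 55 .pm ⟨0, 0, 71223567, 0, 0, 0, 0, 0, 0, ⟨0, 0⟩, 0⟩ 0 0)) (.pos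 47 .pm ⟨0, 0, 121157957, 0, 0, 0, 0, 0, 0, ⟨0, 0⟩, 0⟩ 0 0)) (.pos 5 .pm ⟨0, 0, 254933737, 0, 0, 0, 0, 0, 0, ⟨0, 0⟩, 0⟩ 0 0)) (.pos 3 .pm ⟨0, 0, 170810517, 0, 0, 0, 0, 0, 0, ⟨0, 0⟩, 0⟩ 0 0)) (.cut .v 268435456 (.cut .v 67108864 (.cut .v 33554432 (.pos 11 .pp ⟨0, 0, 0, 0, 0, 0, 0, 0, 0, ⟨0, 0⟩, 0⟩ 0 0) (.cut .v 50331648 (.pos 21 .pp ⟨914414152, 0, 0, 0, 0, 0, 0, 0, 0, ⟨0, 0⟩, 0⟩ 0 0) (.pos 22 .pp ⟨1747319972, 0, 0, 0, 0, 0, 0, 0, 0, ⟨0, 0⟩, 0⟩ 0 0))) (.cut .v 134217728 (.cut .v 100663296 (.cut .l 27690795 (.cut .d 1328514 (.cut .d 664257 (.cut .v 83886080 (.cut .l 20556283 (.cut .v 75497472 (.cut .s 14647296 (.pos 56 .pp ⟨3759138702, 1566471134, 0, 0, 0,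 0, 0, 0, 0, ⟨0, 0⟩, 0⟩ 0 0) (.cut .d 332128 (.pos 56 .pp ⟨12353566534, 0, 0, 0, 0, 0, 0, 0, 0, ⟨0, 0⟩, 0⟩ 0 0) (.pos 56 .pp ⟨4306859130, 3180276372, 0, 0, 0, 0, 0, 0, 0, ⟨0, 0⟩, 0⟩ 0 0))) (.cut .s 14647296 (.cut .s 14565376 (.cut .l 16989027 (.pos 57 .pp ⟨5073922823, 4468002651, 0, 0, 0, 0, 0, 0, 0, ⟨0, 0⟩, 0⟩ 0 0) (.pos 57 .pp ⟨4455422289, 3439441767, 0, 0, 0, 0, 0, 0, 0, ⟨0, 0⟩, 0⟩ 0 0)) (.pos 57 .pp ⟨16394445391, 23967005153, 0, 0, 0, 0, 0, 0, 0, ⟨0, 0⟩, 0⟩ 0 0)) (.pos 57 .pp ⟨29924021043, 47655890144, 0, 0, 0, 0, 0, 0, 0, ⟨0, 0⟩, 0⟩ 0 0))) (.pos 52 .pp ⟨3554201574, 1301428864, 0, 0, 0, 0, 0, 0, 0, ⟨0, 0⟩, 0⟩ 0 0)) (.cut .l 20556283 (.void 53 ⟨35707,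 64293, 0, 0, 0, 0, 0, 0, 0, ⟨0, 0⟩, 0⟩ 0 0) (.pos 53 .pp ⟨5343268022, 4451513700, 0, 0, 0, 0, 0, 0, 0, ⟨0, 0⟩, 0⟩ 0 0))) (.void 50 ⟨0, 100000, 0, 0, 0, 0, 0, 0, 0, ⟨0, 0⟩, 0⟩ 0 0)) (.void 50 ⟨0, 0, 0, 100000, 0, 0, 0, 0, 0, ⟨0, 0⟩, 0⟩ 0 0)) (.pos 50 .pp ⟨0, 4681779460, 0, 0, 0, 0, 0, 0, 0, ⟨0, 0⟩, 0⟩ 0 0)) (.void 51 ⟨0, 0, 0, 100000, 0, 0, 0, 0, 0, ⟨0, 0⟩, 0⟩ 0 0)) (.void 49 ⟨0, 0, 0, 100000, 0, 0, 0, 0, 0, ⟨0, 0⟩, 0⟩ 0 0))) (.void 43 ⟨0, 0, 0, 100000, 0, 0, 0, 0, 0, ⟨0, 0⟩, 0⟩ 0 0)))),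
    by decide +kernel⟩

def covers24 : cell.Covers table row24.1 :=
  ⟨(.cut .d 0 (.cut .v 16777216 (.cut .v 8388608 (.void 2 ⟨0, 0, 100000, 0, 0, 0, 0, 0, 0, ⟨0, 0⟩, 0⟩ 0 0) (.cut .d (-8388608) (.void 3 ⟨63475, 0, 36525, 0, 0, 0, 0, 0, 0, ⟨0, 0⟩, 0⟩ 0 0) (.cut .d (-4194304) (.void 3 ⟨63475, 0, 36525, 0, 0, 0, 0, 0, 0, ⟨0, 0⟩, 0⟩ 0 0) (.cut .d (-2097152) (.void 3 ⟨63475, 0, 36525, 0, 0, 0, 0, 0, 0, ⟨0, 0⟩, 0⟩ 0 0) (.cut .d (-1048576) (.pos 3 .mm ⟨3902588163, 0, 1469841197, 0, 0, 0, 0, 0, 0, ⟨0, 0⟩, 0⟩ 0 0) (.pos 3 .mm ⟨0, 0, 0, 0, 0, 792405142, 0, 0, 0, ⟨0, 0⟩, 0⟩ 0 0)))))) (.cut .v 268435456 (.cut .d (-8388608) (.void 8 ⟨100000, 0, 0, 0, 0, 0, 0, 0, 0,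 ⟨0, 0⟩, 0⟩ 0 0) (.cut .v 67108864 (.cut .v 33554432 (.cut .v 25165824 (.cut .d (-4194304) (.void 13 ⟨100000, 0, 0, 0, 0, 0, 0, 0, 0, ⟨0, 0⟩, 0⟩ 0 0) (.cut .d (-2097152) (.void 13 ⟨100000, 0, 0, 0, 0, 0, 0, 0, 0, ⟨0, 0⟩, 0⟩ 0 0) (.pos 13 .mp ⟨1166225001, 0, 0, 0, 0, 0, 0, 0, 0, ⟨0, 0⟩, 0⟩ 0 0))) (.pos 14 .mp ⟨2917925212, 0, 0, 0, 0, 0, 0, 0, 0, ⟨0, 0⟩, 0⟩ 0 0)) (.pos 12 .mp ⟨6195904507, 0, 0, 0, 0, 0, 0, 0, 0, ⟨0, 0⟩, 0⟩ 0 0)) (.pos 10 .mp ⟨49799861581, 25778999938, 0, 0, 0, 0, 0, 0, 0, ⟨0, 0⟩, 0⟩ 0 0))) (.void 43 ⟨92449, 0, 0, 7551, 0, 0, 0, 0, 0, ⟨0, 0⟩, 0⟩ 0 0))) (.cut .v 16777216 (.cut .v 8388608 (.cut .v 4194304 (.cut .v 2097152 (.cut .v 1048576 (.pos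 54 .pm ⟨0, 0, 40022651, 0, 0, 0, 0, 0, 0, ⟨0, 0⟩, 0⟩ 0 0) (.pos 55 .pm ⟨0, 0, 82460232, 0, 0, 0, 0, 0, 0, ⟨0, 0⟩, 0⟩ 0 0)) (.pos 47 .pm ⟨0, 0, 159318255, 0, 0, 0, 0, 0, 0, ⟨0, 0⟩, 0⟩ 0 0)) (.pos 5 .pm ⟨0, 0, 357963016, 0, 0, 0, 0, 0, 0, ⟨0, 0⟩, 0⟩ 0 0)) (.pos 3 .pm ⟨0, 0, 250565573, 0, 0, 0, 0, 0, 0, ⟨0, 0⟩, 0⟩ 0 0)) (.cut .v 268435456 (.cut .l 27690795 (.cut .v 67108864 (.cut .v 33554432 (.pos 11 .pp ⟨0, 0, 0, 0, 0, 0, 0, 0, 0, ⟨0, 0⟩, 0⟩ 0 0) (.pos 12 .pp ⟨1664952768, 0, 0, 0, 0, 0, 0, 0, 0, ⟨0, 0⟩, 0⟩ 0 0)) (.cut .v 134217728 (.cut .v 100663296 (.cut .v 83886080 (.cut .d 1113533 (.cut .v 75497472 (.cut .d 556766 (.cut .d 278383 (.pos 56 .pp ⟨19401216104,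 0, 0, 0, 0, 0, 0, 0, 0, ⟨0, 0⟩, 0⟩ 0 0) (.pos 56 .pp ⟨4854288027, 2578894365, 0, 0, 0, 0, 0, 0, 0, ⟨0, 0⟩, 0⟩ 0 0)) (.void 56 ⟨0, 100000, 0, 0, 0, 0, 0, 0, 0, ⟨0, 0⟩, 0⟩ 0 0)) (.pos 57 .pp ⟨57343836637, 98499208492, 0, 0, 0, 0, 0, 0, 0, ⟨0, 0⟩, 0⟩ 0 0)) (.void 52 ⟨0, 0, 0, 100000, 0, 0, 0, 0, 0, ⟨0, 0⟩, 0⟩ 0 0)) (.pos 53 .pp ⟨60644979553, 107127180447, 0, 0, 0, 0, 0, 0, 0, ⟨0, 0⟩, 0⟩ 0 0)) (.void 51 ⟨0, 0, 0, 100000, 0, 0, 0, 0, 0, ⟨0, 0⟩, 0⟩ 0 0)) (.void 49 ⟨0, 0, 0, 100000, 0, 0, 0, 0, 0, ⟨0, 0⟩, 0⟩ 0 0))) (.pos 8 .pp ⟨0, 0, 0, 0, 0, 0, 0, 0, 0, ⟨0, 0⟩, 0⟩ 0 0)) (.void 43 ⟨0, 0, 0, 100000, 0, 0, 0, 0, 0, ⟨0, 0⟩, 0⟩ 0 0)))),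
    by decide +kernel⟩

def covers25 : cell.Covers table row25.1 :=
  ⟨(.cut .d 0 (.cut .v 16777216 (.cut .v 8388608 (.void 2 ⟨0, 0, 100000, 0, 0, 0, 0, 0, 0, ⟨0, 0⟩, 0⟩ 0 0) (.cut .v 12582912 (.pos 6 .mm ⟨0, 0, 469296329, 0, 0, 1729898769, 0, 0, 0, ⟨0, 0⟩, 0⟩ 0 0) (.cut .d (-8388608) (.void 7 ⟨100000, 0, 0, 0, 0, 0, 0, 0, 0, ⟨0, 0⟩, 0⟩ 0 0) (.pos 7 .mm ⟨0, 0, 0, 0, 0, 2524273246, 0, 0, 0, ⟨0, 0⟩, 0⟩ 0 0)))) (.cut .v 268435456 (.cut .v 67108864 (.cut .v 33554432 (.cut .v 25165824 (.cut .d (-8388608) (.void 13 ⟨100000, 0, 0, 0, 0, 0, 0, 0, 0, ⟨0, 0⟩, 0⟩ 0 0) (.cut .v 20971520 (.pos 15 .mp ⟨0, 0, 0, 0, 0, 3188555988, 0, 0, 0, ⟨0, 0⟩, 0⟩ 0 0) (.pos 16 .mp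 ⟨2796870580, 0, 0, 0, 0, 0, 0, 0, 0, ⟨0, 0⟩, 0⟩ 0 0))) (.pos 14 .mp ⟨6498002553, 0, 0, 0, 0, 0, 0, 0, 0, ⟨0, 0⟩, 0⟩ 0 0)) (.pos 12 .mp ⟨13370566321, 0, 0, 0, 0, 0, 0, 0, 0, ⟨0, 0⟩, 0⟩ 0 0)) (.pos 10 .mp ⟨99712691540, 25013373779, 0, 0, 0, 0, 0, 0, 0, ⟨0, 0⟩, 0⟩ 0 0)) (.void 43 ⟨92358, 0, 0, 7642, 0, 0, 0, 0, 0, ⟨0, 0⟩, 0⟩ 0 0))) (.cut .v 16777216 (.cut .v 8388608 (.cut .v 4194304 (.cut .v 2097152 (.cut .v 1048576 (.pos 54 .pm ⟨0, 0, 48410435, 0, 0, 0, 0, 0, 0, ⟨0, 0⟩, 0⟩ 0 0) (.pos 55 .pm ⟨0, 0, 120795096, 0, 0, 0, 0, 0, 0, ⟨0, 0⟩, 0⟩ 0 0)) (.pos 47 .pm ⟨0, 0, 226163271, 0, 0, 0, 0, 0, 0, ⟨0, 0⟩, 0⟩ 0 0)) (.pos 5 .pm ⟨0, 0, 426935358, 0, 0, 0, 0, 0, 0,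 ⟨0, 0⟩, 0⟩ 0 0)) (.pos 3 .pm ⟨0, 0, 442427462, 0, 0, 0, 0, 0, 0, ⟨0, 0⟩, 0⟩ 0 0)) (.cut .v 268435456 (.cut .v 67108864 (.pos 9 .pp ⟨921826872, 0, 0, 0, 0, 0, 0, 0, 0, ⟨0, 0⟩, 0⟩ 0 0) (.cut .v 134217728 (.cut .v 100663296 (.cut .v 83886080 (.pos 52 .pp ⟨8136884458, 8246623162, 0, 0, 0, 0, 0, 0, 0, ⟨0, 0⟩, 0⟩ 0 0) (.pos 53 .pp ⟨61335832147, 106436327853, 0, 0, 0, 0, 0, 0, 0, ⟨0, 0⟩, 0⟩ 0 0)) (.void 51 ⟨0, 0, 0, 100000, 0, 0, 0, 0, 0, ⟨0, 0⟩, 0⟩ 0 0)) (.void 49 ⟨0, 0, 0, 100000, 0, 0, 0, 0, 0, ⟨0, 0⟩, 0⟩ 0 0))) (.void 43 ⟨0, 0, 0, 100000, 0, 0, 0, 0, 0, ⟨0, 0⟩, 0⟩ 0 0)))),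
    by decide +kernel⟩

def covers26 : cell.Covers table row26.1 :=
  ⟨(.cut .d 0 (.cut .v 16777216 (.cut .v 8388608 (.void 2 ⟨0, 0, 100000, 0, 0, 0, 0, 0, 0, ⟨0, 0⟩, 0⟩ 0 0) (.cut .d (-8388608) (.void 3 ⟨62893, 0, 37107, 0, 0, 0, 0, 0, 0, ⟨0, 0⟩, 0⟩ 0 0) (.cut .v 12582912 (.pos 6 .mm ⟨0, 0, 591983241, 0, 0, 2134985044, 0, 0, 0, ⟨0, 0⟩, 0⟩ 0 0) (.cut .s 15400960 (.pos 7 .mm ⟨0, 0, 0, 0, 0, 3022309493, 0, 0, 0, ⟨0, 0⟩, 0⟩ 0 0) (.pos 7 .mm ⟨0, 0, 0, 0, 0, 3633010229, 0, 0, 0, ⟨0, 0⟩, 0⟩ 0 0))))) (.cut .v 268435456 (.cut .v 67108864 (.cut .v 33554432 (.cut .d (-8388608) (.void 11 ⟨100000, 0, 0, 0, 0, 0, 0, 0, 0, ⟨0, 0⟩, 0⟩ 0 0) (.cut .v 25165824 (.cut .v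 20971520 (.cut .s 15400960 (.pos 15 .mp ⟨0, 0, 0, 0, 0, 3813564539, 0, 0, 0, ⟨0, 0⟩, 0⟩ 0 0) (.pos 15 .mp ⟨0, 0, 0, 0, 0, 4579147789, 0, 0, 0, ⟨0, 0⟩, 0⟩ 0 0)) (.pos 16 .mp ⟨3924333442, 0, 0, 0, 0, 0, 0, 0, 0, ⟨0, 0⟩, 0⟩ 0 0)) (.pos 14 .mp ⟨5260235016, 0, 0, 0, 0, 0, 0, 0, 0, ⟨0, 0⟩, 0⟩ 0 0))) (.pos 12 .mp ⟨18670512761, 0, 0, 0, 0, 0, 0, 0, 0, ⟨0, 0⟩, 0⟩ 0 0)) (.pos 10 .mp ⟨122684226620, 34911151408, 0, 0, 0, 0, 0, 0, 0, ⟨0, 0⟩, 0⟩ 0 0)) (.void 43 ⟨92237, 0, 0, 7763, 0, 0, 0, 0, 0, ⟨0, 0⟩, 0⟩ 0 0))) (.cut .v 16777216 (.cut .v 8388608 (.cut .v 4194304 (.cut .v 2097152 (.cut .v 1048576 (.pos 54 .pm ⟨0, 0, 66441938, 0, 0, 0, 0, 0, 0, ⟨0, 0⟩, 0⟩ 0 0) (.pos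 55 .pm ⟨0, 0, 162633930, 0, 0, 0, 0, 0, 0, ⟨0, 0⟩, 0⟩ 0 0)) (.pos 47 .pm ⟨0, 0, 299869779, 0, 0, 0, 0, 0, 0, ⟨0, 0⟩, 0⟩ 0 0)) (.pos 5 .pm ⟨0, 0, 553448525, 0, 0, 0, 0, 0, 0, ⟨0, 0⟩, 0⟩ 0 0)) (.pos 3 .pm ⟨0, 0, 564127599, 0, 0, 0, 0, 0, 0, ⟨0, 0⟩, 0⟩ 0 0)) (.cut .v 268435456 (.cut .v 67108864 (.pos 9 .pp ⟨1192379600, 0, 0, 0, 0, 0, 0, 0, 0, ⟨0, 0⟩, 0⟩ 0 0) (.cut .v 134217728 (.cut .v 100663296 (.cut .v 83886080 (.cut .v 75497472 (.pos 56 .pp ⟨5358316297, 0, 0, 0, 0, 0, 0, 0, 0, ⟨0, 0⟩, 0⟩ 0 0) (.pos 57 .pp ⟨12671870742, 13460555495, 0, 0, 0, 0, 0, 0, 0, ⟨0, 0⟩, 0⟩ 0 0)) (.pos 53 .pp ⟨143825429517, 0, 0, 23946730483, 0, 0, 0, 0, 0, ⟨0, 0⟩, 0⟩ 0 0)) (.void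 51 ⟨0, 0, 0, 100000, 0, 0, 0, 0, 0, ⟨0, 0⟩, 0⟩ 0 0)) (.void 49 ⟨0, 0, 0, 100000, 0, 0, 0, 0, 0, ⟨0, 0⟩, 0⟩ 0 0))) (.void 43 ⟨0, 0, 0, 100000, 0, 0, 0, 0, 0, ⟨0, 0⟩, 0⟩ 0 0)))),
    by decide +kernel⟩

def covers27 : cell.Covers table row27.1 :=
  ⟨(.cut .d 0 (.cut .v 16777216 (.cut .v 8388608 (.void 2 ⟨0, 0, 100000, 0, 0, 0, 0, 0, 0, ⟨0, 0⟩, 0⟩ 0 0) (.cut .d (-8388608) (.void 3 ⟨100000, 0, 0, 0, 0, 0, 0, 0, 0, ⟨0, 0⟩, 0⟩ 0 0) (.cut .v 12582912 (.pos 6 .mm ⟨0, 0, 839547237, 0, 0, 3165458070, 0, 0, 0, ⟨0, 0⟩, 0⟩ 0 0) (.cut .s 15654912 (.pos 7 .mm ⟨0, 0, 0, 0, 0, 4378784348, 0, 0, 0, ⟨0, 0⟩, 0⟩ 0 0) (.pos 7 .mm ⟨0, 0, 0, 0, 0, 5336875900, 0, 0, 0, ⟨0, 0⟩,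 0⟩ 0 0))))) (.cut .v 268435456 (.cut .d (-8388608) (.void 8 ⟨100000, 0, 0, 0, 0, 0, 0, 0, 0, ⟨0, 0⟩, 0⟩ 0 0) (.cut .v 67108864 (.cut .v 33554432 (.cut .v 25165824 (.cut .v 20971520 (.cut .s 15654912 (.pos 15 .mp ⟨0, 0, 0, 0, 0, 5513779327, 0, 0, 0, ⟨0, 0⟩, 0⟩ 0 0) (.pos 15 .mp ⟨0, 0, 0, 0, 0, 6713629972, 0, 0, 0, ⟨0, 0⟩, 0⟩ 0 0)) (.pos 16 .mp ⟨5673702485, 0, 0, 0, 0, 0, 0, 0, 0, ⟨0, 0⟩, 0⟩ 0 0)) (.pos 14 .mp ⟨7597252556, 0, 0, 0, 0, 0, 0, 0, 0, ⟨0, 0⟩, 0⟩ 0 0)) (.pos 12 .mp ⟨15667537300, 0, 0, 0, 0, 0, 0, 0, 0, ⟨0, 0⟩, 0⟩ 0 0)) (.pos 10 .mp ⟨139657658396, 24520782501, 0, 3593719103, 0, 0, 0, 0, 0, ⟨0, 0⟩, 0⟩ 0 0))) (.void 43 ⟨92124, 0, 0, 7876, 0, 0, 0,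 0, 0, ⟨0, 0⟩, 0⟩ 0 0))) (.cut .v 16777216 (.cut .v 8388608 (.cut .v 4194304 (.cut .v 2097152 (.cut .v 1048576 (.cut .v 524288 (.pos 68 .pm ⟨0, 0, 51202936, 0, 0, 0, 0, 0, 0, ⟨0, 0⟩, 0⟩ 0 0) (.pos 69 .pm ⟨0, 0, 129484794, 0, 0, 0, 0, 0, 0, ⟨0, 0⟩, 0⟩ 0 0)) (.pos 55 .pm ⟨0, 0, 238339928, 0, 0, 0, 0, 0, 0, ⟨0, 0⟩, 0⟩ 0 0)) (.pos 47 .pm ⟨0, 0, 442161950, 0, 0, 0, 0, 0, 0, ⟨0, 0⟩, 0⟩ 0 0)) (.pos 5 .pm ⟨0, 0, 813987099, 0, 0, 0, 0, 0, 0, ⟨0, 0⟩, 0⟩ 0 0)) (.pos 3 .pm ⟨0, 0, 805401404, 0, 0, 0, 0, 0, 0, ⟨0, 0⟩, 0⟩ 0 0)) (.cut .v 268435456 (.cut .v 67108864 (.pos 9 .pp ⟨1723688875, 0, 0, 0, 0, 0, 0, 0, 0, ⟨0, 0⟩, 0⟩ 0 0) (.cut .v 134217728 (.cut .v 100663296 (.cut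 .v 83886080 (.cut .v 75497472 (.pos 56 .pp ⟨7590772753, 0, 0, 0, 0, 0, 0, 0, 0, ⟨0, 0⟩, 0⟩ 0 0) (.pos 57 .pp ⟨18139407790, 19631428545, 0, 0, 0, 0, 0, 0, 0, ⟨0, 0⟩, 0⟩ 0 0)) (.pos 53 .pp ⟨144143185467, 0, 0, 23628974533, 0, 0, 0, 0, 0, ⟨0, 0⟩, 0⟩ 0 0)) (.void 51 ⟨0, 0, 0, 100000, 0, 0, 0, 0, 0, ⟨0, 0⟩, 0⟩ 0 0)) (.void 49 ⟨0, 0, 0, 100000, 0, 0, 0, 0, 0, ⟨0, 0⟩, 0⟩ 0 0))) (.void 43 ⟨0, 0, 0, 100000, 0, 0, 0, 0, 0, ⟨0, 0⟩, 0⟩ 0 0)))),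
    by decide +kernel⟩

def covers28 : cell.Covers table row28.1 :=
  ⟨(.cut .d 0 (.cut .v 16777216 (.cut .v 8388608 (.void 2 ⟨0, 0, 100000, 0, 0, 0, 0, 0, 0, ⟨0, 0⟩, 0⟩ 0 0) (.cut .d (-8388608) (.void 3 ⟨100000, 0, 0, 0, 0, 0, 0, 0, 0, ⟨0, 0⟩, 0⟩ 0 0) (.cut .v 12582912 (.pos 6 .mm ⟨0, 0, 1208559010, 0, 0, 4534281576, 0, 0, 0, ⟨0, 0⟩, 0⟩ 0 0) (.cut .s 15876096 (.pos 7 .mm ⟨0, 0, 0, 0, 0, 6350168603, 0, 0, 0, ⟨0, 0⟩, 0⟩ 0 0) (.pos 7 .mm ⟨0, 0, 0, 0, 0, 7650653124, 0, 0, 0, ⟨0, 0⟩, 0⟩ 0 0))))) (.cut .v 268435456 (.cut .d (-8388608) (.void 8 ⟨100000, 0, 0, 0, 0, 0, 0, 0, 0, ⟨0, 0⟩, 0⟩ 0 0) (.cut .d (-4194304) (.void 8 ⟨100000, 0, 0, 0, 0, 0, 0, 0, 0, ⟨0,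 0⟩, 0⟩ 0 0) (.cut .v 67108864 (.cut .v 33554432 (.cut .v 25165824 (.cut .v 20971520 (.pos 15 .mp ⟨5181723887, 0, 0, 0, 0, 0, 0, 0, 0, ⟨0, 0⟩, 0⟩ 0 0) (.pos 16 .mp ⟨6297308232, 0, 0, 0, 0, 0, 0, 0, 0, ⟨0, 0⟩, 0⟩ 0 0)) (.pos 14 .mp ⟨8425599542, 0, 0, 0, 0, 0, 0, 0, 0, ⟨0, 0⟩, 0⟩ 0 0)) (.pos 12 .mp ⟨17533255339, 0, 0, 0, 0, 0, 0, 0, 0, ⟨0, 0⟩, 0⟩ 0 0)) (.pos 10 .mp ⟨158713458575, 0, 0, 9058701425, 0, 0, 0, 0, 0, ⟨0, 0⟩, 0⟩ 0 0)))) (.void 43 ⟨92034, 0, 0, 7966, 0, 0, 0, 0, 0, ⟨0, 0⟩, 0⟩ 0 0))) (.cut .v 16777216 (.cut .v 8388608 (.cut .v 4194304 (.cut .v 2097152 (.cut .v 1048576 (.cut .v 524288 (.pos 68 .pm ⟨0, 0, 71454732, 0, 0, 0, 0, 0, 0, ⟨0, 0⟩, 0⟩ 0 0)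 (.pos 69 .pm ⟨0, 0, 185611010, 0, 0, 0, 0, 0, 0, ⟨0, 0⟩, 0⟩ 0 0)) (.pos 55 .pm ⟨0, 0, 346597304, 0, 0, 0, 0, 0, 0, ⟨0, 0⟩, 0⟩ 0 0)) (.pos 47 .pm ⟨0, 0, 650806097, 0, 0, 0, 0, 0, 0, ⟨0, 0⟩, 0⟩ 0 0)) (.pos 5 .pm ⟨0, 0, 1206086736, 0, 0, 0, 0, 0, 0, ⟨0, 0⟩, 0⟩ 0 0)) (.pos 3 .pm ⟨0, 0, 1158499640, 0, 0, 0, 0, 0, 0, ⟨0, 0⟩, 0⟩ 0 0)) (.cut .v 268435456 (.cut .v 67108864 (.pos 9 .pp ⟨2524412119, 0, 0, 0, 0, 0, 0, 0, 0, ⟨0, 0⟩, 0⟩ 0 0) (.cut .v 134217728 (.cut .v 100663296 (.cut .v 83886080 (.cut .v 75497472 (.pos 56 .pp ⟨10896791872, 0, 0, 0, 0, 0, 0, 0, 0, ⟨0, 0⟩, 0⟩ 0 0) (.pos 57 .pp ⟨25720636836, 27843390154, 0, 0, 0, 0, 0, 0, 0, ⟨0, 0⟩, 0⟩ 0 0)) (.pos 53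 .pp ⟨144638922302, 0, 0, 23133237698, 0, 0, 0, 0, 0, ⟨0, 0⟩, 0⟩ 0 0)) (.void 51 ⟨0, 0, 0, 100000, 0, 0, 0, 0, 0, ⟨0, 0⟩, 0⟩ 0 0)) (.void 49 ⟨0, 0, 0, 100000, 0, 0, 0, 0, 0, ⟨0, 0⟩, 0⟩ 0 0))) (.void 43 ⟨0, 0, 0, 100000, 0, 0, 0, 0, 0, ⟨0, 0⟩, 0⟩ 0 0)))),
    by decide +kernel⟩

def covers29 : cell.Covers table row29.1 :=
  ⟨(.cut .d 0 (.cut .v 16777216 (.cut .v 8388608 (.void 2 ⟨0, 0, 100000, 0, 0, 0, 0, 0, 0, ⟨0, 0⟩, 0⟩ 0 0) (.cut .d (-8388608) (.void 3 ⟨100000, 0, 0, 0, 0, 0, 0, 0, 0, ⟨0, 0⟩, 0⟩ 0 0) (.cut .v 12582912 (.pos 6 .mm ⟨0, 0, 1721908557, 0, 0, 6499722587, 0, 0, 0, ⟨0, 0⟩, 0⟩ 0 0) (.cut .s 16056320 (.pos 7 .mm ⟨0, 0, 0, 0, 0, 9087092596, 0,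 0, 0, ⟨0, 0⟩, 0⟩ 0 0) (.pos 7 .mm ⟨0, 0, 0, 0, 0, 10952586643, 0, 0, 0, ⟨0, 0⟩, 0⟩ 0 0))))) (.cut .v 268435456 (.cut .d (-8388608) (.void 8 ⟨100000, 0, 0, 0, 0, 0, 0, 0, 0, ⟨0, 0⟩, 0⟩ 0 0) (.cut .d (-4194304) (.void 8 ⟨100000, 0, 0, 0, 0, 0, 0, 0, 0, ⟨0, 0⟩, 0⟩ 0 0) (.cut .d (-2097152) (.void 8 ⟨100000, 0, 0, 0, 0, 0, 0, 0, 0, ⟨0, 0⟩, 0⟩ 0 0) (.cut .d (-1048576) (.void 8 ⟨100000, 0, 0, 0, 0, 0, 0, 0, 0, ⟨0, 0⟩, 0⟩ 0 0) (.cut .v 67108864 (.cut .v 33554432 (.cut .d (-524288) (.pos 11 .mp ⟨40820126976, 0, 0, 0, 0, 0, 0, 0, 0, ⟨0, 0⟩, 0⟩ 0 0) (.pos 11 .mp ⟨6489930209, 0, 0, 0, 0, 0, 0, 0, 0, ⟨0, 0⟩, 0⟩ 0 0)) (.pos 12 .mp ⟨20989078213, 0, 0, 0, 0, 0, 0, 0,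 0, ⟨0, 0⟩, 0⟩ 0 0)) (.cut .v 134217728 (.pos 48 .mp ⟨164991511925, 0, 0, 2780648075, 0, 0, 0, 0, 0, ⟨0, 0⟩, 0⟩ 0 0) (.void 49 ⟨85512, 0, 0, 14488, 0, 0, 0, 0, 0, ⟨0, 0⟩, 0⟩ 0 0))))))) (.void 43 ⟨91959, 0, 0, 8041, 0, 0, 0, 0, 0, ⟨0, 0⟩, 0⟩ 0 0))) (.cut .v 16777216 (.cut .v 8388608 (.cut .v 4194304 (.cut .v 2097152 (.cut .v 1048576 (.cut .v 524288 (.pos 68 .pm ⟨0, 0, 101408340, 0, 0, 0, 0, 0, 0, ⟨0, 0⟩, 0⟩ 0 0) (.pos 69 .pm ⟨0, 0, 265716245, 0, 0, 0, 0, 0, 0, ⟨0, 0⟩, 0⟩ 0 0)) (.pos 55 .pm ⟨0, 0, 502278418, 0, 0, 0, 0, 0, 0, ⟨0, 0⟩, 0⟩ 0 0)) (.pos 47 .pm ⟨0, 0, 948156011, 0, 0, 0, 0, 0, 0, ⟨0, 0⟩, 0⟩ 0 0)) (.pos 5 .pm ⟨0, 0, 1758834300, 0, 0, 0, 0, 0, 0,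 ⟨0, 0⟩, 0⟩ 0 0)) (.pos 3 .pm ⟨0, 0, 1648455909, 0, 0, 0, 0, 0, 0, ⟨0, 0⟩, 0⟩ 0 0)) (.cut .v 268435456 (.cut .v 67108864 (.pos 9 .pp ⟨3625465919, 0, 0, 0, 0, 0, 0, 0, 0, ⟨0, 0⟩, 0⟩ 0 0) (.cut .v 134217728 (.cut .v 100663296 (.cut .v 83886080 (.cut .v 75497472 (.pos 56 .pp ⟨15494387416, 0, 0, 0, 0, 0, 0, 0, 0, ⟨0, 0⟩, 0⟩ 0 0) (.cut .s 16056320 (.pos 57 .pp ⟨32405458160, 32275343672, 0, 0, 0, 0, 0, 0, 0, ⟨0, 0⟩, 0⟩ 0 0) (.pos 57 .pp ⟨38407633613, 38966540887, 0, 0, 0, 0, 0, 0, 0, ⟨0, 0⟩, 0⟩ 0 0))) (.pos 53 .pp ⟨145379845252, 0, 0, 22392314748, 0, 0, 0, 0, 0, ⟨0, 0⟩, 0⟩ 0 0)) (.void 51 ⟨0, 0, 0, 100000, 0, 0, 0, 0, 0, ⟨0, 0⟩, 0⟩ 0 0)) (.void 49 ⟨0, 0, 0, 100000,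 0, 0, 0, 0, 0, ⟨0, 0⟩, 0⟩ 0 0))) (.void 43 ⟨0, 0, 0, 100000, 0, 0, 0, 0, 0, ⟨0, 0⟩, 0⟩ 0 0)))),
    by decide +kernel⟩

def covers30 : cell.Covers table row30.1 :=
  ⟨(.cut .d 0 (.cut .v 16777216 (.cut .v 8388608 (.void 2 ⟨0, 0, 100000, 0, 0, 0, 0, 0, 0, ⟨0, 0⟩, 0⟩ 0 0) (.cut .d (-8388608) (.void 3 ⟨100000, 0, 0, 0, 0, 0, 0, 0, 0, ⟨0, 0⟩, 0⟩ 0 0) (.cut .v 12582912 (.pos 6 .mm ⟨0, 0, 2444056322, 0, 0, 9214919051, 0, 0, 0, ⟨0, 0⟩, 0⟩ 0 0) (.cut .s 16203776 (.pos 7 .mm ⟨0, 0, 0, 0, 0, 12940018747, 0, 0, 0, ⟨0, 0⟩, 0⟩ 0 0) (.pos 7 .mm ⟨0, 0, 0, 0, 0, 15532012328, 0, 0, 0, ⟨0, 0⟩, 0⟩ 0 0))))) (.cut .v 268435456 (.cut .d (-8388608) (.void 8 ⟨100000, 0, 0, 0,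 0, 0, 0, 0, 0, ⟨0, 0⟩, 0⟩ 0 0) (.cut .d (-4194304) (.void 8 ⟨100000, 0, 0, 0, 0, 0, 0, 0, 0, ⟨0, 0⟩, 0⟩ 0 0) (.cut .d (-2097152) (.void 8 ⟨100000, 0, 0, 0, 0, 0, 0, 0, 0, ⟨0, 0⟩, 0⟩ 0 0) (.cut .d (-1048576) (.void 8 ⟨100000, 0, 0, 0, 0, 0, 0, 0, 0, ⟨0, 0⟩, 0⟩ 0 0) (.cut .d (-524288) (.void 8 ⟨100000, 0, 0, 0, 0, 0, 0, 0, 0, ⟨0, 0⟩, 0⟩ 0 0) (.cut .v 67108864 (.cut .v 33554432 (.pos 11 .mp ⟨10100216880, 0, 0, 0, 0, 0, 0, 0, 0, ⟨0, 0⟩, 0⟩ 0 0) (.pos 12 .mp ⟨28671558136, 0, 0, 0, 0, 0, 0, 0, 0, ⟨0, 0⟩, 0⟩ 0 0)) (.cut .v 134217728 (.pos 48 .mp ⟨161635653816, 0, 0, 6136506184, 0, 0, 0, 0, 0, ⟨0, 0⟩, 0⟩ 0 0) (.void 49 ⟨85211, 0, 0, 14789, 0, 0, 0, 0, 0, ⟨0, 0⟩,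 0⟩ 0 0)))))))) (.void 43 ⟨91899, 0, 0, 8101, 0, 0, 0, 0, 0, ⟨0, 0⟩, 0⟩ 0 0))) (.cut .v 16777216 (.cut .v 8388608 (.cut .v 4194304 (.cut .v 2097152 (.cut .v 1048576 (.cut .v 524288 (.cut .v 262144 (.pos 70 .pm ⟨0, 0, 77857364, 0, 0, 0, 0, 0, 0, ⟨0, 0⟩, 0⟩ 0 0) (.pos 71 .pm ⟨0, 0, 196204639, 0, 0, 0, 0, 0, 0, ⟨0, 0⟩, 0⟩ 0 0)) (.pos 69 .pm ⟨0, 0, 378987876, 0, 0, 0, 0, 0, 0, ⟨0, 0⟩, 0⟩ 0 0)) (.pos 55 .pm ⟨0, 0, 721833343, 0, 0, 0, 0, 0, 0, ⟨0, 0⟩, 0⟩ 0 0)) (.pos 47 .pm ⟨0, 0, 1369389740, 0, 0, 0, 0, 0, 0, ⟨0, 0⟩, 0⟩ 0 0)) (.pos 5 .pm ⟨0, 0, 2546197655, 0, 0, 0, 0, 0, 0, ⟨0, 0⟩, 0⟩ 0 0)) (.pos 3 .pm ⟨0, 0, 2337754034, 0, 0, 0, 0, 0, 0, ⟨0, 0⟩, 0⟩ 0 0)) (.cut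 .v 268435456 (.cut .v 67108864 (.pos 9 .pp ⟨5205279009, 0, 0, 0, 0, 0, 0, 0, 0, ⟨0, 0⟩, 0⟩ 0 0) (.cut .v 134217728 (.cut .v 100663296 (.cut .v 83886080 (.cut .v 75497472 (.pos 56 .pp ⟨22020711832, 0, 0, 0, 0, 0, 0, 0, 0, ⟨0, 0⟩, 0⟩ 0 0) (.cut .s 16203776 (.pos 57 .pp ⟨45936243089, 45895890226, 0, 0, 0, 0, 0, 0, 0, ⟨0, 0⟩, 0⟩ 0 0) (.pos 57 .pp ⟨54342916629, 55246041649, 0, 0, 0, 0, 0, 0, 0, ⟨0, 0⟩, 0⟩ 0 0))) (.pos 53 .pp ⟨146473974255, 0, 0, 21298185745, 0, 0, 0, 0, 0, ⟨0, 0⟩, 0⟩ 0 0)) (.void 51 ⟨0, 0, 0, 100000, 0, 0, 0, 0, 0, ⟨0, 0⟩, 0⟩ 0 0)) (.void 49 ⟨0, 0, 0, 100000, 0, 0, 0, 0, 0, ⟨0, 0⟩, 0⟩ 0 0))) (.void 43 ⟨0, 0, 0, 100000, 0, 0, 0, 0, 0, ⟨0, 0⟩,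 0⟩ 0 0)))),
    by decide +kernel⟩

def covers31 : cell.Covers table row31.1 :=
  ⟨(.cut .d 0 (.cut .v 16777216 (.cut .v 8388608 (.pos 2 .mm ⟨0, 0, 167772160000, 0, 0, 0, 0, 0, 0, ⟨0, 0⟩, 0⟩ 0 0) (.cut .d (-8388608) (.void 3 ⟨100000, 0, 0, 0, 0, 0, 0, 0, 0, ⟨0, 0⟩, 0⟩ 0 0) (.cut .s 16318464 (.cut .v 12582912 (.pos 6 .mm ⟨0, 0, 3450475715, 0, 0, 10024244567, 0, 0, 0, ⟨0, 0⟩, 0⟩ 0 0) (.pos 7 .mm ⟨0, 0, 0, 0, 0, 17900708702, 0, 0, 0, ⟨0, 0⟩, 0⟩ 0 0)) (.pos 3 .mm ⟨5611543305, 0, 8124105949, 0, 0, 4926572484, 0, 0, 0, ⟨0, 0⟩, 0⟩ 0 0)))) (.cut .v 268435456 (.cut .d (-8388608) (.void 8 ⟨100000, 0, 0, 0, 0, 0, 0, 0, 0, ⟨0, 0⟩, 0⟩ 0 0) (.cut .d (-4194304) (.void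 8 ⟨100000, 0, 0, 0, 0, 0, 0, 0, 0, ⟨0, 0⟩, 0⟩ 0 0) (.cut .d (-2097152) (.void 8 ⟨100000, 0, 0, 0, 0, 0, 0, 0, 0, ⟨0, 0⟩, 0⟩ 0 0) (.cut .d (-1048576) (.void 8 ⟨100000, 0, 0, 0, 0, 0, 0, 0, 0, ⟨0, 0⟩, 0⟩ 0 0) (.cut .d (-524288) (.void 8 ⟨100000, 0, 0, 0, 0, 0, 0, 0, 0, ⟨0, 0⟩, 0⟩ 0 0) (.cut .v 67108864 (.cut .v 33554432 (.pos 11 .mp ⟨10799852586, 0, 0, 0, 0, 0, 0, 0, 0, ⟨0, 0⟩, 0⟩ 0 0) (.pos 12 .mp ⟨29753204408, 0, 0, 0, 0, 0, 0, 0, 0, ⟨0, 0⟩, 0⟩ 0 0)) (.cut .v 134217728 (.pos 48 .mp ⟨161636018856, 0, 0, 6136141144, 0, 0, 0, 0, 0, ⟨0, 0⟩, 0⟩ 0 0) (.void 49 ⟨85135, 0, 0, 14865, 0, 0, 0, 0, 0, ⟨0, 0⟩, 0⟩ 0 0)))))))) (.void 43 ⟨91854, 0, 0, 8146, 0, 0, 0, 0,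 0, ⟨0, 0⟩, 0⟩ 0 0))) (.cut .v 16777216 (.cut .v 8388608 (.cut .v 4194304 (.cut .v 2097152 (.cut .v 1048576 (.cut .v 524288 (.cut .v 262144 (.pos 70 .pm ⟨0, 0, 79721388, 0, 0, 0, 0, 0, 0, ⟨0, 0⟩, 0⟩ 0 0) (.pos 71 .pm ⟨0, 0, 211271402, 0, 0, 0, 0, 0, 0, ⟨0, 0⟩, 0⟩ 0 0)) (.pos 69 .pm ⟨0, 0, 419298565, 0, 0, 0, 0, 0, 0, ⟨0, 0⟩, 0⟩ 0 0)) (.pos 55 .pm ⟨0, 0, 837813208, 0, 0, 0, 0, 0, 0, ⟨0, 0⟩, 0⟩ 0 0)) (.pos 47 .pm ⟨0, 0, 1675193322, 0, 0, 0, 0, 0, 0, ⟨0, 0⟩, 0⟩ 0 0)) (.pos 5 .pm ⟨0, 0, 3392974523, 0, 0, 0, 0, 0, 0, ⟨0, 0⟩, 0⟩ 0 0)) (.pos 3 .pm ⟨0, 0, 3299163495, 0, 0, 0, 0, 0, 0, ⟨0, 0⟩, 0⟩ 0 0)) (.cut .v 268435456 (.cut .v 67108864 (.pos 9 .pp ⟨7186663092,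 0, 0, 0, 0, 0, 0, 0, 0, ⟨0, 0⟩, 0⟩ 0 0) (.cut .v 134217728 (.cut .v 100663296 (.cut .v 83886080 (.pos 52 .pp ⟨51422887217, 46782720670, 0, 0, 0, 0, 0, 0, 0, ⟨0, 0⟩, 0⟩ 0 0) (.pos 53 .pp ⟨147568706759, 0, 0, 20203453241, 0, 0, 0, 0, 0, ⟨0, 0⟩, 0⟩ 0 0)) (.void 51 ⟨0, 0, 0, 100000, 0, 0, 0, 0, 0, ⟨0, 0⟩, 0⟩ 0 0)) (.void 49 ⟨0, 0, 0, 100000, 0, 0, 0, 0, 0, ⟨0, 0⟩, 0⟩ 0 0))) (.void 43 ⟨0, 0, 0, 100000, 0, 0, 0, 0, 0, ⟨0, 0⟩, 0⟩ 0 0)))),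
    by decide +kernel⟩

def covers32 : cell.Covers table row32.1 :=
  ⟨(.cut .d 0 (.cut .v 16777216 (.cut .v 8388608 (.pos 2 .mm ⟨0, 0, 167772160000, 0, 0, 0, 0, 0, 0, ⟨0, 0⟩, 0⟩ 0 0) (.cut .d (-8388608) (.void 3 ⟨100000, 0, 0, 0, 0, 0, 0, 0, 0, ⟨0, 0⟩, 0⟩ 0 0) (.pos 3 .mm ⟨10774303509, 0, 13733029534, 0, 0, 0, 0, 0, 0, ⟨0, 0⟩, 0⟩ 0 0))) (.cut .v 4294967296 (.cut .v 268435456 (.cut .d (-8388608) (.void 8 ⟨100000, 0, 0, 0, 0, 0, 0, 0, 0, ⟨0, 0⟩, 0⟩ 0 0) (.cut .d (-4194304) (.void 8 ⟨100000, 0, 0, 0, 0, 0, 0, 0, 0, ⟨0, 0⟩, 0⟩ 0 0) (.cut .d (-2097152) (.void 8 ⟨100000, 0, 0, 0, 0, 0, 0, 0, 0, ⟨0, 0⟩, 0⟩ 0 0) (.cut .d (-1048576) (.void 8 ⟨100000, 0, 0, 0,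 0, 0, 0, 0, 0, ⟨0, 0⟩, 0⟩ 0 0) (.cut .d (-524288) (.void 8 ⟨100000, 0, 0, 0, 0, 0, 0, 0, 0, ⟨0, 0⟩, 0⟩ 0 0) (.cut .v 67108864 (.cut .v 33554432 (.pos 11 .mp ⟨17876658439, 0, 0, 0, 0, 0, 0, 0, 0, ⟨0, 0⟩, 0⟩ 0 0) (.pos 12 .mp ⟨46340737695, 0, 0, 0, 0, 0, 0, 0, 0, ⟨0, 0⟩, 0⟩ 0 0)) (.cut .v 134217728 (.pos 48 .mp ⟨153760023755, 7335467969, 0, 6676668276, 0, 0, 0, 0, 0, ⟨0, 0⟩, 0⟩ 0 0) (.void 49 ⟨85072, 0, 0, 14928, 0, 0, 0, 0, 0, ⟨0, 0⟩, 0⟩ 0 0)))))))) (.void 43 ⟨91816, 0, 0, 8184, 0, 0, 0, 0, 0, ⟨0, 0⟩, 0⟩ 0 0)) (.void 74 ⟨91910, 0, 0, 8011, 0, 0, 0, 0, 0, ⟨0, 0⟩, 0⟩ 0 0))) (.cut .v 16777216 (.cut .v 8388608 (.cut .v 4194304 (.cut .v 2097152 (.cut .v 1048576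 (.cut .v 524288 (.pos 68 .pm ⟨0, 0, 219691844, 0, 0, 0, 0, 0, 0, ⟨0, 0⟩, 0⟩ 0 0) (.pos 69 .pm ⟨0, 0, 669007021, 0, 0, 0, 0, 0, 0, ⟨0, 0⟩, 0⟩ 0 0)) (.pos 55 .pm ⟨0, 0, 1286501556, 0, 0, 0, 0, 0, 0, ⟨0, 0⟩, 0⟩ 0 0)) (.pos 47 .pm ⟨0, 0, 2453486509, 0, 0, 0, 0, 0, 0, ⟨0, 0⟩, 0⟩ 0 0)) (.pos 5 .pm ⟨0, 0, 4660256408, 0, 0, 0, 0, 0, 0, ⟨0, 0⟩, 0⟩ 0 0)) (.pos 3 .pm ⟨0, 0, 8829384968, 0, 0, 0, 0, 0, 0, ⟨0, 0⟩, 0⟩ 0 0)) (.cut .v 4294967296 (.cut .v 268435456 (.cut .v 67108864 (.pos 9 .pp ⟨0, 0, 0, 0, 0, 0, 0, 0, 0, ⟨0, 0⟩, 0⟩ 0 0) (.cut .v 134217728 (.pos 48 .pp ⟨98054296596, 64855784817, 0, 4862078586, 0, 0, 0, 0, 0, ⟨0, 0⟩, 0⟩ 0 0) (.void 49 ⟨0, 0, 0, 100000, 0,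 0, 0, 0, 0, ⟨0, 0⟩, 0⟩ 0 0))) (.void 43 ⟨0, 0, 0, 100000, 0, 0, 0, 0, 0, ⟨0, 0⟩, 0⟩ 0 0)) (.void 74 ⟨0, 0, 0, 100000, 0, 0, 0, 0, 0, ⟨0, 0⟩, 0⟩ 0 0)))),
    by decide +kernel⟩

def covers33 : cell.Covers table row33.1 :=
  ⟨(.cut .d 0 (.cut .v 16777216 (.cut .v 8388608 (.void 2 ⟨0, 0, 134877, 0, 0, 0, 0, 0, 0, ⟨0, 0⟩, 0⟩ 0 0) (.cut .d (-8388608) (.void 3 ⟨99970, 0, 0, 0, 0, 0, 0, 0, 0, ⟨0, 0⟩, 0⟩ 0 0) (.pos 3 .mm ⟨14323691805, 0, 19022733273, 0, 0, 800740595, 0, 0, 0, ⟨0, 0⟩, 0⟩ 0 0))) (.cut .v 4294967296 (.cut .v 268435456 (.cut .d (-8388608) (.void 8 ⟨100000, 0, 0, 0, 0, 0, 0, 0, 0, ⟨0, 0⟩, 0⟩ 0 0) (.cut .d (-4194304) (.void 8 ⟨100000, 0, 0, 0, 0, 0,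 0, 0, 0, ⟨0, 0⟩, 0⟩ 0 0) (.cut .d (-2097152) (.void 8 ⟨100000, 0, 0, 0, 0, 0, 0, 0, 0, ⟨0, 0⟩, 0⟩ 0 0) (.cut .d (-1048576) (.void 8 ⟨100000, 0, 0, 0, 0, 0, 0, 0, 0, ⟨0, 0⟩, 0⟩ 0 0) (.cut .d (-524288) (.void 8 ⟨100000, 0, 0, 0, 0, 0, 0, 0, 0, ⟨0, 0⟩, 0⟩ 0 0) (.cut .d (-262144) (.void 8 ⟨100000, 0, 0, 0, 0, 0, 0, 0, 0, ⟨0, 0⟩, 0⟩ 0 0) (.cut .v 67108864 (.pos 9 .mp ⟨37492853719, 0, 0, 0, 0, 0, 0, 0, 0, ⟨0, 0⟩, 0⟩ 0 0) (.cut .v 134217728 (.pos 48 .mp ⟨165512941832, 0, 0, 2259218168, 0, 0, 0, 0, 0, ⟨0, 0⟩, 0⟩ 0 0) (.void 49 ⟨84920, 0, 0, 15080, 0, 0, 0, 0, 0, ⟨0, 0⟩, 0⟩ 0 0))))))))) (.void 43 ⟨91786, 0, 0, 8214, 0, 0, 0, 0, 0, ⟨0, 0⟩, 0⟩ 0 0)) (.void 74 ⟨91802,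 0, 0, 8199, 0, 0, 0, 0, 0, ⟨0, 0⟩, 0⟩ 0 0))) (.cut .v 16777216 (.cut .v 8388608 (.cut .v 4194304 (.cut .v 2097152 (.cut .v 1048576 (.cut .v 524288 (.cut .v 262144 (.pos 70 .pm ⟨0, 0, 147631643, 0, 0, 0, 0, 0, 0, ⟨0, 0⟩, 0⟩ 0 0) (.pos 71 .pm ⟨0, 0, 482573938, 0, 0, 0, 0, 0, 0, ⟨0, 0⟩, 0⟩ 0 0)) (.pos 69 .pm ⟨0, 0, 931089384, 0, 0, 0, 0, 0, 0, ⟨0, 0⟩, 0⟩ 0 0)) (.pos 55 .pm ⟨0, 0, 1796354517, 0, 0, 0, 0, 0, 0, ⟨0, 0⟩, 0⟩ 0 0)) (.pos 47 .pm ⟨0, 0, 3431613078, 0, 0, 0, 0, 0, 0, ⟨0, 0⟩, 0⟩ 0 0)) (.pos 5 .pm ⟨0, 0, 6524479824, 0, 0, 0, 0, 0, 0, ⟨0, 0⟩, 0⟩ 0 0)) (.pos 3 .pm ⟨0, 0, 12862948698, 0, 0, 0, 0, 0, 0, ⟨0, 0⟩, 0⟩ 0 0)) (.cut .v 4294967296 (.cut .v 268435456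 (.cut .v 67108864 (.pos 9 .pp ⟨0, 0, 0, 0, 0, 0, 0, 0, 0, ⟨0, 0⟩, 0⟩ 0 0) (.cut .v 134217728 (.pos 48 .pp ⟨132939651261, 22507775303, 0, 12324733436, 0, 0, 0, 0, 0, ⟨0, 0⟩, 0⟩ 0 0) (.void 49 ⟨0, 0, 0, 100000, 0, 0, 0, 0, 0, ⟨0, 0⟩, 0⟩ 0 0))) (.void 43 ⟨0, 0, 0, 100000, 0, 0, 0, 0, 0, ⟨0, 0⟩, 0⟩ 0 0)) (.void 74 ⟨0, 0, 0, 100000, 0, 0, 0, 0, 0, ⟨0, 0⟩, 0⟩ 0 0)))),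
    by decide +kernel⟩

def covers34 : cell.Covers table row34.1 :=
  ⟨(.cut .d 0 (.cut .v 16777216 (.cut .v 8388608 (.pos 2 .mm ⟨0, 0, 167772160000, 0, 0, 0, 0, 0, 0, ⟨0, 0⟩, 0⟩ 0 0) (.cut .s 16539648 (.pos 3 .mm ⟨0, 0, 30845563264, 0, 0, 21815446451, 0, 0, 0, ⟨0, 0⟩, 0⟩ 0 0) (.pos 3 .mm ⟨0, 0, 35921492578, 0, 0, 25528500972, 0, 0, 0, ⟨0, 0⟩, 0⟩ 0 0))) (.cut .v 4294967296 (.cut .v 268435456 (.cut .d (-8388608) (.void 8 ⟨100000, 0, 0, 0, 0, 0, 0, 0, 0, ⟨0, 0⟩, 0⟩ 0 0) (.cut .d (-4194304) (.void 8 ⟨100000, 0, 0, 0, 0, 0, 0, 0, 0, ⟨0, 0⟩, 0⟩ 0 0) (.cut .d (-2097152) (.void 8 ⟨100000, 0, 0, 0, 0, 0, 0, 0, 0, ⟨0, 0⟩, 0⟩ 0 0) (.cut .d (-1048576) (.void 8 ⟨100000,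 0, 0, 0, 0, 0, 0, 0, 0, ⟨0, 0⟩, 0⟩ 0 0) (.cut .d (-524288) (.void 8 ⟨100000, 0, 0, 0, 0, 0, 0, 0, 0, ⟨0, 0⟩, 0⟩ 0 0) (.cut .d (-262144) (.void 8 ⟨100000, 0, 0, 0, 0, 0, 0, 0, 0, ⟨0, 0⟩, 0⟩ 0 0) (.cut .v 67108864 (.pos 9 .mp ⟨56233246591, 0, 0, 0, 0, 0, 0, 0, 0, ⟨0, 0⟩, 0⟩ 0 0) (.cut .v 134217728 (.cut .d (-131072) (.void 48 ⟨100000, 0, 0, 0, 0, 0, 0, 0, 0, ⟨0, 0⟩, 0⟩ 0 0) (.cut .v 100663296 (.pos 50 .mp ⟨165621427187, 0, 0, 2150732813, 0, 0, 0, 0, 0, ⟨0, 0⟩, 0⟩ 0 0) (.cut .v 117440512 (.pos 62 .mp ⟨167772160000, 0, 0, 0, 0, 0, 0, 0, 0, ⟨0, 0⟩, 0⟩ 0 0) (.void 63 ⟨84831, 0, 0, 15169, 0, 0, 0, 0, 0, ⟨0, 0⟩, 0⟩ 0 0)))) (.void 49 ⟨84882, 0, 0, 15118, 0, 0,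 0, 0, 0, ⟨0, 0⟩, 0⟩ 0 0))))))))) (.void 43 ⟨91764, 0, 0, 8236, 0, 0, 0, 0, 0, ⟨0, 0⟩, 0⟩ 0 0)) (.void 74 ⟨91764, 0, 0, 8236, 0, 0, 0, 0, 0, ⟨0, 0⟩, 0⟩ 0 0))) (.cut .v 16777216 (.cut .v 8388608 (.cut .v 4194304 (.cut .v 2097152 (.cut .v 1048576 (.cut .v 524288 (.cut .v 262144 (.pos 70 .pm ⟨0, 0, 198901766, 0, 0, 0, 0, 0, 0, ⟨0, 0⟩, 0⟩ 0 0) (.pos 71 .pm ⟨0, 0, 661154790, 0, 0, 0, 0, 0, 0, ⟨0, 0⟩, 0⟩ 0 0)) (.pos 69 .pm ⟨0, 0, 1284273322, 0, 0, 0, 0, 0, 0, ⟨0, 0⟩, 0⟩ 0 0)) (.pos 55 .pm ⟨0, 0, 2489769918, 0, 0, 0, 0, 0, 0, ⟨0, 0⟩, 0⟩ 0 0)) (.pos 47 .pm ⟨0, 0, 4777978800, 0, 0, 0, 0, 0, 0, ⟨0, 0⟩, 0⟩ 0 0)) (.pos 5 .pm ⟨0, 0, 9112442779, 0, 0, 0, 0, 0, 0, ⟨0,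 0⟩, 0⟩ 0 0)) (.pos 3 .pm ⟨0, 0, 18210775319, 0, 0, 0, 0, 0, 0, ⟨0, 0⟩, 0⟩ 0 0)) (.cut .v 4294967296 (.cut .v 268435456 (.cut .v 67108864 (.pos 9 .pp ⟨0, 0, 0, 0, 0, 0, 0, 0, 0, ⟨0, 0⟩, 0⟩ 0 0) (.cut .v 134217728 (.pos 48 .pp ⟨148185147151, 0, 0, 19587012849, 0, 0, 0, 0, 0, ⟨0, 0⟩, 0⟩ 0 0) (.void 49 ⟨0, 0, 0, 100000, 0, 0, 0, 0, 0, ⟨0, 0⟩, 0⟩ 0 0))) (.void 43 ⟨0, 0, 0, 100000, 0, 0, 0, 0, 0, ⟨0, 0⟩, 0⟩ 0 0)) (.void 74 ⟨0, 0, 0, 100000, 0, 0, 0, 0, 0, ⟨0, 0⟩, 0⟩ 0 0)))),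
    by decide +kernel⟩

def covers35 : cell.Covers table row35.1 :=
  ⟨(.cut .d 0 (.cut .v 16777216 (.cut .v 8388608 (.void 2 ⟨0, 0, 100000, 0, 0, 0, 0, 0, 0, ⟨0, 0⟩, 0⟩ 0 0) (.cut .s 16588800 (.pos 3 .mm ⟨0, 0, 42688068880, 0, 0, 30471246616, 0, 0, 0, ⟨0, 0⟩, 0⟩ 0 0) (.pos 3 .mm ⟨0, 0, 51917795363, 0, 0, 37175923895, 0, 0, 0, ⟨0, 0⟩, 0⟩ 0 0))) (.cut .v 4294967296 (.cut .v 268435456 (.cut .d (-8388608) (.void 8 ⟨100000, 0, 0, 0, 0, 0, 0, 0, 0, ⟨0, 0⟩, 0⟩ 0 0) (.cut .d (-4194304) (.void 8 ⟨100000, 0, 0, 0, 0, 0, 0, 0, 0, ⟨0, 0⟩, 0⟩ 0 0) (.cut .d (-2097152) (.void 8 ⟨100000, 0, 0, 0, 0, 0, 0, 0, 0, ⟨0, 0⟩, 0⟩ 0 0) (.cut .d (-1048576) (.void 8 ⟨100000, 0,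 0, 0, 0, 0, 0, 0, 0, ⟨0, 0⟩, 0⟩ 0 0) (.cut .d (-524288) (.void 8 ⟨100000, 0, 0, 0, 0, 0, 0, 0, 0, ⟨0, 0⟩, 0⟩ 0 0) (.cut .d (-262144) (.void 8 ⟨100000, 0, 0, 0, 0, 0, 0, 0, 0, ⟨0, 0⟩, 0⟩ 0 0) (.cut .v 67108864 (.cut .v 33554432 (.pos 11 .mp ⟨46140281706, 0, 0, 0, 0, 0, 0, 0, 0, ⟨0, 0⟩, 0⟩ 0 0) (.pos 12 .mp ⟨120684243831, 0, 0, 0, 0, 0, 0, 0, 0, ⟨0, 0⟩, 0⟩ 0 0)) (.cut .v 134217728 (.cut .d (-131072) (.void 48 ⟨100000, 0, 0, 0, 0, 0, 0, 0, 0, ⟨0, 0⟩, 0⟩ 0 0) (.cut .d (-65536) (.void 48 ⟨100000, 0, 0, 0, 0, 0, 0, 0, 0, ⟨0, 0⟩, 0⟩ 0 0) (.cut .v 100663296 (.pos 50 .mp ⟨167772160000, 0, 0, 0, 0, 0, 0, 0, 0, ⟨0, 0⟩, 0⟩ 0 0) (.cut .l 27690795 (.void 51 ⟨84768,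 0, 0, 15232, 0, 0, 0, 0, 0, ⟨0, 0⟩, 0⟩ 0 0) (.pos 51 .mp ⟨167772160000, 0, 0, 0, 0, 0, 0, 0, 0, ⟨0, 0⟩, 0⟩ 0 0))))) (.void 49 ⟨84844, 0, 0, 15156, 0, 0, 0, 0, 0, ⟨0, 0⟩, 0⟩ 0 0))))))))) (.void 43 ⟨91741, 0, 0, 8259, 0, 0, 0, 0, 0, ⟨0, 0⟩, 0⟩ 0 0)) (.void 74 ⟨91741, 0, 0, 8259, 0, 0, 0, 0, 0, ⟨0, 0⟩, 0⟩ 0 0))) (.cut .v 16777216 (.cut .v 8388608 (.cut .v 4194304 (.cut .v 2097152 (.cut .v 1048576 (.cut .v 524288 (.cut .v 262144 (.cut .v 131072 (.pos 75 .pm ⟨0, 0, 134670852, 0, 0, 0, 0, 0, 0, ⟨0, 0⟩, 0⟩ 0 0) (.pos 76 .pm ⟨0, 0, 481001243, 0, 0, 0, 0, 0, 0, ⟨0, 0⟩, 0⟩ 0 0)) (.pos 71 .pm ⟨0, 0, 926365295, 0, 0, 0, 0, 0, 0, ⟨0, 0⟩, 0⟩ 0 0)) (.pos 69 .pm ⟨0, 0,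 1790713545, 0, 0, 0, 0, 0, 0, ⟨0, 0⟩, 0⟩ 0 0)) (.pos 55 .pm ⟨0, 0, 3445720555, 0, 0, 0, 0, 0, 0, ⟨0, 0⟩, 0⟩ 0 0)) (.pos 47 .pm ⟨0, 0, 6537699382, 0, 0, 0, 0, 0, 0, ⟨0, 0⟩, 0⟩ 0 0)) (.pos 5 .pm ⟨0, 0, 12393668066, 0, 0, 0, 0, 0, 0, ⟨0, 0⟩, 0⟩ 0 0)) (.pos 3 .pm ⟨0, 0, 24767345842, 0, 0, 0, 0, 0, 0, ⟨0, 0⟩, 0⟩ 0 0)) (.cut .v 4294967296 (.cut .v 268435456 (.cut .v 67108864 (.pos 9 .pp ⟨0, 0, 0, 0, 0, 0, 0, 0, 0, ⟨0, 0⟩, 0⟩ 0 0) (.cut .v 134217728 (.pos 48 .pp ⟨139693523164, 0, 0, 28078636836, 0, 0, 0, 0, 0, ⟨0, 0⟩, 0⟩ 0 0) (.void 49 ⟨0, 0, 0, 100000, 0, 0, 0, 0, 0, ⟨0, 0⟩, 0⟩ 0 0))) (.void 43 ⟨0, 0, 0, 100000, 0, 0, 0, 0, 0, ⟨0, 0⟩, 0⟩ 0 0)) (.void 74 ⟨0,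 0, 0, 100000, 0, 0, 0, 0, 0, ⟨0, 0⟩, 0⟩ 0 0)))),
    by decide +kernel⟩

def covers36 : cell.Covers table row36.1 :=
  ⟨(.cut .d 0 (.cut .v 16777216 (.cut .v 8388608 (.void 2 ⟨0, 0, 100000, 0, 0, 0, 0, 0, 0, ⟨0, 0⟩, 0⟩ 0 0) (.pos 3 .mm ⟨0, 0, 71837403654, 0, 0, 50137848983, 0, 0, 0, ⟨0, 0⟩, 0⟩ 0 0)) (.cut .v 4294967296 (.cut .v 268435456 (.cut .d (-8388608) (.void 8 ⟨100000, 0, 0, 0, 0, 0, 0, 0, 0, ⟨0, 0⟩, 0⟩ 0 0) (.cut .d (-4194304) (.void 8 ⟨100000, 0, 0, 0, 0, 0, 0, 0, 0, ⟨0, 0⟩, 0⟩ 0 0) (.cut .d (-2097152) (.void 8 ⟨100000, 0, 0, 0, 0, 0, 0, 0, 0, ⟨0, 0⟩, 0⟩ 0 0) (.cut .d (-1048576) (.void 8 ⟨100000, 0, 0, 0, 0, 0, 0, 0, 0, ⟨0, 0⟩, 0⟩ 0 0) (.cut .d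 (-524288) (.void 8 ⟨100000, 0, 0, 0, 0, 0, 0, 0, 0, ⟨0, 0⟩, 0⟩ 0 0) (.cut .d (-262144) (.void 8 ⟨100000, 0, 0, 0, 0, 0, 0, 0, 0, ⟨0, 0⟩, 0⟩ 0 0) (.cut .d (-131072) (.void 8 ⟨100000, 0, 0, 0, 0, 0, 0, 0, 0, ⟨0, 0⟩, 0⟩ 0 0) (.cut .v 67108864 (.pos 9 .mp ⟨93661766160, 0, 0, 0, 0, 0, 0, 0, 0, ⟨0, 0⟩, 0⟩ 0 0) (.cut .v 134217728 (.cut .d (-65536) (.void 48 ⟨100000, 0, 0, 0, 0, 0, 0, 0, 0, ⟨0, 0⟩, 0⟩ 0 0) (.cut .v 100663296 (.pos 50 .mp ⟨167772160000, 0, 0, 0, 0, 0, 0, 0, 0, ⟨0, 0⟩, 0⟩ 0 0) (.cut .l 27690795 (.void 51 ⟨84743, 0, 0, 15257, 0, 0, 0, 0, 0, ⟨0, 0⟩, 0⟩ 0 0) (.pos 51 .mp ⟨167772160000, 0, 0, 0, 0, 0, 0, 0, 0, ⟨0, 0⟩, 0⟩ 0 0)))) (.void 49 ⟨84768, 0,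 0, 15232, 0, 0, 0, 0, 0, ⟨0, 0⟩, 0⟩ 0 0)))))))))) (.void 43 ⟨91726, 0, 0, 8274, 0, 0, 0, 0, 0, ⟨0, 0⟩, 0⟩ 0 0)) (.void 74 ⟨91726, 0, 0, 8274, 0, 0, 0, 0, 0, ⟨0, 0⟩, 0⟩ 0 0))) (.cut .v 16777216 (.cut .v 8388608 (.cut .v 4194304 (.cut .v 2097152 (.cut .v 1048576 (.cut .v 524288 (.cut .v 262144 (.cut .v 131072 (.pos 75 .pm ⟨0, 0, 190777764, 0, 0, 0, 0, 0, 0, ⟨0, 0⟩, 0⟩ 0 0) (.pos 76 .pm ⟨0, 0, 681958477, 0, 0, 0, 0, 0, 0, ⟨0, 0⟩, 0⟩ 0 0)) (.pos 71 .pm ⟨0, 0, 1327775508, 0, 0, 0, 0, 0, 0, ⟨0, 0⟩, 0⟩ 0 0)) (.pos 69 .pm ⟨0, 0, 2587567347, 0, 0, 0, 0, 0, 0, ⟨0, 0⟩, 0⟩ 0 0)) (.pos 55 .pm ⟨0, 0, 5017612408, 0, 0, 0, 0, 0, 0, ⟨0, 0⟩, 0⟩ 0 0)) (.pos 47 .pm ⟨0, 0,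 9609499596, 0, 0, 0, 0, 0, 0, ⟨0, 0⟩, 0⟩ 0 0)) (.pos 5 .pm ⟨0, 0, 18312525231, 0, 0, 0, 0, 0, 0, ⟨0, 0⟩, 0⟩ 0 0)) (.pos 3 .pm ⟨0, 0, 36607532302, 0, 0, 0, 0, 0, 0, ⟨0, 0⟩, 0⟩ 0 0)) (.cut .v 4294967296 (.cut .v 268435456 (.cut .v 67108864 (.pos 9 .pp ⟨0, 0, 0, 0, 0, 0, 0, 0, 0, ⟨0, 0⟩, 0⟩ 0 0) (.cut .v 134217728 (.pos 48 .pp ⟨127778701959, 0, 0, 39993458041, 0, 0, 0, 0, 0, ⟨0, 0⟩, 0⟩ 0 0) (.void 49 ⟨0, 0, 0, 100000, 0, 0, 0, 0, 0, ⟨0, 0⟩, 0⟩ 0 0))) (.void 43 ⟨0, 0, 0, 100000, 0, 0, 0, 0, 0, ⟨0, 0⟩, 0⟩ 0 0)) (.void 74 ⟨0, 0, 0, 100000, 0, 0, 0, 0, 0, ⟨0, 0⟩, 0⟩ 0 0)))),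
    by decide +kernel⟩

def covers37 : cell.Covers table row37.1 :=
  ⟨(.cut .d 0 (.cut .v 16777216 (.cut .v 8388608 (.void 2 ⟨0, 0, 100000, 0, 0, 0, 0, 0, 0, ⟨0, 0⟩, 0⟩ 0 0) (.pos 3 .mm ⟨0, 0, 84518899799, 0, 0, 62826029680, 0, 0, 0, ⟨0, 0⟩, 0⟩ 0 0)) (.cut .v 4294967296 (.cut .v 268435456 (.cut .d (-8388608) (.void 8 ⟨100000, 0, 0, 0, 0, 0, 0, 0, 0, ⟨0, 0⟩, 0⟩ 0 0) (.cut .d (-4194304) (.void 8 ⟨100000, 0, 0, 0, 0, 0, 0, 0, 0, ⟨0, 0⟩, 0⟩ 0 0) (.cut .d (-2097152) (.void 8 ⟨100000, 0, 0, 0, 0, 0, 0, 0, 0, ⟨0, 0⟩, 0⟩ 0 0) (.cut .d (-1048576) (.void 8 ⟨100000, 0, 0, 0, 0, 0, 0, 0, 0, ⟨0, 0⟩, 0⟩ 0 0) (.cut .d (-524288) (.void 8 ⟨100000, 0, 0, 0, 0, 0, 0, 0,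 0, ⟨0, 0⟩, 0⟩ 0 0) (.cut .d (-262144) (.void 8 ⟨100000, 0, 0, 0, 0, 0, 0, 0, 0, ⟨0, 0⟩, 0⟩ 0 0) (.cut .d (-131072) (.void 8 ⟨100000, 0, 0, 0, 0, 0, 0, 0, 0, ⟨0, 0⟩, 0⟩ 0 0) (.cut .v 67108864 (.pos 9 .mp ⟨128639313946, 0, 0, 0, 0, 0, 0, 0, 0, ⟨0, 0⟩, 0⟩ 0 0) (.cut .v 134217728 (.cut .d (-65536) (.void 48 ⟨100000, 0, 0, 0, 0, 0, 0, 0, 0, ⟨0, 0⟩, 0⟩ 0 0) (.cut .v 100663296 (.pos 50 .mp ⟨167772160000, 0, 0, 0, 0, 0, 0, 0, 0, ⟨0, 0⟩, 0⟩ 0 0) (.cut .l 27690795 (.void 51 ⟨84730, 0, 0, 15270, 0, 0, 0, 0, 0, ⟨0, 0⟩, 0⟩ 0 0) (.pos 51 .mp ⟨167772160000, 0, 0, 0, 0, 0, 0, 0, 0, ⟨0, 0⟩, 0⟩ 0 0)))) (.void 49 ⟨84755, 0, 0, 15245, 0, 0, 0, 0, 0, ⟨0, 0⟩, 0⟩ 0 0))))))))))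 (.void 43 ⟨91719, 0, 0, 8281, 0, 0, 0, 0, 0, ⟨0, 0⟩, 0⟩ 0 0)) (.void 74 ⟨91719, 0, 0, 8281, 0, 0, 0, 0, 0, ⟨0, 0⟩, 0⟩ 0 0))) (.cut .v 16777216 (.cut .v 8388608 (.cut .v 4194304 (.cut .v 2097152 (.cut .v 1048576 (.cut .v 524288 (.cut .v 262144 (.cut .v 131072 (.pos 75 .pm ⟨0, 0, 251452705, 0, 0, 0, 0, 0, 0, ⟨0, 0⟩, 0⟩ 0 0) (.pos 76 .pm ⟨0, 0, 883981913, 0, 0, 0, 0, 0, 0, ⟨0, 0⟩, 0⟩ 0 0)) (.pos 71 .pm ⟨0, 0, 1743479805, 0, 0, 0, 0, 0, 0, ⟨0, 0⟩, 0⟩ 0 0)) (.pos 69 .pm ⟨0, 0, 3438360907, 0, 0, 0, 0, 0, 0, ⟨0, 0⟩, 0⟩ 0 0)) (.pos 55 .pm ⟨0, 0, 6759302396, 0, 0, 0, 0, 0, 0, ⟨0, 0⟩, 0⟩ 0 0)) (.pos 47 .pm ⟨0, 0, 13189394578, 0, 0, 0, 0, 0, 0, ⟨0, 0⟩, 0⟩ 0 0)) (.pos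 5 .pm ⟨0, 0, 25523622572, 0, 0, 0, 0, 0, 0, ⟨0, 0⟩, 0⟩ 0 0)) (.pos 3 .pm ⟨0, 0, 51032736002, 0, 0, 0, 0, 0, 0, ⟨0, 0⟩, 0⟩ 0 0)) (.cut .v 4294967296 (.cut .v 268435456 (.cut .v 67108864 (.pos 9 .pp ⟨0, 0, 0, 0, 0, 0, 0, 0, 0, ⟨0, 0⟩, 0⟩ 0 0) (.cut .v 134217728 (.pos 48 .pp ⟨115722880349, 0, 0, 52049279651, 0, 0, 0, 0, 0, ⟨0, 0⟩, 0⟩ 0 0) (.void 49 ⟨0, 0, 0, 100000, 0, 0, 0, 0, 0, ⟨0, 0⟩, 0⟩ 0 0))) (.void 43 ⟨0, 0, 0, 100000, 0, 0, 0, 0, 0, ⟨0, 0⟩, 0⟩ 0 0)) (.void 74 ⟨0, 0, 0, 100000, 0, 0, 0, 0, 0, ⟨0, 0⟩, 0⟩ 0 0)))),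
    by decide +kernel⟩

def covers38 : cell.Covers table row38.1 :=
  ⟨(.cut .d 0 (.cut .v 16777216 (.cut .d (-8388608) (.void 1 ⟨0, 0, 100000, 0, 0, 0, 0, 0, 0, ⟨0, 0⟩, 0⟩ 0 0) (.cut .v 8388608 (.pos 2 .mm ⟨0, 0, 167772160000, 0, 0, 0, 0, 0, 0, ⟨0, 0⟩, 0⟩ 0 0) (.cut .v 12582912 (.pos 6 .mm ⟨0, 0, 98503964306, 0, 0, 67603807982, 0, 0, 0, ⟨0, 0⟩, 0⟩ 0 0) (.pos 7 .mm ⟨108091513212, 0, 37389524999, 0, 0, 22291121788, 0, 0, 0, ⟨0, 0⟩, 0⟩ 0 0)))) (.cut .v 4294967296 (.cut .v 268435456 (.cut .d (-8388608) (.void 8 ⟨100000, 0, 0, 0, 0, 0, 0, 0, 0, ⟨0, 0⟩, 0⟩ 0 0) (.cut .d (-4194304) (.void 8 ⟨100000, 0, 0, 0, 0, 0, 0, 0, 0, ⟨0, 0⟩, 0⟩ 0 0) (.cut .d (-2097152)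 (.void 8 ⟨100000, 0, 0, 0, 0, 0, 0, 0, 0, ⟨0, 0⟩, 0⟩ 0 0) (.cut .d (-1048576) (.void 8 ⟨100000, 0, 0, 0, 0, 0, 0, 0, 0, ⟨0, 0⟩, 0⟩ 0 0) (.cut .d (-524288) (.void 8 ⟨100000, 0, 0, 0, 0, 0, 0, 0, 0, ⟨0, 0⟩, 0⟩ 0 0) (.cut .d (-262144) (.void 8 ⟨100000, 0, 0, 0, 0, 0, 0, 0, 0, ⟨0, 0⟩, 0⟩ 0 0) (.cut .d (-131072) (.void 8 ⟨100000, 0, 0, 0, 0, 0, 0, 0, 0, ⟨0, 0⟩, 0⟩ 0 0) (.cut .v 67108864 (.cut .s 16678912 (.pos 9 .mp ⟨167772160000, 0, 0, 0, 0, 0, 0, 0, 0, ⟨0, 0⟩, 0⟩ 0 0) (.cut .d (-65536) (.cut .v 33554432 (.pos 11 .mp ⟨167772160000, 0, 0, 0, 0, 0, 0, 0, 0, ⟨0, 0⟩, 0⟩ 0 0) (.void 12 ⟨100000, 0, 0, 0, 0, 0, 0, 0, 0, ⟨0, 0⟩, 0⟩ 0 0)) (.pos 9 .mp ⟨137216558856,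 0, 0, 0, 0, 0, 0, 0, 0, ⟨0, 0⟩, 0⟩ 0 0))) (.cut .v 134217728 (.cut .d (-65536) (.void 48 ⟨100000, 0, 0, 0, 0, 0, 0, 0, 0, ⟨0, 0⟩, 0⟩ 0 0) (.cut .d (-32768) (.void 48 ⟨100000, 0, 0, 0, 0, 0, 0, 0, 0, ⟨0, 0⟩, 0⟩ 0 0) (.cut .v 100663296 (.pos 50 .mp ⟨167772160000, 0, 0, 0, 0, 0, 0, 0, 0, ⟨0, 0⟩, 0⟩ 0 0) (.cut .l 27690795 (.void 51 ⟨84692, 0, 0, 15308, 0, 0, 0, 0, 0, ⟨0, 0⟩, 0⟩ 0 0) (.pos 51 .mp ⟨151196029518, 0, 0, 16576130482, 0, 0, 0, 0, 0, ⟨0, 0⟩, 0⟩ 0 0))))) (.void 49 ⟨84730, 0, 0, 15270, 0, 0, 0, 0, 0, ⟨0, 0⟩, 0⟩ 0 0)))))))))) (.void 43 ⟨91704, 0, 0, 8296, 0, 0, 0, 0, 0, ⟨0, 0⟩, 0⟩ 0 0)) (.void 74 ⟨91704, 0, 0, 8296, 0, 0, 0, 0, 0, ⟨0, 0⟩, 0⟩ 0 0)))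 (.cut .v 16777216 (.cut .v 8388608 (.cut .v 4194304 (.cut .v 2097152 (.cut .v 1048576 (.cut .v 524288 (.cut .v 262144 (.cut .v 131072 (.cut .d 57740 (.pos 75 .pm ⟨0, 0, 167772160000, 0, 0, 0, 0, 0, 0, ⟨0, 0⟩, 0⟩ 0 0) (.cut .d 86610 (.pos 75 .pm ⟨0, 0, 259218262, 0, 0, 0, 0, 0, 0, ⟨0, 0⟩, 0⟩ 0 0) (.pos 75 .pm ⟨0, 0, 53879109, 0, 0, 0, 0, 0, 0, ⟨0, 0⟩, 0⟩ 0 0))) (.pos 76 .pm ⟨0, 0, 1233534577, 0, 0, 0, 0, 0, 0, ⟨0, 0⟩, 0⟩ 0 0)) (.pos 71 .pm ⟨0, 0, 2381235538, 0, 0, 0, 0, 0, 0, ⟨0, 0⟩, 0⟩ 0 0)) (.pos 69 .pm ⟨0, 0, 4584567630, 0, 0, 0, 0, 0, 0, ⟨0, 0⟩, 0⟩ 0 0)) (.pos 55 .pm ⟨0, 0, 8738516465, 0, 0, 0, 0, 0, 0, ⟨0, 0⟩, 0⟩ 0 0)) (.pos 47 .pm ⟨0, 0, 16319640096,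 0, 0, 0, 0, 0, 0, ⟨0, 0⟩, 0⟩ 0 0)) (.pos 5 .pm ⟨0, 0, 30897201335, 0, 0, 0, 0, 0, 0, ⟨0, 0⟩, 0⟩ 0 0)) (.pos 3 .pm ⟨0, 0, 61790393550, 0, 0, 0, 0, 0, 0, ⟨0, 0⟩, 0⟩ 0 0)) (.cut .v 4294967296 (.cut .v 268435456 (.cut .v 67108864 (.pos 9 .pp ⟨0, 0, 0, 0, 0, 0, 0, 0, 0, ⟨0, 0⟩, 0⟩ 0 0) (.cut .v 134217728 (.pos 48 .pp ⟨96955388310, 0, 0, 70816771690, 0, 0, 0, 0, 0, ⟨0, 0⟩, 0⟩ 0 0) (.void 49 ⟨0, 0, 0, 100000, 0, 0, 0, 0, 0, ⟨0, 0⟩, 0⟩ 0 0))) (.void 43 ⟨0, 0, 0, 100000, 0, 0, 0, 0, 0, ⟨0, 0⟩, 0⟩ 0 0)) (.void 74 ⟨0, 0, 0, 100000, 0, 0, 0, 0, 0, ⟨0, 0⟩, 0⟩ 0 0)))),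
    by decide +kernel⟩

def covers39 : cell.Covers table row39.1 :=
  ⟨(.cut .d 0 (.cut .v 16777216 (.cut .d (-8388608) (.void 1 ⟨0, 0, 100000, 0, 0, 0, 0, 0, 0, ⟨0, 0⟩, 0⟩ 0 0) (.cut .v 8388608 (.pos 2 .mm ⟨0, 0, 167772160000, 0, 0, 0, 0, 0, 0, ⟨0, 0⟩, 0⟩ 0 0) (.cut .d (-4194304) (.void 3 ⟨100000, 0, 0, 0, 0, 0, 0, 0, 0, ⟨0, 0⟩, 0⟩ 0 0) (.cut .v 12582912 (.pos 6 .mm ⟨71209279545, 0, 96562880455, 0, 0, 0, 0, 0, 0, ⟨0, 0⟩, 0⟩ 0 0) (.pos 7 .mm ⟨167772160000, 0, 0, 0, 0, 0, 0, 0, 0, ⟨0, 0⟩, 0⟩ 0 0))))) (.cut .v 4294967296 (.cut .v 268435456 (.cut .d (-8388608) (.void 8 ⟨100000, 0, 0, 0, 0, 0, 0, 0, 0, ⟨0, 0⟩, 0⟩ 0 0) (.cut .d (-4194304) (.void 8 ⟨100000,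 0, 0, 0, 0, 0, 0, 0, 0, ⟨0, 0⟩, 0⟩ 0 0) (.cut .d (-2097152) (.void 8 ⟨100000, 0, 0, 0, 0, 0, 0, 0, 0, ⟨0, 0⟩, 0⟩ 0 0) (.cut .d (-1048576) (.void 8 ⟨100000, 0, 0, 0, 0, 0, 0, 0, 0, ⟨0, 0⟩, 0⟩ 0 0) (.cut .d (-524288) (.void 8 ⟨100000, 0, 0, 0, 0, 0, 0, 0, 0, ⟨0, 0⟩, 0⟩ 0 0) (.cut .d (-262144) (.void 8 ⟨100000, 0, 0, 0, 0, 0, 0, 0, 0, ⟨0, 0⟩, 0⟩ 0 0) (.cut .d (-131072) (.void 8 ⟨100000, 0, 0, 0, 0, 0, 0, 0, 0, ⟨0, 0⟩, 0⟩ 0 0) (.cut .d (-65536) (.void 8 ⟨100000, 0, 0, 0, 0, 0, 0, 0, 0, ⟨0, 0⟩, 0⟩ 0 0) (.cut .v 67108864 (.pos 9 .mp ⟨167772160000, 0, 0, 0, 0, 0, 0, 0, 0, ⟨0, 0⟩, 0⟩ 0 0) (.cut .v 134217728 (.cut .d (-32768) (.void 48 ⟨100000, 0, 0, 0, 0, 0, 0,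 0, 0, ⟨0, 0⟩, 0⟩ 0 0) (.cut .l 27690795 (.cut .l 20556283 (.void 48 ⟨100000, 0, 0, 0, 0, 0, 0, 0, 0, ⟨0, 0⟩, 0⟩ 0 0) (.cut .d (-16384) (.void 48 ⟨100000, 0, 0, 0, 0, 0, 0, 0, 0, ⟨0, 0⟩, 0⟩ 0 0) (.pos 48 .mp ⟨90270354435, 0, 0, 77501805565, 0, 0, 0, 0, 0, ⟨0, 0⟩, 0⟩ 0 0))) (.pos 48 .mp ⟨167772160000, 0, 0, 0, 0, 0, 0, 0, 0, ⟨0, 0⟩, 0⟩ 0 0))) (.void 49 ⟨84692, 0, 0, 15308, 0, 0, 0, 0, 0, ⟨0, 0⟩, 0⟩ 0 0))))))))))) (.void 43 ⟨91697, 0, 0, 8303, 0, 0, 0, 0, 0, ⟨0, 0⟩, 0⟩ 0 0)) (.void 74 ⟨91697, 0, 0, 8303, 0, 0, 0, 0, 0, ⟨0, 0⟩, 0⟩ 0 0))) (.cut .v 16777216 (.cut .v 8388608 (.cut .v 4194304 (.cut .v 2097152 (.cut .v 1048576 (.cut .v 524288 (.cut .v 262144 (.cut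 .v 131072 (.cut .v 65536 (.cut .v 32768 (.pos 79 .pm ⟨0, 0, 126150191, 0, 0, 0, 0, 0, 0, ⟨0, 0⟩, 0⟩ 0 0) (.pos 80 .pm ⟨0, 0, 492107272, 0, 0, 0, 0, 0, 0, ⟨0, 0⟩, 0⟩ 0 0)) (.pos 78 .pm ⟨0, 0, 958288670, 0, 0, 0, 0, 0, 0, ⟨0, 0⟩, 0⟩ 0 0)) (.pos 76 .pm ⟨0, 0, 1876594018, 0, 0, 0, 0, 0, 0, ⟨0, 0⟩, 0⟩ 0 0)) (.pos 71 .pm ⟨0, 0, 3678848360, 0, 0, 0, 0, 0, 0, ⟨0, 0⟩, 0⟩ 0 0)) (.pos 69 .pm ⟨0, 0, 7193792209, 0, 0, 0, 0, 0, 0, ⟨0, 0⟩, 0⟩ 0 0)) (.pos 55 .pm ⟨0, 0, 13972462493, 0, 0, 0, 0, 0, 0, ⟨0, 0⟩, 0⟩ 0 0)) (.pos 47 .pm ⟨0, 0, 26779092677, 0, 0, 0, 0, 0, 0, ⟨0, 0⟩, 0⟩ 0 0)) (.pos 5 .pm ⟨0, 0, 51117428039, 0, 0, 0, 0, 0, 0, ⟨0, 0⟩, 0⟩ 0 0)) (.pos 3 .pm ⟨0, 0,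 102243657972, 0, 0, 0, 0, 0, 0, ⟨0, 0⟩, 0⟩ 0 0)) (.cut .v 4294967296 (.cut .v 268435456 (.cut .v 67108864 (.pos 9 .pp ⟨0, 0, 0, 0, 0, 0, 0, 0, 0, ⟨0, 0⟩, 0⟩ 0 0) (.cut .v 134217728 (.pos 48 .pp ⟨61075558541, 0, 0, 106696601459, 0, 0, 0, 0, 0, ⟨0, 0⟩, 0⟩ 0 0) (.void 49 ⟨0, 0, 0, 100000, 0, 0, 0, 0, 0, ⟨0, 0⟩, 0⟩ 0 0))) (.void 43 ⟨0, 0, 0, 100000, 0, 0, 0, 0, 0, ⟨0, 0⟩, 0⟩ 0 0)) (.void 74 ⟨0, 0, 0, 100000, 0, 0, 0, 0, 0, ⟨0, 0⟩, 0⟩ 0 0)))),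
    by decide +kernel⟩

def covers40 : cell.Covers table row40.1 :=
  ⟨(.cut .d 0 (.cut .v 16777216 (.cut .d (-8388608) (.void 1 ⟨0, 0, 98447, 0, 0, 0, 0, 0, 0, ⟨0, 0⟩, 0⟩ 0 0) (.cut .d (-4194304) (.void 1 ⟨0, 0, 138066, 0, 0, 0, 0, 0, 0, ⟨0, 0⟩, 0⟩ 0 0) (.cut .d (-2097152) (.void 1 ⟨0, 0, 100000, 0, 0, 0, 0, 0, 0, ⟨0, 0⟩, 0⟩ 0 0) (.cut .v 8388608 (.void 2 ⟨0, 0, 100000, 0, 0, 0, 0, 0, 0, ⟨0, 0⟩, 0⟩ 0 0) (.cut .d (-1048576) (.void 3 ⟨100000, 0, 0, 0, 0, 0, 0, 0, 0, ⟨0, 0⟩, 0⟩ 0 0) (.cut .d (-524288) (.void 3 ⟨100000, 0, 0, 0, 0, 0, 0, 0, 0, ⟨0, 0⟩, 0⟩ 0 0) (.cut .d (-262144) (.void 3 ⟨100000, 0, 0, 0, 0, 0, 0, 0, 0, ⟨0, 0⟩, 0⟩ 0 0) (.cut .d (-131072) (.void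 3 ⟨61145, 0, 38855, 0, 0, 0, 0, 0, 0, ⟨0, 0⟩, 0⟩ 0 0) (.pos 3 .mm ⟨141673175409, 0, 26098984591, 0, 0, 0, 0, 0, 0, ⟨0, 0⟩, 0⟩ 0 0))))))))) (.cut .v 4294967296 (.cut .v 268435456 (.cut .d (-8388608) (.void 8 ⟨100000, 0, 0, 0, 0, 0, 0, 0, 0, ⟨0, 0⟩, 0⟩ 0 0) (.cut .d (-4194304) (.void 8 ⟨100000, 0, 0, 0, 0, 0, 0, 0, 0, ⟨0, 0⟩, 0⟩ 0 0) (.cut .d (-2097152) (.void 8 ⟨100000, 0, 0, 0, 0, 0, 0, 0, 0, ⟨0, 0⟩, 0⟩ 0 0) (.cut .d (-1048576) (.void 8 ⟨100000, 0, 0, 0, 0, 0, 0, 0, 0, ⟨0, 0⟩, 0⟩ 0 0) (.cut .d (-524288) (.void 8 ⟨100000, 0, 0, 0, 0, 0, 0, 0, 0, ⟨0, 0⟩, 0⟩ 0 0) (.cut .d (-262144) (.void 8 ⟨100000, 0, 0, 0, 0, 0, 0, 0, 0, ⟨0, 0⟩, 0⟩ 0 0) (.cut .d (-131072)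 (.void 8 ⟨100000, 0, 0, 0, 0, 0, 0, 0, 0, ⟨0, 0⟩, 0⟩ 0 0) (.cut .d (-65536) (.void 8 ⟨100000, 0, 0, 0, 0, 0, 0, 0, 0, ⟨0, 0⟩, 0⟩ 0 0) (.cut .v 67108864 (.cut .d (-32768) (.cut .v 33554432 (.pos 11 .mp ⟨167772160000, 0, 0, 0, 0, 0, 0, 0, 0, ⟨0, 0⟩, 0⟩ 0 0) (.void 12 ⟨100000, 0, 0, 0, 0, 0, 0, 0, 0, ⟨0, 0⟩, 0⟩ 0 0)) (.pos 9 .mp ⟨165276607841, 0, 0, 0, 0, 0, 0, 0, 0, ⟨0, 0⟩, 0⟩ 0 0)) (.cut .v 134217728 (.cut .d (-32768) (.void 48 ⟨100000, 0, 0, 0, 0, 0, 0, 0, 0, ⟨0, 0⟩, 0⟩ 0 0) (.cut .l 27690795 (.cut .v 100663296 (.cut .d (-16384) (.void 50 ⟨100000, 0, 0, 0, 0, 0, 0, 0, 0, ⟨0, 0⟩, 0⟩ 0 0) (.pos 50 .mp ⟨167772160000, 0, 0, 0, 0, 0, 0, 0, 0, ⟨0, 0⟩, 0⟩ 0 0))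 (.void 51 ⟨84666, 0, 0, 15334, 0, 0, 0, 0, 0, ⟨0, 0⟩, 0⟩ 0 0)) (.pos 48 .mp ⟨167772160000, 0, 0, 0, 0, 0, 0, 0, 0, ⟨0, 0⟩, 0⟩ 0 0))) (.void 49 ⟨84679, 0, 0, 15321, 0, 0, 0, 0, 0, ⟨0, 0⟩, 0⟩ 0 0))))))))))) (.void 43 ⟨91689, 0, 0, 8311, 0, 0, 0, 0, 0, ⟨0, 0⟩, 0⟩ 0 0)) (.void 74 ⟨91689, 0, 0, 8311, 0, 0, 0, 0, 0, ⟨0, 0⟩, 0⟩ 0 0))) (.cut .v 16777216 (.cut .v 8388608 (.cut .v 4194304 (.cut .v 2097152 (.cut .v 1048576 (.cut .v 524288 (.cut .v 262144 (.cut .v 131072 (.cut .d 32898 (.pos 75 .pm ⟨0, 0, 167772160000, 0, 0, 0, 0, 0, 0, ⟨0, 0⟩, 0⟩ 0 0) (.cut .d 49347 (.pos 75 .pm ⟨0, 0, 591019582, 0, 0, 0, 0, 0, 0, ⟨0, 0⟩, 0⟩ 0 0) (.pos 75 .pm ⟨0, 0, 123330609, 0,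 0, 0, 0, 0, 0, ⟨0, 0⟩, 0⟩ 0 0))) (.pos 76 .pm ⟨0, 0, 2714220818, 0, 0, 0, 0, 0, 0, ⟨0, 0⟩, 0⟩ 0 0)) (.pos 71 .pm ⟨0, 0, 5293144541, 0, 0, 0, 0, 0, 0, ⟨0, 0⟩, 0⟩ 0 0)) (.pos 69 .pm ⟨0, 0, 10278545205, 0, 0, 0, 0, 0, 0, ⟨0, 0⟩, 0⟩ 0 0)) (.pos 55 .pm ⟨0, 0, 19772096048, 0, 0, 0, 0, 0, 0, ⟨0, 0⟩, 0⟩ 0 0)) (.pos 47 .pm ⟨0, 0, 37365019820, 0, 0, 0, 0, 0, 0, ⟨0, 0⟩, 0⟩ 0 0)) (.pos 5 .pm ⟨0, 0, 70994439187, 0, 0, 0, 0, 0, 0, ⟨0, 0⟩, 0⟩ 0 0)) (.pos 3 .pm ⟨0, 0, 141997769464, 0, 0, 0, 0, 0, 0, ⟨0, 0⟩, 0⟩ 0 0)) (.cut .v 4294967296 (.cut .v 268435456 (.cut .v 67108864 (.pos 9 .pp ⟨0, 0, 0, 0, 0, 0, 0, 0, 0, ⟨0, 0⟩, 0⟩ 0 0) (.cut .v 134217728 (.pos 48 .pp ⟨17410779359,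 0, 0, 150361380641, 0, 0, 0, 0, 0, ⟨0, 0⟩, 0⟩ 0 0) (.void 49 ⟨0, 0, 0, 100000, 0, 0, 0, 0, 0, ⟨0, 0⟩, 0⟩ 0 0))) (.void 43 ⟨0, 0, 0, 100000, 0, 0, 0, 0, 0, ⟨0, 0⟩, 0⟩ 0 0)) (.void 74 ⟨0, 0, 0, 100000, 0, 0, 0, 0, 0, ⟨0, 0⟩, 0⟩ 0 0)))),
    by decide +kernel⟩

def covers41 : cell.Covers table row41.1 :=
  ⟨(.cut .d 0 (.cut .v 16777216 (.cut .d (-8388608) (.void 1 ⟨0, 0, 100000, 0, 0, 0, 0, 0, 0, ⟨0, 0⟩, 0⟩ 0 0) (.cut .d (-4194304) (.void 1 ⟨0, 0, 100000, 0, 0, 0, 0, 0, 0, ⟨0, 0⟩, 0⟩ 0 0) (.cut .d (-2097152) (.void 1 ⟨0, 0, 100000, 0, 0, 0, 0, 0, 0, ⟨0, 0⟩, 0⟩ 0 0) (.cut .d (-1048576) (.void 1 ⟨0, 0, 100000, 0, 0, 0, 0, 0, 0, ⟨0, 0⟩, 0⟩ 0 0) (.cut .v 8388608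 (.void 2 ⟨0, 0, 100000, 0, 0, 0, 0, 0, 0, ⟨0, 0⟩, 0⟩ 0 0) (.cut .d (-524288) (.void 3 ⟨100000, 0, 0, 0, 0, 0, 0, 0, 0, ⟨0, 0⟩, 0⟩ 0 0) (.cut .d (-262144) (.void 3 ⟨100000, 0, 0, 0, 0, 0, 0, 0, 0, ⟨0, 0⟩, 0⟩ 0 0) (.cut .d (-131072) (.void 3 ⟨100000, 0, 0, 0, 0, 0, 0, 0, 0, ⟨0, 0⟩, 0⟩ 0 0) (.cut .d (-65536) (.void 3 ⟨61131, 0, 38869, 0, 0, 0, 0, 0, 0, ⟨0, 0⟩, 0⟩ 0 0) (.cut .s 16736256 (.pos 3 .mm ⟨148104502317, 0, 19667657683, 0, 0, 0, 0, 0, 0, ⟨0, 0⟩, 0⟩ 0 0) (.cut .s 16740352 (.pos 3 .mm ⟨167772160000, 0, 0, 0, 0, 0, 0, 0, 0, ⟨0, 0⟩, 0⟩ 0 0) (.cut .d (-32768) (.void 3 ⟨61129, 0, 38871, 0, 0, 0, 0, 0, 0, ⟨0, 0⟩, 0⟩ 0 0) (.pos 3 .mm ⟨167772160000, 0, 0,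 0, 0, 0, 0, 0, 0, ⟨0, 0⟩, 0⟩ 0 0))))))))))))) (.cut .v 4294967296 (.cut .v 268435456 (.cut .d (-8388608) (.void 8 ⟨100000, 0, 0, 0, 0, 0, 0, 0, 0, ⟨0, 0⟩, 0⟩ 0 0) (.cut .d (-4194304) (.void 8 ⟨100000, 0, 0, 0, 0, 0, 0, 0, 0, ⟨0, 0⟩, 0⟩ 0 0) (.cut .d (-2097152) (.void 8 ⟨100000, 0, 0, 0, 0, 0, 0, 0, 0, ⟨0, 0⟩, 0⟩ 0 0) (.cut .d (-1048576) (.void 8 ⟨100000, 0, 0, 0, 0, 0, 0, 0, 0, ⟨0, 0⟩, 0⟩ 0 0) (.cut .d (-524288) (.void 8 ⟨100000, 0, 0, 0, 0, 0, 0, 0, 0, ⟨0, 0⟩, 0⟩ 0 0) (.cut .d (-262144) (.void 8 ⟨100000, 0, 0, 0, 0, 0, 0, 0, 0, ⟨0, 0⟩, 0⟩ 0 0) (.cut .d (-131072) (.void 8 ⟨100000, 0, 0, 0, 0, 0, 0, 0, 0, ⟨0, 0⟩, 0⟩ 0 0) (.cut .d (-65536) (.void 8 ⟨100000,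 0, 0, 0, 0, 0, 0, 0, 0, ⟨0, 0⟩, 0⟩ 0 0) (.cut .v 67108864 (.cut .l 27690795 (.cut .d (-32768) (.void 9 ⟨100000, 0, 0, 0, 0, 0, 0, 0, 0, ⟨0, 0⟩, 0⟩ 0 0) (.cut .s 16736256 (.pos 9 .mp ⟨167772160000, 0, 0, 0, 0, 0, 0, 0, 0, ⟨0, 0⟩, 0⟩ 0 0) (.cut .d (-16384) (.cut .d (-24576) (.void 9 ⟨100000, 0, 0, 0, 0, 0, 0, 0, 0, ⟨0, 0⟩, 0⟩ 0 0) (.pos 9 .mp ⟨167772160000, 0, 0, 0, 0, 0, 0, 0, 0, ⟨0, 0⟩, 0⟩ 0 0)) (.pos 9 .mp ⟨167772160000, 0, 0, 0, 0, 0, 0, 0, 0, ⟨0, 0⟩, 0⟩ 0 0)))) (.cut .s 16736256 (.pos 9 .mp ⟨167772160000, 0, 0, 0, 0, 0, 0, 0, 0, ⟨0, 0⟩, 0⟩ 0 0) (.cut .d (-32768) (.void 9 ⟨100000, 0, 0, 0, 0, 0, 0, 0, 0, ⟨0, 0⟩, 0⟩ 0 0) (.pos 9 .mp ⟨167772160000, 0,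 0, 0, 0, 0, 0, 0, 0, ⟨0, 0⟩, 0⟩ 0 0)))) (.cut .v 134217728 (.cut .d (-32768) (.void 48 ⟨100000, 0, 0, 0, 0, 0, 0, 0, 0, ⟨0, 0⟩, 0⟩ 0 0) (.cut .d (-16384) (.void 48 ⟨100000, 0, 0, 0, 0, 0, 0, 0, 0, ⟨0, 0⟩, 0⟩ 0 0) (.cut .l 27690795 (.cut .l 20556283 (.void 48 ⟨100000, 0, 0, 0, 0, 0, 0, 0, 0, ⟨0, 0⟩, 0⟩ 0 0) (.cut .d (-8192) (.void 48 ⟨100000, 0, 0, 0, 0, 0, 0, 0, 0, ⟨0, 0⟩, 0⟩ 0 0) (.pos 48 .mp ⟨13299341075, 0, 0, 154472818925, 0, 0, 0, 0, 0, ⟨0, 0⟩, 0⟩ 0 0))) (.pos 48 .mp ⟨167772160000, 0, 0, 0, 0, 0, 0, 0, 0, ⟨0, 0⟩, 0⟩ 0 0)))) (.void 49 ⟨84666, 0, 0, 15334, 0, 0, 0, 0, 0, ⟨0, 0⟩, 0⟩ 0 0))))))))))) (.void 43 ⟨91682, 0, 0, 8318, 0, 0, 0, 0, 0, ⟨0, 0⟩,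 0⟩ 0 0)) (.void 74 ⟨91682, 0, 0, 8318, 0, 0, 0, 0, 0, ⟨0, 0⟩, 0⟩ 0 0))) (.cut .v 16777216 (.cut .v 8388608 (.cut .v 4194304 (.cut .v 2097152 (.cut .d 24649 (.pos 46 .pm ⟨0, 0, 167772160000, 0, 0, 0, 0, 0, 0, ⟨0, 0⟩, 0⟩ 0 0) (.cut .v 1048576 (.cut .v 524288 (.cut .v 262144 (.cut .v 131072 (.cut .v 65536 (.cut .d 36974 (.pos 77 .pm ⟨0, 0, 373525108, 0, 0, 0, 0, 0, 0, ⟨0, 0⟩, 0⟩ 0 0) (.pos 77 .pm ⟨0, 0, 61117089, 0, 0, 0, 0, 0, 0, ⟨0, 0⟩, 0⟩ 0 0)) (.pos 78 .pm ⟨0, 0, 1804232912, 0, 0, 0, 0, 0, 0, ⟨0, 0⟩, 0⟩ 0 0)) (.pos 76 .pm ⟨0, 0, 3491893262, 0, 0, 0, 0, 0, 0, ⟨0, 0⟩, 0⟩ 0 0)) (.pos 71 .pm ⟨0, 0, 6747649989, 0, 0, 0, 0, 0, 0, ⟨0, 0⟩, 0⟩ 0 0)) (.pos 69 .pm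 ⟨0, 0, 13476338257, 0, 0, 0, 0, 0, 0, ⟨0, 0⟩, 0⟩ 0 0)) (.pos 55 .pm ⟨0, 0, 26952687422, 0, 0, 0, 0, 0, 0, ⟨0, 0⟩, 0⟩ 0 0))) (.pos 47 .pm ⟨0, 0, 56724837801, 0, 0, 0, 0, 0, 0, ⟨0, 0⟩, 0⟩ 0 0)) (.pos 5 .pm ⟨0, 0, 107834126172, 0, 0, 0, 0, 0, 0, ⟨0, 0⟩, 0⟩ 0 0)) (.pos 3 .pm ⟨0, 0, 167772160000, 0, 0, 0, 0, 0, 0, ⟨0, 0⟩, 0⟩ 0 0)) (.cut .v 4294967296 (.cut .v 268435456 (.cut .v 67108864 (.pos 9 .pp ⟨0, 0, 0, 0, 0, 0, 0, 0, 0, ⟨0, 0⟩, 0⟩ 0 0) (.cut .v 134217728 (.pos 48 .pp ⟨0, 0, 0, 167772160000, 0, 0, 0, 0, 0, ⟨0, 0⟩, 0⟩ 0 0) (.void 49 ⟨0, 0, 0, 100000, 0, 0, 0, 0, 0, ⟨0, 0⟩, 0⟩ 0 0))) (.void 43 ⟨0, 0, 0, 100000, 0, 0, 0, 0, 0, ⟨0, 0⟩, 0⟩ 0 0)) (.void 74 ⟨0,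 0, 0, 100000, 0, 0, 0, 0, 0, ⟨0, 0⟩, 0⟩ 0 0)))),
    by decide +kernel⟩

def covers42 : cell.Covers table row42.1 :=
  ⟨(.cut .d 0 (.cut .v 16777216 (.cut .d (-8388608) (.void 1 ⟨0, 0, 100000, 0, 0, 0, 0, 0, 0, ⟨0, 0⟩, 0⟩ 0 0) (.cut .d (-4194304) (.void 1 ⟨0, 0, 100000, 0, 0, 0, 0, 0, 0, ⟨0, 0⟩, 0⟩ 0 0) (.cut .d (-2097152) (.void 1 ⟨0, 0, 100000, 0, 0, 0, 0, 0, 0, ⟨0, 0⟩, 0⟩ 0 0) (.cut .d (-1048576) (.void 1 ⟨0, 0, 100000, 0, 0, 0, 0, 0, 0, ⟨0, 0⟩, 0⟩ 0 0) (.cut .d (-524288) (.void 1 ⟨0, 0, 100000, 0, 0, 0, 0, 0, 0, ⟨0, 0⟩, 0⟩ 0 0) (.cut .d (-262144) (.void 1 ⟨0, 0, 100000, 0, 0, 0, 0, 0, 0, ⟨0, 0⟩, 0⟩ 0 0) (.cut .d (-131072) (.void 1 ⟨0, 0, 100000, 0,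 0, 0, 0, 0, 0, ⟨0, 0⟩, 0⟩ 0 0) (.cut .v 8388608 (.void 2 ⟨0, 0, 100000, 0, 0, 0, 0, 0, 0, ⟨0, 0⟩, 0⟩ 0 0) (.cut .d (-65536) (.void 3 ⟨100000, 0, 0, 0, 0, 0, 0, 0, 0, ⟨0, 0⟩, 0⟩ 0 0) (.cut .d (-32768) (.void 3 ⟨61130, 0, 38870, 0, 0, 0, 0, 0, 0, ⟨0, 0⟩, 0⟩ 0 0) (.cut .s 16750592 (.pos 3 .mm ⟨167772160000, 0, 0, 0, 0, 0, 0, 0, 0, ⟨0, 0⟩, 0⟩ 0 0) (.cut .s 16753664 (.pos 3 .mm ⟨167772160000, 0, 0, 0, 0, 0, 0, 0, 0, ⟨0, 0⟩, 0⟩ 0 0) (.cut .d (-16384) (.cut .d (-24576) (.void 3 ⟨61123, 0, 38877, 0, 0, 0, 0, 0, 0, ⟨0, 0⟩, 0⟩ 0 0) (.pos 3 .mm ⟨167772160000, 0, 0, 0, 0, 0, 0, 0, 0, ⟨0, 0⟩, 0⟩ 0 0)) (.pos 3 .mm ⟨0, 0, 167772160000, 0, 0, 0, 0, 0, 0, ⟨0, 0⟩, 0⟩ 0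 0)))))))))))))) (.cut .v 4294967296 (.cut .d (-8388608) (.void 42 ⟨100000, 0, 0, 0, 0, 0, 0, 0, 0, ⟨0, 0⟩, 0⟩ 0 0) (.cut .v 268435456 (.cut .d (-4194304) (.void 8 ⟨100000, 0, 0, 0, 0, 0, 0, 0, 0, ⟨0, 0⟩, 0⟩ 0 0) (.cut .d (-2097152) (.void 8 ⟨100000, 0, 0, 0, 0, 0, 0, 0, 0, ⟨0, 0⟩, 0⟩ 0 0) (.cut .d (-1048576) (.void 8 ⟨100000, 0, 0, 0, 0, 0, 0, 0, 0, ⟨0, 0⟩, 0⟩ 0 0) (.cut .d (-524288) (.void 8 ⟨100000, 0, 0, 0, 0, 0, 0, 0, 0, ⟨0, 0⟩, 0⟩ 0 0) (.cut .d (-262144) (.void 8 ⟨100000, 0, 0, 0, 0, 0, 0, 0, 0, ⟨0, 0⟩, 0⟩ 0 0) (.cut .d (-131072) (.void 8 ⟨94015, 0, 5985, 0, 0, 0, 0, 0, 0, ⟨0, 0⟩, 0⟩ 0 0) (.cut .d (-65536) (.void 8 ⟨100000, 0, 0, 0, 0, 0, 0, 0, 0,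 ⟨0, 0⟩, 0⟩ 0 0) (.cut .d (-32768) (.void 8 ⟨100000, 0, 0, 0, 0, 0, 0, 0, 0, ⟨0, 0⟩, 0⟩ 0 0) (.cut .v 67108864 (.cut .d (-16384) (.cut .l 27690795 (.void 9 ⟨100000, 0, 0, 0, 0, 0, 0, 0, 0, ⟨0, 0⟩, 0⟩ 0 0) (.pos 9 .mp ⟨167772160000, 0, 0, 0, 0, 0, 0, 0, 0, ⟨0, 0⟩, 0⟩ 0 0)) (.pos 9 .mp ⟨167772160000, 0, 0, 0, 0, 0, 0, 0, 0, ⟨0, 0⟩, 0⟩ 0 0)) (.cut .d (-16384) (.void 10 ⟨100000, 0, 0, 0, 0, 0, 0, 0, 0, ⟨0, 0⟩, 0⟩ 0 0) (.cut .v 134217728 (.cut .l 27690795 (.cut .v 100663296 (.cut .l 20556283 (.void 50 ⟨1000000000, 0, 0, 0, 0, 0, 0, 0, 0, ⟨0, 0⟩, 0⟩ 0 0) (.pos 50 .mp ⟨167772160000, 0, 0, 0, 0, 0, 0, 0, 0, ⟨0, 0⟩, 0⟩ 0 0)) (.void 51 ⟨84638, 0, 0, 15362, 0, 0,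 0, 0, 0, ⟨0, 0⟩, 0⟩ 0 0)) (.pos 48 .mp ⟨167772160000, 0, 0, 0, 0, 0, 0, 0, 0, ⟨0, 0⟩, 0⟩ 0 0)) (.void 49 ⟨84638, 0, 0, 15362, 0, 0, 0, 0, 0, ⟨0, 0⟩, 0⟩ 0 0)))))))))))) (.cut .s 16750592 (.void 43 ⟨88013, 0, 0, 11987, 0, 0, 0, 0, 0, ⟨0, 0⟩, 0⟩ 0 0) (.void 43 ⟨88013, 0, 0, 11987, 0, 0, 0, 0, 0, ⟨0, 0⟩, 0⟩ 0 0)))) (.void 74 ⟨91676, 0, 0, 8324, 0, 0, 0, 0, 0, ⟨0, 0⟩, 0⟩ 0 0))) (.cut .v 16777216 (.cut .v 8388608 (.cut .v 4194304 (.cut .d 16417 (.pos 4 .pm ⟨0, 0, 167772160000, 0, 0, 0, 0, 0, 0, ⟨0, 0⟩, 0⟩ 0 0) (.cut .v 2097152 (.cut .v 1048576 (.cut .v 524288 (.cut .d 24626 (.cut .v 262144 (.cut .v 131072 (.cut .v 65536 (.cut .v 32768 (.cut .d 20521 (.pos 79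 .pm ⟨0, 0, 938691163, 0, 0, 0, 0, 0, 0, ⟨0, 0⟩, 0⟩ 0 0) (.pos 79 .pm ⟨0, 0, 180510668, 0, 0, 0, 0, 0, 0, ⟨0, 0⟩, 0⟩ 0 0)) (.pos 80 .pm ⟨0, 0, 5391159549, 0, 0, 0, 0, 0, 0, ⟨0, 0⟩, 0⟩ 0 0)) (.cut .s 16750592 (.pos 78 .pm ⟨0, 0, 167772160000, 0, 0, 0, 0, 0, 0, ⟨0, 0⟩, 0⟩ 0 0) (.pos 78 .pm ⟨0, 0, 7299162966, 0, 0, 0, 0, 0, 0, ⟨0, 0⟩, 0⟩ 0 0))) (.pos 76 .pm ⟨0, 0, 23063633965, 0, 0, 0, 0, 0, 0, ⟨0, 0⟩, 0⟩ 0 0)) (.pos 71 .pm ⟨0, 0, 48086210715, 0, 0, 0, 0, 0, 0, ⟨0, 0⟩, 0⟩ 0 0)) (.cut .v 262144 (.cut .v 131072 (.cut .v 65536 (.cut .v 32768 (.pos 79 .pm ⟨0, 0, 38425518, 0, 0, 0, 0, 0, 0, ⟨0, 0⟩, 0⟩ 0 0) (.pos 80 .pm ⟨0, 0, 1525238283, 0, 0, 0, 0, 0, 0, ⟨0, 0⟩,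 0⟩ 0 0)) (.pos 78 .pm ⟨0, 0, 3050375404, 0, 0, 0, 0, 0, 0, ⟨0, 0⟩, 0⟩ 0 0)) (.pos 76 .pm ⟨0, 0, 6100651319, 0, 0, 0, 0, 0, 0, ⟨0, 0⟩, 0⟩ 0 0)) (.pos 71 .pm ⟨0, 0, 12201209834, 0, 0, 0, 0, 0, 0, ⟨0, 0⟩, 0⟩ 0 0))) (.pos 69 .pm ⟨0, 0, 24403628793, 0, 0, 0, 0, 0, 0, ⟨0, 0⟩, 0⟩ 0 0)) (.pos 55 .pm ⟨0, 0, 48807313033, 0, 0, 0, 0, 0, 0, ⟨0, 0⟩, 0⟩ 0 0)) (.pos 47 .pm ⟨0, 0, 97615109411, 0, 0, 0, 0, 0, 0, ⟨0, 0⟩, 0⟩ 0 0))) (.pos 5 .pm ⟨0, 0, 167772160000, 0, 0, 0, 0, 0, 0, ⟨0, 0⟩, 0⟩ 0 0)) (.pos 3 .pm ⟨0, 0, 167772160000, 0, 0, 0, 0, 0, 0, ⟨0, 0⟩, 0⟩ 0 0)) (.cut .v 4294967296 (.cut .v 268435456 (.cut .v 67108864 (.pos 9 .pp ⟨0, 0, 0, 0, 0, 0, 0, 0, 0, ⟨0, 0⟩, 0⟩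 0 0) (.cut .v 134217728 (.pos 48 .pp ⟨0, 0, 0, 167772160000, 0, 0, 0, 0, 0, ⟨0, 0⟩, 0⟩ 0 0) (.void 49 ⟨0, 0, 0, 100000, 0, 0, 0, 0, 0, ⟨0, 0⟩, 0⟩ 0 0))) (.void 43 ⟨0, 0, 0, 100000, 0, 0, 0, 0, 0, ⟨0, 0⟩, 0⟩ 0 0)) (.void 74 ⟨0, 0, 0, 100000, 0, 0, 0, 0, 0, ⟨0, 0⟩, 0⟩ 0 0)))),
    by decide +kernel⟩

def covers43 : cell.Covers table row43.1 :=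
  ⟨(.cut .d 0 (.cut .v 16777216 (.cut .d (-8388608) (.void 1 ⟨0, 0, 98368, 0, 0, 0, 0, 0, 0, ⟨0, 0⟩, 0⟩ 0 0) (.cut .d (-4194304) (.void 1 ⟨0, 0, 1000000000, 0, 0, 0, 0, 0, 0, ⟨0, 0⟩, 0⟩ 0 0) (.cut .d (-2097152) (.void 1 ⟨0, 0, 1000000000, 0, 0, 0, 0, 0, 0, ⟨0, 0⟩, 0⟩ 0 0) (.cut .d (-1048576) (.void 1 ⟨0, 0, 1000000000, 0, 0, 0, 0, 0, 0, ⟨0, 0⟩, 0⟩ 0 0) (.cut .d (-524288) (.void 1 ⟨0, 0, 1000000000, 0, 0, 0, 0, 0, 0, ⟨0, 0⟩, 0⟩ 0 0) (.cut .d (-262144) (.void 1 ⟨0, 0, 1000000000, 0, 0, 0, 0, 0, 0, ⟨0, 0⟩, 0⟩ 0 0) (.cut .d (-131072) (.void 1 ⟨0, 0, 1000000000, 0, 0, 0, 0, 0, 0, ⟨0, 0⟩, 0⟩ 0 0) (.cut .d (-65536) (.void 1 ⟨0, 0, 1000000000, 0, 0, 0, 0, 0, 0,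 ⟨0, 0⟩, 0⟩ 0 0) (.cut .v 8388608 (.void 2 ⟨0, 0, 1000000000, 0, 0, 0, 0, 0, 0, ⟨0, 0⟩, 0⟩ 0 0) (.cut .d (-32768) (.void 3 ⟨1000000000, 0, 0, 0, 0, 0, 0, 0, 0, ⟨0, 0⟩, 0⟩ 0 0) (.cut .d (-16384) (.cut .s 16760832 (.void 3 ⟨48869, 0, 29289, 0, 0, 0, 0, 0, 0, ⟨0, 0⟩, 0⟩ 0 0) (.void 3 ⟨48869, 0, 29289, 0, 0, 0, 0, 0, 0, ⟨0, 0⟩, 0⟩ 0 0)) (.cut .s 16760832 (.pos 3 .mm ⟨167772160000, 0, 0, 0, 0, 0, 0, 0, 0, ⟨0, 0⟩, 0⟩ 0 0) (.cut .s 16762880 (.pos 3 .mm ⟨167772160000, 0, 0, 0, 0, 0, 0, 0, 0, ⟨0, 0⟩, 0⟩ 0 0) (.cut .s 16763904 (.pos 3 .mm ⟨167772160000, 0, 0, 0, 0, 0, 0, 0, 0, ⟨0, 0⟩, 0⟩ 0 0) (.cut .d (-8192) (.cut .d (-12288) (.void 3 ⟨0, 0, 1000000000, 0, 0, 0,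 0, 0, 0, ⟨0, 0⟩, 0⟩ 0 0) (.pos 3 .mm ⟨167772160000, 0, 0, 0, 0, 0, 0, 0, 0, ⟨0, 0⟩, 0⟩ 0 0)) (.pos 3 .mm ⟨0, 0, 167772160000, 0, 0, 0, 0, 0, 0, ⟨0, 0⟩, 0⟩ 0 0)))))))))))))))) (.cut .v 4294967296 (.cut .d (-8388608) (.void 42 ⟨1000000000, 0, 0, 0, 0, 0, 0, 0, 0, ⟨0, 0⟩, 0⟩ 0 0) (.cut .v 268435456 (.cut .d (-4194304) (.void 8 ⟨1000000000, 0, 0, 0, 0, 0, 0, 0, 0, ⟨0, 0⟩, 0⟩ 0 0) (.cut .d (-2097152) (.void 8 ⟨1000000000, 0, 0, 0, 0, 0, 0, 0, 0, ⟨0, 0⟩, 0⟩ 0 0) (.cut .d (-1048576) (.void 8 ⟨1000000000, 0, 0, 0, 0, 0, 0, 0, 0, ⟨0, 0⟩, 0⟩ 0 0) (.cut .d (-524288) (.void 8 ⟨1000000000, 0, 0, 0, 0, 0, 0, 0, 0, ⟨0, 0⟩, 0⟩ 0 0) (.cut .d (-262144) (.void 8 ⟨1000000000,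 0, 0, 0, 0, 0, 0, 0, 0, ⟨0, 0⟩, 0⟩ 0 0) (.cut .d (-131072) (.void 8 ⟨1000000000, 0, 0, 0, 0, 0, 0, 0, 0, ⟨0, 0⟩, 0⟩ 0 0) (.cut .d (-65536) (.void 8 ⟨1000000000, 0, 0, 0, 0, 0, 0, 0, 0, ⟨0, 0⟩, 0⟩ 0 0) (.cut .d (-32768) (.void 8 ⟨1000000000, 0, 0, 0, 0, 0, 0, 0, 0, ⟨0, 0⟩, 0⟩ 0 0) (.cut .d (-16384) (.void 8 ⟨100000, 0, 0, 0, 0, 0, 0, 0, 0, ⟨0, 0⟩, 0⟩ 0 0) (.cut .v 67108864 (.cut .d (-8192) (.cut .l 27690795 (.cut .l 20556283 (.void 9 ⟨1000000000, 0, 0, 0, 0, 0, 0, 0, 0, ⟨0, 0⟩, 0⟩ 0 0) (.pos 9 .mp ⟨167772160000, 0, 0, 0, 0, 0, 0, 0, 0, ⟨0, 0⟩, 0⟩ 0 0)) (.pos 9 .mp ⟨167772160000, 0, 0, 0, 0, 0, 0, 0, 0, ⟨0, 0⟩, 0⟩ 0 0)) (.pos 9 .mp ⟨167772160000, 0, 0, 0,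 0, 0, 0, 0, 0, ⟨0, 0⟩, 0⟩ 0 0)) (.cut .d (-8192) (.void 10 ⟨100000, 0, 0, 0, 0, 0, 0, 0, 0, ⟨0, 0⟩, 0⟩ 0 0) (.cut .v 134217728 (.cut .l 27690795 (.cut .l 20556283 (.void 48 ⟨1000000000, 0, 0, 0, 0, 0, 0, 0, 0, ⟨0, 0⟩, 0⟩ 0 0) (.cut .d (-4096) (.void 48 ⟨100000, 0, 0, 0, 0, 0, 0, 0, 0, ⟨0, 0⟩, 0⟩ 0 0) (.pos 48 .mp ⟨0, 0, 0, 167772160000, 0, 0, 0, 0, 0, ⟨0, 0⟩, 0⟩ 0 0))) (.pos 48 .mp ⟨167772160000, 0, 0, 0, 0, 0, 0, 0, 0, ⟨0, 0⟩, 0⟩ 0 0)) (.void 49 ⟨84628, 0, 0, 15372, 0, 0, 0, 0, 0, ⟨0, 0⟩, 0⟩ 0 0))))))))))))) (.cut .s 16760832 (.void 43 ⟨1000000000, 0, 0, 0, 0, 0, 0, 0, 0, ⟨0, 0⟩, 0⟩ 0 0) (.void 43 ⟨1000000000, 0, 0, 0, 0, 0, 0, 0, 0, ⟨0, 0⟩, 0⟩ 0 0))))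 (.void 74 ⟨100000, 0, 0, 0, 0, 0, 0, 0, 0, ⟨0, 0⟩, 0⟩ 0 0))) (.cut .v 16777216 (.cut .v 8388608 (.cut .v 4194304 (.cut .d 10254 (.cut .v 2097152 (.pos 46 .pm ⟨0, 0, 167772160000, 0, 0, 0, 0, 0, 0, ⟨0, 0⟩, 0⟩ 0 0) (.pos 47 .pm ⟨0, 0, 0, 0, 0, 0, 0, 0, 0, ⟨0, 0⟩, 0⟩ 0 0)) (.cut .s 16760832 (.cut .d 15381 (.cut .d 12817 (.cut .d 11535 (.cut .d 10894 (.cut .v 2097152 (.cut .v 1048576 (.void 54 ⟨0, 0, 1000000000, 0, 0, 0, 0, 0, 0, ⟨0, 0⟩, 0⟩ 0 0) (.pos 55 .pm ⟨0, 0, 0, 0, 0, 0, 0, 0, 0, ⟨0, 0⟩, 0⟩ 0 0)) (.pos 47 .pm ⟨0, 0, 167772160000, 0, 0, 0, 0, 0, 0, ⟨0, 0⟩, 0⟩ 0 0)) (.cut .v 2097152 (.cut .v 1048576 (.void 54 ⟨0, 0, 100000, 0, 0, 0, 0, 0, 0, ⟨0, 0⟩, 0⟩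 0 0) (.pos 55 .pm ⟨0, 0, 0, 0, 0, 0, 0, 0, 0, ⟨0, 0⟩, 0⟩ 0 0)) (.pos 47 .pm ⟨0, 0, 167772160000, 0, 0, 0, 0, 0, 0, ⟨0, 0⟩, 0⟩ 0 0))) (.cut .v 2097152 (.cut .d 12176 (.cut .v 1048576 (.cut .v 524288 (.void 68 ⟨0, 0, 191537, 0, 0, 0, 0, 0, 0, ⟨0, 0⟩, 0⟩ 0 0) (.void 69 ⟨0, 0, 139116, 0, 0, 0, 0, 0, 0, ⟨0, 0⟩, 0⟩ 0 0)) (.void 55 ⟨0, 0, 139116, 0, 0, 0, 0, 0, 0, ⟨0, 0⟩, 0⟩ 0 0)) (.cut .s 16758784 (.void 46 ⟨0, 0, 101479, 0, 0, 0, 0, 0, 0, ⟨0, 0⟩, 0⟩ 0 0) (.pos 46 .pm ⟨0, 0, 167772160000, 0, 0, 0, 0, 0, 0, ⟨0, 0⟩, 0⟩ 0 0))) (.pos 47 .pm ⟨0, 0, 167772160000, 0, 0, 0, 0, 0, 0, ⟨0, 0⟩, 0⟩ 0 0))) (.cut .s 16758784 (.pos 4 .pm ⟨0, 0, 167772160000, 0, 0, 0, 0, 0,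 0, ⟨0, 0⟩, 0⟩ 0 0) (.pos 4 .pm ⟨0, 0, 167772160000, 0, 0, 0, 0, 0, 0, ⟨0, 0⟩, 0⟩ 0 0))) (.cut .v 2097152 (.cut .v 1048576 (.cut .v 524288 (.cut .v 262144 (.cut .v 131072 (.cut .v 65536 (.cut .v 32768 (.pos 79 .pm ⟨0, 0, 161215379, 0, 0, 0, 0, 0, 0, ⟨0, 0⟩, 0⟩ 0 0) (.pos 80 .pm ⟨0, 0, 3046712736, 0, 0, 0, 0, 0, 0, ⟨0, 0⟩, 0⟩ 0 0)) (.pos 78 .pm ⟨0, 0, 6093362454, 0, 0, 0, 0, 0, 0, ⟨0, 0⟩, 0⟩ 0 0)) (.pos 76 .pm ⟨0, 0, 12186663570, 0, 0, 0, 0, 0, 0, ⟨0, 0⟩, 0⟩ 0 0)) (.pos 71 .pm ⟨0, 0, 24373272522, 0, 0, 0, 0, 0, 0, ⟨0, 0⟩, 0⟩ 0 0)) (.pos 69 .pm ⟨0, 0, 48746517302, 0, 0, 0, 0, 0, 0, ⟨0, 0⟩, 0⟩ 0 0)) (.pos 55 .pm ⟨0, 0, 97493114374, 0, 0, 0, 0, 0, 0, ⟨0, 0⟩,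 0⟩ 0 0)) (.pos 47 .pm ⟨0, 0, 167772160000, 0, 0, 0, 0, 0, 0, ⟨0, 0⟩, 0⟩ 0 0))) (.cut .v 2097152 (.cut .v 1048576 (.cut .v 524288 (.cut .v 262144 (.cut .v 131072 (.cut .v 65536 (.cut .v 32768 (.cut .v 16384 (.cut .v 8192 (.pos 87 .pm ⟨0, 0, 60447364, 0, 0, 0, 0, 0, 0, ⟨0, 0⟩, 0⟩ 0 0) (.pos 88 .pm ⟨0, 0, 1070066963, 0, 0, 0, 0, 0, 0, ⟨0, 0⟩, 0⟩ 0 0)) (.pos 84 .pm ⟨0, 0, 2140079453, 0, 0, 0, 0, 0, 0, ⟨0, 0⟩, 0⟩ 0 0)) (.pos 80 .pm ⟨0, 0, 4280104537, 0, 0, 0, 0, 0, 0, ⟨0, 0⟩, 0⟩ 0 0)) (.pos 78 .pm ⟨0, 0, 8560155125, 0, 0, 0, 0, 0, 0, ⟨0, 0⟩, 0⟩ 0 0)) (.pos 76 .pm ⟨0, 0, 17120257985, 0, 0, 0, 0, 0, 0, ⟨0, 0⟩, 0⟩ 0 0)) (.pos 71 .pm ⟨0, 0, 34240470436, 0, 0, 0,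 0, 0, 0, ⟨0, 0⟩, 0⟩ 0 0)) (.pos 69 .pm ⟨0, 0, 68480922260, 0, 0, 0, 0, 0, 0, ⟨0, 0⟩, 0⟩ 0 0)) (.pos 55 .pm ⟨0, 0, 136961933598, 0, 0, 0, 0, 0, 0, ⟨0, 0⟩, 0⟩ 0 0)) (.pos 47 .pm ⟨0, 0, 167772160000, 0, 0, 0, 0, 0, 0, ⟨0, 0⟩, 0⟩ 0 0)))) (.pos 5 .pm ⟨0, 0, 167772160000, 0, 0, 0, 0, 0, 0, ⟨0, 0⟩, 0⟩ 0 0)) (.pos 3 .pm ⟨0, 0, 167772160000, 0, 0, 0, 0, 0, 0, ⟨0, 0⟩, 0⟩ 0 0)) (.cut .v 4294967296 (.cut .v 268435456 (.cut .v 67108864 (.pos 9 .pp ⟨0, 0, 0, 0, 0, 0, 0, 0, 0, ⟨0, 0⟩, 0⟩ 0 0) (.cut .v 134217728 (.pos 48 .pp ⟨0, 0, 0, 167772160000, 0, 0, 0, 0, 0, ⟨0, 0⟩, 0⟩ 0 0) (.void 49 ⟨0, 0, 0, 1000000000, 0, 0, 0, 0, 0, ⟨0, 0⟩, 0⟩ 0 0))) (.void 43 ⟨0, 0, 0, 1000000000,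 0, 0, 0, 0, 0, ⟨0, 0⟩, 0⟩ 0 0)) (.void 74 ⟨0, 0, 0, 1000000000, 0, 0, 0, 0, 0, ⟨0, 0⟩, 0⟩ 0 0)))),
    by decide +kernel⟩

def covers44 : cell.Covers table row44.1 :=
  ⟨(.cut .d 0 (.cut .v 16777216 (.cut .d (-8388608) (.void 1 ⟨0, 0, 100000, 0, 0, 0, 0, 0, 0, ⟨0, 0⟩, 0⟩ 0 0) (.cut .d (-4194304) (.void 1 ⟨0, 0, 67604, 0, 0, 32304, 0, 0, 0, ⟨0, 0⟩, 0⟩ 0 0) (.cut .d (-2097152) (.void 1 ⟨0, 0, 100000, 0, 0, 0, 0, 0, 0, ⟨0, 0⟩, 0⟩ 0 0) (.cut .d (-1048576) (.void 1 ⟨0, 0, 100000, 0, 0, 0, 0, 0, 0, ⟨0, 0⟩, 0⟩ 0 0) (.cut .d (-524288) (.void 1 ⟨0, 0, 100000, 0, 0, 0, 0, 0, 0, ⟨0, 0⟩, 0⟩ 0 0) (.cut .d (-262144) (.void 1 ⟨0, 0, 100000, 0, 0, 0, 0, 0, 0, ⟨0, 0⟩,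 0⟩ 0 0) (.cut .d (-131072) (.void 1 ⟨0, 0, 100000, 0, 0, 0, 0, 0, 0, ⟨0, 0⟩, 0⟩ 0 0) (.cut .d (-65536) (.void 1 ⟨0, 0, 100000, 0, 0, 0, 0, 0, 0, ⟨0, 0⟩, 0⟩ 0 0) (.cut .d (-32768) (.void 1 ⟨0, 0, 100000, 0, 0, 0, 0, 0, 0, ⟨0, 0⟩, 0⟩ 0 0) (.cut .d (-16384) (.void 1 ⟨0, 0, 100000, 0, 0, 0, 0, 0, 0, ⟨0, 0⟩, 0⟩ 0 0) (.cut .v 8388608 (.void 2 ⟨0, 0, 100000, 0, 0, 0, 0, 0, 0, ⟨0, 0⟩, 0⟩ 0 0) (.cut .d (-8192) (.cut .d (-12288) (.void 3 ⟨61106, 0, 38894, 0, 0, 0, 0, 0, 0, ⟨0, 0⟩, 0⟩ 0 0) (.cut .d (-10240) (.void 3 ⟨61106, 0, 38894, 0, 0, 0, 0, 0, 0, ⟨0, 0⟩, 0⟩ 0 0) (.cut .s 16766976 (.pos 3 .mm ⟨167772160000, 0, 0, 0, 0, 0, 0, 0, 0, ⟨0, 0⟩, 0⟩ 0 0) (.void 3 ⟨61116,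 0, 38884, 0, 0, 0, 0, 0, 0, ⟨0, 0⟩, 0⟩ 0 0)))) (.pos 3 .mm ⟨167772160000, 0, 0, 0, 0, 0, 0, 0, 0, ⟨0, 0⟩, 0⟩ 0 0))))))))))))) (.cut .v 4294967296 (.cut .d (-8388608) (.void 42 ⟨1000000000, 0, 0, 0, 0, 0, 0, 0, 0, ⟨0, 0⟩, 0⟩ 0 0) (.cut .v 268435456 (.cut .d (-4194304) (.void 8 ⟨1000000000, 0, 0, 0, 0, 0, 0, 0, 0, ⟨0, 0⟩, 0⟩ 0 0) (.cut .d (-2097152) (.void 8 ⟨1000000000, 0, 0, 0, 0, 0, 0, 0, 0, ⟨0, 0⟩, 0⟩ 0 0) (.cut .d (-1048576) (.void 8 ⟨1000000000, 0, 0, 0, 0, 0, 0, 0, 0, ⟨0, 0⟩, 0⟩ 0 0) (.cut .d (-524288) (.void 8 ⟨1000000000, 0, 0, 0, 0, 0, 0, 0, 0, ⟨0, 0⟩, 0⟩ 0 0) (.cut .d (-262144) (.void 8 ⟨1000000000, 0, 0, 0, 0, 0, 0, 0, 0, ⟨0, 0⟩, 0⟩ 0 0) (.cut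 .d (-131072) (.void 8 ⟨1000000000, 0, 0, 0, 0, 0, 0, 0, 0, ⟨0, 0⟩, 0⟩ 0 0) (.cut .d (-65536) (.void 8 ⟨1000000000, 0, 0, 0, 0, 0, 0, 0, 0, ⟨0, 0⟩, 0⟩ 0 0) (.cut .d (-32768) (.void 8 ⟨1000000000, 0, 0, 0, 0, 0, 0, 0, 0, ⟨0, 0⟩, 0⟩ 0 0) (.cut .d (-16384) (.void 8 ⟨1000000000, 0, 0, 0, 0, 0, 0, 0, 0, ⟨0, 0⟩, 0⟩ 0 0) (.cut .v 67108864 (.cut .l 27690795 (.cut .d (-8192) (.void 9 ⟨1000000000, 0, 0, 0, 0, 0, 0, 0, 0, ⟨0, 0⟩, 0⟩ 0 0) (.cut .v 33554432 (.pos 11 .mp ⟨167772160000, 0, 0, 0, 0, 0, 0, 0, 0, ⟨0, 0⟩, 0⟩ 0 0) (.cut .d (-4096) (.void 12 ⟨100000, 0, 0, 0, 0, 0, 0, 0, 0, ⟨0, 0⟩, 0⟩ 0 0) (.pos 12 .mp ⟨167772160000, 0, 0, 0, 0, 0, 0, 0, 0, ⟨0, 0⟩, 0⟩ 0 0))))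 (.cut .s 16766976 (.pos 9 .mp ⟨167772160000, 0, 0, 0, 0, 0, 0, 0, 0, ⟨0, 0⟩, 0⟩ 0 0) (.cut .d (-8192) (.void 9 ⟨1000000000, 0, 0, 0, 0, 0, 0, 0, 0, ⟨0, 0⟩, 0⟩ 0 0) (.pos 9 .mp ⟨167772160000, 0, 0, 0, 0, 0, 0, 0, 0, ⟨0, 0⟩, 0⟩ 0 0)))) (.cut .d (-8192) (.void 10 ⟨100000, 0, 0, 0, 0, 0, 0, 0, 0, ⟨0, 0⟩, 0⟩ 0 0) (.cut .v 134217728 (.cut .d (-4096) (.void 48 ⟨100000, 0, 0, 0, 0, 0, 0, 0, 0, ⟨0, 0⟩, 0⟩ 0 0) (.cut .l 27690795 (.cut .v 100663296 (.cut .d (-2048) (.void 50 ⟨100000, 0, 0, 0, 0, 0, 0, 0, 0, ⟨0, 0⟩, 0⟩ 0 0) (.pos 50 .mp ⟨167772160000, 0, 0, 0, 0, 0, 0, 0, 0, ⟨0, 0⟩, 0⟩ 0 0)) (.void 51 ⟨84623, 0, 0, 15377, 0, 0, 0, 0, 0, ⟨0, 0⟩, 0⟩ 0 0)) (.pos 48 .mp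 ⟨167772160000, 0, 0, 0, 0, 0, 0, 0, 0, ⟨0, 0⟩, 0⟩ 0 0))) (.void 49 ⟨84625, 0, 0, 15375, 0, 0, 0, 0, 0, ⟨0, 0⟩, 0⟩ 0 0))))))))))))) (.cut .s 16766976 (.void 43 ⟨1000000000, 0, 0, 0, 0, 0, 0, 0, 0, ⟨0, 0⟩, 0⟩ 0 0) (.void 43 ⟨1000000000, 0, 0, 0, 0, 0, 0, 0, 0, ⟨0, 0⟩, 0⟩ 0 0)))) (.void 74 ⟨91684, 0, 0, 8329, 0, 0, 0, 0, 0, ⟨0, 0⟩, 0⟩ 0 0))) (.cut .v 16777216 (.cut .v 8388608 (.cut .v 4194304 (.cut .v 2097152 (.cut .d 6150 (.void 46 ⟨0, 0, 100000, 0, 0, 0, 0, 0, 0, ⟨0, 0⟩, 0⟩ 0 0) (.cut .v 1048576 (.cut .v 524288 (.cut .v 262144 (.cut .v 131072 (.cut .v 65536 (.cut .v 32768 (.cut .v 16384 (.cut .d 9225 (.cut .v 8192 (.pos 87 .pm ⟨0, 0, 304938451, 0, 0, 0,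 0, 0, 0, ⟨0, 0⟩, 0⟩ 0 0) (.pos 88 .pm ⟨0, 0, 4896534547, 0, 0, 0, 0, 0, 0, ⟨0, 0⟩, 0⟩ 0 0)) (.pos 83 .pm ⟨0, 0, 64739563, 0, 0, 0, 0, 0, 0, ⟨0, 0⟩, 0⟩ 0 0)) (.pos 84 .pm ⟨0, 0, 3650048018, 0, 0, 0, 0, 0, 0, ⟨0, 0⟩, 0⟩ 0 0)) (.pos 80 .pm ⟨0, 0, 7135213538, 0, 0, 0, 0, 0, 0, ⟨0, 0⟩, 0⟩ 0 0)) (.pos 78 .pm ⟨0, 0, 13938736750, 0, 0, 0, 0, 0, 0, ⟨0, 0⟩, 0⟩ 0 0)) (.pos 76 .pm ⟨0, 0, 27156722946, 0, 0, 0, 0, 0, 0, ⟨0, 0⟩, 0⟩ 0 0)) (.pos 71 .pm ⟨0, 0, 52995458163, 0, 0, 0, 0, 0, 0, ⟨0, 0⟩, 0⟩ 0 0)) (.pos 69 .pm ⟨0, 0, 105990919582, 0, 0, 0, 0, 0, 0, ⟨0, 0⟩, 0⟩ 0 0)) (.pos 55 .pm ⟨0, 0, 167772160000, 0, 0, 0, 0, 0, 0, ⟨0, 0⟩, 0⟩ 0 0))) (.pos 47 .pm ⟨0, 0, 167772160000,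 0, 0, 0, 0, 0, 0, ⟨0, 0⟩, 0⟩ 0 0)) (.pos 5 .pm ⟨0, 0, 167772160000, 0, 0, 0, 0, 0, 0, ⟨0, 0⟩, 0⟩ 0 0)) (.pos 3 .pm ⟨0, 0, 167772160000, 0, 0, 0, 0, 0, 0, ⟨0, 0⟩, 0⟩ 0 0)) (.cut .v 4294967296 (.cut .v 268435456 (.cut .v 67108864 (.pos 9 .pp ⟨0, 0, 0, 0, 0, 0, 0, 0, 0, ⟨0, 0⟩, 0⟩ 0 0) (.cut .v 134217728 (.pos 48 .pp ⟨0, 0, 0, 167772160000, 0, 0, 0, 0, 0, ⟨0, 0⟩, 0⟩ 0 0) (.void 49 ⟨0, 0, 0, 100000, 0, 0, 0, 0, 0, ⟨0, 0⟩, 0⟩ 0 0))) (.void 43 ⟨0, 0, 0, 100000, 0, 0, 0, 0, 0, ⟨0, 0⟩, 0⟩ 0 0)) (.void 74 ⟨0, 0, 0, 100000, 0, 0, 0, 0, 0, ⟨0, 0⟩, 0⟩ 0 0)))),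
    by decide +kernel⟩

def covers45 : cell.Covers table row45.1 :=
  ⟨(.cut .d 0 (.cut .v 16777216 (.cut .d (-8388608) (.void 1 ⟨0, 0, 90613, 0, 0, 9388, 0, 0, 0, ⟨0, 0⟩, 0⟩ 0 0) (.cut .d (-4194304) (.void 1 ⟨0, 0, 91515, 0, 0, 8485, 0, 0, 0, ⟨0, 0⟩, 0⟩ 0 0) (.cut .d (-2097152) (.void 1 ⟨0, 0, 92507, 0, 0, 7493, 0, 0, 0, ⟨0, 0⟩, 0⟩ 0 0) (.cut .d (-1048576) (.void 1 ⟨0, 0, 93003, 0, 0, 6997, 0, 0, 0, ⟨0, 0⟩, 0⟩ 0 0) (.cut .d (-524288) (.void 1 ⟨0, 0, 93251, 0, 0, 6749, 0, 0, 0, ⟨0, 0⟩, 0⟩ 0 0) (.cut .d (-262144) (.void 1 ⟨0, 0, 93375, 0, 0, 6625, 0, 0, 0, ⟨0, 0⟩, 0⟩ 0 0) (.cut .d (-131072) (.void 1 ⟨0, 0, 93437, 0, 0, 6563, 0, 0, 0, ⟨0, 0⟩, 0⟩ 0 0) (.cut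 .d (-65536) (.void 1 ⟨0, 0, 93468, 0, 0, 6532, 0, 0, 0, ⟨0, 0⟩, 0⟩ 0 0) (.cut .d (-32768) (.void 1 ⟨0, 0, 92657, 0, 0, 7344, 0, 0, 0, ⟨0, 0⟩, 0⟩ 0 0) (.cut .d (-16384) (.void 1 ⟨0, 0, 93491, 0, 0, 6509, 0, 0, 0, ⟨0, 0⟩, 0⟩ 0 0) (.cut .d (-8192) (.void 1 ⟨0, 0, 100000, 0, 0, 0, 0, 0, 0, ⟨0, 0⟩, 0⟩ 0 0) (.cut .v 8388608 (.void 2 ⟨0, 0, 100117, 0, 0, 0, 0, 0, 0, ⟨0, 0⟩, 0⟩ 0 0) (.cut .d (-4096) (.cut .v 12582912 (.void 6 ⟨4829, 0, 95171, 0, 0, 0, 0, 0, 0, ⟨0, 0⟩, 0⟩ 0 0) (.cut .l 27690795 (.cut .s 16771072 (.cut .s 16770048 (.pos 7 .mm ⟨167772160000, 0, 0, 0, 0, 0, 0, 0, 0, ⟨0, 0⟩, 0⟩ 0 0) (.void 7 ⟨70135, 0, 29865, 0, 0, 0, 0, 0, 0, ⟨0, 0⟩, 0⟩ 0 0)) (.void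 7 ⟨70135, 0, 29865, 0, 0, 0, 0, 0, 0, ⟨0, 0⟩, 0⟩ 0 0)) (.pos 7 .mm ⟨167772160000, 0, 0, 0, 0, 0, 0, 0, 0, ⟨0, 0⟩, 0⟩ 0 0))) (.pos 3 .mm ⟨167772160000, 0, 0, 0, 0, 0, 0, 0, 0, ⟨0, 0⟩, 0⟩ 0 0)))))))))))))) (.cut .v 4294967296 (.cut .d (-8388608) (.void 42 ⟨73678, 24483, 208, 1491, 0, 0, 0, 47, 0, ⟨(-1), 11908932⟩, 0⟩ 0 128) (.cut .v 268435456 (.cut .d (-4194304) (.void 8 ⟨100000, 0, 0, 0, 0, 0, 0, 0, 0, ⟨0, 0⟩, 0⟩ 0 0) (.cut .d (-2097152) (.void 8 ⟨100000, 0, 0, 0, 0, 0, 0, 0, 0, ⟨0, 0⟩, 0⟩ 0 0) (.cut .d (-1048576) (.void 8 ⟨100000, 0, 0, 0, 0, 0, 0, 0, 0, ⟨0, 0⟩, 0⟩ 0 0) (.cut .d (-524288) (.void 8 ⟨100000, 0, 0, 0, 0, 0, 0, 0, 0, ⟨0, 0⟩, 0⟩ 0 0) (.cut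 .d (-262144) (.void 8 ⟨100000, 0, 0, 0, 0, 0, 0, 0, 0, ⟨0, 0⟩, 0⟩ 0 0) (.cut .d (-131072) (.void 8 ⟨100000, 0, 0, 0, 0, 0, 0, 0, 0, ⟨0, 0⟩, 0⟩ 0 0) (.cut .d (-65536) (.void 8 ⟨100000, 0, 0, 0, 0, 0, 0, 0, 0, ⟨0, 0⟩, 0⟩ 0 0) (.cut .d (-32768) (.void 8 ⟨100000, 0, 0, 0, 0, 0, 0, 0, 0, ⟨0, 0⟩, 0⟩ 0 0) (.cut .d (-16384) (.void 8 ⟨100000, 0, 0, 0, 0, 0, 0, 0, 0, ⟨0, 0⟩, 0⟩ 0 0) (.cut .d (-8192) (.void 8 ⟨100000, 0, 0, 0, 0, 0, 0, 0, 0, ⟨0, 0⟩, 0⟩ 0 0) (.cut .v 67108864 (.cut .l 27690795 (.cut .d (-4096) (.void 9 ⟨100000, 0, 0, 0, 0, 0, 0, 0, 0, ⟨0, 0⟩, 0⟩ 0 0) (.cut .s 16771072 (.pos 9 .mp ⟨167772160000, 0, 0, 0, 0, 0, 0, 0, 0, ⟨0, 0⟩, 0⟩ 0 0) (.cut .d (-2048)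 (.cut .d (-3072) (.void 9 ⟨100000, 0, 0, 0, 0, 0, 0, 0, 0, ⟨0, 0⟩, 0⟩ 0 0) (.pos 9 .mp ⟨167772160000, 0, 0, 0, 0, 0, 0, 0, 0, ⟨0, 0⟩, 0⟩ 0 0)) (.pos 9 .mp ⟨167772160000, 0, 0, 0, 0, 0, 0, 0, 0, ⟨0, 0⟩, 0⟩ 0 0)))) (.cut .s 16771072 (.pos 9 .mp ⟨167772160000, 0, 0, 0, 0, 0, 0, 0, 0, ⟨0, 0⟩, 0⟩ 0 0) (.cut .s 16772096 (.pos 9 .mp ⟨167772160000, 0, 0, 0, 0, 0, 0, 0, 0, ⟨0, 0⟩, 0⟩ 0 0) (.cut .d (-4096) (.void 9 ⟨1000000000, 0, 0, 0, 0, 0, 0, 0, 0, ⟨0, 0⟩, 0⟩ 0 0) (.pos 9 .mp ⟨167772160000, 0, 0, 0, 0, 0, 0, 0, 0, ⟨0, 0⟩, 0⟩ 0 0))))) (.cut .v 134217728 (.cut .d (-4096) (.void 48 ⟨100000, 0, 0, 0, 0, 0, 0, 0, 0, ⟨0, 0⟩, 0⟩ 0 0) (.cut .l 27690795 (.cut .v 100663296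 (.cut .l 20556283 (.void 50 ⟨100000, 0, 0, 0, 0, 0, 0, 0, 0, ⟨0, 0⟩, 0⟩ 0 0) (.cut .d (-2048) (.void 50 ⟨100000, 0, 0, 0, 0, 0, 0, 0, 0, ⟨0, 0⟩, 0⟩ 0 0) (.pos 50 .mp ⟨167772160000, 0, 0, 0, 0, 0, 0, 0, 0, ⟨0, 0⟩, 0⟩ 0 0))) (.void 51 ⟨84622, 0, 0, 15378, 0, 0, 0, 0, 0, ⟨0, 0⟩, 0⟩ 0 0)) (.pos 48 .mp ⟨167772160000, 0, 0, 0, 0, 0, 0, 0, 0, ⟨0, 0⟩, 0⟩ 0 0))) (.void 49 ⟨84623, 0, 0, 15377, 0, 0, 0, 0, 0, ⟨0, 0⟩, 0⟩ 0 0))))))))))))) (.void 43 ⟨88004, 0, 0, 11996, 0, 0, 0, 0, 0, ⟨0, 0⟩, 0⟩ 0 0))) (.void 74 ⟨91669, 0, 0, 8331, 0, 0, 0, 0, 0, ⟨0, 0⟩, 0⟩ 0 0))) (.cut .v 16777216 (.cut .v 8388608 (.cut .v 4194304 (.cut .v 2097152 (.cut .v 1048576 (.cut .v 524288 (.cut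 .v 262144 (.cut .d 4099 (.pos 70 .pm ⟨0, 0, 73007083449, 0, 0, 0, 0, 0, 0, ⟨0, 0⟩, 0⟩ 0 0) (.cut .s 16771072 (.cut .d 6149 (.cut .d 5124 (.cut .d 4611 (.void 70 ⟨0, 0, 103768, 0, 0, 0, 0, 0, 0, ⟨0, 0⟩, 0⟩ 0 0) (.void 70 ⟨0, 0, 100020, 0, 0, 0, 0, 0, 0, ⟨0, 0⟩, 0⟩ 0 0)) (.cut .v 131072 (.cut .v 65536 (.cut .v 32768 (.cut .v 16384 (.cut .d 5636 (.cut .s 16770048 (.void 83 ⟨0, 0, 100797, 0, 0, 0, 0, 0, 0, ⟨0, 0⟩, 0⟩ 0 0) (.void 83 ⟨0, 0, 100000, 0, 0, 0, 0, 0, 0, ⟨0, 0⟩, 0⟩ 0 0)) (.cut .v 8192 (.cut .v 4096 (.cut .s 16770048 (.void 89 ⟨0, 0, 100000, 0, 0, 0, 0, 0, 0, ⟨0, 0⟩, 0⟩ 0 0) (.pos 89 .pm ⟨0, 0, 208504309, 0, 0, 0, 0, 0, 0, ⟨0, 0⟩, 0⟩ 0 0)) (.pos 90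 .pm ⟨0, 0, 0, 0, 0, 0, 0, 0, 0, ⟨0, 0⟩, 0⟩ 0 0)) (.pos 88 .pm ⟨0, 0, 0, 0, 0, 0, 0, 0, 0, ⟨0, 0⟩, 0⟩ 0 0))) (.pos 84 .pm ⟨0, 0, 16777488, 0, 0, 0, 0, 0, 0, ⟨0, 0⟩, 0⟩ 0 0)) (.pos 80 .pm ⟨0, 0, 0, 0, 0, 0, 0, 0, 0, ⟨0, 0⟩, 0⟩ 0 0)) (.pos 78 .pm ⟨0, 0, 0, 0, 0, 0, 0, 0, 0, ⟨0, 0⟩, 0⟩ 0 0)) (.pos 76 .pm ⟨0, 0, 0, 0, 0, 0, 0, 0, 0, ⟨0, 0⟩, 0⟩ 0 0))) (.cut .d 7174 (.cut .s 16770048 (.cut .s 16769536 (.void 70 ⟨0, 0, 100000, 0, 0, 0, 0, 0, 0, ⟨0, 0⟩, 0⟩ 0 0) (.pos 70 .pm ⟨0, 0, 15077688876, 0, 0, 0, 0, 0, 0, ⟨0, 0⟩, 0⟩ 0 0)) (.cut .v 131072 (.cut .v 65536 (.cut .v 32768 (.pos 79 .pm ⟨0, 0, 341111924, 0, 0, 0, 0, 0, 0, ⟨0, 0⟩, 0⟩ 0 0) (.pos 80 .pm ⟨0, 0, 13412644388,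 0, 0, 0, 0, 0, 0, ⟨0, 0⟩, 0⟩ 0 0)) (.pos 78 .pm ⟨0, 0, 26825265719, 0, 0, 0, 0, 0, 0, ⟨0, 0⟩, 0⟩ 0 0)) (.pos 76 .pm ⟨0, 0, 53650510068, 0, 0, 0, 0, 0, 0, ⟨0, 0⟩, 0⟩ 0 0))) (.pos 70 .pm ⟨0, 0, 0, 5405820, 0, 0, 0, 0, 0, ⟨0, 0⟩, 0⟩ 0 0))) (.cut .v 131072 (.cut .v 65536 (.cut .v 32768 (.cut .v 16384 (.cut .v 8192 (.cut .v 4096 (.cut .v 2048 (.pos 91 .pm ⟨0, 0, 41458314, 0, 0, 0, 0, 0, 0, ⟨0, 0⟩, 0⟩ 0 0) (.pos 92 .pm ⟨0, 0, 1114288046, 0, 0, 0, 0, 0, 0, ⟨0, 0⟩, 0⟩ 0 0)) (.pos 90 .pm ⟨0, 0, 2228554290, 0, 0, 0, 0, 0, 0, ⟨0, 0⟩, 0⟩ 0 0)) (.pos 88 .pm ⟨0, 0, 4457086784, 0, 0, 0, 0, 0, 0, ⟨0, 0⟩, 0⟩ 0 0)) (.pos 84 .pm ⟨0, 0, 8914151798, 0, 0, 0, 0, 0, 0, ⟨0, 0⟩,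 0⟩ 0 0)) (.pos 80 .pm ⟨0, 0, 17828281932, 0, 0, 0, 0, 0, 0, ⟨0, 0⟩, 0⟩ 0 0)) (.pos 78 .pm ⟨0, 0, 35656542622, 0, 0, 0, 0, 0, 0, ⟨0, 0⟩, 0⟩ 0 0)) (.pos 76 .pm ⟨0, 0, 71313065693, 0, 0, 0, 0, 0, 0, ⟨0, 0⟩, 0⟩ 0 0)))) (.pos 71 .pm ⟨0, 0, 106243094791, 0, 0, 0, 0, 0, 0, ⟨0, 0⟩, 0⟩ 0 0)) (.pos 69 .pm ⟨0, 0, 167772160000, 0, 0, 0, 0, 0, 0, ⟨0, 0⟩, 0⟩ 0 0)) (.pos 55 .pm ⟨0, 0, 167772160000, 0, 0, 0, 0, 0, 0, ⟨0, 0⟩, 0⟩ 0 0)) (.pos 47 .pm ⟨0, 0, 167772160000, 0, 0, 0, 0, 0, 0, ⟨0, 0⟩, 0⟩ 0 0)) (.pos 5 .pm ⟨0, 0, 167772160000, 0, 0, 0, 0, 0, 0, ⟨0, 0⟩, 0⟩ 0 0)) (.pos 3 .pm ⟨0, 0, 167772160000, 0, 0, 0, 0, 0, 0, ⟨0, 0⟩, 0⟩ 0 0)) (.cut .v 4294967296 (.cut .v 268435456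 (.cut .v 67108864 (.pos 9 .pp ⟨0, 0, 0, 0, 0, 0, 0, 0, 0, ⟨0, 0⟩, 0⟩ 0 0) (.cut .v 134217728 (.pos 48 .pp ⟨0, 0, 0, 167772160000, 0, 0, 0, 0, 0, ⟨0, 0⟩, 0⟩ 0 0) (.void 49 ⟨0, 0, 0, 100000, 0, 0, 0, 0, 0, ⟨0, 0⟩, 0⟩ 0 0))) (.cut .s 16771072 (.void 43 ⟨0, 0, 41790, 58210, 0, 0, 0, 0, 0, ⟨0, 0⟩, 0⟩ 0 0) (.void 43 ⟨0, 0, 0, 100000, 0, 0, 0, 0, 0, ⟨0, 0⟩, 0⟩ 0 0))) (.void 74 ⟨0, 0, 0, 100000, 0, 0, 0, 0, 0, ⟨0, 0⟩, 0⟩ 0 0)))),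
    by decide +kernel⟩

end Vale.Agent.P237.Petty.Cor.Grid.N10.High
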