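import Vale.Agent.P237.Petty.Cor.Grid.N10.LowCert

/-!
# P237: a cell in dimension 10, subdivisions
-/

namespace Vale.Agent.P237.Petty.Cor.Grid.N10.Low

def covers0 : cell.Covers table row0.1 :=
  ⟨(.cut .d 0 (.cut .v 16777216 (.cut .v 8388608 (.cut .v 4194304 (.void 4 ⟨0, 0, 100000, 0, 0, 0, 0, 0, 0, ⟨0, 0⟩, 0⟩ 0 0) (.pos 5 .mm ⟨0, 0, 0, 0, 0, 0, 0, 0, 0, ⟨0, 0⟩, 0⟩ 0 0)) (.cut .d (-8388608) (.cut .v 12582912 (.pos 6 .mm ⟨0, 0, 0, 0, 0, 0, 0, 0, 0, ⟨0, 0⟩, 0⟩ 0 0) (.pos 7 .mm ⟨0, 0, 0, 0, 0, 0, 0, 0, 0, ⟨0, 0⟩, 0⟩ 0 0)) (.cut .v 12582912 (.cut .d (-4194304) (.pos 6 .mm ⟨0, 0, 0, 0, 0, 0, 0, 0, 0, ⟨0, 0⟩, 0⟩ 0 0) (.pos 6 .mm ⟨0, 0, 0, 0, 571866, 0, 0, 0, 0, ⟨0,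 0⟩, 0⟩ 0 0)) (.cut .d (-4194304) (.cut .v 14680064 (.pos 10 .mm ⟨0, 0, 0, 0, 0, 0, 0, 0, 0, ⟨0, 0⟩, 0⟩ 0 0) (.pos 11 .mm ⟨0, 0, 0, 0, 0, 0, 0, 0, 0, ⟨0, 0⟩, 0⟩ 0 0)) (.cut .d (-2097152) (.cut .v 14680064 (.pos 10 .mm ⟨0, 0, 0, 0, 0, 0, 0, 0, 0, ⟨0, 0⟩, 0⟩ 0 0) (.pos 11 .mm ⟨0, 0, 0, 0, 0, 0, 0, 0, 0, ⟨0, 0⟩, 0⟩ 0 0)) (.cut .v 14680064 (.pos 10 .mm ⟨0, 0, 0, 0, 902721, 0, 0, 0, 0, ⟨0, 0⟩, 0⟩ 0 0) (.cut .d (-1048576) (.cut .v 15728640 (.pos 12 .mm ⟨0, 0, 0, 0, 0, 0, 0, 0, 0, ⟨0, 0⟩, 0⟩ 0 0) (.pos 13 .mm ⟨0, 0, 0, 0, 0, 0, 0, 0, 0, ⟨0, 0⟩, 0⟩ 0 0)) (.cut .v 15728640 (.pos 12 .mm ⟨0, 0, 0, 0, 0, 0, 0, 0, 0, ⟨0, 0⟩, 0⟩ 0 0) (.cut .l 1275068 (.cut .l 822083 (.cut .d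 (-524288) (.cut .v 16252928 (.pos 14 .mm ⟨0, 0, 0, 0, 0, 0, 0, 0, 0, ⟨0, 0⟩, 0⟩ 0 0) (.pos 15 .mm ⟨0, 0, 0, 0, 0, 0, 0, 0, 0, ⟨0, 0⟩, 0⟩ 0 0)) (.cut .d (-262144) (.pos 13 .mm ⟨0, 0, 0, 0, 0, 0, 0, 0, 0, ⟨0, 0⟩, 0⟩ 0 0) (.pos 13 .mm ⟨0, 0, 0, 0, 0, 0, 0, 0, 0, ⟨0, 0⟩, 0⟩ 0 0))) (.pos 13 .mm ⟨0, 0, 0, 0, 0, 0, 0, 0, 0, ⟨0, 0⟩, 0⟩ 0 0)) (.pos 13 .mm ⟨0, 0, 0, 0, 0, 0, 0, 0, 0, ⟨0, 0⟩, 0⟩ 0 0)))))))))) (.cut .v 25165824 (.cut .v 20971520 (.cut .v 18874368 (.pos 21 .mp ⟨0, 0, 0, 0, 0, 0, 209344, 0, 0, ⟨0, 0⟩, 0⟩ 0 0) (.pos 22 .mp ⟨1359701, 0, 0, 0, 0, 0, 0, 0, 0, ⟨0, 0⟩, 0⟩ 0 0)) (.void 20 ⟨100000, 0, 0, 0, 0, 0, 0, 0, 0, ⟨0, 0⟩, 0⟩ 0 0)) (.void 18 ⟨0, 0, 0, 0, 0,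 0, 100000, 0, 0, ⟨0, 0⟩, 0⟩ 0 0))) (.cut .v 16777216 (.cut .v 8388608 (.cut .v 4194304 (.void 4 ⟨0, 0, 100000, 0, 0, 0, 0, 0, 0, ⟨0, 0⟩, 0⟩ 0 0) (.pos 5 .pm ⟨0, 0, 0, 0, 1277046, 0, 0, 0, 0, ⟨0, 0⟩, 0⟩ 0 0)) (.cut .s 851968 (.pos 3 .pm ⟨0, 0, 0, 0, 0, 0, 0, 422775, 0, ⟨(-1), 16679168⟩, 0⟩ 0 16) (.pos 3 .pm ⟨0, 0, 0, 0, 465391, 0, 0, 329625, 0, ⟨26118, 16197987⟩, 0⟩ 13 31))) (.cut .v 25165824 (.cut .v 20971520 (.cut .v 18874368 (.cut .d 1362661 (.cut .v 17825792 (.cut .d 681330 (.cut .v 17301504 (.cut .d 340665 (.pos 25 .pp ⟨0, 0, 0, 0, 0, 0, 0, 0, 0, ⟨0, 0⟩, 0⟩ 0 0) (.pos 25 .pp ⟨0, 0, 0, 0, 0, 0, 0, 753422, 0, ⟨(-1), 16479771⟩, 0⟩ 0 28)) (.pos 26 .pp ⟨1222524,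 0, 0, 0, 0, 0, 0, 0, 0, ⟨0, 0⟩, 0⟩ 0 0)) (.pos 23 .pp ⟨605796, 0, 0, 0, 0, 0, 0, 1216898, 0, ⟨(-1), 16458451⟩, 0⟩ 0 29)) (.pos 24 .pp ⟨1267953, 0, 0, 0, 0, 0, 0, 0, 0, ⟨0, 0⟩, 0⟩ 0 0)) (.cut .v 17825792 (.pos 23 .pp ⟨1070449, 0, 0, 0, 0, 0, 0, 0, 367783, ⟨0, 0⟩, 17033431⟩ 0 0) (.pos 24 .pp ⟨1309262, 0, 0, 0, 0, 0, 0, 0, 14002, ⟨0, 0⟩, 17542451⟩ 0 0))) (.cut .d 1362661 (.pos 22 .pp ⟨1359701, 0, 0, 0, 0, 0, 0, 0, 0, ⟨0, 0⟩, 0⟩ 0 0) (.pos 22 .pp ⟨1968615, 0, 0, 0, 0, 0, 0, 0, 0, ⟨0, 0⟩, 0⟩ 0 0))) (.void 20 ⟨0, 0, 0, 0, 0, 0, 100000, 0, 0, ⟨0, 0⟩, 0⟩ 0 0)) (.void 18 ⟨0, 0, 0, 0, 0, 0, 100000, 0, 0, ⟨0, 0⟩, 0⟩ 0 0)))),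
    by decide +kernel⟩

def covers1 : cell.Covers table row1.1 :=
  ⟨(.cut .d 0 (.cut .v 16777216 (.cut .v 8388608 (.void 2 ⟨0, 0, 0, 0, 50000, 50000, 0, 0, 0, ⟨0, 0⟩, 0⟩ 0 0) (.cut .d (-8388608) (.void 3 ⟨0, 0, 0, 0, 0, 100000, 0, 0, 0, ⟨0, 0⟩, 0⟩ 0 0) (.cut .v 12582912 (.cut .d (-4194304) (.pos 6 .mm ⟨0, 0, 0, 0, 0, 603272, 0, 0, 0, ⟨0, 0⟩, 0⟩ 0 0) (.pos 6 .mm ⟨0, 0, 0, 0, 2383611, 522795, 0, 0, 0, ⟨0, 0⟩, 0⟩ 0 0)) (.cut .d (-4194304) (.pos 7 .mm ⟨0, 0, 0, 0, 0, 670302, 0, 0, 0, ⟨0, 0⟩, 0⟩ 0 0) (.cut .d (-2097152) (.cut .v 14680064 (.pos 10 .mm ⟨0, 0, 0, 0, 0, 703817, 0, 0, 0, ⟨0, 0⟩, 0⟩ 0 0) (.pos 11 .mm ⟨0, 0, 0, 0, 0, 737332, 0, 0, 0, ⟨0, 0⟩, 0⟩ 0 0)) (.cut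 .v 14680064 (.pos 10 .mm ⟨0, 0, 0, 0, 0, 609927, 0, 0, 0, ⟨0, 0⟩, 0⟩ 0 0) (.cut .d (-1048576) (.cut .v 15728640 (.pos 12 .mm ⟨0, 0, 0, 0, 0, 693421, 0, 0, 0, ⟨0, 0⟩, 0⟩ 0 0) (.pos 13 .mm ⟨0, 0, 0, 0, 0, 0, 0, 0, 0, ⟨0, 0⟩, 0⟩ 0 0)) (.cut .v 15728640 (.pos 12 .mm ⟨0, 0, 0, 0, 0, 653493, 0, 0, 0, ⟨0, 0⟩, 0⟩ 0 0) (.cut .d (-524288) (.pos 13 .mm ⟨0, 0, 0, 0, 0, 0, 0, 0, 0, ⟨0, 0⟩, 0⟩ 0 0) (.cut .v 16252928 (.pos 14 .mm ⟨0, 0, 0, 0, 0, 0, 0, 0, 0, ⟨0, 0⟩, 0⟩ 0 0) (.pos 15 .mm ⟨0, 0, 0, 0, 0, 0, 0, 0, 0, ⟨0, 0⟩, 0⟩ 0 0))))))))))) (.cut .v 25165824 (.cut .v 20971520 (.cut .v 18874368 (.pos 21 .mp ⟨58614, 0, 0, 0, 0, 0, 0, 0, 0, ⟨0, 0⟩, 0⟩ 0 0) (.pos 22 .mp ⟨1346349,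 0, 0, 0, 0, 0, 0, 0, 0, ⟨0, 0⟩, 0⟩ 0 0)) (.void 20 ⟨100000, 0, 0, 0, 0, 0, 0, 0, 0, ⟨0, 0⟩, 0⟩ 0 0)) (.void 18 ⟨0, 0, 0, 0, 0, 0, 100000, 0, 0, ⟨0, 0⟩, 0⟩ 0 0))) (.cut .v 16777216 (.cut .v 8388608 (.void 2 ⟨0, 0, 0, 0, 100000, 0, 0, 0, 0, ⟨0, 0⟩, 0⟩ 0 0) (.cut .v 12582912 (.void 6 ⟨0, 0, 0, 0, 100000, 0, 0, 0, 0, ⟨0, 0⟩, 0⟩ 0 0) (.cut .v 14680064 (.void 10 ⟨0, 0, 0, 0, 100000, 0, 0, 0, 0, ⟨0, 0⟩, 0⟩ 0 0) (.cut .d 1814665 (.cut .d 907332 (.cut .v 15728640 (.pos 12 .pm ⟨0, 0, 0, 0, 0, 0, 0, 0, 0, ⟨0, 0⟩, 0⟩ 0 0) (.cut .d 453666 (.cut .v 16252928 (.pos 14 .pm ⟨0, 0, 0, 0, 0, 0, 0, 0, 0, ⟨0, 0⟩, 0⟩ 0 0) (.pos 15 .pm ⟨0, 0, 0, 0, 0, 0, 0, 0, 0, ⟨0, 0⟩, 0⟩ 0 0)) (.pos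 13 .pm ⟨0, 0, 0, 0, 0, 0, 0, 0, 0, ⟨0, 0⟩, 0⟩ 0 0))) (.pos 11 .pm ⟨0, 0, 0, 0, 0, 0, 0, 0, 1012684, ⟨0, 0⟩, 16226390⟩ 0 0)) (.void 11 ⟨0, 0, 0, 0, 0, 0, 0, 0, 100000, ⟨0, 0⟩, 16226390⟩ 0 0))))) (.cut .v 25165824 (.cut .v 20971520 (.cut .d 1814665 (.cut .v 18874368 (.cut .d 907332 (.cut .v 17825792 (.cut .l 1275068 (.cut .l 822083 (.cut .d 453666 (.cut .v 17301504 (.pos 25 .pp ⟨0, 0, 0, 0, 0, 0, 0, 0, 0, ⟨0, 0⟩, 0⟩ 0 0) (.pos 26 .pp ⟨1125882, 0, 0, 0, 0, 0, 0, 0, 0, ⟨0, 0⟩, 0⟩ 0 0)) (.cut .v 17301504 (.pos 25 .pp ⟨0, 0, 0, 0, 0, 0, 0, 407370, 0, ⟨136416, 15177093⟩, 0⟩ 26 49) (.pos 26 .pp ⟨708472, 0, 0, 0, 0, 0, 0, 215307, 0, ⟨136416, 15177093⟩, 0⟩ 26 49))) (.pos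 23 .pp ⟨0, 0, 0, 0, 0, 0, 0, 0, 0, ⟨0, 0⟩, 0⟩ 0 0)) (.pos 23 .pp ⟨0, 0, 0, 0, 0, 0, 0, 0, 0, ⟨0, 0⟩, 0⟩ 0 0)) (.pos 24 .pp ⟨1021380, 0, 0, 0, 0, 0, 0, 0, 0, ⟨0, 0⟩, 0⟩ 0 0)) (.cut .v 17825792 (.pos 23 .pp ⟨0, 0, 0, 0, 0, 0, 0, 640407, 388884, ⟨152722, 15052341⟩, 17033431⟩ 27 51) (.pos 24 .pp ⟨873836, 0, 0, 0, 0, 0, 0, 59592, 0, ⟨152722, 15052341⟩, 0⟩ 27 51))) (.pos 22 .pp ⟨1205946, 0, 0, 0, 0, 0, 0, 0, 0, ⟨0, 0⟩, 0⟩ 0 0)) (.cut .v 18874368 (.pos 21 .pp ⟨0, 0, 0, 0, 0, 0, 0, 1829920, 0, ⟨185522, 14783561⟩, 0⟩ 28 56) (.cut .d 2721997 (.pos 22 .pp ⟨844954, 0, 0, 0, 0, 0, 0, 1383419, 0, ⟨175251, 14877459⟩, 0⟩ 28 54) (.cut .s 2359296 (.void 22 ⟨0, 0, 0, 0, 0, 0, 0,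 100000, 0, ⟨139993, 15241801⟩, 0⟩ 30 44) (.void 22 ⟨0, 0, 0, 0, 0, 0, 0, 100000, 0, ⟨309141, 14218444⟩, 0⟩ 41 56))))) (.void 20 ⟨68985, 0, 0, 0, 0, 0, 0, 31015, 0, ⟨168465, 14861533⟩, 0⟩ 26 56)) (.void 18 ⟨0, 0, 0, 0, 0, 0, 100000, 0, 0, ⟨0, 0⟩, 0⟩ 0 0)))),
    by decide +kernel⟩

def covers2 : cell.Covers table row2.1 :=
  ⟨(.cut .d 0 (.cut .v 16777216 (.cut .v 8388608 (.void 2 ⟨0, 0, 0, 0, 50000, 50000, 0, 0, 0, ⟨0, 0⟩, 0⟩ 0 0) (.cut .v 12582912 (.pos 6 .mm ⟨0, 0, 0, 0, 0, 10801319, 0, 0, 0, ⟨0, 0⟩, 0⟩ 0 0) (.cut .d (-8388608) (.void 7 ⟨0, 0, 0, 0, 0, 100000, 0, 0, 0, ⟨0, 0⟩, 0⟩ 0 0) (.cut .d (-4194304) (.void 7 ⟨0, 0, 0, 0, 0, 100000, 0, 0, 0, ⟨0, 0⟩, 0⟩ 0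 0) (.cut .d (-2097152) (.cut .v 14680064 (.pos 10 .mm ⟨0, 0, 0, 0, 0, 567992, 0, 0, 0, ⟨0, 0⟩, 0⟩ 0 0) (.pos 11 .mm ⟨0, 0, 0, 0, 0, 641095, 0, 0, 0, ⟨0, 0⟩, 0⟩ 0 0)) (.cut .v 14680064 (.pos 10 .mm ⟨0, 0, 0, 0, 0, 454677, 0, 0, 0, ⟨0, 0⟩, 0⟩ 0 0) (.cut .d (-1048576) (.cut .v 15728640 (.pos 12 .mm ⟨0, 0, 0, 0, 0, 498009, 0, 0, 0, ⟨0, 0⟩, 0⟩ 0 0) (.pos 13 .mm ⟨0, 0, 0, 0, 0, 604079, 0, 0, 0, ⟨0, 0⟩, 0⟩ 0 0)) (.cut .v 15728640 (.pos 12 .mm ⟨0, 0, 0, 0, 0, 487154, 0, 0, 0, ⟨0, 0⟩, 0⟩ 0 0) (.cut .d (-524288) (.pos 13 .mm ⟨0, 0, 0, 0, 0, 562454, 0, 0, 0, ⟨0, 0⟩, 0⟩ 0 0) (.cut .v 16252928 (.pos 14 .mm ⟨0, 0, 0, 0, 0, 0, 0, 0, 0, ⟨0, 0⟩, 0⟩ 0 0) (.pos 15 .mm ⟨0, 0, 0,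 0, 0, 0, 0, 0, 0, ⟨0, 0⟩, 0⟩ 0 0))))))))))) (.cut .v 25165824 (.cut .v 20971520 (.pos 19 .mp ⟨44754, 0, 0, 0, 0, 0, 0, 0, 0, ⟨0, 0⟩, 0⟩ 0 0) (.void 20 ⟨100000, 0, 0, 0, 0, 0, 0, 0, 0, ⟨0, 0⟩, 0⟩ 0 0)) (.void 18 ⟨100000, 0, 0, 0, 0, 0, 0, 0, 0, ⟨0, 0⟩, 0⟩ 0 0))) (.cut .v 16777216 (.cut .v 8388608 (.void 2 ⟨0, 0, 0, 0, 100000, 0, 0, 0, 0, ⟨0, 0⟩, 0⟩ 0 0) (.cut .v 12582912 (.void 6 ⟨0, 0, 0, 0, 100000, 0, 0, 0, 0, ⟨0, 0⟩, 0⟩ 0 0) (.cut .v 14680064 (.pos 10 .pm ⟨0, 0, 0, 0, 0, 0, 0, 0, 530711, ⟨0, 0⟩, 15100357⟩ 0 0) (.cut .d 2206324 (.cut .d 1103162 (.cut .v 15728640 (.pos 12 .pm ⟨0, 0, 0, 0, 0, 0, 0, 0, 0, ⟨0, 0⟩, 0⟩ 0 0) (.cut .d 551581 (.cut .v 16252928 (.pos 14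 .pm ⟨0, 0, 0, 0, 0, 0, 0, 0, 0, ⟨0, 0⟩, 0⟩ 0 0) (.pos 15 .pm ⟨0, 0, 0, 0, 0, 0, 0, 0, 0, ⟨0, 0⟩, 0⟩ 0 0)) (.pos 13 .pm ⟨0, 0, 0, 0, 0, 0, 0, 555219, 0, ⟨432148, 13604420⟩, 0⟩ 47 62))) (.pos 11 .pm ⟨0, 0, 0, 0, 0, 0, 0, 553739, 0, ⟨500267, 13276160⟩, 0⟩ 49 66)) (.void 11 ⟨0, 0, 0, 0, 0, 0, 0, 0, 100000, ⟨0, 0⟩, 16226390⟩ 0 0))))) (.cut .v 25165824 (.cut .v 20971520 (.cut .d 2206324 (.cut .v 18874368 (.cut .d 1103162 (.cut .v 17825792 (.cut .d 551581 (.cut .v 17301504 (.pos 25 .pp ⟨0, 0, 0, 0, 0, 0, 0, 0, 0, ⟨0, 0⟩, 0⟩ 0 0) (.pos 26 .pp ⟨0, 0, 0, 0, 0, 0, 0, 713810, 0, ⟨400220, 13764242⟩, 0⟩ 46 60)) (.pos 23 .pp ⟨0, 0, 0, 0, 0, 0, 0, 606550, 0, ⟨432148, 13604420⟩,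 0⟩ 47 62)) (.pos 24 .pp ⟨0, 0, 0, 0, 0, 0, 0, 806805, 0, ⟨419710, 13655776⟩, 0⟩ 46 62)) (.cut .v 17825792 (.pos 23 .pp ⟨0, 0, 0, 0, 0, 0, 0, 603337, 0, ⟨500267, 13276160⟩, 0⟩ 49 66) (.pos 24 .pp ⟨0, 0, 0, 0, 0, 0, 0, 830973, 0, ⟨500267, 13276160⟩, 0⟩ 49 66))) (.pos 22 .pp ⟨77207, 0, 0, 0, 0, 0, 0, 1100775, 0, ⟨459531, 13434163⟩, 0⟩ 46 66)) (.cut .v 18874368 (.pos 21 .pp ⟨0, 0, 0, 0, 0, 0, 0, 245078, 393572, ⟨637329, 12645015⟩, 17278579⟩ 52 74) (.cut .d 3309486 (.cut .d 2757905 (.pos 22 .pp ⟨0, 0, 0, 0, 0, 0, 0, 1139842, 0, ⟨565479, 12998736⟩, 0⟩ 52 68) (.pos 22 .pp ⟨0, 0, 0, 0, 0, 0, 0, 2907991, 0, ⟨604393, 12826413⟩, 0⟩ 53 70)) (.void 22 ⟨0, 0, 0, 0, 0, 0, 0,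 100000, 0, ⟨686497, 12474920⟩, 0⟩ 55 74)))) (.cut .d 2206324 (.void 20 ⟨100000, 0, 0, 0, 0, 0, 0, 0, 0, ⟨0, 0⟩, 0⟩ 0 0) (.pos 20 .pp ⟨2753551, 0, 0, 0, 0, 0, 0, 12800898, 0, ⟨637329, 12645015⟩, 0⟩ 52 74))) (.void 18 ⟨0, 0, 0, 0, 0, 0, 100000, 0, 0, ⟨0, 0⟩, 0⟩ 0 0)))),
    by decide +kernel⟩

def covers3 : cell.Covers table row3.1 :=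
  ⟨(.cut .d 0 (.cut .v 16777216 (.cut .v 8388608 (.void 2 ⟨0, 0, 0, 0, 50000, 50000, 0, 0, 0, ⟨0, 0⟩, 0⟩ 0 0) (.cut .v 12582912 (.pos 6 .mm ⟨0, 0, 0, 0, 0, 7435265, 0, 0, 0, ⟨0, 0⟩, 0⟩ 0 0) (.cut .d (-8388608) (.void 7 ⟨0, 0, 0, 0, 0, 100000, 0, 0, 0, ⟨0, 0⟩, 0⟩ 0 0) (.cut .d (-4194304) (.void 7 ⟨0, 0, 0, 0, 0, 100000, 0, 0, 0, ⟨0, 0⟩, 0⟩ 0 0) (.cut .v 14680064 (.cut .d (-2097152) (.pos 10 .mm ⟨0, 0, 0, 0, 0, 550421, 0, 0, 0, ⟨0, 0⟩, 0⟩ 0 0) (.pos 10 .mm ⟨0, 0, 0, 0, 0, 435050, 0, 0, 0, ⟨0, 0⟩, 0⟩ 0 0)) (.cut .d (-2097152) (.pos 11 .mm ⟨0, 0, 0, 0, 0, 476317, 0, 0, 0, ⟨0, 0⟩, 0⟩ 0 0) (.cut .v 15728640 (.cut .d (-1048576) (.pos 12 .mm ⟨0, 0, 0, 0, 0, 444027, 0,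 0, 0, ⟨0, 0⟩, 0⟩ 0 0) (.pos 12 .mm ⟨0, 0, 0, 0, 0, 448105, 0, 0, 0, ⟨0, 0⟩, 0⟩ 0 0)) (.cut .d (-1048576) (.pos 13 .mm ⟨0, 0, 0, 0, 0, 487142, 0, 0, 0, ⟨0, 0⟩, 0⟩ 0 0) (.cut .v 16252928 (.pos 14 .mm ⟨0, 0, 0, 0, 0, 431849, 0, 0, 0, ⟨0, 0⟩, 0⟩ 0 0) (.pos 15 .mm ⟨0, 0, 0, 0, 0, 0, 0, 0, 0, ⟨0, 0⟩, 0⟩ 0 0)))))))))) (.cut .v 25165824 (.cut .v 20971520 (.pos 19 .mp ⟨0, 0, 0, 0, 0, 0, 0, 0, 0, ⟨0, 0⟩, 0⟩ 0 0) (.void 20 ⟨100000, 0, 0, 0, 0, 0, 0, 0, 0, ⟨0, 0⟩, 0⟩ 0 0)) (.void 18 ⟨100000, 0, 0, 0, 0, 0, 0, 0, 0, ⟨0, 0⟩, 0⟩ 0 0))) (.cut .v 16777216 (.cut .v 8388608 (.void 2 ⟨0, 0, 0, 0, 100000, 0, 0, 0, 0, ⟨0, 0⟩, 0⟩ 0 0) (.cut .v 12582912 (.void 6 ⟨0, 0, 0, 0, 100000,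 0, 0, 0, 0, ⟨0, 0⟩, 0⟩ 0 0) (.cut .d 2697978 (.cut .v 14680064 (.pos 10 .pm ⟨0, 0, 0, 0, 0, 0, 0, 0, 0, ⟨0, 0⟩, 0⟩ 0 0) (.cut .d 1348989 (.cut .v 15728640 (.pos 12 .pm ⟨0, 0, 0, 0, 0, 0, 0, 0, 0, ⟨0, 0⟩, 0⟩ 0 0) (.cut .d 674494 (.cut .v 16252928 (.pos 14 .pm ⟨0, 0, 0, 0, 0, 0, 0, 0, 0, ⟨0, 0⟩, 0⟩ 0 0) (.cut .d 337247 (.pos 15 .pm ⟨0, 0, 0, 0, 0, 0, 0, 0, 0, ⟨0, 0⟩, 0⟩ 0 0) (.pos 15 .pm ⟨0, 0, 0, 0, 0, 0, 0, 0, 0, ⟨0, 0⟩, 0⟩ 0 0))) (.pos 13 .pm ⟨0, 0, 0, 0, 0, 0, 0, 416986, 0, ⟨784927, 12122828⟩, 0⟩ 60 75))) (.pos 11 .pm ⟨0, 0, 0, 0, 0, 0, 0, 425858, 0, ⟨910243, 11630349⟩, 0⟩ 62 81))) (.void 7 ⟨0, 0, 0, 0, 0, 0, 0, 0, 100000, ⟨0, 0⟩, 15612959⟩ 0 0)))) (.cut .v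 25165824 (.cut .v 20971520 (.cut .d 2697978 (.cut .v 18874368 (.cut .d 1348989 (.cut .v 17825792 (.cut .d 674494 (.pos 23 .pp ⟨0, 0, 0, 0, 0, 0, 0, 0, 0, ⟨0, 0⟩, 0⟩ 0 0) (.pos 23 .pp ⟨0, 0, 0, 0, 0, 0, 0, 455381, 0, ⟨784927, 12122828⟩, 0⟩ 60 75)) (.pos 24 .pp ⟨0, 0, 0, 0, 0, 0, 0, 528950, 0, ⟨750443, 12240534⟩, 0⟩ 58 75)) (.cut .v 17825792 (.pos 23 .pp ⟨0, 0, 0, 0, 0, 0, 0, 450423, 0, ⟨910243, 11630349⟩, 0⟩ 62 81) (.pos 24 .pp ⟨0, 0, 0, 0, 0, 0, 0, 511815, 0, ⟨910243, 11630349⟩, 0⟩ 62 81))) (.pos 22 .pp ⟨186898, 0, 0, 0, 0, 0, 0, 450765, 0, ⟨834330, 11870274⟩, 0⟩ 58 81)) (.cut .v 18874368 (.pos 21 .pp ⟨0, 0, 0, 0, 0, 0, 0, 345263, 189846, ⟨1191666, 10619095⟩,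 17278579⟩ 67 92) (.cut .d 4046967 (.cut .v 19922944 (.pos 29 .pp ⟨0, 0, 0, 0, 0, 0, 0, 2900412, 0, ⟨1090613, 11005210⟩, 0⟩ 67 86) (.pos 30 .pp ⟨0, 0, 0, 0, 0, 0, 0, 5080574, 0, ⟨1090613, 11005210⟩, 0⟩ 67 86)) (.void 22 ⟨0, 0, 0, 0, 0, 0, 0, 100000, 0, ⟨1282635, 10365964⟩, 0⟩ 71 92)))) (.cut .d 2697978 (.pos 20 .pp ⟨3508709, 0, 0, 0, 0, 0, 0, 0, 0, ⟨0, 0⟩, 0⟩ 0 0) (.cut .d 4046967 (.pos 20 .pp ⟨0, 0, 0, 0, 0, 0, 0, 9560256, 0, ⟨1090613, 11005210⟩, 0⟩ 67 86) (.void 20 ⟨0, 0, 0, 0, 0, 0, 0, 100000, 0, ⟨1282635, 10365964⟩, 0⟩ 71 92)))) (.void 18 ⟨0, 0, 0, 0, 0, 0, 100000, 0, 0, ⟨0, 0⟩, 0⟩ 0 0)))),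
    by decide +kernel⟩

def covers4 : cell.Covers table row4.1 :=
  ⟨(.cut .d 0 (.cut .v 16777216 (.cut .v 8388608 (.void 2 ⟨0, 0, 0, 0, 50000, 50000, 0, 0, 0, ⟨0, 0⟩, 0⟩ 0 0) (.cut .v 12582912 (.pos 6 .mm ⟨0, 0, 0, 0, 0, 5327098, 0, 0, 0, ⟨0, 0⟩, 0⟩ 0 0) (.cut .d (-8388608) (.void 7 ⟨0, 0, 0, 0, 0, 100000, 0, 0, 0, ⟨0, 0⟩, 0⟩ 0 0) (.cut .d (-4194304) (.void 7 ⟨0, 0, 0, 0, 0, 100000, 0, 0, 0, ⟨0, 0⟩, 0⟩ 0 0) (.cut .d (-2097152) (.void 7 ⟨0, 0, 0, 0, 0, 100000, 0, 0, 0, ⟨0, 0⟩, 0⟩ 0 0) (.cut .v 14680064 (.pos 10 .mm ⟨0, 0, 0, 0, 0, 406569, 0, 0, 0, ⟨0, 0⟩, 0⟩ 0 0) (.cut .v 15728640 (.cut .d (-1048576) (.pos 12 .mm ⟨0, 0, 0, 0, 0, 431568, 0, 0, 0, ⟨0, 0⟩, 0⟩ 0 0)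 (.pos 12 .mm ⟨0, 0, 0, 0, 0, 435610, 0, 0, 0, ⟨0, 0⟩, 0⟩ 0 0)) (.cut .v 16252928 (.cut .d (-1048576) (.pos 14 .mm ⟨0, 0, 0, 0, 0, 446212, 0, 0, 0, ⟨0, 0⟩, 0⟩ 0 0) (.pos 14 .mm ⟨0, 0, 0, 0, 0, 139040, 0, 0, 0, ⟨0, 0⟩, 0⟩ 0 0)) (.pos 15 .mm ⟨0, 0, 0, 0, 0, 0, 0, 0, 0, ⟨0, 0⟩, 0⟩ 0 0))))))))) (.cut .v 25165824 (.cut .v 20971520 (.pos 19 .mp ⟨0, 0, 0, 0, 0, 0, 0, 0, 0, ⟨0, 0⟩, 0⟩ 0 0) (.void 20 ⟨100000, 0, 0, 0, 0, 0, 0, 0, 0, ⟨0, 0⟩, 0⟩ 0 0)) (.void 18 ⟨100000, 0, 0, 0, 0, 0, 0, 0, 0, ⟨0, 0⟩, 0⟩ 0 0))) (.cut .v 16777216 (.cut .v 8388608 (.void 2 ⟨0, 0, 0, 0, 100000, 0, 0, 0, 0, ⟨0, 0⟩, 0⟩ 0 0) (.cut .v 12582912 (.pos 6 .pm ⟨0, 0, 0, 0, 0, 0, 0, 0, 362819, ⟨0, 0⟩,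 13128881⟩ 0 0) (.cut .d 3388407 (.cut .v 14680064 (.pos 10 .pm ⟨0, 0, 0, 0, 0, 0, 0, 0, 0, ⟨0, 0⟩, 0⟩ 0 0) (.cut .d 1694203 (.cut .d 847101 (.cut .v 15728640 (.pos 12 .pm ⟨0, 0, 0, 0, 0, 0, 0, 0, 0, ⟨0, 0⟩, 0⟩ 0 0) (.cut .l 1275068 (.cut .v 16252928 (.cut .s 4882432 (.pos 14 .pm ⟨0, 0, 0, 0, 0, 0, 0, 0, 0, ⟨0, 0⟩, 0⟩ 0 0) (.pos 14 .pm ⟨0, 0, 0, 0, 0, 0, 0, 0, 0, ⟨0, 0⟩, 0⟩ 0 0)) (.cut .d 423550 (.pos 15 .pm ⟨0, 0, 0, 0, 0, 0, 0, 0, 0, ⟨0, 0⟩, 0⟩ 0 0) (.pos 15 .pm ⟨0, 0, 0, 0, 0, 0, 0, 114641, 0, ⟨1136284, 10881211⟩, 0⟩ 70 85))) (.pos 13 .pm ⟨0, 0, 0, 0, 0, 0, 0, 0, 0, ⟨0, 0⟩, 0⟩ 0 0))) (.pos 11 .pm ⟨0, 0, 0, 0, 0, 0, 0, 370900, 0, ⟨1250861, 10496647⟩, 0⟩ 72 89))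 (.pos 11 .pm ⟨0, 0, 0, 0, 0, 0, 0, 399639, 0, ⟨1469948, 9784622⟩, 0⟩ 75 97))) (.void 7 ⟨0, 0, 0, 0, 0, 0, 0, 0, 100000, ⟨0, 0⟩, 15612959⟩ 0 0)))) (.cut .v 25165824 (.cut .v 20971520 (.cut .d 3388407 (.cut .v 18874368 (.cut .d 1694203 (.cut .d 847101 (.pos 21 .pp ⟨0, 0, 0, 0, 0, 0, 0, 377218, 0, ⟨1115405, 10944096⟩, 0⟩ 69 85) (.cut .v 17825792 (.pos 23 .pp ⟨0, 0, 0, 0, 0, 0, 0, 354446, 0, ⟨1250861, 10496647⟩, 0⟩ 72 89) (.pos 24 .pp ⟨0, 0, 0, 0, 0, 0, 0, 372433, 0, ⟨1250861, 10496647⟩, 0⟩ 72 89))) (.cut .v 17825792 (.pos 23 .pp ⟨0, 0, 0, 0, 0, 0, 0, 361679, 0, ⟨1469948, 9784622⟩, 0⟩ 75 97) (.pos 24 .pp ⟨0, 0, 0, 0, 0, 0, 0, 376146, 0, ⟨1469948, 9784622⟩, 0⟩ 75 97)))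 (.cut .d 1694203 (.pos 22 .pp ⟨0, 0, 0, 0, 0, 0, 0, 478674, 0, ⟨1184758, 10686784⟩, 0⟩ 69 89) (.pos 22 .pp ⟨0, 0, 0, 0, 0, 0, 0, 434987, 0, ⟨1469948, 9784622⟩, 0⟩ 75 97))) (.cut .v 18874368 (.pos 21 .pp ⟨0, 0, 0, 0, 0, 0, 0, 435865, 10359, ⟨1972830, 8297661⟩, 17278579⟩ 82 113) (.cut .d 5082611 (.cut .s 4882432 (.pos 22 .pp ⟨0, 0, 0, 0, 0, 0, 0, 4249755, 0, ⟨1662777, 9265632⟩, 0⟩ 82 98) (.pos 22 .pp ⟨0, 0, 0, 0, 0, 0, 0, 3786324, 0, ⟨1995354, 8355184⟩, 0⟩ 89 105)) (.void 22 ⟨0, 0, 0, 0, 0, 0, 0, 100000, 0, ⟨2173037, 7844096⟩, 0⟩ 89 113)))) (.cut .d 3388407 (.pos 20 .pp ⟨0, 0, 0, 0, 0, 0, 0, 531860, 0, ⟨1324348, 10168886⟩, 0⟩ 69 97) (.cut .d 5082611 (.pos 20 .pp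 ⟨0, 0, 0, 0, 0, 0, 0, 10375639, 0, ⟨1808413, 8810963⟩, 0⟩ 82 105) (.void 20 ⟨0, 0, 0, 0, 0, 0, 0, 100000, 0, ⟨2173037, 7844096⟩, 0⟩ 89 113)))) (.void 18 ⟨0, 0, 0, 0, 0, 0, 100000, 0, 0, ⟨0, 0⟩, 0⟩ 0 0)))),
    by decide +kernel⟩

def covers5 : cell.Covers table row5.1 :=
  ⟨(.cut .d 0 (.cut .v 16777216 (.cut .v 8388608 (.void 2 ⟨0, 0, 0, 0, 50000, 50000, 0, 0, 0, ⟨0, 0⟩, 0⟩ 0 0) (.cut .v 12582912 (.pos 6 .mm ⟨0, 0, 0, 0, 0, 3879551, 0, 0, 0, ⟨0, 0⟩, 0⟩ 0 0) (.cut .d (-8388608) (.void 7 ⟨0, 0, 0, 0, 0, 100000, 0, 0, 0, ⟨0, 0⟩, 0⟩ 0 0) (.cut .v 14680064 (.pos 10 .mm ⟨0, 0, 0, 0, 0, 1992255, 0, 0, 0, ⟨0, 0⟩, 0⟩ 0 0) (.cut .d (-4194304) (.void 11 ⟨0, 0, 0, 0, 0, 100000,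 0, 0, 0, ⟨0, 0⟩, 0⟩ 0 0) (.cut .d (-2097152) (.void 11 ⟨0, 0, 0, 0, 0, 100000, 0, 0, 0, ⟨0, 0⟩, 0⟩ 0 0) (.cut .v 15728640 (.pos 12 .mm ⟨0, 0, 0, 0, 0, 486045, 0, 0, 0, ⟨0, 0⟩, 0⟩ 0 0) (.cut .v 16252928 (.cut .s 5636096 (.pos 14 .mm ⟨0, 0, 0, 0, 0, 202650, 0, 0, 0, ⟨0, 0⟩, 0⟩ 0 0) (.pos 14 .mm ⟨0, 0, 0, 0, 0, 248538, 0, 0, 0, ⟨0, 0⟩, 0⟩ 0 0)) (.pos 15 .mm ⟨0, 0, 0, 0, 0, 0, 0, 0, 0, ⟨0, 0⟩, 0⟩ 0 0))))))))) (.cut .v 25165824 (.cut .v 20971520 (.pos 19 .mp ⟨0, 0, 0, 0, 0, 0, 0, 0, 0, ⟨0, 0⟩, 0⟩ 0 0) (.void 20 ⟨100000, 0, 0, 0, 0, 0, 0, 0, 0, ⟨0, 0⟩, 0⟩ 0 0)) (.void 18 ⟨100000, 0, 0, 0, 0, 0, 0, 0, 0, ⟨0, 0⟩, 0⟩ 0 0))) (.cut .v 16777216 (.cut .v 8388608 (.void 2 ⟨0,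 0, 0, 0, 100000, 0, 0, 0, 0, ⟨0, 0⟩, 0⟩ 0 0) (.cut .v 12582912 (.pos 6 .pm ⟨0, 0, 0, 0, 0, 0, 0, 0, 885752, ⟨0, 0⟩, 13128881⟩ 0 0) (.cut .d 4335922 (.cut .v 14680064 (.pos 10 .pm ⟨0, 0, 0, 0, 0, 0, 0, 0, 0, ⟨0, 0⟩, 0⟩ 0 0) (.cut .d 2167961 (.cut .v 15728640 (.pos 12 .pm ⟨0, 0, 0, 0, 0, 0, 0, 0, 0, ⟨0, 0⟩, 0⟩ 0 0) (.cut .d 1083980 (.cut .l 1275068 (.cut .v 16252928 (.cut .d 541990 (.pos 14 .pm ⟨0, 0, 0, 0, 0, 0, 0, 0, 0, ⟨0, 0⟩, 0⟩ 0 0) (.pos 14 .pm ⟨0, 0, 0, 0, 0, 0, 0, 0, 0, ⟨0, 0⟩, 0⟩ 0 0)) (.cut .d 541990 (.pos 15 .pm ⟨0, 0, 0, 0, 0, 0, 0, 0, 0, ⟨0, 0⟩, 0⟩ 0 0) (.pos 15 .pm ⟨0, 0, 0, 0, 0, 0, 0, 119429, 0, ⟨1662777, 9265632⟩, 0⟩ 82 98))) (.pos 13 .pm ⟨0, 0,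 0, 0, 0, 0, 0, 0, 0, ⟨0, 0⟩, 0⟩ 0 0)) (.pos 13 .pm ⟨0, 0, 0, 0, 0, 0, 0, 511254, 0, ⟨1867056, 8680299⟩, 0⟩ 85 104))) (.pos 11 .pm ⟨0, 0, 0, 0, 0, 0, 0, 628624, 0, ⟨2267877, 7590852⟩, 0⟩ 90 116))) (.void 7 ⟨0, 0, 0, 0, 0, 0, 0, 0, 100000, ⟨0, 0⟩, 15612959⟩ 0 0)))) (.cut .v 25165824 (.cut .d 4335922 (.cut .v 20971520 (.cut .v 18874368 (.cut .d 2167961 (.cut .d 1083980 (.pos 21 .pp ⟨0, 0, 0, 0, 0, 0, 0, 152268, 0, ⟨1612970, 9395740⟩, 0⟩ 80 98) (.cut .v 17825792 (.pos 23 .pp ⟨0, 0, 0, 0, 0, 0, 0, 457082, 0, ⟨1867056, 8680299⟩, 0⟩ 85 104) (.pos 24 .pp ⟨0, 0, 0, 0, 0, 0, 0, 423597, 0, ⟨1867056, 8680299⟩, 0⟩ 85 104))) (.pos 21 .pp ⟨0, 0, 0, 0, 0, 0, 0, 571756, 0, ⟨2267877,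 7590852⟩, 0⟩ 90 116)) (.cut .d 2167961 (.pos 22 .pp ⟨0, 0, 0, 0, 0, 0, 0, 448515, 0, ⟨1734842, 9005749⟩, 0⟩ 80 104) (.cut .d 3251941 (.pos 22 .pp ⟨0, 0, 0, 0, 0, 0, 0, 465126, 0, ⟨2134678, 7969728⟩, 0⟩ 90 110) (.pos 22 .pp ⟨0, 0, 0, 0, 0, 0, 0, 3124051, 0, ⟨2413352, 7269802⟩, 0⟩ 95 116)))) (.pos 20 .pp ⟨0, 0, 0, 0, 0, 0, 0, 6445482, 0, ⟨1975043, 8237105⟩, 0⟩ 80 116)) (.cut .s 5636096 (.void 17 ⟨0, 0, 0, 0, 0, 0, 0, 100000, 0, ⟨2907020, 6056926⟩, 0⟩ 100 131) (.cut .v 20971520 (.pos 19 .pp ⟨0, 0, 0, 0, 0, 0, 0, 5439813, 475401, ⟨3362462, 5080712⟩, 17739746⟩ 108 140) (.pos 20 .pp ⟨0, 0, 0, 0, 0, 0, 0, 20528167, 0, ⟨3362462, 5080712⟩, 0⟩ 108 140)))) (.cut .d 4335922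 (.pos 18 .pp ⟨0, 0, 0, 0, 0, 0, 3365777, 21630591, 0, ⟨1975043, 8237105⟩, 0⟩ 80 116) (.pos 18 .pp ⟨0, 0, 0, 0, 0, 0, 0, 63323169, 0, ⟨3103082, 5555008⟩, 0⟩ 100 140))))),
    by decide +kernel⟩

def covers6 : cell.Covers table row6.1 :=
  ⟨(.cut .d 0 (.cut .v 16777216 (.cut .v 8388608 (.void 2 ⟨0, 0, 0, 0, 50000, 50000, 0, 0, 0, ⟨0, 0⟩, 0⟩ 0 0) (.cut .v 12582912 (.pos 6 .mm ⟨0, 0, 0, 0, 0, 2593473, 0, 0, 0, ⟨0, 0⟩, 0⟩ 0 0) (.cut .v 14680064 (.pos 10 .mm ⟨0, 0, 0, 0, 0, 1642377, 0, 0, 0, ⟨0, 0⟩, 0⟩ 0 0) (.cut .d (-8388608) (.void 11 ⟨0, 0, 0, 0, 0, 100000, 0, 0, 0, ⟨0, 0⟩, 0⟩ 0 0) (.cut .d (-4194304) (.void 11 ⟨0, 0, 0, 0, 0, 100000, 0, 0, 0, ⟨0, 0⟩, 0⟩ 0 0) (.cut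 .d (-2097152) (.void 11 ⟨0, 0, 0, 0, 0, 100000, 0, 0, 0, ⟨0, 0⟩, 0⟩ 0 0) (.cut .d (-1048576) (.pos 11 .mm ⟨0, 0, 0, 0, 0, 5467509, 0, 0, 0, ⟨0, 0⟩, 0⟩ 0 0) (.cut .v 15728640 (.cut .s 6422528 (.pos 12 .mm ⟨0, 0, 0, 0, 0, 561366, 0, 0, 0, ⟨0, 0⟩, 0⟩ 0 0) (.pos 12 .mm ⟨0, 0, 0, 0, 0, 928386, 0, 0, 0, ⟨0, 0⟩, 0⟩ 0 0)) (.cut .d (-524288) (.pos 13 .mm ⟨0, 0, 0, 0, 0, 1536527, 0, 0, 0, ⟨0, 0⟩, 0⟩ 0 0) (.cut .v 16252928 (.cut .s 6422528 (.pos 14 .mm ⟨0, 0, 0, 0, 0, 401285, 0, 0, 0, ⟨0, 0⟩, 0⟩ 0 0) (.pos 14 .mm ⟨0, 0, 0, 0, 0, 806532, 0, 0, 0, ⟨0, 0⟩, 0⟩ 0 0)) (.pos 15 .mm ⟨0, 0, 0, 0, 0, 709439, 0, 0, 0, ⟨0, 0⟩, 0⟩ 0 0))))))))))) (.cut .v 25165824 (.cut .d (-8388608)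 (.void 17 ⟨0, 0, 0, 0, 0, 100000, 0, 0, 0, ⟨0, 0⟩, 0⟩ 0 0) (.cut .v 20971520 (.pos 19 .mp ⟨0, 0, 0, 0, 0, 861699, 0, 0, 0, ⟨0, 0⟩, 0⟩ 0 0) (.void 20 ⟨100000, 0, 0, 0, 0, 0, 0, 0, 0, ⟨0, 0⟩, 0⟩ 0 0))) (.void 18 ⟨100000, 0, 0, 0, 0, 0, 0, 0, 0, ⟨0, 0⟩, 0⟩ 0 0))) (.cut .v 16777216 (.cut .v 8388608 (.void 2 ⟨0, 0, 0, 0, 100000, 0, 0, 0, 0, ⟨0, 0⟩, 0⟩ 0 0) (.cut .v 12582912 (.pos 6 .pm ⟨0, 0, 0, 0, 0, 0, 0, 0, 0, ⟨0, 0⟩, 0⟩ 0 0) (.cut .v 14680064 (.pos 10 .pm ⟨0, 0, 0, 0, 0, 0, 0, 0, 0, ⟨0, 0⟩, 0⟩ 0 0) (.cut .d 5955950 (.cut .d 2977975 (.cut .v 15728640 (.pos 12 .pm ⟨0, 0, 0, 0, 0, 0, 0, 0, 0, ⟨0, 0⟩, 0⟩ 0 0) (.cut .v 16252928 (.pos 14 .pm ⟨0, 0, 0, 0, 0, 0, 0, 0,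 0, ⟨0, 0⟩, 0⟩ 0 0) (.pos 15 .pm ⟨0, 0, 0, 0, 0, 0, 0, 328574, 0, ⟨2481100, 7031106⟩, 0⟩ 92 123))) (.pos 11 .pm ⟨0, 0, 0, 0, 0, 0, 0, 725336, 0, ⟨3384666, 5028080⟩, 0⟩ 108 141)) (.void 11 ⟨0, 0, 0, 0, 0, 0, 0, 0, 100000, ⟨0, 0⟩, 16226390⟩ 0 0))))) (.cut .v 25165824 (.cut .d 5955950 (.cut .v 20971520 (.cut .v 18874368 (.cut .d 2977975 (.pos 21 .pp ⟨0, 0, 0, 0, 0, 0, 0, 822300, 0, ⟨2481100, 7031106⟩, 0⟩ 92 123) (.pos 21 .pp ⟨0, 0, 0, 0, 0, 0, 0, 846333, 0, ⟨3384666, 5028080⟩, 0⟩ 108 141)) (.pos 22 .pp ⟨0, 0, 0, 0, 0, 0, 0, 1338656, 0, ⟨2855977, 5987970⟩, 0⟩ 92 141)) (.pos 20 .pp ⟨0, 0, 0, 0, 0, 0, 0, 6996829, 0, ⟨2855977, 5987970⟩, 0⟩ 92 141)) (.cut .v 20971520 (.pos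 19 .pp ⟨0, 0, 0, 0, 0, 0, 0, 13026175, 604676, ⟨4611317, 2617609⟩, 17739746⟩ 124 178) (.cut .d 8933925 (.pos 20 .pp ⟨0, 0, 0, 0, 0, 0, 0, 31538306, 0, ⟨4291050, 3278805⟩, 0⟩ 124 160) (.void 20 ⟨0, 0, 0, 0, 0, 0, 0, 100000, 0, ⟨5071093, 1956358⟩, 0⟩ 140 178)))) (.cut .d 5955950 (.pos 18 .pp ⟨0, 0, 0, 0, 0, 0, 0, 16427945, 0, ⟨2855977, 5987970⟩, 0⟩ 92 141) (.pos 18 .pp ⟨0, 0, 0, 0, 0, 0, 0, 88699739, 0, ⟨4611317, 2617609⟩, 0⟩ 124 178))))),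
    by decide +kernel⟩

def covers7 : cell.Covers table row7.1 :=
  ⟨(.cut .d 0 (.cut .v 16777216 (.cut .d (-8388608) (.void 1 ⟨0, 0, 0, 0, 0, 100000, 0, 0, 0, ⟨0, 0⟩, 0⟩ 0 0) (.cut .d (-4194304) (.void 1 ⟨0, 0, 0, 0, 0, 100000, 0, 0, 0, ⟨0, 0⟩, 0⟩ 0 0) (.cut .d (-2097152) (.void 1 ⟨0, 0, 0, 0, 0, 100000, 0, 0, 0, ⟨0, 0⟩, 0⟩ 0 0) (.cut .d (-1048576) (.void 1 ⟨0, 0, 0, 0, 0, 100000, 0, 0, 0, ⟨0, 0⟩, 0⟩ 0 0) (.cut .v 8388608 (.cut .v 4194304 (.void 4 ⟨0, 0, 100000, 0, 0, 0, 0, 0, 0, ⟨0, 0⟩, 0⟩ 0 0) (.pos 5 .mm ⟨0, 0, 0, 0, 0, 2133791, 0, 0, 28396, ⟨0, 0⟩, 9975792⟩ 0 0)) (.cut .v 12582912 (.pos 6 .mm ⟨0, 0, 0, 0, 0, 1622868, 0, 0, 0, ⟨0, 0⟩, 0⟩ 0 0) (.cut .v 14680064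 (.pos 10 .mm ⟨0, 0, 0, 0, 0, 1893073, 0, 0, 0, ⟨0, 0⟩, 0⟩ 0 0) (.cut .s 7176192 (.cut .v 15728640 (.cut .s 6995968 (.pos 12 .mm ⟨0, 0, 0, 0, 0, 1403400, 0, 0, 0, ⟨0, 0⟩, 0⟩ 0 0) (.pos 12 .mm ⟨0, 0, 0, 0, 0, 1867666, 0, 0, 0, ⟨0, 0⟩, 0⟩ 0 0)) (.cut .d (-524288) (.pos 13 .mm ⟨0, 0, 0, 0, 0, 2056394, 0, 0, 0, ⟨0, 0⟩, 0⟩ 0 0) (.cut .l 1275068 (.cut .v 16252928 (.cut .s 6995968 (.pos 14 .mm ⟨0, 0, 0, 0, 0, 1364567, 0, 0, 0, ⟨0, 0⟩, 0⟩ 0 0) (.pos 14 .mm ⟨0, 0, 0, 0, 0, 1829869, 0, 0, 0, ⟨0, 0⟩, 0⟩ 0 0)) (.cut .s 6995968 (.pos 15 .mm ⟨0, 0, 0, 0, 0, 1382051, 0, 0, 0, ⟨0, 0⟩, 0⟩ 0 0) (.pos 15 .mm ⟨0, 0, 0, 0, 0, 1886425, 0, 0, 0, ⟨0, 0⟩, 0⟩ 0 0))) (.pos 13 .mm ⟨0, 0,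 0, 0, 0, 1129888, 0, 0, 0, ⟨0, 0⟩, 0⟩ 0 0)))) (.cut .d (-524288) (.cut .s 7356416 (.pos 11 .mm ⟨0, 0, 0, 0, 0, 2906595, 0, 0, 0, ⟨0, 0⟩, 0⟩ 0 0) (.pos 11 .mm ⟨0, 0, 0, 0, 0, 3827780, 0, 0, 0, ⟨0, 0⟩, 0⟩ 0 0)) (.cut .v 15728640 (.pos 12 .mm ⟨0, 0, 0, 0, 0, 2555833, 0, 0, 0, ⟨0, 0⟩, 0⟩ 0 0) (.cut .l 1275068 (.cut .s 7356416 (.cut .v 16252928 (.pos 14 .mm ⟨0, 0, 0, 0, 0, 2480670, 0, 0, 0, ⟨0, 0⟩, 0⟩ 0 0) (.pos 15 .mm ⟨0, 0, 0, 0, 0, 2577527, 0, 0, 0, ⟨0, 0⟩, 0⟩ 0 0)) (.cut .d (-262144) (.pos 13 .mm ⟨0, 0, 0, 0, 0, 3775145, 0, 0, 0, ⟨0, 0⟩, 0⟩ 0 0) (.cut .s 7446528 (.pos 13 .mm ⟨0, 0, 0, 0, 0, 2887696, 0, 0, 0, ⟨0, 0⟩, 0⟩ 0 0) (.pos 13 .mm ⟨0, 0, 0, 0, 0, 3269930,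 0, 0, 0, ⟨0, 0⟩, 0⟩ 0 0)))) (.pos 13 .mm ⟨0, 0, 0, 0, 0, 2245763, 0, 0, 0, ⟨0, 0⟩, 0⟩ 0 0)))))))))))) (.cut .v 33554432 (.cut .v 25165824 (.cut .v 20971520 (.cut .d (-8388608) (.void 19 ⟨0, 0, 0, 0, 0, 100000, 0, 0, 0, ⟨0, 0⟩, 0⟩ 0 0) (.cut .d (-4194304) (.void 19 ⟨0, 0, 0, 0, 0, 100000, 0, 0, 0, ⟨0, 0⟩, 0⟩ 0 0) (.cut .d (-2097152) (.void 19 ⟨0, 0, 0, 0, 0, 100000, 0, 0, 0, ⟨0, 0⟩, 0⟩ 0 0) (.cut .d (-1048576) (.void 19 ⟨0, 0, 0, 0, 0, 100000, 0, 0, 0, ⟨0, 0⟩, 0⟩ 0 0) (.cut .s 7176192 (.pos 19 .mp ⟨209964, 0, 0, 0, 0, 1729050, 0, 0, 0, ⟨0, 0⟩, 0⟩ 0 0) (.cut .v 18874368 (.cut .s 7356416 (.pos 21 .mp ⟨0, 0, 0, 0, 0, 2860170, 0, 0, 0, ⟨0, 0⟩, 0⟩ 0 0) (.cut .s 7446528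 (.pos 21 .mp ⟨0, 0, 0, 0, 0, 3501861, 0, 0, 0, ⟨0, 0⟩, 0⟩ 0 0) (.cut .s 7491584 (.pos 21 .mp ⟨0, 0, 0, 0, 0, 3830550, 0, 0, 0, ⟨0, 0⟩, 0⟩ 0 0) (.pos 21 .mp ⟨0, 0, 0, 0, 0, 4133156, 0, 0, 0, ⟨0, 0⟩, 0⟩ 0 0)))) (.pos 22 .mp ⟨5938410, 0, 0, 0, 0, 0, 0, 0, 0, ⟨0, 0⟩, 0⟩ 0 0))))))) (.void 20 ⟨100000, 0, 0, 0, 0, 0, 0, 0, 0, ⟨0, 0⟩, 0⟩ 0 0)) (.void 18 ⟨100000, 0, 0, 0, 0, 0, 0, 0, 0, ⟨0, 0⟩, 0⟩ 0 0)) (.void 45 ⟨100000, 0, 0, 0, 0, 0, 0, 0, 0, ⟨0, 0⟩, 0⟩ 0 0))) (.cut .v 16777216 (.cut .v 8388608 (.cut .v 4194304 (.void 4 ⟨0, 0, 50000, 0, 50000, 0, 0, 0, 0, ⟨0, 0⟩, 0⟩ 0 0) (.void 5 ⟨0, 0, 0, 0, 0, 0, 0, 0, 100000, ⟨0, 0⟩, 9975792⟩ 0 0)) (.cut .d 10809421 (.cut .v 12582912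 (.pos 6 .pm ⟨0, 0, 0, 0, 0, 0, 0, 0, 0, ⟨0, 0⟩, 0⟩ 0 0) (.cut .v 14680064 (.pos 10 .pm ⟨0, 0, 0, 0, 0, 0, 0, 0, 0, ⟨0, 0⟩, 0⟩ 0 0) (.cut .v 15728640 (.pos 12 .pm ⟨0, 0, 0, 0, 0, 0, 0, 0, 0, ⟨0, 0⟩, 0⟩ 0 0) (.pos 13 .pm ⟨0, 0, 0, 0, 0, 0, 0, 0, 0, ⟨0, 0⟩, 0⟩ 0 0)))) (.void 3 ⟨0, 0, 0, 0, 0, 0, 0, 0, 100000, ⟨0, 0⟩, 14107901⟩ 0 0))) (.cut .v 33554432 (.cut .d 10809421 (.cut .v 25165824 (.cut .d 5404710 (.cut .v 20971520 (.pos 19 .pp ⟨459239, 0, 0, 0, 0, 0, 0, 0, 0, ⟨0, 0⟩, 0⟩ 0 0) (.pos 20 .pp ⟨55220, 0, 0, 0, 0, 0, 326857, 0, 0, ⟨0, 0⟩, 0⟩ 0 0)) (.cut .v 20971520 (.pos 19 .pp ⟨0, 0, 0, 0, 0, 0, 0, 0, 1264811, ⟨0, 0⟩, 17739746⟩ 0 0) (.pos 20 .pp ⟨0, 0, 0, 0, 0,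 0, 0, 29477108, 0, ⟨5163946, 1748354⟩, 0⟩ 137 190))) (.cut .d 5404710 (.pos 18 .pp ⟨185257, 0, 0, 0, 0, 0, 782995, 0, 0, ⟨0, 0⟩, 0⟩ 0 0) (.pos 18 .pp ⟨0, 0, 0, 0, 0, 0, 0, 55178025, 0, ⟨5163946, 1748354⟩, 0⟩ 137 190))) (.cut .d 16214131 (.pos 16 .pp ⟨0, 0, 0, 0, 0, 0, 0, 192826949, 11844729, ⟨6153497, 374617⟩, 19951585⟩ 171 261) (.void 16 ⟨0, 62450, 0, 0, 0, 0, 0, 0, 37550, ⟨0, 0⟩, 19951585⟩ 0 0))) (.cut .d 10809421 (.pos 45 .pp ⟨961395, 0, 0, 0, 0, 0, 32361069, 0, 0, ⟨0, 0⟩, 0⟩ 0 0) (.pos 45 .pp ⟨0, 23642946, 0, 0, 0, 0, 128228436, 0, 0, ⟨0, 0⟩, 0⟩ 0 0))))),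
    by decide +kernel⟩

def covers8 : cell.Covers table row8.1 :=
  ⟨(.cut .d 0 (.cut .v 16777216 (.cut .d (-8388608) (.void 1 ⟨0, 0, 0, 0, 0, 100000, 0, 0, 0, ⟨0, 0⟩, 0⟩ 0 0) (.cut .d (-4194304) (.void 1 ⟨0, 0, 0, 0, 0, 100000, 0, 0, 0, ⟨0, 0⟩, 0⟩ 0 0) (.cut .d (-2097152) (.void 1 ⟨0, 0, 0, 0, 0, 100000, 0, 0, 0, ⟨0, 0⟩, 0⟩ 0 0) (.cut .d (-1048576) (.void 1 ⟨0, 0, 0, 0, 0, 100000, 0, 0, 0, ⟨0, 0⟩, 0⟩ 0 0) (.cut .v 8388608 (.cut .v 4194304 (.void 4 ⟨0, 0, 100000, 0, 0, 0, 0, 0, 0, ⟨0, 0⟩, 0⟩ 0 0) (.pos 5 .mm ⟨0, 0, 0, 0, 0, 3281833, 0, 0, 566888, ⟨0, 0⟩, 9975792⟩ 0 0)) (.cut .v 12582912 (.pos 6 .mm ⟨0, 0, 0, 0, 0, 2336073, 0, 0, 0, ⟨0, 0⟩, 0⟩ 0 0) (.cut .v 14680064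 (.pos 10 .mm ⟨0, 0, 0, 0, 0, 3893822, 0, 0, 0, ⟨0, 0⟩, 0⟩ 0 0) (.cut .d (-524288) (.cut .s 7798784 (.pos 11 .mm ⟨0, 0, 0, 0, 0, 5483214, 0, 0, 0, ⟨0, 0⟩, 0⟩ 0 0) (.pos 11 .mm ⟨0, 0, 0, 0, 0, 7921305, 0, 0, 0, ⟨0, 0⟩, 0⟩ 0 0)) (.cut .v 15728640 (.pos 12 .mm ⟨0, 0, 0, 0, 0, 4134947, 0, 0, 0, ⟨0, 0⟩, 0⟩ 0 0) (.cut .s 7798784 (.cut .l 1275068 (.cut .d (-262144) (.pos 13 .mm ⟨0, 0, 0, 0, 0, 5121517, 0, 0, 0, ⟨0, 0⟩, 0⟩ 0 0) (.cut .s 7667712 (.cut .s 7602176 (.pos 13 .mm ⟨0, 0, 0, 0, 0, 3491084, 0, 0, 0, ⟨0, 0⟩, 0⟩ 0 0) (.pos 13 .mm ⟨0, 0, 0, 0, 0, 3957853, 0, 0, 0, ⟨0, 0⟩, 0⟩ 0 0)) (.pos 13 .mm ⟨0, 0, 0, 0, 0, 4696437, 0, 0, 0, ⟨0, 0⟩, 0⟩ 0 0))) (.pos 13 .mm ⟨0, 0,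 0, 0, 0, 3686658, 0, 0, 0, ⟨0, 0⟩, 0⟩ 0 0)) (.cut .s 7929856 (.pos 13 .mm ⟨0, 0, 0, 0, 0, 5992498, 0, 0, 0, ⟨0, 0⟩, 0⟩ 0 0) (.pos 13 .mm ⟨0, 0, 0, 0, 0, 7021672, 0, 0, 0, ⟨0, 0⟩, 0⟩ 0 0)))))))))))) (.cut .v 33554432 (.cut .v 25165824 (.cut .v 20971520 (.cut .d (-8388608) (.void 19 ⟨0, 0, 0, 0, 0, 100000, 0, 0, 0, ⟨0, 0⟩, 0⟩ 0 0) (.cut .v 18874368 (.cut .d (-4194304) (.void 21 ⟨0, 0, 0, 0, 0, 100000, 0, 0, 0, ⟨0, 0⟩, 0⟩ 0 0) (.cut .d (-2097152) (.void 21 ⟨0, 0, 0, 0, 0, 100000, 0, 0, 0, ⟨0, 0⟩, 0⟩ 0 0) (.cut .d (-1048576) (.void 21 ⟨0, 0, 0, 0, 0, 100000, 0, 0, 0, ⟨0, 0⟩, 0⟩ 0 0) (.cut .v 17825792 (.cut .d (-524288) (.cut .s 7798784 (.pos 23 .mp ⟨0, 0, 0, 0, 0,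 6263008, 0, 0, 0, ⟨0, 0⟩, 0⟩ 0 0) (.pos 23 .mp ⟨0, 0, 0, 0, 0, 9410892, 0, 0, 0, ⟨0, 0⟩, 0⟩ 0 0)) (.cut .s 7798784 (.cut .l 1275068 (.cut .d (-262144) (.pos 23 .mp ⟨0, 0, 0, 0, 0, 5704040, 0, 0, 0, ⟨0, 0⟩, 0⟩ 0 0) (.cut .s 7667712 (.pos 23 .mp ⟨391366, 0, 0, 0, 0, 3637598, 0, 0, 0, ⟨0, 0⟩, 0⟩ 0 0) (.pos 23 .mp ⟨990129, 0, 0, 0, 0, 3872638, 0, 0, 0, ⟨0, 0⟩, 0⟩ 0 0))) (.pos 23 .mp ⟨185102, 0, 0, 0, 0, 3976995, 0, 0, 0, ⟨0, 0⟩, 0⟩ 0 0)) (.cut .v 17301504 (.cut .s 7929856 (.cut .s 7864320 (.pos 25 .mp ⟨311812, 0, 0, 0, 0, 5737593, 0, 0, 0, ⟨0, 0⟩, 0⟩ 0 0) (.cut .s 7897088 (.pos 25 .mp ⟨561673, 0, 0, 0, 0, 5778106, 0, 0, 0, ⟨0, 0⟩, 0⟩ 0 0) (.pos 25 .mp ⟨692020, 0,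 0, 0, 0, 5930171, 0, 0, 0, ⟨0, 0⟩, 0⟩ 0 0))) (.cut .d (-262144) (.pos 25 .mp ⟨724272, 0, 0, 0, 0, 7363171, 0, 0, 0, ⟨0, 0⟩, 0⟩ 0 0) (.cut .s 7995392 (.pos 25 .mp ⟨1439730, 0, 0, 0, 0, 5118812, 0, 0, 0, ⟨0, 0⟩, 0⟩ 0 0) (.pos 25 .mp ⟨1838237, 0, 0, 0, 0, 5238240, 0, 0, 0, ⟨0, 0⟩, 0⟩ 0 0)))) (.pos 26 .mp ⟨6537004, 0, 0, 0, 0, 0, 0, 0, 0, ⟨0, 0⟩, 0⟩ 0 0)))) (.pos 24 .mp ⟨7671015, 0, 0, 0, 0, 0, 0, 0, 0, ⟨0, 0⟩, 0⟩ 0 0))))) (.pos 22 .mp ⟨25421994, 0, 0, 0, 0, 0, 0, 0, 0, ⟨0, 0⟩, 0⟩ 0 0))) (.void 20 ⟨100000, 0, 0, 0, 0, 0, 0, 0, 0, ⟨0, 0⟩, 0⟩ 0 0)) (.void 18 ⟨100000, 0, 0, 0, 0, 0, 0, 0, 0, ⟨0, 0⟩, 0⟩ 0 0)) (.void 45 ⟨100000, 0, 0, 0, 0, 0, 0, 0, 0, ⟨0, 0⟩, 0⟩ 0 0)))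 (.cut .v 16777216 (.cut .v 8388608 (.cut .v 4194304 (.void 4 ⟨0, 0, 50000, 0, 50000, 0, 0, 0, 0, ⟨0, 0⟩, 0⟩ 0 0) (.pos 5 .pm ⟨0, 0, 0, 0, 0, 0, 0, 0, 2108298, ⟨0, 0⟩, 9975792⟩ 0 0)) (.cut .d 10285164 (.cut .v 12582912 (.pos 6 .pm ⟨0, 0, 0, 0, 0, 0, 0, 0, 0, ⟨0, 0⟩, 0⟩ 0 0) (.pos 7 .pm ⟨0, 0, 0, 0, 0, 0, 0, 0, 0, ⟨0, 0⟩, 0⟩ 0 0)) (.void 3 ⟨0, 0, 0, 0, 0, 0, 0, 0, 100000, ⟨0, 0⟩, 14107901⟩ 0 0))) (.cut .v 33554432 (.cut .d 10285164 (.cut .v 25165824 (.cut .v 20971520 (.cut .v 18874368 (.pos 21 .pp ⟨353433, 0, 0, 0, 0, 0, 0, 0, 0, ⟨0, 0⟩, 0⟩ 0 0) (.pos 22 .pp ⟨743279, 0, 0, 0, 0, 0, 0, 0, 0, ⟨0, 0⟩, 0⟩ 0 0)) (.pos 20 .pp ⟨1154979, 0, 0, 0, 0, 0, 502893, 0, 0, ⟨0,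 0⟩, 0⟩ 0 0)) (.pos 18 .pp ⟨3087418, 0, 0, 0, 0, 0, 1041725, 0, 0, ⟨0, 0⟩, 0⟩ 0 0)) (.pos 16 .pp ⟨0, 0, 0, 0, 0, 0, 0, 0, 11882632, ⟨0, 0⟩, 19951585⟩ 0 0)) (.cut .d 10285164 (.cut .d 5142582 (.pos 45 .pp ⟨34329496, 0, 0, 0, 0, 0, 56337750, 0, 0, ⟨0, 0⟩, 0⟩ 0 0) (.pos 45 .pp ⟨0, 0, 0, 0, 0, 0, 1080312, 0, 0, ⟨0, 0⟩, 0⟩ 0 0)) (.pos 45 .pp ⟨0, 18018643, 0, 0, 0, 0, 1080312, 0, 0, ⟨0, 0⟩, 0⟩ 0 0))))),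
    by decide +kernel⟩

def covers9 : cell.Covers table row9.1 :=
  ⟨(.cut .d 0 (.cut .v 16777216 (.cut .d (-8388608) (.void 1 ⟨0, 0, 0, 0, 0, 100000, 0, 0, 0, ⟨0, 0⟩, 0⟩ 0 0) (.cut .d (-4194304) (.void 1 ⟨0, 0, 0, 0, 0, 100000, 0, 0, 0, ⟨0, 0⟩, 0⟩ 0 0) (.cut .d (-2097152) (.void 1 ⟨0, 0, 0, 0, 0, 100000, 0, 0, 0, ⟨0, 0⟩, 0⟩ 0 0) (.cut .d (-1048576) (.void 1 ⟨0, 0, 0, 0, 0, 100000, 0, 0, 0, ⟨0, 0⟩, 0⟩ 0 0) (.cut .v 8388608 (.cut .v 4194304 (.void 4 ⟨0, 0, 100000, 0, 0, 0, 0, 0, 0, ⟨0, 0⟩, 0⟩ 0 0) (.pos 5 .mm ⟨0, 0, 0, 0, 0, 3340127, 0, 0, 195824, ⟨0, 0⟩, 9975792⟩ 0 0)) (.cut .v 12582912 (.pos 6 .mm ⟨0, 0, 0, 0, 0, 4102957, 0, 0, 0, ⟨0, 0⟩, 0⟩ 0 0) (.cut .d (-524288)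 (.pos 7 .mm ⟨0, 0, 0, 0, 0, 13734115, 0, 0, 0, ⟨0, 0⟩, 0⟩ 0 0) (.cut .v 14680064 (.pos 10 .mm ⟨0, 0, 0, 0, 0, 5253802, 0, 0, 0, ⟨0, 0⟩, 0⟩ 0 0) (.cut .v 15728640 (.pos 12 .mm ⟨0, 0, 0, 0, 0, 8129183, 0, 0, 0, ⟨0, 0⟩, 0⟩ 0 0) (.cut .s 8323072 (.cut .s 8192000 (.pos 13 .mm ⟨0, 0, 0, 0, 0, 8166924, 0, 0, 0, ⟨0, 0⟩, 0⟩ 0 0) (.pos 13 .mm ⟨0, 0, 0, 0, 0, 9482872, 0, 0, 0, ⟨0, 0⟩, 0⟩ 0 0)) (.cut .s 8454144 (.pos 13 .mm ⟨0, 0, 0, 0, 0, 10957152, 0, 0, 0, ⟨0, 0⟩, 0⟩ 0 0) (.pos 13 .mm ⟨0, 0, 0, 0, 0, 12582557, 0, 0, 0, ⟨0, 0⟩, 0⟩ 0 0)))))))))))) (.cut .v 33554432 (.cut .v 25165824 (.cut .v 20971520 (.cut .d (-8388608) (.void 19 ⟨0, 0, 0, 0, 0, 100000, 0, 0, 0, ⟨0, 0⟩, 0⟩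 0 0) (.cut .v 18874368 (.cut .d (-4194304) (.void 21 ⟨0, 0, 0, 0, 0, 100000, 0, 0, 0, ⟨0, 0⟩, 0⟩ 0 0) (.cut .d (-2097152) (.void 21 ⟨0, 0, 0, 0, 0, 100000, 0, 0, 0, ⟨0, 0⟩, 0⟩ 0 0) (.cut .d (-1048576) (.void 21 ⟨0, 0, 0, 0, 0, 100000, 0, 0, 0, ⟨0, 0⟩, 0⟩ 0 0) (.cut .d (-524288) (.cut .v 17825792 (.cut .s 8323072 (.pos 23 .mp ⟨1772429, 0, 0, 0, 0, 10722552, 0, 0, 0, ⟨0, 0⟩, 0⟩ 0 0) (.pos 23 .mp ⟨4503650, 0, 0, 0, 0, 11922561, 0, 0, 0, ⟨0, 0⟩, 0⟩ 0 0)) (.void 24 ⟨100000, 0, 0, 0, 0, 0, 0, 0, 0, ⟨0, 0⟩, 0⟩ 0 0)) (.cut .v 17825792 (.cut .s 8323072 (.cut .s 8192000 (.cut .v 17301504 (.cut .d (-262144) (.pos 25 .mp ⟨1249515, 0, 0, 0, 0, 8158760, 0, 0, 0, ⟨0, 0⟩, 0⟩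 0 0) (.cut .d (-131072) (.pos 25 .mp ⟨2441321, 0, 0, 0, 0, 5902880, 0, 0, 0, ⟨0, 0⟩, 0⟩ 0 0) (.pos 25 .mp ⟨2565081, 0, 0, 0, 0, 4712772, 0, 0, 0, ⟨0, 0⟩, 0⟩ 0 0))) (.pos 26 .mp ⟨7112051, 0, 0, 0, 0, 1175493, 0, 0, 0, ⟨0, 0⟩, 0⟩ 0 0)) (.cut .v 17301504 (.cut .d (-262144) (.pos 25 .mp ⟨1909286, 0, 0, 0, 0, 8979784, 0, 0, 0, ⟨0, 0⟩, 0⟩ 0 0) (.cut .d (-131072) (.cut .s 8257536 (.pos 25 .mp ⟨2670165, 0, 0, 0, 0, 6992845, 0, 0, 0, ⟨0, 0⟩, 0⟩ 0 0) (.pos 25 .mp ⟨3313563, 0, 0, 0, 0, 6918256, 0, 0, 0, ⟨0, 0⟩, 0⟩ 0 0)) (.pos 25 .mp ⟨3375983, 0, 0, 0, 0, 5091533, 0, 0, 0, ⟨0, 0⟩, 0⟩ 0 0))) (.pos 26 .mp ⟨8562588, 0, 0, 0, 0, 951123, 0, 0, 0, ⟨0, 0⟩, 0⟩ 0 0))) (.cut .s 8454144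 (.cut .v 17301504 (.cut .d (-262144) (.cut .s 8388608 (.pos 25 .mp ⟨3197747, 0, 0, 0, 0, 8510690, 0, 0, 0, ⟨0, 0⟩, 0⟩ 0 0) (.pos 25 .mp ⟨3607481, 0, 0, 0, 0, 8928151, 0, 0, 0, ⟨0, 0⟩, 0⟩ 0 0)) (.cut .v 17039360 (.cut .d (-131072) (.pos 27 .mp ⟨2604094, 0, 0, 0, 0, 9044528, 0, 0, 0, ⟨0, 0⟩, 0⟩ 0 0) (.pos 27 .mp ⟨4074551, 0, 0, 0, 0, 5742046, 0, 0, 0, ⟨0, 0⟩, 0⟩ 0 0)) (.pos 28 .mp ⟨8427941, 0, 0, 0, 0, 1705177, 0, 0, 0, ⟨0, 0⟩, 0⟩ 0 0))) (.pos 26 .mp ⟨10056181, 0, 0, 0, 0, 814538, 0, 0, 0, ⟨0, 0⟩, 0⟩ 0 0)) (.cut .v 17301504 (.cut .d (-262144) (.cut .s 8519680 (.pos 25 .mp ⟨3780914, 0, 0, 0, 0, 9811268, 0, 0, 0, ⟨0, 0⟩, 0⟩ 0 0) (.pos 25 .mp ⟨4235782, 0, 0, 0, 0,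 10259030, 0, 0, 0, ⟨0, 0⟩, 0⟩ 0 0)) (.cut .v 17039360 (.cut .d (-131072) (.pos 27 .mp ⟨3372443, 0, 0, 0, 0, 9923389, 0, 0, 0, ⟨0, 0⟩, 0⟩ 0 0) (.cut .s 8519680 (.pos 27 .mp ⟨4476680, 0, 0, 0, 0, 6655685, 0, 0, 0, ⟨0, 0⟩, 0⟩ 0 0) (.pos 27 .mp ⟨5007928, 0, 0, 0, 0, 6867597, 0, 0, 0, ⟨0, 0⟩, 0⟩ 0 0))) (.pos 28 .mp ⟨9819335, 0, 0, 0, 0, 1712062, 0, 0, 0, ⟨0, 0⟩, 0⟩ 0 0))) (.pos 26 .mp ⟨11642437, 0, 0, 0, 0, 706425, 0, 0, 0, ⟨0, 0⟩, 0⟩ 0 0)))) (.pos 24 .mp ⟨11570573, 0, 0, 0, 0, 0, 0, 0, 0, ⟨0, 0⟩, 0⟩ 0 0)))))) (.pos 22 .mp ⟨41566319, 0, 0, 0, 0, 0, 0, 0, 0, ⟨0, 0⟩, 0⟩ 0 0))) (.void 20 ⟨100000, 0, 0, 0, 0, 0, 0, 0, 0, ⟨0, 0⟩, 0⟩ 0 0)) (.void 18 ⟨100000, 0, 0, 0, 0,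 0, 0, 0, 0, ⟨0, 0⟩, 0⟩ 0 0)) (.void 45 ⟨100000, 0, 0, 0, 0, 0, 0, 0, 0, ⟨0, 0⟩, 0⟩ 0 0))) (.cut .v 16777216 (.cut .v 8388608 (.cut .v 4194304 (.void 4 ⟨0, 0, 50000, 0, 50000, 0, 0, 0, 0, ⟨0, 0⟩, 0⟩ 0 0) (.pos 5 .pm ⟨0, 0, 0, 0, 0, 0, 0, 0, 176291, ⟨0, 0⟩, 9975792⟩ 0 0)) (.cut .d 9070610 (.cut .v 12582912 (.pos 6 .pm ⟨0, 0, 0, 0, 0, 0, 0, 0, 0, ⟨0, 0⟩, 0⟩ 0 0) (.pos 7 .pm ⟨0, 0, 0, 0, 0, 0, 0, 0, 0, ⟨0, 0⟩, 0⟩ 0 0)) (.void 3 ⟨0, 0, 0, 0, 0, 0, 0, 0, 100000, ⟨0, 0⟩, 14107901⟩ 0 0))) (.cut .v 33554432 (.cut .d 9070610 (.cut .d 4535305 (.cut .v 25165824 (.cut .v 20971520 (.cut .v 18874368 (.pos 21 .pp ⟨3126277, 0, 0, 0, 0, 0, 0, 0, 0, ⟨0, 0⟩, 0⟩ 0 0) (.pos 22 .pp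 ⟨6496551, 0, 0, 0, 0, 0, 0, 0, 0, ⟨0, 0⟩, 0⟩ 0 0)) (.pos 20 .pp ⟨9666686, 0, 0, 0, 0, 0, 0, 0, 0, ⟨0, 0⟩, 0⟩ 0 0)) (.pos 18 .pp ⟨20955441, 0, 0, 0, 0, 0, 0, 0, 0, ⟨0, 0⟩, 0⟩ 0 0)) (.pos 16 .pp ⟨0, 0, 0, 0, 0, 0, 0, 4167639, 0, ⟨5744847, 927421⟩, 0⟩ 156 212)) (.pos 16 .pp ⟨0, 0, 0, 0, 0, 0, 0, 0, 6456827, ⟨0, 0⟩, 19951585⟩ 0 0)) (.cut .v 50331648 (.cut .d 9070610 (.cut .d 4535305 (.pos 46 .pp ⟨76673402, 0, 0, 0, 0, 0, 0, 0, 0, ⟨0, 0⟩, 0⟩ 0 0) (.pos 46 .pp ⟨0, 0, 0, 0, 0, 0, 1733248, 0, 0, ⟨0, 0⟩, 0⟩ 0 0)) (.pos 46 .pp ⟨0, 5342038, 0, 0, 0, 0, 1733248, 0, 0, ⟨0, 0⟩, 0⟩ 0 0)) (.void 47 ⟨0, 0, 0, 0, 0, 0, 100000, 0, 0, ⟨0, 0⟩, 0⟩ 0 0))))),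
    by decide +kernel⟩

def covers10 : cell.Covers table row10.1 :=
  ⟨(.cut .d 0 (.cut .v 16777216 (.cut .d (-8388608) (.void 1 ⟨0, 0, 0, 0, 0, 100000, 0, 0, 0, ⟨0, 0⟩, 0⟩ 0 0) (.cut .d (-4194304) (.void 1 ⟨0, 0, 0, 0, 0, 100000, 0, 0, 0, ⟨0, 0⟩, 0⟩ 0 0) (.cut .d (-2097152) (.void 1 ⟨0, 0, 0, 0, 0, 100000, 0, 0, 0, ⟨0, 0⟩, 0⟩ 0 0) (.cut .d (-1048576) (.void 1 ⟨0, 0, 0, 0, 0, 100000, 0, 0, 0, ⟨0, 0⟩, 0⟩ 0 0) (.cut .d (-524288) (.void 1 ⟨0, 0, 0, 0, 0, 100000, 0, 0, 0, ⟨0, 0⟩, 0⟩ 0 0) (.cut .v 8388608 (.cut .v 4194304 (.void 4 ⟨0, 0, 100000, 0, 0, 0, 0, 0, 0, ⟨0, 0⟩, 0⟩ 0 0) (.pos 5 .mm ⟨0, 0, 0, 0, 0, 3318370, 0, 0, 0, ⟨0, 0⟩, 0⟩ 0 0)) (.cut .v 12582912 (.pos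 6 .mm ⟨0, 0, 0, 0, 0, 6004635, 0, 0, 0, ⟨0, 0⟩, 0⟩ 0 0) (.cut .d (-262144) (.pos 7 .mm ⟨0, 0, 0, 0, 0, 19719481, 0, 0, 0, ⟨0, 0⟩, 0⟩ 0 0) (.cut .s 8814592 (.pos 7 .mm ⟨0, 0, 0, 0, 0, 14786999, 0, 0, 0, ⟨0, 0⟩, 0⟩ 0 0) (.pos 7 .mm ⟨0, 0, 0, 0, 0, 18637239, 0, 0, 0, ⟨0, 0⟩, 0⟩ 0 0)))))))))) (.cut .v 33554432 (.cut .v 25165824 (.cut .v 20971520 (.cut .d (-8388608) (.void 19 ⟨0, 0, 0, 0, 0, 100000, 0, 0, 0, ⟨0, 0⟩, 0⟩ 0 0) (.cut .v 18874368 (.cut .d (-4194304) (.void 21 ⟨0, 0, 0, 0, 0, 100000, 0, 0, 0, ⟨0, 0⟩, 0⟩ 0 0) (.cut .d (-2097152) (.void 21 ⟨0, 0, 0, 0, 0, 100000, 0, 0, 0, ⟨0, 0⟩, 0⟩ 0 0) (.cut .d (-1048576) (.void 21 ⟨0, 0, 0, 0, 0, 100000, 0, 0, 0, ⟨0, 0⟩,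 0⟩ 0 0) (.cut .d (-524288) (.void 21 ⟨0, 0, 0, 0, 0, 100000, 0, 0, 0, ⟨0, 0⟩, 0⟩ 0 0) (.cut .v 17825792 (.cut .s 8814592 (.cut .v 17301504 (.cut .d (-262144) (.cut .s 8699904 (.pos 25 .mp ⟨4545777, 0, 0, 0, 0, 11438093, 0, 0, 0, ⟨0, 0⟩, 0⟩ 0 0) (.pos 25 .mp ⟨5407561, 0, 0, 0, 0, 12434570, 0, 0, 0, ⟨0, 0⟩, 0⟩ 0 0)) (.cut .l 1275068 (.cut .s 8699904 (.cut .v 17039360 (.cut .d (-131072) (.pos 27 .mp ⟨5085015, 0, 0, 0, 0, 9766136, 0, 0, 0, ⟨0, 0⟩, 0⟩ 0 0) (.cut .s 8642560 (.pos 27 .mp ⟨5494007, 0, 0, 0, 0, 7144356, 0, 0, 0, ⟨0, 0⟩, 0⟩ 0 0) (.pos 27 .mp ⟨6002622, 0, 0, 0, 0, 7352689, 0, 0, 0, ⟨0, 0⟩, 0⟩ 0 0))) (.pos 28 .mp ⟨13029994, 0, 0, 0, 0, 0, 0, 0, 0, ⟨0, 0⟩,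 0⟩ 0 0)) (.cut .v 17039360 (.cut .d (-131072) (.pos 27 .mp ⟨5973921, 0, 0, 0, 0, 10603767, 0, 0, 0, ⟨0, 0⟩, 0⟩ 0 0) (.cut .s 8757248 (.pos 27 .mp ⟨6533408, 0, 0, 0, 0, 7575209, 0, 0, 0, ⟨0, 0⟩, 0⟩ 0 0) (.pos 27 .mp ⟨7086744, 0, 0, 0, 0, 7810215, 0, 0, 0, ⟨0, 0⟩, 0⟩ 0 0))) (.pos 28 .mp ⟨14497976, 0, 0, 0, 0, 0, 0, 0, 0, ⟨0, 0⟩, 0⟩ 0 0))) (.pos 25 .mp ⟨6328321, 0, 0, 0, 0, 0, 0, 0, 0, ⟨0, 0⟩, 0⟩ 0 0))) (.cut .s 8699904 (.pos 26 .mp ⟨12600259, 0, 0, 0, 0, 1367823, 0, 0, 0, ⟨0, 0⟩, 0⟩ 0 0) (.pos 26 .mp ⟨13884852, 0, 0, 0, 0, 1689622, 0, 0, 0, ⟨0, 0⟩, 0⟩ 0 0))) (.cut .d (-262144) (.cut .l 1275068 (.pos 23 .mp ⟨8999207, 0, 0, 0, 0, 14770709, 0, 0, 0, ⟨0, 0⟩, 0⟩ 0 0)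 (.cut .v 17301504 (.cut .s 8929280 (.pos 25 .mp ⟨6491601, 0, 0, 0, 0, 12855187, 0, 0, 0, ⟨0, 0⟩, 0⟩ 0 0) (.pos 25 .mp ⟨7653845, 0, 0, 0, 0, 13805774, 0, 0, 0, ⟨0, 0⟩, 0⟩ 0 0)) (.cut .s 8929280 (.pos 26 .mp ⟨13645295, 0, 0, 0, 0, 4333050, 0, 0, 0, ⟨0, 0⟩, 0⟩ 0 0) (.pos 26 .mp ⟨14807828, 0, 0, 0, 0, 5209116, 0, 0, 0, ⟨0, 0⟩, 0⟩ 0 0)))) (.cut .l 1275068 (.cut .v 17301504 (.cut .s 8929280 (.cut .v 17039360 (.cut .d (-131072) (.pos 27 .mp ⟨6930504, 0, 0, 0, 0, 11524570, 0, 0, 0, ⟨0, 0⟩, 0⟩ 0 0) (.cut .s 8871936 (.pos 27 .mp ⟨7663019, 0, 0, 0, 0, 8056001, 0, 0, 0, ⟨0, 0⟩, 0⟩ 0 0) (.pos 27 .mp ⟨8256716, 0, 0, 0, 0, 8320638, 0, 0, 0, ⟨0, 0⟩, 0⟩ 0 0))) (.pos 28 .mp ⟨16090174,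 0, 0, 0, 0, 0, 0, 0, 0, ⟨0, 0⟩, 0⟩ 0 0)) (.cut .v 17039360 (.cut .d (-131072) (.pos 27 .mp ⟨7978897, 0, 0, 0, 0, 12493298, 0, 0, 0, ⟨0, 0⟩, 0⟩ 0 0) (.cut .d (-65536) (.pos 27 .mp ⟨8915729, 0, 0, 0, 0, 10192337, 0, 0, 0, ⟨0, 0⟩, 0⟩ 0 0) (.pos 27 .mp ⟨8412966, 0, 0, 0, 0, 0, 0, 0, 0, ⟨0, 0⟩, 0⟩ 0 0))) (.pos 28 .mp ⟨17803224, 0, 0, 0, 0, 0, 0, 0, 0, ⟨0, 0⟩, 0⟩ 0 0))) (.pos 26 .mp ⟨17744696, 0, 0, 0, 0, 0, 0, 0, 0, ⟨0, 0⟩, 0⟩ 0 0)) (.pos 23 .mp ⟨9763737, 0, 0, 0, 0, 0, 0, 0, 0, ⟨0, 0⟩, 0⟩ 0 0)))) (.pos 24 .mp ⟨18295273, 0, 0, 0, 0, 0, 0, 0, 0, ⟨0, 0⟩, 0⟩ 0 0)))))) (.pos 22 .mp ⟨61015043, 0, 0, 0, 0, 0, 0, 0, 0, ⟨0, 0⟩, 0⟩ 0 0))) (.void 20 ⟨100000, 0, 0, 0, 0, 0, 0,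 0, 0, ⟨0, 0⟩, 0⟩ 0 0)) (.void 18 ⟨100000, 0, 0, 0, 0, 0, 0, 0, 0, ⟨0, 0⟩, 0⟩ 0 0)) (.void 45 ⟨100000, 0, 0, 0, 0, 0, 0, 0, 0, ⟨0, 0⟩, 0⟩ 0 0))) (.cut .v 16777216 (.cut .v 8388608 (.cut .v 4194304 (.void 4 ⟨0, 0, 50000, 0, 50000, 0, 0, 0, 0, ⟨0, 0⟩, 0⟩ 0 0) (.pos 5 .pm ⟨0, 0, 0, 0, 0, 0, 0, 0, 0, ⟨0, 0⟩, 0⟩ 0 0)) (.cut .d 8004398 (.pos 3 .pm ⟨0, 0, 0, 0, 0, 0, 0, 0, 0, ⟨0, 0⟩, 0⟩ 0 0) (.pos 3 .pm ⟨0, 0, 0, 0, 0, 0, 0, 0, 8777178, ⟨0, 0⟩, 14107901⟩ 0 0))) (.cut .d 8004398 (.cut .v 33554432 (.cut .d 4002199 (.cut .v 25165824 (.cut .v 20971520 (.cut .v 18874368 (.pos 21 .pp ⟨7664300, 0, 0, 0, 0, 0, 0, 0, 0, ⟨0, 0⟩, 0⟩ 0 0) (.pos 22 .pp ⟨11611899, 0, 0, 0, 0, 0, 0,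 0, 0, ⟨0, 0⟩, 0⟩ 0 0)) (.pos 20 .pp ⟨17398667, 0, 0, 0, 0, 0, 0, 0, 0, ⟨0, 0⟩, 0⟩ 0 0)) (.pos 18 .pp ⟨36250279, 0, 0, 0, 0, 0, 0, 0, 0, ⟨0, 0⟩, 0⟩ 0 0)) (.pos 16 .pp ⟨0, 0, 0, 0, 0, 0, 0, 5071706, 0, ⟨5874680, 757302⟩, 0⟩ 162 216)) (.cut .v 50331648 (.cut .d 4002199 (.pos 46 .pp ⟨116930068, 0, 0, 0, 0, 0, 0, 0, 0, ⟨0, 0⟩, 0⟩ 0 0) (.pos 46 .pp ⟨0, 0, 0, 0, 0, 0, 2395699, 0, 0, ⟨0, 0⟩, 0⟩ 0 0)) (.pos 47 .pp ⟨213084566, 45867793, 0, 0, 0, 0, 128994174, 0, 0, ⟨0, 0⟩, 0⟩ 0 0))) (.cut .v 33554432 (.pos 16 .pp ⟨0, 4459465, 0, 0, 0, 0, 0, 0, 3698159, ⟨0, 0⟩, 19951585⟩ 0 0) (.pos 45 .pp ⟨0, 0, 0, 0, 0, 0, 2395699, 0, 0, ⟨0, 0⟩, 0⟩ 0 0))))),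
    by decide +kernel⟩

def covers11 : cell.Covers table row11.1 :=
  ⟨(.cut .d 0 (.cut .v 16777216 (.cut .d (-8388608) (.void 1 ⟨0, 0, 0, 0, 0, 100000, 0, 0, 0, ⟨0, 0⟩, 0⟩ 0 0) (.cut .d (-4194304) (.void 1 ⟨0, 0, 0, 0, 0, 100000, 0, 0, 0, ⟨0, 0⟩, 0⟩ 0 0) (.cut .d (-2097152) (.void 1 ⟨0, 0, 0, 0, 0, 100000, 0, 0, 0, ⟨0, 0⟩, 0⟩ 0 0) (.cut .d (-1048576) (.void 1 ⟨0, 0, 0, 0, 0, 100000, 0, 0, 0, ⟨0, 0⟩, 0⟩ 0 0) (.cut .d (-524288) (.void 1 ⟨0, 0, 0, 0, 0, 100000, 0, 0, 0, ⟨0, 0⟩, 0⟩ 0 0) (.cut .v 8388608 (.cut .v 4194304 (.void 4 ⟨0, 0, 100000, 0, 0, 0, 0, 0, 0, ⟨0, 0⟩, 0⟩ 0 0) (.pos 5 .mm ⟨0, 0, 0, 0, 0, 4482780, 0, 0, 0, ⟨0, 0⟩, 0⟩ 0 0)) (.cut .d (-262144) (.pos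 3 .mm ⟨0, 0, 0, 0, 0, 32365821, 0, 0, 0, ⟨0, 0⟩, 0⟩ 0 0) (.cut .s 9306112 (.cut .s 9175040 (.pos 3 .mm ⟨0, 0, 0, 0, 0, 21782531, 0, 0, 0, ⟨0, 0⟩, 0⟩ 0 0) (.pos 3 .mm ⟨0, 0, 0, 0, 0, 24679234, 0, 0, 0, ⟨0, 0⟩, 0⟩ 0 0)) (.pos 3 .mm ⟨0, 0, 0, 0, 0, 30478726, 0, 0, 0, ⟨0, 0⟩, 0⟩ 0 0))))))))) (.cut .v 67108864 (.cut .v 33554432 (.cut .v 25165824 (.cut .v 20971520 (.cut .d (-8388608) (.void 19 ⟨0, 0, 0, 0, 0, 100000, 0, 0, 0, ⟨0, 0⟩, 0⟩ 0 0) (.cut .v 18874368 (.cut .d (-4194304) (.void 21 ⟨0, 0, 0, 0, 0, 100000, 0, 0, 0, ⟨0, 0⟩, 0⟩ 0 0) (.cut .d (-2097152) (.void 21 ⟨0, 0, 0, 0, 0, 100000, 0, 0, 0, ⟨0, 0⟩, 0⟩ 0 0) (.cut .d (-1048576) (.void 21 ⟨0, 0, 0, 0, 0, 100000,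 0, 0, 0, ⟨0, 0⟩, 0⟩ 0 0) (.cut .d (-524288) (.void 21 ⟨0, 0, 0, 0, 0, 100000, 0, 0, 0, ⟨0, 0⟩, 0⟩ 0 0) (.cut .v 17825792 (.cut .s 9306112 (.cut .d (-262144) (.cut .l 1275068 (.void 23 ⟨0, 0, 0, 0, 0, 100000, 0, 0, 0, ⟨0, 0⟩, 0⟩ 0 0) (.cut .v 17301504 (.cut .s 9175040 (.pos 25 .mp ⟨8881367, 0, 0, 0, 0, 15134242, 0, 0, 0, ⟨0, 0⟩, 0⟩ 0 0) (.cut .s 9240576 (.pos 25 .mp ⟨10407705, 0, 0, 0, 0, 15465984, 0, 0, 0, ⟨0, 0⟩, 0⟩ 0 0) (.pos 25 .mp ⟨11226980, 0, 0, 0, 0, 16153730, 0, 0, 0, ⟨0, 0⟩, 0⟩ 0 0))) (.cut .s 9175040 (.pos 26 .mp ⟨16712388, 0, 0, 0, 0, 5636172, 0, 0, 0, ⟨0, 0⟩, 0⟩ 0 0) (.pos 26 .mp ⟨18457398, 0, 0, 0, 0, 6778484, 0, 0, 0, ⟨0, 0⟩, 0⟩ 0 0)))) (.cut .l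 1275068 (.cut .v 17301504 (.cut .s 9175040 (.cut .v 17039360 (.cut .d (-131072) (.pos 27 .mp ⟨8419050, 0, 0, 0, 0, 14977624, 0, 0, 0, ⟨0, 0⟩, 0⟩ 0 0) (.cut .d (-65536) (.cut .s 9109504 (.pos 27 .mp ⟨9105666, 0, 0, 0, 0, 12191002, 0, 0, 0, ⟨0, 0⟩, 0⟩ 0 0) (.pos 27 .mp ⟨9853388, 0, 0, 0, 0, 12700127, 0, 0, 0, ⟨0, 0⟩, 0⟩ 0 0)) (.pos 27 .mp ⟨9853591, 0, 0, 0, 0, 0, 0, 0, 0, ⟨0, 0⟩, 0⟩ 0 0))) (.pos 28 .mp ⟨19789871, 0, 0, 0, 0, 0, 0, 0, 0, ⟨0, 0⟩, 0⟩ 0 0)) (.cut .v 17039360 (.cut .d (-131072) (.pos 27 .mp ⟨9827013, 0, 0, 0, 0, 16370628, 0, 0, 0, ⟨0, 0⟩, 0⟩ 0 0) (.cut .d (-65536) (.cut .s 9240576 (.pos 27 .mp ⟨10633556, 0, 0, 0, 0, 13247301, 0, 0, 0, ⟨0, 0⟩, 0⟩ 0 0)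 (.pos 27 .mp ⟨11446905, 0, 0, 0, 0, 13829157, 0, 0, 0, ⟨0, 0⟩, 0⟩ 0 0)) (.pos 27 .mp ⟨11500588, 0, 0, 0, 0, 0, 0, 0, 0, ⟨0, 0⟩, 0⟩ 0 0))) (.pos 28 .mp ⟨22119190, 0, 0, 0, 0, 0, 0, 0, 0, ⟨0, 0⟩, 0⟩ 0 0))) (.pos 26 .mp ⟨22016866, 0, 0, 0, 0, 0, 0, 0, 0, ⟨0, 0⟩, 0⟩ 0 0)) (.pos 23 .mp ⟨13259590, 0, 0, 0, 0, 5804707, 0, 0, 0, ⟨0, 0⟩, 0⟩ 0 0))) (.cut .d (-262144) (.cut .l 1275068 (.void 23 ⟨0, 0, 0, 0, 0, 100000, 0, 0, 0, ⟨0, 0⟩, 0⟩ 0 0) (.cut .v 17301504 (.cut .d (-393216) (.pos 25 .mp ⟨0, 0, 0, 0, 0, 40370835, 0, 0, 0, ⟨0, 0⟩, 0⟩ 0 0) (.cut .s 9437184 (.pos 25 .mp ⟨12084726, 0, 0, 0, 0, 17606242, 0, 0, 0, ⟨0, 0⟩, 0⟩ 0 0) (.pos 25 .mp ⟨13919020, 0, 0, 0, 0, 19214441,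 0, 0, 0, ⟨0, 0⟩, 0⟩ 0 0))) (.cut .s 9437184 (.pos 26 .mp ⟨20829194, 0, 0, 0, 0, 7518548, 0, 0, 0, ⟨0, 0⟩, 0⟩ 0 0) (.pos 26 .mp ⟨23457390, 0, 0, 0, 0, 8226434, 0, 0, 0, ⟨0, 0⟩, 0⟩ 0 0)))) (.cut .v 17301504 (.cut .l 1275068 (.cut .d (-131072) (.cut .s 9437184 (.cut .s 9371648 (.pos 25 .mp ⟨12345647, 0, 0, 0, 0, 15975690, 0, 0, 0, ⟨0, 0⟩, 0⟩ 0 0) (.pos 25 .mp ⟨13188590, 0, 0, 0, 0, 16749785, 0, 0, 0, ⟨0, 0⟩, 0⟩ 0 0)) (.cut .s 9502720 (.pos 25 .mp ⟨14073888, 0, 0, 0, 0, 17545216, 0, 0, 0, ⟨0, 0⟩, 0⟩ 0 0) (.pos 25 .mp ⟨15006132, 0, 0, 0, 0, 18354146, 0, 0, 0, ⟨0, 0⟩, 0⟩ 0 0))) (.cut .v 17039360 (.cut .l 822083 (.cut .d (-65536) (.cut .s 9437184 (.cut .s 9371648 (.pos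 27 .mp ⟨12258401, 0, 0, 0, 0, 14482083, 0, 0, 0, ⟨0, 0⟩, 0⟩ 0 0) (.pos 27 .mp ⟨13078180, 0, 0, 0, 0, 15193085, 0, 0, 0, ⟨0, 0⟩, 0⟩ 0 0)) (.cut .s 9502720 (.pos 27 .mp ⟨13939133, 0, 0, 0, 0, 15923276, 0, 0, 0, ⟨0, 0⟩, 0⟩ 0 0) (.pos 27 .mp ⟨14845682, 0, 0, 0, 0, 16665072, 0, 0, 0, ⟨0, 0⟩, 0⟩ 0 0))) (.cut .s 9437184 (.pos 27 .mp ⟨13282355, 0, 0, 0, 0, 0, 0, 0, 0, ⟨0, 0⟩, 0⟩ 0 0) (.pos 27 .mp ⟨14824094, 0, 0, 0, 0, 11771501, 0, 0, 0, ⟨0, 0⟩, 0⟩ 0 0))) (.pos 27 .mp ⟨0, 0, 0, 0, 0, 0, 0, 0, 0, ⟨0, 0⟩, 0⟩ 0 0)) (.pos 28 .mp ⟨24532870, 0, 0, 0, 0, 0, 0, 0, 0, ⟨0, 0⟩, 0⟩ 0 0))) (.pos 25 .mp ⟨16842960, 0, 0, 0, 0, 7028997, 0, 0, 0, ⟨0, 0⟩, 0⟩ 0 0)) (.pos 26 .mp ⟨26000491,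 0, 0, 0, 0, 0, 0, 0, 0, ⟨0, 0⟩, 0⟩ 0 0)))) (.cut .s 9306112 (.pos 24 .mp ⟨24462851, 0, 0, 0, 0, 0, 0, 0, 0, ⟨0, 0⟩, 0⟩ 0 0) (.pos 24 .mp ⟨30413914, 0, 0, 0, 0, 0, 0, 0, 0, ⟨0, 0⟩, 0⟩ 0 0))))))) (.pos 22 .mp ⟨92276579, 0, 0, 0, 0, 0, 0, 0, 0, ⟨0, 0⟩, 0⟩ 0 0))) (.void 20 ⟨100000, 0, 0, 0, 0, 0, 0, 0, 0, ⟨0, 0⟩, 0⟩ 0 0)) (.void 18 ⟨100000, 0, 0, 0, 0, 0, 0, 0, 0, ⟨0, 0⟩, 0⟩ 0 0)) (.void 45 ⟨100000, 0, 0, 0, 0, 0, 0, 0, 0, ⟨0, 0⟩, 0⟩ 0 0)) (.void 56 ⟨100000, 0, 0, 0, 0, 0, 0, 0, 0, ⟨0, 0⟩, 0⟩ 0 0))) (.cut .v 16777216 (.cut .v 8388608 (.cut .v 4194304 (.void 4 ⟨0, 0, 50000, 0, 50000, 0, 0, 0, 0, ⟨0, 0⟩, 0⟩ 0 0) (.pos 5 .pm ⟨0, 0, 0, 0, 0, 0, 0, 0, 2261103, ⟨0, 0⟩,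 9975792⟩ 0 0)) (.cut .d 7172869 (.pos 3 .pm ⟨0, 0, 0, 0, 0, 0, 0, 0, 0, ⟨0, 0⟩, 0⟩ 0 0) (.pos 3 .pm ⟨0, 2514907, 0, 0, 0, 0, 0, 0, 11294152, ⟨0, 0⟩, 14107901⟩ 0 0))) (.cut .v 67108864 (.cut .d 7172869 (.cut .d 3586434 (.cut .v 33554432 (.cut .d 1793217 (.cut .v 25165824 (.cut .v 20971520 (.cut .v 18874368 (.pos 21 .pp ⟨14917220, 0, 0, 0, 0, 0, 0, 0, 0, ⟨0, 0⟩, 0⟩ 0 0) (.pos 22 .pp ⟨22421962, 0, 0, 0, 0, 0, 0, 0, 0, ⟨0, 0⟩, 0⟩ 0 0)) (.pos 20 .pp ⟨33615925, 0, 0, 0, 0, 0, 0, 0, 0, ⟨0, 0⟩, 0⟩ 0 0)) (.pos 18 .pp ⟨72166256, 0, 0, 0, 0, 0, 0, 0, 0, ⟨0, 0⟩, 0⟩ 0 0)) (.pos 16 .pp ⟨0, 0, 0, 0, 0, 0, 0, 9668353, 0, ⟨5362593, 1537122⟩, 0⟩ 152 178)) (.cut .d 1793217 (.void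 45 ⟨100000, 0, 0, 0, 0, 0, 0, 0, 0, ⟨0, 0⟩, 0⟩ 0 0) (.pos 45 .pp ⟨146327386, 0, 0, 0, 0, 0, 0, 0, 0, ⟨0, 0⟩, 0⟩ 0 0))) (.cut .v 33554432 (.pos 16 .pp ⟨0, 0, 0, 0, 0, 0, 0, 7251264, 0, ⟨5993247, 598639⟩, 0⟩ 167 225) (.pos 45 .pp ⟨0, 0, 0, 0, 0, 0, 2915514, 0, 0, ⟨0, 0⟩, 0⟩ 0 0))) (.pos 44 .pp ⟨0, 10592836, 0, 0, 0, 0, 0, 0, 2319078, ⟨0, 0⟩, 23726566⟩ 0 0)) (.void 56 ⟨38048, 61952, 0, 0, 0, 0, 0, 0, 0, ⟨0, 0⟩, 0⟩ 0 0)))),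
    by decide +kernel⟩

def covers12 : cell.Covers table row12.1 :=
  ⟨(.cut .d 0 (.cut .v 16777216 (.cut .d (-8388608) (.void 1 ⟨0, 0, 0, 0, 0, 100000, 0, 0, 0, ⟨0, 0⟩, 0⟩ 0 0) (.cut .d (-4194304) (.void 1 ⟨0, 0, 0, 0, 0, 100000, 0, 0, 0, ⟨0, 0⟩, 0⟩ 0 0) (.cut .d (-2097152) (.void 1 ⟨0, 0, 0, 0, 0, 100000, 0, 0, 0, ⟨0, 0⟩, 0⟩ 0 0) (.cut .d (-1048576) (.void 1 ⟨0, 0, 0, 0, 0, 100000, 0, 0, 0, ⟨0, 0⟩, 0⟩ 0 0) (.cut .d (-524288) (.void 1 ⟨0, 0, 0, 0, 0, 100000, 0, 0, 0, ⟨0, 0⟩, 0⟩ 0 0) (.cut .v 8388608 (.cut .v 4194304 (.void 4 ⟨0, 0, 100000, 0, 0, 0, 0, 0, 0, ⟨0, 0⟩, 0⟩ 0 0) (.pos 5 .mm ⟨0, 0, 0, 0, 0, 7628957, 0, 0, 0, ⟨0, 0⟩, 0⟩ 0 0)) (.cut .d (-262144) (.pos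 3 .mm ⟨0, 0, 0, 0, 0, 52419407, 0, 0, 0, ⟨0, 0⟩, 0⟩ 0 0) (.cut .s 9830400 (.pos 3 .mm ⟨0, 0, 0, 0, 0, 38677247, 0, 0, 0, ⟨0, 0⟩, 0⟩ 0 0) (.pos 3 .mm ⟨0, 0, 0, 0, 0, 48645980, 0, 0, 0, ⟨0, 0⟩, 0⟩ 0 0))))))))) (.cut .v 67108864 (.cut .v 33554432 (.cut .v 25165824 (.cut .v 20971520 (.cut .d (-8388608) (.void 19 ⟨0, 0, 0, 0, 0, 100000, 0, 0, 0, ⟨0, 0⟩, 0⟩ 0 0) (.cut .d (-4194304) (.void 19 ⟨0, 0, 0, 0, 0, 100000, 0, 0, 0, ⟨0, 0⟩, 0⟩ 0 0) (.cut .v 18874368 (.cut .d (-2097152) (.void 21 ⟨0, 0, 0, 0, 0, 100000, 0, 0, 0, ⟨0, 0⟩, 0⟩ 0 0) (.cut .d (-1048576) (.void 21 ⟨0, 0, 0, 0, 0, 100000, 0, 0, 0, ⟨0, 0⟩, 0⟩ 0 0) (.cut .d (-524288) (.void 21 ⟨0, 0, 0, 0, 0, 100000, 0,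 0, 0, ⟨0, 0⟩, 0⟩ 0 0) (.cut .v 17825792 (.cut .d (-262144) (.cut .d (-393216) (.void 23 ⟨0, 0, 0, 0, 0, 100000, 0, 0, 0, ⟨0, 0⟩, 0⟩ 0 0) (.cut .l 1275068 (.void 23 ⟨0, 0, 0, 0, 0, 100000, 0, 0, 0, ⟨0, 0⟩, 0⟩ 0 0) (.cut .s 9830400 (.cut .v 17301504 (.cut .s 9699328 (.pos 25 .mp ⟨15918309, 0, 0, 0, 0, 21065001, 0, 0, 0, ⟨0, 0⟩, 0⟩ 0 0) (.cut .s 9764864 (.pos 25 .mp ⟨18104116, 0, 0, 0, 0, 21433115, 0, 0, 0, ⟨0, 0⟩, 0⟩ 0 0) (.pos 25 .mp ⟨19272368, 0, 0, 0, 0, 22400041, 0, 0, 0, ⟨0, 0⟩, 0⟩ 0 0))) (.cut .s 9699328 (.pos 26 .mp ⟨28328330, 0, 0, 0, 0, 4676131, 0, 0, 0, ⟨0, 0⟩, 0⟩ 0 0) (.pos 26 .mp ⟨29759501, 0, 0, 0, 0, 7578777, 0, 0, 0, ⟨0, 0⟩, 0⟩ 0 0))) (.cut .v 17301504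 (.cut .l 1728053 (.pos 25 .mp ⟨21531101, 0, 0, 0, 0, 30775387, 0, 0, 0, ⟨0, 0⟩, 0⟩ 0 0) (.cut .s 9961472 (.pos 25 .mp ⟨20492452, 0, 0, 0, 0, 24688171, 0, 0, 0, ⟨0, 0⟩, 0⟩ 0 0) (.pos 25 .mp ⟨23093202, 0, 0, 0, 0, 27116582, 0, 0, 0, ⟨0, 0⟩, 0⟩ 0 0))) (.cut .s 9961472 (.pos 26 .mp ⟨40544504, 0, 0, 0, 0, 0, 0, 0, 0, ⟨0, 0⟩, 0⟩ 0 0) (.pos 26 .mp ⟨45007788, 0, 0, 0, 0, 0, 0, 0, 0, ⟨0, 0⟩, 0⟩ 0 0)))))) (.cut .s 9830400 (.cut .v 17301504 (.cut .s 9699328 (.cut .l 1275068 (.cut .d (-131072) (.cut .s 9633792 (.pos 25 .mp ⟨15987593, 0, 0, 0, 0, 19201687, 0, 0, 0, ⟨0, 0⟩, 0⟩ 0 0) (.pos 25 .mp ⟨16988536, 0, 0, 0, 0, 20129045, 0, 0, 0, ⟨0, 0⟩, 0⟩ 0 0)) (.cut .v 17039360 (.cut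 .d (-65536) (.cut .s 9633792 (.pos 27 .mp ⟨16582813, 0, 0, 0, 0, 16048360, 0, 0, 0, ⟨0, 0⟩, 0⟩ 0 0) (.pos 27 .mp ⟨17842554, 0, 0, 0, 0, 16379793, 0, 0, 0, ⟨0, 0⟩, 0⟩ 0 0)) (.pos 27 .mp ⟨17004146, 0, 0, 0, 0, 12596923, 0, 0, 0, ⟨0, 0⟩, 0⟩ 0 0)) (.pos 28 .mp ⟨29343521, 0, 0, 0, 0, 0, 0, 0, 0, ⟨0, 0⟩, 0⟩ 0 0))) (.pos 25 .mp ⟨19907739, 0, 0, 0, 0, 9916817, 0, 0, 0, ⟨0, 0⟩, 0⟩ 0 0)) (.cut .l 1275068 (.cut .d (-131072) (.cut .s 9764864 (.pos 25 .mp ⟨18022255, 0, 0, 0, 0, 21131465, 0, 0, 0, ⟨0, 0⟩, 0⟩ 0 0) (.pos 25 .mp ⟨19095207, 0, 0, 0, 0, 22198145, 0, 0, 0, ⟨0, 0⟩, 0⟩ 0 0)) (.cut .v 17039360 (.cut .l 822083 (.cut .d (-65536) (.cut .s 9764864 (.pos 27 .mp ⟨17781791,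 0, 0, 0, 0, 19214511, 0, 0, 0, ⟨0, 0⟩, 0⟩ 0 0) (.pos 27 .mp ⟨18819980, 0, 0, 0, 0, 20203759, 0, 0, 0, ⟨0, 0⟩, 0⟩ 0 0)) (.cut .s 9764864 (.pos 27 .mp ⟨18337677, 0, 0, 0, 0, 14688726, 0, 0, 0, ⟨0, 0⟩, 0⟩ 0 0) (.pos 27 .mp ⟨19495315, 0, 0, 0, 0, 15326810, 0, 0, 0, ⟨0, 0⟩, 0⟩ 0 0))) (.pos 27 .mp ⟨19229661, 0, 0, 0, 0, 0, 0, 0, 0, ⟨0, 0⟩, 0⟩ 0 0)) (.pos 28 .mp ⟨32523976, 0, 0, 0, 0, 0, 0, 0, 0, ⟨0, 0⟩, 0⟩ 0 0))) (.pos 25 .mp ⟨22582212, 0, 0, 0, 0, 10655342, 0, 0, 0, ⟨0, 0⟩, 0⟩ 0 0))) (.cut .s 9699328 (.pos 26 .mp ⟨30532724, 0, 0, 0, 0, 0, 0, 0, 0, ⟨0, 0⟩, 0⟩ 0 0) (.pos 26 .mp ⟨33880481, 0, 0, 0, 0, 0, 0, 0, 0, ⟨0, 0⟩, 0⟩ 0 0))) (.cut .s 9961472 (.cut .v 17301504 (.cut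 .l 1275068 (.cut .d (-131072) (.cut .s 9895936 (.pos 25 .mp ⟨20213885, 0, 0, 0, 0, 23318110, 0, 0, 0, ⟨0, 0⟩, 0⟩ 0 0) (.pos 25 .mp ⟨21384824, 0, 0, 0, 0, 24480201, 0, 0, 0, ⟨0, 0⟩, 0⟩ 0 0)) (.cut .v 17039360 (.cut .l 822083 (.cut .d (-65536) (.cut .s 9895936 (.pos 27 .mp ⟨19902526, 0, 0, 0, 0, 21242548, 0, 0, 0, ⟨0, 0⟩, 0⟩ 0 0) (.pos 27 .mp ⟨21035707, 0, 0, 0, 0, 22320113, 0, 0, 0, ⟨0, 0⟩, 0⟩ 0 0)) (.cut .s 9895936 (.pos 27 .mp ⟨20697339, 0, 0, 0, 0, 16010475, 0, 0, 0, ⟨0, 0⟩, 0⟩ 0 0) (.pos 27 .mp ⟨21944897, 0, 0, 0, 0, 16735034, 0, 0, 0, ⟨0, 0⟩, 0⟩ 0 0))) (.pos 27 .mp ⟨20827732, 0, 0, 0, 0, 16119708, 0, 0, 0, ⟨0, 0⟩, 0⟩ 0 0)) (.pos 28 .mp ⟨36004185, 0, 0, 0,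 0, 0, 0, 0, 0, ⟨0, 0⟩, 0⟩ 0 0))) (.cut .v 17039360 (.pos 27 .mp ⟨0, 0, 0, 0, 0, 43480770, 0, 0, 0, ⟨0, 0⟩, 0⟩ 0 0) (.pos 28 .mp ⟨26051393, 0, 0, 0, 0, 12720846, 0, 0, 0, ⟨0, 0⟩, 0⟩ 0 0))) (.pos 26 .mp ⟨37520323, 0, 0, 0, 0, 0, 0, 0, 0, ⟨0, 0⟩, 0⟩ 0 0)) (.cut .v 17301504 (.cut .d (-131072) (.cut .l 1275068 (.cut .s 10027008 (.pos 25 .mp ⟨22614611, 0, 0, 0, 0, 25673059, 0, 0, 0, ⟨0, 0⟩, 0⟩ 0 0) (.pos 25 .mp ⟨23909894, 0, 0, 0, 0, 26885110, 0, 0, 0, ⟨0, 0⟩, 0⟩ 0 0)) (.cut .s 10027008 (.pos 25 .mp ⟨26249010, 0, 0, 0, 0, 16463372, 0, 0, 0, ⟨0, 0⟩, 0⟩ 0 0) (.pos 25 .mp ⟨28036465, 0, 0, 0, 0, 16658155, 0, 0, 0, ⟨0, 0⟩, 0⟩ 0 0))) (.cut .v 17039360 (.cut .l 1275068 (.cut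 .l 822083 (.cut .d (-65536) (.cut .s 10027008 (.pos 27 .mp ⟨22225850, 0, 0, 0, 0, 23425491, 0, 0, 0, ⟨0, 0⟩, 0⟩ 0 0) (.pos 27 .mp ⟨23479343, 0, 0, 0, 0, 24547514, 0, 0, 0, ⟨0, 0⟩, 0⟩ 0 0)) (.cut .s 10027008 (.pos 27 .mp ⟨23239184, 0, 0, 0, 0, 17495772, 0, 0, 0, ⟨0, 0⟩, 0⟩ 0 0) (.pos 27 .mp ⟨24581438, 0, 0, 0, 0, 18287942, 0, 0, 0, ⟨0, 0⟩, 0⟩ 0 0))) (.pos 27 .mp ⟨23614452, 0, 0, 0, 0, 17350458, 0, 0, 0, ⟨0, 0⟩, 0⟩ 0 0)) (.pos 27 .mp ⟨0, 0, 0, 0, 0, 0, 0, 0, 0, ⟨0, 0⟩, 0⟩ 0 0)) (.pos 28 .mp ⟨38805421, 0, 0, 0, 0, 0, 0, 0, 0, ⟨0, 0⟩, 0⟩ 0 0))) (.pos 26 .mp ⟨41466179, 0, 0, 0, 0, 0, 0, 0, 0, ⟨0, 0⟩, 0⟩ 0 0))))) (.cut .s 9830400 (.pos 24 .mp ⟨37576958, 0, 0, 0, 0,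 0, 0, 0, 0, ⟨0, 0⟩, 0⟩ 0 0) (.pos 24 .mp ⟨45983005, 0, 0, 0, 0, 0, 0, 0, 0, ⟨0, 0⟩, 0⟩ 0 0)))))) (.pos 22 .mp ⟨94541010, 0, 0, 0, 0, 0, 0, 0, 0, ⟨0, 0⟩, 0⟩ 0 0)))) (.void 20 ⟨100000, 0, 0, 0, 0, 0, 0, 0, 0, ⟨0, 0⟩, 0⟩ 0 0)) (.void 18 ⟨100000, 0, 0, 0, 0, 0, 0, 0, 0, ⟨0, 0⟩, 0⟩ 0 0)) (.void 45 ⟨100000, 0, 0, 0, 0, 0, 0, 0, 0, ⟨0, 0⟩, 0⟩ 0 0)) (.void 56 ⟨100000, 0, 0, 0, 0, 0, 0, 0, 0, ⟨0, 0⟩, 0⟩ 0 0))) (.cut .v 16777216 (.cut .v 8388608 (.cut .v 4194304 (.void 4 ⟨0, 0, 50000, 0, 50000, 0, 0, 0, 0, ⟨0, 0⟩, 0⟩ 0 0) (.pos 5 .pm ⟨0, 0, 0, 0, 0, 0, 0, 0, 5903827, ⟨0, 0⟩, 9975792⟩ 0 0)) (.cut .d 6320185 (.pos 3 .pm ⟨0, 0, 0, 0, 0, 0, 0, 0, 0, ⟨0, 0⟩, 0⟩ 0 0) (.cut .d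 9480278 (.pos 3 .pm ⟨0, 4692588, 0, 0, 0, 0, 0, 0, 8960940, ⟨0, 0⟩, 14107901⟩ 0 0) (.pos 3 .pm ⟨0, 39231669, 0, 0, 0, 0, 0, 0, 11675579, ⟨0, 0⟩, 14107901⟩ 0 0)))) (.cut .v 67108864 (.cut .d 6320185 (.cut .d 3160092 (.cut .v 33554432 (.cut .d 1580046 (.cut .v 25165824 (.cut .v 20971520 (.cut .v 18874368 (.cut .s 9830400 (.pos 21 .pp ⟨20557967, 0, 0, 0, 0, 0, 0, 0, 0, ⟨0, 0⟩, 0⟩ 0 0) (.pos 21 .pp ⟨26089667, 0, 0, 0, 0, 0, 0, 0, 0, ⟨0, 0⟩, 0⟩ 0 0)) (.pos 22 .pp ⟨34540962, 0, 0, 0, 0, 0, 0, 0, 0, ⟨0, 0⟩, 0⟩ 0 0)) (.pos 20 .pp ⟨51366942, 0, 0, 0, 0, 0, 0, 0, 0, ⟨0, 0⟩, 0⟩ 0 0)) (.pos 18 .pp ⟨107239458, 0, 0, 0, 0, 0, 0, 0, 0, ⟨0, 0⟩, 0⟩ 0 0)) (.pos 16 .pp ⟨0, 0, 0,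 0, 0, 0, 0, 0, 0, ⟨0, 0⟩, 0⟩ 0 0)) (.cut .d 1580046 (.void 45 ⟨100000, 0, 0, 0, 0, 0, 0, 0, 0, ⟨0, 0⟩, 0⟩ 0 0) (.cut .v 50331648 (.pos 46 .pp ⟨120925995, 0, 0, 0, 0, 0, 0, 0, 0, ⟨0, 0⟩, 0⟩ 0 0) (.pos 47 .pp ⟨427327741, 0, 0, 0, 0, 0, 0, 0, 0, ⟨0, 0⟩, 0⟩ 0 0)))) (.pos 44 .pp ⟨0, 0, 0, 0, 0, 0, 3405200, 0, 0, ⟨0, 0⟩, 0⟩ 0 0)) (.pos 44 .pp ⟨0, 19609130, 0, 0, 0, 0, 0, 0, 0, ⟨0, 0⟩, 0⟩ 0 0)) (.void 56 ⟨37646, 62354, 0, 0, 0, 0, 0, 0, 0, ⟨0, 0⟩, 0⟩ 0 0)))),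
    by decide +kernel⟩

def covers13 : cell.Covers table row13.1 :=
  ⟨(.cut .d 0 (.cut .v 16777216 (.cut .d (-8388608) (.void 1 ⟨0, 0, 0, 0, 0, 100000, 0, 0, 0, ⟨0, 0⟩, 0⟩ 0 0) (.cut .d (-4194304) (.void 1 ⟨0, 0, 0, 0, 0, 100000, 0, 0, 0, ⟨0, 0⟩, 0⟩ 0 0) (.cut .d (-2097152) (.void 1 ⟨0, 0, 0, 0, 0, 100000, 0, 0, 0, ⟨0, 0⟩, 0⟩ 0 0) (.cut .d (-1048576) (.void 1 ⟨0, 0, 0, 0, 0, 100000, 0, 0, 0, ⟨0, 0⟩, 0⟩ 0 0) (.cut .d (-524288) (.void 1 ⟨0, 0, 0, 0, 0, 100000, 0, 0, 0, ⟨0, 0⟩, 0⟩ 0 0) (.cut .v 8388608 (.cut .v 4194304 (.void 4 ⟨0, 0, 100000, 0, 0, 0, 0, 0, 0, ⟨0, 0⟩, 0⟩ 0 0) (.pos 5 .mm ⟨0, 0, 0, 0, 0, 13543583, 0, 0, 0, ⟨0, 0⟩, 0⟩ 0 0)) (.cut .s 10289152 (.pos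 3 .mm ⟨0, 0, 0, 0, 0, 60592559, 0, 0, 0, ⟨0, 0⟩, 0⟩ 0 0) (.pos 3 .mm ⟨0, 0, 0, 0, 0, 71348566, 0, 0, 0, ⟨0, 0⟩, 0⟩ 0 0)))))))) (.cut .v 67108864 (.cut .v 33554432 (.cut .v 25165824 (.cut .v 20971520 (.cut .d (-8388608) (.void 19 ⟨0, 0, 0, 0, 0, 100000, 0, 0, 0, ⟨0, 0⟩, 0⟩ 0 0) (.cut .d (-4194304) (.void 19 ⟨100000, 0, 0, 0, 0, 0, 0, 0, 0, ⟨0, 0⟩, 0⟩ 0 0) (.cut .v 18874368 (.cut .d (-2097152) (.void 21 ⟨100000, 0, 0, 0, 0, 0, 0, 0, 0, ⟨0, 0⟩, 0⟩ 0 0) (.cut .d (-1048576) (.void 21 ⟨0, 0, 0, 0, 0, 100000, 0, 0, 0, ⟨0, 0⟩, 0⟩ 0 0) (.cut .d (-524288) (.void 21 ⟨0, 0, 0, 0, 0, 100000, 0, 0, 0, ⟨0, 0⟩, 0⟩ 0 0) (.cut .v 17825792 (.cut .d (-262144) (.cut .d (-393216) (.void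 23 ⟨0, 0, 0, 0, 0, 100000, 0, 0, 0, ⟨0, 0⟩, 0⟩ 0 0) (.cut .l 1275068 (.void 23 ⟨0, 0, 0, 0, 0, 100000, 0, 0, 0, ⟨0, 0⟩, 0⟩ 0 0) (.cut .l 1728053 (.pos 23 .mp ⟨28664612, 0, 0, 0, 0, 95409387, 0, 0, 0, ⟨0, 0⟩, 0⟩ 0 0) (.cut .v 17301504 (.cut .d (-327680) (.pos 25 .mp ⟨27834572, 0, 0, 0, 0, 44052961, 0, 0, 0, ⟨0, 0⟩, 0⟩ 0 0) (.cut .v 17039360 (.pos 27 .mp ⟨0, 0, 0, 0, 0, 69154285, 0, 0, 0, ⟨0, 0⟩, 0⟩ 0 0) (.cut .v 17170432 (.pos 59 .mp ⟨0, 0, 0, 0, 0, 71497022, 0, 0, 0, ⟨0, 0⟩, 0⟩ 0 0) (.cut .s 10289152 (.cut .s 10190848 (.pos 60 .mp ⟨32947782, 0, 0, 0, 0, 17196303, 0, 0, 0, ⟨0, 0⟩, 0⟩ 0 0) (.pos 60 .mp ⟨29387207, 0, 0, 0, 0, 28544030, 0, 0, 0, ⟨0, 0⟩, 0⟩ 0 0)) (.cut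 .s 10387456 (.pos 60 .mp ⟨31943271, 0, 0, 0, 0, 30608749, 0, 0, 0, ⟨0, 0⟩, 0⟩ 0 0) (.pos 60 .mp ⟨34661116, 0, 0, 0, 0, 32789295, 0, 0, 0, ⟨0, 0⟩, 0⟩ 0 0)))))) (.cut .s 10289152 (.pos 26 .mp ⟨51727496, 0, 0, 0, 0, 0, 0, 0, 0, ⟨0, 0⟩, 0⟩ 0 0) (.pos 26 .mp ⟨60460978, 0, 0, 0, 0, 0, 0, 0, 0, ⟨0, 0⟩, 0⟩ 0 0)))))) (.cut .s 10289152 (.cut .v 17301504 (.cut .s 10190848 (.cut .d (-131072) (.cut .l 1275068 (.cut .s 10141696 (.pos 25 .mp ⟨25399922, 0, 0, 0, 0, 27246628, 0, 0, 0, ⟨0, 0⟩, 0⟩ 0 0) (.pos 25 .mp ⟨26410268, 0, 0, 0, 0, 28282619, 0, 0, 0, ⟨0, 0⟩, 0⟩ 0 0)) (.cut .s 10141696 (.pos 25 .mp ⟨29132727, 0, 0, 0, 0, 18049001, 0, 0, 0, ⟨0, 0⟩, 0⟩ 0 0) (.pos 25 .mp ⟨30703422,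 0, 0, 0, 0, 17972985, 0, 0, 0, ⟨0, 0⟩, 0⟩ 0 0))) (.cut .v 17039360 (.cut .l 1275068 (.cut .l 822083 (.cut .d (-65536) (.cut .s 10141696 (.pos 27 .mp ⟨25197483, 0, 0, 0, 0, 24522470, 0, 0, 0, ⟨0, 0⟩, 0⟩ 0 0) (.pos 27 .mp ⟨26179178, 0, 0, 0, 0, 25477331, 0, 0, 0, ⟨0, 0⟩, 0⟩ 0 0)) (.cut .s 10141696 (.pos 27 .mp ⟨25638886, 0, 0, 0, 0, 19557222, 0, 0, 0, ⟨0, 0⟩, 0⟩ 0 0) (.pos 27 .mp ⟨26694002, 0, 0, 0, 0, 20273090, 0, 0, 0, ⟨0, 0⟩, 0⟩ 0 0))) (.pos 27 .mp ⟨26562219, 0, 0, 0, 0, 18724684, 0, 0, 0, ⟨0, 0⟩, 0⟩ 0 0)) (.pos 27 .mp ⟨0, 0, 0, 0, 0, 0, 0, 0, 0, ⟨0, 0⟩, 0⟩ 0 0)) (.pos 28 .mp ⟨42535883, 0, 0, 0, 0, 0, 0, 0, 0, ⟨0, 0⟩, 0⟩ 0 0))) (.cut .d (-131072) (.cut .l 1275068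 (.cut .s 10240000 (.pos 25 .mp ⟨27448574, 0, 0, 0, 0, 29370611, 0, 0, 0, ⟨0, 0⟩, 0⟩ 0 0) (.pos 25 .mp ⟨27863572, 0, 0, 0, 0, 32093582, 0, 0, 0, ⟨0, 0⟩, 0⟩ 0 0)) (.cut .v 17039360 (.pos 27 .mp ⟨0, 0, 0, 0, 0, 60913790, 0, 0, 0, ⟨0, 0⟩, 0⟩ 0 0) (.pos 28 .mp ⟨34496157, 0, 0, 0, 0, 17427596, 0, 0, 0, ⟨0, 0⟩, 0⟩ 0 0))) (.cut .v 17039360 (.cut .l 1275068 (.cut .l 822083 (.cut .d (-65536) (.cut .s 10240000 (.pos 27 .mp ⟨27188105, 0, 0, 0, 0, 26480629, 0, 0, 0, ⟨0, 0⟩, 0⟩ 0 0) (.pos 27 .mp ⟨28227857, 0, 0, 0, 0, 27526178, 0, 0, 0, ⟨0, 0⟩, 0⟩ 0 0)) (.cut .s 10240000 (.pos 27 .mp ⟨27780438, 0, 0, 0, 0, 21027723, 0, 0, 0, ⟨0, 0⟩, 0⟩ 0 0) (.cut .s 10264576 (.pos 27 .mp ⟨28335595,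 0, 0, 0, 0, 22417406, 0, 0, 0, ⟨0, 0⟩, 0⟩ 0 0) (.pos 27 .mp ⟨28898818, 0, 0, 0, 0, 22829780, 0, 0, 0, ⟨0, 0⟩, 0⟩ 0 0)))) (.pos 27 .mp ⟨29078776, 0, 0, 0, 0, 19698379, 0, 0, 0, ⟨0, 0⟩, 0⟩ 0 0)) (.pos 27 .mp ⟨0, 0, 0, 0, 0, 0, 0, 0, 0, ⟨0, 0⟩, 0⟩ 0 0)) (.pos 28 .mp ⟨45712137, 0, 0, 0, 0, 0, 0, 0, 0, ⟨0, 0⟩, 0⟩ 0 0)))) (.pos 26 .mp ⟨46937127, 0, 0, 0, 0, 0, 0, 0, 0, ⟨0, 0⟩, 0⟩ 0 0)) (.cut .v 17301504 (.cut .d (-131072) (.cut .l 1275068 (.cut .d (-196608) (.void 25 ⟨0, 0, 0, 0, 0, 100000, 0, 0, 0, ⟨0, 0⟩, 0⟩ 0 0) (.cut .v 17039360 (.cut .s 10387456 (.pos 27 .mp ⟨28215786, 0, 0, 0, 0, 34354579, 0, 0, 0, ⟨0, 0⟩, 0⟩ 0 0) (.pos 27 .mp ⟨30537107, 0, 0, 0, 0, 36801600,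 0, 0, 0, ⟨0, 0⟩, 0⟩ 0 0)) (.pos 28 .mp ⟨54547466, 0, 0, 0, 0, 0, 0, 0, 0, ⟨0, 0⟩, 0⟩ 0 0))) (.cut .v 17039360 (.pos 27 .mp ⟨0, 0, 0, 0, 0, 69820136, 0, 0, 0, ⟨0, 0⟩, 0⟩ 0 0) (.cut .s 10387456 (.pos 28 .mp ⟨37396137, 0, 0, 0, 0, 18499050, 0, 0, 0, ⟨0, 0⟩, 0⟩ 0 0) (.cut .s 10436608 (.pos 28 .mp ⟨38913562, 0, 0, 0, 0, 20999780, 0, 0, 0, ⟨0, 0⟩, 0⟩ 0 0) (.pos 28 .mp ⟨40477186, 0, 0, 0, 0, 21630272, 0, 0, 0, ⟨0, 0⟩, 0⟩ 0 0))))) (.cut .l 1275068 (.cut .v 17039360 (.cut .l 822083 (.cut .d (-65536) (.cut .d (-98304) (.pos 27 .mp ⟨28553436, 0, 0, 0, 0, 39820864, 0, 0, 0, ⟨0, 0⟩, 0⟩ 0 0) (.cut .s 10387456 (.cut .s 10338304 (.pos 27 .mp ⟨29481106, 0, 0, 0, 0, 28171132, 0,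 0, 0, ⟨0, 0⟩, 0⟩ 0 0) (.pos 27 .mp ⟨30601774, 0, 0, 0, 0, 29260236, 0, 0, 0, ⟨0, 0⟩, 0⟩ 0 0)) (.cut .s 10436608 (.pos 27 .mp ⟨31764548, 0, 0, 0, 0, 30371497, 0, 0, 0, ⟨0, 0⟩, 0⟩ 0 0) (.pos 27 .mp ⟨32973140, 0, 0, 0, 0, 31498332, 0, 0, 0, ⟨0, 0⟩, 0⟩ 0 0)))) (.cut .d (-32768) (.cut .v 16908288 (.cut .d (-49152) (.cut .s 10387456 (.pos 48 .mp ⟨26643952, 0, 0, 0, 0, 32717465, 0, 0, 0, ⟨0, 0⟩, 0⟩ 0 0) (.pos 48 .mp ⟨28712185, 0, 0, 0, 0, 35272829, 0, 0, 0, ⟨0, 0⟩, 0⟩ 0 0)) (.pos 48 .mp ⟨29588592, 0, 0, 0, 0, 23117960, 0, 0, 0, ⟨0, 0⟩, 0⟩ 0 0)) (.pos 49 .mp ⟨49417336, 0, 0, 0, 0, 0, 0, 0, 0, ⟨0, 0⟩, 0⟩ 0 0)) (.pos 27 .mp ⟨29090668, 0, 0, 0, 0, 0, 0, 0, 0, ⟨0, 0⟩, 0⟩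 0 0))) (.pos 27 .mp ⟨34312278, 0, 0, 0, 0, 17654421, 0, 0, 0, ⟨0, 0⟩, 0⟩ 0 0)) (.pos 28 .mp ⟨51703669, 0, 0, 0, 0, 0, 0, 0, 0, ⟨0, 0⟩, 0⟩ 0 0)) (.pos 25 .mp ⟨0, 0, 0, 0, 0, 0, 0, 0, 0, ⟨0, 0⟩, 0⟩ 0 0))) (.pos 26 .mp ⟨54232013, 0, 0, 0, 0, 0, 0, 0, 0, ⟨0, 0⟩, 0⟩ 0 0)))) (.cut .s 10289152 (.pos 24 .mp ⟨54528287, 0, 0, 0, 0, 0, 0, 0, 0, ⟨0, 0⟩, 0⟩ 0 0) (.pos 24 .mp ⟨62911725, 0, 0, 0, 0, 0, 0, 0, 0, ⟨0, 0⟩, 0⟩ 0 0)))))) (.pos 22 .mp ⟨125915858, 0, 0, 0, 0, 0, 0, 0, 0, ⟨0, 0⟩, 0⟩ 0 0)))) (.void 20 ⟨100000, 0, 0, 0, 0, 0, 0, 0, 0, ⟨0, 0⟩, 0⟩ 0 0)) (.void 18 ⟨100000, 0, 0, 0, 0, 0, 0, 0, 0, ⟨0, 0⟩, 0⟩ 0 0)) (.void 45 ⟨100000, 0, 0, 0, 0, 0, 0, 0, 0, ⟨0, 0⟩, 0⟩ 0 0))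 (.void 56 ⟨100000, 0, 0, 0, 0, 0, 0, 0, 0, ⟨0, 0⟩, 0⟩ 0 0))) (.cut .v 16777216 (.cut .v 8388608 (.cut .v 4194304 (.void 4 ⟨0, 0, 32105, 0, 0, 0, 0, 0, 67895, ⟨0, 0⟩, 3966728⟩ 0 0) (.cut .d 5556092 (.pos 5 .pm ⟨0, 0, 0, 0, 0, 0, 0, 0, 0, ⟨0, 0⟩, 0⟩ 0 0) (.pos 5 .pm ⟨0, 0, 0, 0, 0, 0, 0, 0, 20000604, ⟨0, 0⟩, 9975792⟩ 0 0))) (.cut .d 5556092 (.pos 3 .pm ⟨0, 0, 0, 0, 0, 0, 0, 0, 0, ⟨0, 0⟩, 0⟩ 0 0) (.cut .d 8334138 (.cut .v 12582912 (.pos 6 .pm ⟨0, 0, 0, 0, 0, 0, 0, 4663547, 3427173, ⟨6440410, 47979⟩, 13128881⟩ 218 287) (.pos 7 .pm ⟨0, 0, 0, 0, 0, 0, 0, 13723563, 0, ⟨6440410, 47979⟩, 0⟩ 218 287)) (.cut .v 12582912 (.pos 6 .pm ⟨0, 32942660, 0, 0, 0, 0, 0, 0, 6868038,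 ⟨0, 0⟩, 13128881⟩ 0 0) (.pos 7 .pm ⟨0, 35324765, 0, 0, 0, 0, 0, 0, 5103137, ⟨0, 0⟩, 15612959⟩ 0 0))))) (.cut .v 67108864 (.cut .d 5556092 (.cut .d 2778046 (.cut .v 33554432 (.cut .d 1389023 (.cut .v 25165824 (.cut .v 20971520 (.cut .v 18874368 (.pos 21 .pp ⟨35198540, 0, 0, 0, 0, 0, 0, 0, 0, ⟨0, 0⟩, 0⟩ 0 0) (.pos 22 .pp ⟨49711233, 0, 0, 0, 0, 0, 0, 0, 0, ⟨0, 0⟩, 0⟩ 0 0)) (.pos 20 .pp ⟨71416446, 0, 0, 0, 0, 0, 0, 0, 0, ⟨0, 0⟩, 0⟩ 0 0)) (.pos 18 .pp ⟨142505275, 0, 0, 0, 0, 0, 0, 0, 0, ⟨0, 0⟩, 0⟩ 0 0)) (.pos 16 .pp ⟨631482, 0, 0, 0, 0, 0, 0, 0, 0, ⟨0, 0⟩, 0⟩ 0 0)) (.cut .v 50331648 (.cut .d 1389023 (.void 46 ⟨100000, 0, 0, 0, 0, 0, 0, 0, 0, ⟨0, 0⟩, 0⟩ 0 0) (.pos 46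 .pp ⟨178330388, 0, 0, 0, 0, 0, 0, 0, 0, ⟨0, 0⟩, 0⟩ 0 0)) (.pos 47 .pp ⟨718662646, 0, 0, 0, 0, 0, 0, 0, 0, ⟨0, 0⟩, 0⟩ 0 0))) (.pos 44 .pp ⟨0, 0, 0, 0, 0, 0, 0, 14538550, 0, ⟨6182084, 361208⟩, 0⟩ 179 234)) (.pos 44 .pp ⟨0, 24020053, 0, 0, 0, 0, 0, 0, 0, ⟨0, 0⟩, 0⟩ 0 0)) (.void 56 ⟨37538, 62462, 0, 0, 0, 0, 0, 0, 0, ⟨0, 0⟩, 0⟩ 0 0)))),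
    by decide +kernel⟩

def covers14 : cell.Covers table row14.1 :=
  ⟨(.cut .d 0 (.cut .v 16777216 (.cut .d (-8388608) (.void 1 ⟨0, 0, 0, 0, 0, 100000, 0, 0, 0, ⟨0, 0⟩, 0⟩ 0 0) (.cut .d (-4194304) (.void 1 ⟨0, 0, 0, 0, 0, 100000, 0, 0, 0, ⟨0, 0⟩, 0⟩ 0 0) (.cut .d (-2097152) (.void 1 ⟨0, 0, 0, 0, 0, 100000, 0, 0, 0, ⟨0, 0⟩, 0⟩ 0 0) (.cut .d (-1048576) (.void 1 ⟨0, 0, 0, 0, 0, 100000, 0, 0, 0, ⟨0, 0⟩, 0⟩ 0 0) (.cut .d (-524288) (.void 1 ⟨0, 0, 0, 0, 0, 100000, 0, 0, 0, ⟨0, 0⟩, 0⟩ 0 0) (.cut .v 8388608 (.cut .v 4194304 (.void 4 ⟨0, 0, 100000, 0, 0, 0, 0, 0, 0, ⟨0, 0⟩, 0⟩ 0 0) (.pos 5 .mm ⟨0, 0, 0, 0, 0, 20262829, 0, 0, 0, ⟨0, 0⟩, 0⟩ 0 0)) (.cut .s 10682368 (.pos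 3 .mm ⟨0, 0, 0, 0, 0, 82455439, 0, 0, 0, ⟨0, 0⟩, 0⟩ 0 0) (.pos 3 .mm ⟨0, 0, 0, 0, 0, 96833348, 0, 0, 0, ⟨0, 0⟩, 0⟩ 0 0)))))))) (.cut .v 67108864 (.cut .v 33554432 (.cut .v 25165824 (.cut .d (-8388608) (.void 17 ⟨0, 0, 0, 0, 0, 100000, 0, 0, 0, ⟨0, 0⟩, 0⟩ 0 0) (.cut .v 20971520 (.cut .d (-4194304) (.void 19 ⟨100000, 0, 0, 0, 0, 0, 0, 0, 0, ⟨0, 0⟩, 0⟩ 0 0) (.cut .v 18874368 (.cut .d (-2097152) (.void 21 ⟨100000, 0, 0, 0, 0, 0, 0, 0, 0, ⟨0, 0⟩, 0⟩ 0 0) (.cut .d (-1048576) (.void 21 ⟨100000, 0, 0, 0, 0, 0, 0, 0, 0, ⟨0, 0⟩, 0⟩ 0 0) (.cut .d (-524288) (.void 21 ⟨0, 0, 0, 0, 0, 100000, 0, 0, 0, ⟨0, 0⟩, 0⟩ 0 0) (.cut .d (-262144) (.cut .v 17825792 (.cut .s 10682368 (.cut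 .v 17301504 (.cut .s 10584064 (.pos 25 .mp ⟨35990308, 0, 0, 0, 0, 38979896, 0, 0, 0, ⟨0, 0⟩, 0⟩ 0 0) (.pos 25 .mp ⟨38829260, 0, 0, 0, 0, 42207990, 0, 0, 0, ⟨0, 0⟩, 0⟩ 0 0)) (.pos 26 .mp ⟨70906105, 0, 0, 0, 0, 0, 0, 0, 0, ⟨0, 0⟩, 0⟩ 0 0)) (.pos 23 .mp ⟨44324423, 0, 0, 0, 0, 56970063, 0, 0, 0, ⟨0, 0⟩, 0⟩ 0 0)) (.void 24 ⟨100000, 0, 0, 0, 0, 0, 0, 0, 0, ⟨0, 0⟩, 0⟩ 0 0)) (.cut .v 17825792 (.cut .s 10682368 (.cut .v 17301504 (.cut .d (-131072) (.cut .s 10584064 (.cut .l 1275068 (.pos 25 .mp ⟨33950281, 0, 0, 0, 0, 39106624, 0, 0, 0, ⟨0, 0⟩, 0⟩ 0 0) (.cut .v 17039360 (.pos 27 .mp ⟨0, 0, 0, 0, 0, 75505458, 0, 0, 0, ⟨0, 0⟩, 0⟩ 0 0) (.pos 28 .mp ⟨42785328, 0, 0, 0, 0, 21137689,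 0, 0, 0, ⟨0, 0⟩, 0⟩ 0 0))) (.cut .l 1275068 (.pos 25 .mp ⟨36546490, 0, 0, 0, 0, 42181848, 0, 0, 0, ⟨0, 0⟩, 0⟩ 0 0) (.pos 25 .mp ⟨32956402, 0, 0, 0, 0, 43910354, 0, 0, 0, ⟨0, 0⟩, 0⟩ 0 0))) (.cut .s 10584064 (.cut .d (-65536) (.cut .v 17039360 (.pos 27 .mp ⟨31619243, 0, 0, 0, 0, 36320853, 0, 0, 0, ⟨0, 0⟩, 0⟩ 0 0) (.pos 28 .mp ⟨55702457, 0, 0, 0, 0, 0, 0, 0, 0, ⟨0, 0⟩, 0⟩ 0 0)) (.pos 25 .mp ⟨34647985, 0, 0, 0, 0, 26365007, 0, 0, 0, ⟨0, 0⟩, 0⟩ 0 0)) (.pos 25 .mp ⟨43241138, 0, 0, 0, 0, 22058280, 0, 0, 0, ⟨0, 0⟩, 0⟩ 0 0))) (.pos 26 .mp ⟨61548247, 0, 0, 0, 0, 0, 0, 0, 0, ⟨0, 0⟩, 0⟩ 0 0)) (.cut .d (-131072) (.cut .l 1275068 (.pos 23 .mp ⟨41629856, 0, 0, 0, 0, 55752382,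 0, 0, 0, ⟨0, 0⟩, 0⟩ 0 0) (.cut .v 17301504 (.pos 25 .mp ⟨35452017, 0, 0, 0, 0, 49587931, 0, 0, 0, ⟨0, 0⟩, 0⟩ 0 0) (.pos 26 .mp ⟨69745811, 0, 0, 0, 0, 0, 0, 0, 0, ⟨0, 0⟩, 0⟩ 0 0))) (.pos 23 .mp ⟨52661976, 0, 0, 0, 0, 16089666, 0, 0, 0, ⟨0, 0⟩, 0⟩ 0 0))) (.pos 24 .mp ⟨71509260, 0, 0, 0, 0, 0, 0, 0, 0, ⟨0, 0⟩, 0⟩ 0 0)))))) (.pos 22 .mp ⟨166204503, 0, 0, 0, 0, 0, 0, 0, 0, ⟨0, 0⟩, 0⟩ 0 0))) (.void 20 ⟨100000, 0, 0, 0, 0, 0, 0, 0, 0, ⟨0, 0⟩, 0⟩ 0 0))) (.void 18 ⟨100000, 0, 0, 0, 0, 0, 0, 0, 0, ⟨0, 0⟩, 0⟩ 0 0)) (.void 45 ⟨100000, 0, 0, 0, 0, 0, 0, 0, 0, ⟨0, 0⟩, 0⟩ 0 0)) (.void 56 ⟨100000, 0, 0, 0, 0, 0, 0, 0, 0, ⟨0, 0⟩, 0⟩ 0 0))) (.cut .v 16777216 (.cut .v 8388608 (.cut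 .v 4194304 (.cut .v 2097152 (.void 67 ⟨0, 0, 50000, 0, 50000, 0, 0, 0, 0, ⟨0, 0⟩, 0⟩ 0 0) (.void 68 ⟨0, 0, 45679, 0, 0, 0, 0, 0, 54321, ⟨0, 0⟩, 7053950⟩ 0 0)) (.cut .d 5033166 (.pos 5 .pm ⟨0, 0, 0, 0, 0, 0, 0, 0, 0, ⟨0, 0⟩, 0⟩ 0 0) (.cut .d 7549749 (.pos 5 .pm ⟨0, 0, 0, 0, 0, 0, 0, 0, 0, ⟨0, 0⟩, 0⟩ 0 0) (.pos 5 .pm ⟨0, 33730909, 0, 0, 0, 0, 0, 0, 8125506, ⟨0, 0⟩, 9975792⟩ 0 0)))) (.cut .d 5033166 (.pos 3 .pm ⟨0, 0, 0, 0, 0, 0, 0, 0, 0, ⟨0, 0⟩, 0⟩ 0 0) (.cut .d 7549749 (.pos 3 .pm ⟨0, 0, 0, 0, 0, 0, 0, 0, 0, ⟨0, 0⟩, 0⟩ 0 0) (.cut .v 12582912 (.cut .d 8808040 (.cut .v 10485760 (.cut .s 10682368 (.pos 8 .pm ⟨0, 29253200, 0, 0, 0, 0, 0, 0, 5336669, ⟨0, 0⟩, 12543895⟩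 0 0) (.cut .l 1275068 (.cut .d 8178894 (.cut .v 9437184 (.cut .d 7864321 (.pos 69 .pm ⟨0, 0, 0, 0, 0, 0, 0, 0, 0, ⟨0, 0⟩, 0⟩ 0 0) (.pos 69 .pm ⟨0, 35651621, 0, 0, 0, 0, 0, 0, 2647700, ⟨0, 0⟩, 12217800⟩ 0 0)) (.pos 70 .pm ⟨0, 31171979, 0, 0, 0, 0, 0, 0, 0, ⟨0, 0⟩, 0⟩ 0 0)) (.cut .v 9437184 (.pos 69 .pm ⟨0, 42498073, 0, 0, 0, 0, 0, 0, 3035668, ⟨0, 0⟩, 12217800⟩ 0 0) (.pos 70 .pm ⟨0, 43382480, 0, 0, 0, 0, 0, 0, 3171445, ⟨0, 0⟩, 12918751⟩ 0 0))) (.pos 8 .pm ⟨0, 35941016, 0, 0, 0, 0, 0, 0, 622155, ⟨0, 0⟩, 12543895⟩ 0 0))) (.cut .s 10682368 (.pos 9 .pm ⟨0, 30529326, 0, 0, 0, 0, 0, 0, 0, ⟨0, 0⟩, 0⟩ 0 0) (.pos 9 .pm ⟨0, 39753431, 0, 0, 0, 0, 0, 0, 0, ⟨0, 0⟩, 0⟩ 0 0)))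 (.void 6 ⟨0, 93868, 0, 0, 0, 0, 0, 0, 6132, ⟨0, 0⟩, 13128881⟩ 0 0)) (.pos 7 .pm ⟨0, 47635445, 0, 0, 0, 0, 0, 0, 0, ⟨0, 0⟩, 0⟩ 0 0))))) (.cut .v 67108864 (.cut .d 5033166 (.cut .d 2516583 (.cut .v 33554432 (.cut .d 1258291 (.cut .v 25165824 (.cut .v 20971520 (.cut .v 18874368 (.pos 21 .pp ⟨43516396, 0, 0, 0, 0, 0, 0, 0, 0, ⟨0, 0⟩, 0⟩ 0 0) (.pos 22 .pp ⟨64942544, 0, 0, 0, 0, 0, 0, 0, 0, ⟨0, 0⟩, 0⟩ 0 0)) (.pos 20 .pp ⟨92676566, 0, 0, 0, 0, 0, 0, 0, 0, ⟨0, 0⟩, 0⟩ 0 0)) (.pos 18 .pp ⟨181939794, 0, 0, 0, 0, 0, 0, 0, 0, ⟨0, 0⟩, 0⟩ 0 0)) (.pos 16 .pp ⟨11335602, 0, 0, 0, 0, 0, 0, 0, 0, ⟨0, 0⟩, 0⟩ 0 0)) (.cut .v 50331648 (.cut .d 1258291 (.void 46 ⟨100000, 0, 0, 0, 0, 0,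 0, 0, 0, ⟨0, 0⟩, 0⟩ 0 0) (.pos 46 .pp ⟨234978299, 0, 0, 0, 0, 0, 0, 0, 0, ⟨0, 0⟩, 0⟩ 0 0)) (.pos 47 .pp ⟨879129235, 0, 0, 0, 0, 0, 0, 0, 0, ⟨0, 0⟩, 0⟩ 0 0))) (.pos 44 .pp ⟨0, 0, 0, 0, 0, 0, 0, 0, 0, ⟨0, 0⟩, 0⟩ 0 0)) (.pos 44 .pp ⟨0, 29504908, 0, 0, 0, 0, 0, 0, 0, ⟨0, 0⟩, 0⟩ 0 0)) (.void 56 ⟨37231, 62769, 0, 0, 0, 0, 0, 0, 0, ⟨0, 0⟩, 0⟩ 0 0)))),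
    by decide +kernel⟩

def covers15 : cell.Covers table row15.1 :=
  ⟨(.cut .d 0 (.cut .v 16777216 (.cut .d (-8388608) (.void 1 ⟨0, 0, 0, 0, 0, 100000, 0, 0, 0, ⟨0, 0⟩, 0⟩ 0 0) (.cut .d (-4194304) (.void 1 ⟨0, 0, 0, 0, 0, 100000, 0, 0, 0, ⟨0, 0⟩, 0⟩ 0 0) (.cut .d (-2097152) (.void 1 ⟨0, 0, 0, 0, 0, 100000, 0, 0, 0, ⟨0, 0⟩, 0⟩ 0 0) (.cut .d (-1048576) (.void 1 ⟨0, 0, 0, 0, 0, 100000, 0, 0, 0, ⟨0, 0⟩, 0⟩ 0 0) (.cut .d (-524288) (.void 1 ⟨0, 0, 0, 0, 0, 100000, 0, 0, 0, ⟨0, 0⟩, 0⟩ 0 0) (.cut .v 8388608 (.cut .v 4194304 (.void 4 ⟨0, 0, 100000, 0, 0, 0, 0, 0, 0, ⟨0, 0⟩, 0⟩ 0 0) (.pos 5 .mm ⟨0, 0, 0, 0, 0, 34677158, 0, 0, 0, ⟨0, 0⟩, 0⟩ 0 0)) (.cut .s 11108352 (.pos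 3 .mm ⟨0, 0, 0, 0, 0, 117252129, 0, 0, 0, ⟨0, 0⟩, 0⟩ 0 0) (.pos 3 .mm ⟨0, 0, 0, 0, 0, 139790873, 0, 0, 0, ⟨0, 0⟩, 0⟩ 0 0)))))))) (.cut .v 67108864 (.cut .v 33554432 (.cut .v 25165824 (.cut .d (-8388608) (.void 17 ⟨0, 0, 0, 0, 0, 100000, 0, 0, 0, ⟨0, 0⟩, 0⟩ 0 0) (.cut .v 20971520 (.cut .d (-4194304) (.void 19 ⟨100000, 0, 0, 0, 0, 0, 0, 0, 0, ⟨0, 0⟩, 0⟩ 0 0) (.cut .v 18874368 (.cut .d (-2097152) (.void 21 ⟨100000, 0, 0, 0, 0, 0, 0, 0, 0, ⟨0, 0⟩, 0⟩ 0 0) (.cut .d (-1048576) (.void 21 ⟨100000, 0, 0, 0, 0, 0, 0, 0, 0, ⟨0, 0⟩, 0⟩ 0 0) (.cut .d (-524288) (.void 21 ⟨0, 0, 0, 0, 0, 100000, 0, 0, 0, ⟨0, 0⟩, 0⟩ 0 0) (.cut .d (-262144) (.cut .v 17825792 (.pos 23 .mp ⟨51377679,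 0, 0, 0, 0, 140620041, 0, 0, 0, ⟨0, 0⟩, 0⟩ 0 0) (.void 24 ⟨100000, 0, 0, 0, 0, 0, 0, 0, 0, ⟨0, 0⟩, 0⟩ 0 0)) (.cut .v 17825792 (.cut .s 11108352 (.cut .v 17301504 (.cut .d (-131072) (.cut .s 10993664 (.pos 25 .mp ⟨40892102, 0, 0, 0, 0, 59624146, 0, 0, 0, ⟨0, 0⟩, 0⟩ 0 0) (.pos 25 .mp ⟨44522925, 0, 0, 0, 0, 64554000, 0, 0, 0, ⟨0, 0⟩, 0⟩ 0 0)) (.pos 25 .mp ⟨58827457, 0, 0, 0, 0, 24358618, 0, 0, 0, ⟨0, 0⟩, 0⟩ 0 0)) (.pos 26 .mp ⟨83806397, 0, 0, 0, 0, 0, 0, 0, 0, ⟨0, 0⟩, 0⟩ 0 0)) (.cut .v 17301504 (.cut .d (-131072) (.cut .s 11223040 (.pos 25 .mp ⟨48389020, 0, 0, 0, 0, 70025356, 0, 0, 0, ⟨0, 0⟩, 0⟩ 0 0) (.pos 25 .mp ⟨52503853, 0, 0, 0, 0, 76037901, 0, 0, 0, ⟨0, 0⟩,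 0⟩ 0 0)) (.cut .s 11223040 (.pos 25 .mp ⟨63787863, 0, 0, 0, 0, 33944957, 0, 0, 0, ⟨0, 0⟩, 0⟩ 0 0) (.pos 25 .mp ⟨69081585, 0, 0, 0, 0, 36822787, 0, 0, 0, ⟨0, 0⟩, 0⟩ 0 0))) (.pos 26 .mp ⟨98083741, 0, 0, 0, 0, 0, 0, 0, 0, ⟨0, 0⟩, 0⟩ 0 0))) (.pos 24 .mp ⟨100083095, 0, 0, 0, 0, 0, 0, 0, 0, ⟨0, 0⟩, 0⟩ 0 0)))))) (.pos 22 .mp ⟨229476780, 0, 0, 0, 0, 0, 0, 0, 0, ⟨0, 0⟩, 0⟩ 0 0))) (.void 20 ⟨100000, 0, 0, 0, 0, 0, 0, 0, 0, ⟨0, 0⟩, 0⟩ 0 0))) (.void 18 ⟨100000, 0, 0, 0, 0, 0, 0, 0, 0, ⟨0, 0⟩, 0⟩ 0 0)) (.void 45 ⟨100000, 0, 0, 0, 0, 0, 0, 0, 0, ⟨0, 0⟩, 0⟩ 0 0)) (.void 56 ⟨100000, 0, 0, 0, 0, 0, 0, 0, 0, ⟨0, 0⟩, 0⟩ 0 0))) (.cut .v 16777216 (.cut .v 8388608 (.cut .v 4194304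 (.cut .v 2097152 (.void 67 ⟨0, 0, 50000, 0, 50000, 0, 0, 0, 0, ⟨0, 0⟩, 0⟩ 0 0) (.void 68 ⟨0, 0, 45679, 0, 0, 0, 0, 0, 54321, ⟨0, 0⟩, 7053950⟩ 0 0)) (.cut .d 4548041 (.pos 5 .pm ⟨0, 0, 0, 0, 0, 0, 0, 0, 0, ⟨0, 0⟩, 0⟩ 0 0) (.cut .d 6822062 (.pos 5 .pm ⟨0, 0, 0, 0, 0, 0, 0, 0, 0, ⟨0, 0⟩, 0⟩ 0 0) (.cut .v 6291456 (.pos 65 .pm ⟨0, 35582846, 0, 0, 0, 0, 0, 0, 8379984, ⟨0, 0⟩, 9283521⟩ 0 0) (.cut .d 7959072 (.cut .d 7390567 (.cut .v 7340032 (.pos 75 .pm ⟨0, 29999215, 0, 0, 0, 0, 0, 0, 0, ⟨0, 0⟩, 0⟩ 0 0) (.pos 76 .pm ⟨0, 30742737, 0, 0, 0, 0, 0, 0, 0, ⟨0, 0⟩, 0⟩ 0 0)) (.cut .s 11108352 (.cut .s 10993664 (.pos 66 .pm ⟨0, 35163220, 0, 0, 0, 0, 0, 0, 3325664, ⟨0, 0⟩, 11040029⟩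 0 0) (.cut .d 7674819 (.pos 66 .pm ⟨0, 21739915, 0, 0, 0, 0, 0, 0, 0, ⟨0, 0⟩, 0⟩ 0 0) (.cut .d 7816945 (.cut .s 11051008 (.pos 66 .pm ⟨0, 37732025, 0, 0, 0, 0, 0, 0, 402418, ⟨0, 0⟩, 11040029⟩ 0 0) (.pos 66 .pm ⟨0, 40948365, 0, 0, 0, 0, 0, 0, 570126, ⟨0, 0⟩, 11040029⟩ 0 0)) (.pos 66 .pm ⟨0, 44243763, 0, 0, 0, 0, 0, 0, 728362, ⟨0, 0⟩, 11040029⟩ 0 0)))) (.cut .v 7340032 (.pos 75 .pm ⟨0, 48058500, 0, 0, 0, 0, 0, 0, 2535310, ⟨0, 0⟩, 10677565⟩ 0 0) (.cut .d 7674819 (.cut .s 11223040 (.pos 76 .pm ⟨0, 42217618, 0, 0, 0, 0, 0, 0, 0, ⟨0, 0⟩, 0⟩ 0 0) (.pos 76 .pm ⟨0, 48122558, 0, 0, 0, 0, 0, 0, 0, ⟨0, 0⟩, 0⟩ 0 0)) (.pos 76 .pm ⟨0, 51177146, 0, 0, 0, 0, 0, 0, 0, ⟨0, 0⟩, 0⟩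 0 0))))) (.cut .s 11108352 (.pos 66 .pm ⟨0, 66752053, 0, 0, 0, 0, 0, 0, 7432279, ⟨0, 0⟩, 11040029⟩ 0 0) (.void 66 ⟨0, 95457, 0, 0, 0, 0, 0, 0, 4543, ⟨0, 0⟩, 11040029⟩ 0 0))))))) (.cut .d 4548041 (.pos 3 .pm ⟨0, 0, 0, 0, 0, 0, 0, 0, 0, ⟨0, 0⟩, 0⟩ 0 0) (.cut .d 6822062 (.pos 3 .pm ⟨0, 0, 0, 0, 0, 0, 0, 0, 0, ⟨0, 0⟩, 0⟩ 0 0) (.cut .v 12582912 (.cut .d 7959072 (.cut .d 7390567 (.pos 6 .pm ⟨0, 31251398, 0, 0, 0, 0, 0, 0, 0, ⟨0, 0⟩, 0⟩ 0 0) (.cut .v 10485760 (.cut .l 1275068 (.cut .s 11108352 (.cut .d 7674819 (.pos 8 .pm ⟨0, 32883371, 0, 0, 0, 0, 0, 0, 0, ⟨0, 0⟩, 0⟩ 0 0) (.cut .s 10993664 (.cut .v 9437184 (.cut .s 10936320 (.pos 69 .pm ⟨0, 6145680, 0, 0, 0, 0, 0, 0,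 0, ⟨0, 0⟩, 0⟩ 0 0) (.pos 69 .pm ⟨0, 37722649, 0, 0, 0, 0, 0, 0, 0, ⟨0, 0⟩, 0⟩ 0 0)) (.pos 70 .pm ⟨0, 34617150, 0, 0, 0, 0, 0, 0, 0, ⟨0, 0⟩, 0⟩ 0 0)) (.pos 8 .pm ⟨0, 42146146, 0, 0, 0, 0, 0, 0, 0, ⟨0, 0⟩, 0⟩ 0 0))) (.cut .d 7674819 (.pos 8 .pm ⟨0, 45571246, 0, 0, 0, 0, 0, 0, 0, ⟨0, 0⟩, 0⟩ 0 0) (.void 8 ⟨0, 100000, 0, 0, 0, 0, 0, 0, 0, ⟨0, 0⟩, 0⟩ 0 0))) (.pos 8 .pm ⟨0, 41509672, 0, 0, 0, 0, 0, 0, 0, ⟨0, 0⟩, 0⟩ 0 0)) (.pos 9 .pm ⟨0, 44485093, 0, 0, 0, 0, 0, 0, 0, ⟨0, 0⟩, 0⟩ 0 0))) (.cut .s 11108352 (.cut .v 10485760 (.cut .v 9437184 (.cut .s 10993664 (.cut .d 8527577 (.cut .d 8243324 (.cut .v 8912896 (.cut .s 10936320 (.pos 71 .pm ⟨0, 40614350, 0, 0, 0, 0, 0, 0,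 1771356, ⟨0, 0⟩, 12044454⟩ 0 0) (.pos 71 .pm ⟨0, 43321065, 0, 0, 0, 0, 0, 0, 1152938, ⟨0, 0⟩, 12044454⟩ 0 0)) (.pos 72 .pm ⟨0, 41422723, 0, 0, 0, 0, 0, 0, 0, ⟨0, 0⟩, 0⟩ 0 0)) (.void 69 ⟨0, 100000, 0, 0, 0, 0, 0, 0, 0, ⟨0, 0⟩, 0⟩ 0 0)) (.void 69 ⟨0, 0, 0, 100000, 0, 0, 0, 0, 0, ⟨0, 0⟩, 0⟩ 0 0)) (.void 69 ⟨0, 100000, 0, 0, 0, 0, 0, 0, 0, ⟨0, 0⟩, 0⟩ 0 0)) (.pos 70 .pm ⟨0, 54766041, 0, 0, 0, 0, 0, 0, 0, ⟨0, 0⟩, 0⟩ 0 0)) (.void 9 ⟨0, 100000, 0, 0, 0, 0, 0, 0, 0, ⟨0, 0⟩, 0⟩ 0 0)) (.void 6 ⟨0, 0, 0, 100000, 0, 0, 0, 0, 0, ⟨0, 0⟩, 0⟩ 0 0))) (.pos 7 .pm ⟨0, 62413718, 0, 0, 0, 0, 0, 0, 0, ⟨0, 0⟩, 0⟩ 0 0))))) (.cut .v 67108864 (.cut .d 4548041 (.cut .d 2274020 (.cut .v 33554432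 (.cut .d 1137010 (.cut .v 25165824 (.cut .d 568505 (.cut .v 20971520 (.cut .v 18874368 (.pos 21 .pp ⟨64268289, 0, 0, 0, 0, 0, 0, 0, 0, ⟨0, 0⟩, 0⟩ 0 0) (.pos 22 .pp ⟨93682402, 0, 0, 0, 0, 0, 0, 0, 0, ⟨0, 0⟩, 0⟩ 0 0)) (.pos 20 .pp ⟨138001877, 0, 0, 0, 0, 0, 0, 0, 0, ⟨0, 0⟩, 0⟩ 0 0)) (.pos 17 .pp ⟨40830979, 0, 0, 0, 0, 0, 0, 0, 0, ⟨0, 0⟩, 0⟩ 0 0)) (.cut .d 568505 (.void 18 ⟨100000, 0, 0, 0, 0, 0, 0, 0, 0, ⟨0, 0⟩, 0⟩ 0 0) (.pos 18 .pp ⟨180884050, 0, 0, 0, 0, 0, 0, 0, 0, ⟨0, 0⟩, 0⟩ 0 0))) (.pos 16 .pp ⟨24332576, 0, 0, 0, 0, 0, 0, 0, 0, ⟨0, 0⟩, 0⟩ 0 0)) (.cut .v 50331648 (.cut .d 1137010 (.pos 46 .pp ⟨643903880, 0, 0, 0, 0, 0, 0, 0, 0, ⟨0, 0⟩, 0⟩ 0 0) (.pos 46 .pp ⟨311026344,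 0, 0, 0, 0, 0, 0, 0, 0, ⟨0, 0⟩, 0⟩ 0 0)) (.pos 47 .pp ⟨1098092023, 0, 0, 0, 0, 0, 0, 0, 0, ⟨0, 0⟩, 0⟩ 0 0))) (.pos 44 .pp ⟨0, 0, 0, 0, 0, 0, 0, 0, 0, ⟨0, 0⟩, 0⟩ 0 0)) (.pos 44 .pp ⟨0, 37969488, 0, 0, 0, 0, 0, 0, 0, ⟨0, 0⟩, 0⟩ 0 0)) (.void 56 ⟨36792, 63208, 0, 0, 0, 0, 0, 0, 0, ⟨0, 0⟩, 0⟩ 0 0)))),
    by decide +kernel⟩

def covers16 : cell.Covers table row16.1 :=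
  ⟨(.cut .d 0 (.cut .v 16777216 (.cut .d (-8388608) (.void 1 ⟨0, 0, 0, 0, 0, 100000, 0, 0, 0, ⟨0, 0⟩, 0⟩ 0 0) (.cut .d (-4194304) (.void 1 ⟨0, 0, 0, 0, 0, 100000, 0, 0, 0, ⟨0, 0⟩, 0⟩ 0 0) (.cut .d (-2097152) (.void 1 ⟨0, 0, 0, 0, 0, 100000, 0, 0, 0, ⟨0, 0⟩, 0⟩ 0 0) (.cut .d (-1048576) (.void 1 ⟨0, 0, 0, 0, 0, 100000, 0, 0, 0, ⟨0, 0⟩, 0⟩ 0 0) (.cut .d (-524288) (.void 1 ⟨0, 0, 0, 0, 0, 100000, 0, 0, 0, ⟨0, 0⟩, 0⟩ 0 0) (.cut .d (-262144) (.void 1 ⟨0, 0, 0, 0, 0, 100000, 0, 0, 0, ⟨0, 0⟩, 0⟩ 0 0) (.cut .v 8388608 (.cut .v 4194304 (.void 4 ⟨0, 0, 100000, 0, 0, 0, 0, 0, 0, ⟨0, 0⟩, 0⟩ 0 0) (.pos 5 .mm ⟨0, 0, 0, 0, 0, 44310078, 0, 0, 0, ⟨0, 0⟩, 0⟩ 0 0)) (.cut .s 11534336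 (.pos 3 .mm ⟨0, 0, 0, 0, 0, 160198603, 0, 0, 0, ⟨0, 0⟩, 0⟩ 0 0) (.pos 3 .mm ⟨0, 0, 0, 0, 0, 185336489, 0, 0, 0, ⟨0, 0⟩, 0⟩ 0 0))))))))) (.cut .v 268435456 (.cut .v 67108864 (.cut .v 33554432 (.cut .v 25165824 (.cut .d (-8388608) (.void 17 ⟨0, 0, 0, 0, 0, 100000, 0, 0, 0, ⟨0, 0⟩, 0⟩ 0 0) (.cut .v 20971520 (.cut .d (-4194304) (.void 19 ⟨100000, 0, 0, 0, 0, 0, 0, 0, 0, ⟨0, 0⟩, 0⟩ 0 0) (.cut .v 18874368 (.cut .d (-2097152) (.void 21 ⟨100000, 0, 0, 0, 0, 0, 0, 0, 0, ⟨0, 0⟩, 0⟩ 0 0) (.cut .d (-1048576) (.void 21 ⟨100000, 0, 0, 0, 0, 0, 0, 0, 0, ⟨0, 0⟩, 0⟩ 0 0) (.cut .d (-524288) (.void 21 ⟨100000, 0, 0, 0, 0, 0, 0, 0, 0, ⟨0, 0⟩, 0⟩ 0 0) (.cut .d (-262144) (.void 21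 ⟨0, 0, 0, 0, 0, 100000, 0, 0, 0, ⟨0, 0⟩, 0⟩ 0 0) (.cut .v 17825792 (.cut .s 11534336 (.cut .v 17301504 (.cut .d (-131072) (.cut .s 11436032 (.pos 25 .mp ⟨56881774, 0, 0, 0, 0, 82474445, 0, 0, 0, ⟨0, 0⟩, 0⟩ 0 0) (.pos 25 .mp ⟨61026831, 0, 0, 0, 0, 88033154, 0, 0, 0, ⟨0, 0⟩, 0⟩ 0 0)) (.cut .s 11436032 (.pos 25 .mp ⟨74028878, 0, 0, 0, 0, 41830530, 0, 0, 0, ⟨0, 0⟩, 0⟩ 0 0) (.cut .s 11485184 (.pos 25 .mp ⟨76606162, 0, 0, 0, 0, 46485651, 0, 0, 0, ⟨0, 0⟩, 0⟩ 0 0) (.pos 25 .mp ⟨79254956, 0, 0, 0, 0, 47955854, 0, 0, 0, ⟨0, 0⟩, 0⟩ 0 0)))) (.pos 26 .mp ⟨114419080, 0, 0, 0, 0, 0, 0, 0, 0, ⟨0, 0⟩, 0⟩ 0 0)) (.cut .v 17301504 (.cut .d (-131072) (.cut .l 1275068 (.void 25 ⟨0,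 0, 0, 0, 0, 100000, 0, 0, 0, ⟨0, 0⟩, 0⟩ 0 0) (.cut .d (-196608) (.pos 25 .mp ⟨73293383, 0, 0, 0, 0, 99992229, 0, 0, 0, ⟨0, 0⟩, 0⟩ 0 0) (.cut .s 11632640 (.pos 25 .mp ⟨65387900, 0, 0, 0, 0, 91440165, 0, 0, 0, ⟨0, 0⟩, 0⟩ 0 0) (.cut .s 11681792 (.pos 25 .mp ⟨69976721, 0, 0, 0, 0, 93170605, 0, 0, 0, ⟨0, 0⟩, 0⟩ 0 0) (.cut .v 17039360 (.pos 27 .mp ⟨0, 0, 0, 0, 0, 214173300, 0, 0, 0, ⟨0, 0⟩, 0⟩ 0 0) (.pos 28 .mp ⟨93233336, 0, 0, 0, 0, 58594927, 0, 0, 0, ⟨0, 0⟩, 0⟩ 0 0)))))) (.cut .l 1275068 (.cut .s 11632640 (.cut .d (-65536) (.cut .v 17039360 (.pos 27 .mp ⟨66500060, 0, 0, 0, 0, 85179272, 0, 0, 0, ⟨0, 0⟩, 0⟩ 0 0) (.pos 28 .mp ⟨101817809, 0, 0, 0, 0, 30809203, 0, 0, 0,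 ⟨0, 0⟩, 0⟩ 0 0)) (.pos 25 .mp ⟨77401920, 0, 0, 0, 0, 57884693, 0, 0, 0, ⟨0, 0⟩, 0⟩ 0 0)) (.cut .v 17039360 (.cut .d (-65536) (.cut .s 11681792 (.pos 27 .mp ⟨72746982, 0, 0, 0, 0, 82721278, 0, 0, 0, ⟨0, 0⟩, 0⟩ 0 0) (.pos 27 .mp ⟨75120448, 0, 0, 0, 0, 85772562, 0, 0, 0, ⟨0, 0⟩, 0⟩ 0 0)) (.cut .s 11681792 (.pos 27 .mp ⟨77629171, 0, 0, 0, 0, 66872826, 0, 0, 0, ⟨0, 0⟩, 0⟩ 0 0) (.cut .d (-32768) (.pos 27 .mp ⟨78971560, 0, 0, 0, 0, 74476602, 0, 0, 0, ⟨0, 0⟩, 0⟩ 0 0) (.pos 27 .mp ⟨76253814, 0, 0, 0, 0, 0, 0, 0, 0, ⟨0, 0⟩, 0⟩ 0 0)))) (.pos 28 .mp ⟨129264323, 0, 0, 0, 0, 0, 0, 0, 0, ⟨0, 0⟩, 0⟩ 0 0))) (.pos 25 .mp ⟨82610469, 0, 0, 0, 0, 48111262, 0, 0, 0, ⟨0, 0⟩, 0⟩ 0 0)))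 (.cut .d (-131072) (.pos 26 .mp ⟨137242053, 0, 0, 0, 0, 0, 0, 0, 0, ⟨0, 0⟩, 0⟩ 0 0) (.pos 26 .mp ⟨125014029, 0, 0, 0, 0, 0, 0, 0, 0, ⟨0, 0⟩, 0⟩ 0 0)))) (.pos 24 .mp ⟨134255337, 0, 0, 0, 0, 0, 0, 0, 0, ⟨0, 0⟩, 0⟩ 0 0)))))) (.pos 22 .mp ⟨301499682, 0, 0, 0, 0, 0, 0, 0, 0, ⟨0, 0⟩, 0⟩ 0 0))) (.void 20 ⟨100000, 0, 0, 0, 0, 0, 0, 0, 0, ⟨0, 0⟩, 0⟩ 0 0))) (.void 18 ⟨100000, 0, 0, 0, 0, 0, 0, 0, 0, ⟨0, 0⟩, 0⟩ 0 0)) (.void 45 ⟨100000, 0, 0, 0, 0, 0, 0, 0, 0, ⟨0, 0⟩, 0⟩ 0 0)) (.void 56 ⟨100000, 0, 0, 0, 0, 0, 0, 0, 0, ⟨0, 0⟩, 0⟩ 0 0)) (.void 83 ⟨94023, 0, 0, 5977, 0, 0, 0, 0, 0, ⟨0, 0⟩, 0⟩ 0 0))) (.cut .v 16777216 (.cut .v 8388608 (.cut .v 4194304 (.cut .v 2097152 (.void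 67 ⟨0, 0, 25058, 0, 0, 0, 0, 0, 74942, ⟨0, 0⟩, 2804900⟩ 0 0) (.pos 68 .pm ⟨0, 0, 0, 0, 0, 0, 0, 0, 8880715, ⟨0, 0⟩, 7053950⟩ 0 0)) (.cut .d 4024593 (.pos 5 .pm ⟨0, 0, 0, 0, 0, 0, 0, 0, 0, ⟨0, 0⟩, 0⟩ 0 0) (.cut .d 6036890 (.pos 5 .pm ⟨0, 0, 0, 0, 0, 0, 0, 0, 0, ⟨0, 0⟩, 0⟩ 0 0) (.cut .d 7043038 (.cut .v 6291456 (.pos 65 .pm ⟨0, 38245506, 0, 0, 0, 0, 0, 0, 0, ⟨0, 0⟩, 0⟩ 0 0) (.cut .s 11534336 (.pos 66 .pm ⟨0, 38372306, 0, 0, 0, 0, 0, 0, 0, ⟨0, 0⟩, 0⟩ 0 0) (.pos 66 .pm ⟨0, 48961280, 0, 0, 0, 0, 0, 0, 0, ⟨0, 0⟩, 0⟩ 0 0))) (.cut .v 6291456 (.pos 65 .pm ⟨0, 61478182, 0, 0, 0, 0, 0, 0, 3841356, ⟨0, 0⟩, 9283521⟩ 0 0) (.cut .s 11534336 (.cut .d 7546112 (.cut .v 7340032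 (.pos 75 .pm ⟨0, 51697451, 0, 0, 0, 0, 0, 0, 0, ⟨0, 0⟩, 0⟩ 0 0) (.pos 76 .pm ⟨0, 53575347, 0, 0, 0, 0, 0, 0, 0, ⟨0, 0⟩, 0⟩ 0 0)) (.void 66 ⟨0, 100000, 0, 0, 0, 0, 0, 0, 0, ⟨0, 0⟩, 0⟩ 0 0)) (.void 66 ⟨0, 100000, 0, 0, 0, 0, 0, 0, 0, ⟨0, 0⟩, 0⟩ 0 0))))))) (.cut .d 4024593 (.pos 3 .pm ⟨0, 0, 0, 0, 0, 0, 0, 0, 0, ⟨0, 0⟩, 0⟩ 0 0) (.cut .d 6036890 (.pos 3 .pm ⟨0, 0, 0, 0, 0, 0, 0, 0, 0, ⟨0, 0⟩, 0⟩ 0 0) (.cut .d 7043038 (.pos 3 .pm ⟨0, 46388245, 0, 0, 0, 0, 0, 0, 0, ⟨0, 0⟩, 0⟩ 0 0) (.pos 3 .pm ⟨0, 78213084, 0, 0, 0, 0, 0, 0, 0, ⟨0, 0⟩, 0⟩ 0 0))))) (.cut .v 268435456 (.cut .v 67108864 (.cut .d 4024593 (.cut .d 2012296 (.cut .v 33554432 (.cut .d 1006148 (.cut .v 25165824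 (.cut .d 503074 (.cut .v 20971520 (.cut .v 18874368 (.pos 21 .pp ⟨88214492, 0, 0, 0, 0, 0, 0, 0, 0, ⟨0, 0⟩, 0⟩ 0 0) (.pos 22 .pp ⟨125414835, 0, 0, 0, 0, 0, 0, 0, 0, ⟨0, 0⟩, 0⟩ 0 0)) (.pos 20 .pp ⟨180084172, 0, 0, 0, 0, 0, 0, 0, 0, ⟨0, 0⟩, 0⟩ 0 0)) (.pos 17 .pp ⟨59967049, 0, 0, 0, 0, 0, 0, 0, 0, ⟨0, 0⟩, 0⟩ 0 0)) (.cut .d 503074 (.void 18 ⟨100000, 0, 0, 0, 0, 0, 0, 0, 0, ⟨0, 0⟩, 0⟩ 0 0) (.pos 18 .pp ⟨238764734, 0, 0, 0, 0, 0, 0, 0, 0, ⟨0, 0⟩, 0⟩ 0 0))) (.pos 16 .pp ⟨44453450, 0, 0, 0, 0, 0, 0, 0, 0, ⟨0, 0⟩, 0⟩ 0 0)) (.cut .v 50331648 (.cut .d 1006148 (.pos 46 .pp ⟨800700874, 0, 0, 0, 0, 0, 0, 0, 0, ⟨0, 0⟩, 0⟩ 0 0) (.cut .v 41943040 (.pos 50 .pp ⟨314671741, 0, 0,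 0, 0, 0, 0, 0, 0, ⟨0, 0⟩, 0⟩ 0 0) (.pos 51 .pp ⟨585638422, 0, 0, 0, 0, 0, 0, 0, 0, ⟨0, 0⟩, 0⟩ 0 0))) (.pos 47 .pp ⟨1340213689, 0, 0, 0, 0, 0, 0, 0, 0, ⟨0, 0⟩, 0⟩ 0 0))) (.pos 44 .pp ⟨0, 0, 0, 0, 0, 0, 0, 0, 0, ⟨0, 0⟩, 0⟩ 0 0)) (.pos 44 .pp ⟨0, 44695848, 0, 0, 0, 0, 0, 0, 0, ⟨0, 0⟩, 0⟩ 0 0)) (.void 56 ⟨36578, 63422, 0, 0, 0, 0, 0, 0, 0, ⟨0, 0⟩, 0⟩ 0 0)) (.void 83 ⟨0, 0, 0, 100000, 0, 0, 0, 0, 0, ⟨0, 0⟩, 0⟩ 0 0)))),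
    by decide +kernel⟩

def covers17 : cell.Covers table row17.1 :=
  ⟨(.cut .d 0 (.cut .v 16777216 (.cut .d (-8388608) (.void 1 ⟨0, 0, 0, 0, 0, 100000, 0, 0, 0, ⟨0, 0⟩, 0⟩ 0 0) (.cut .d (-4194304) (.void 1 ⟨0, 0, 0, 0, 0, 100000, 0, 0, 0, ⟨0, 0⟩, 0⟩ 0 0) (.cut .d (-2097152) (.void 1 ⟨0, 0, 0, 0, 0, 100000, 0, 0, 0, ⟨0, 0⟩, 0⟩ 0 0) (.cut .d (-1048576) (.void 1 ⟨0, 0, 0, 0, 0, 100000, 0, 0, 0, ⟨0, 0⟩, 0⟩ 0 0) (.cut .d (-524288) (.void 1 ⟨0, 0, 0, 0, 0, 100000, 0, 0, 0, ⟨0, 0⟩, 0⟩ 0 0) (.cut .d (-262144) (.void 1 ⟨0, 0, 0, 0, 0, 100000, 0, 0, 0, ⟨0, 0⟩, 0⟩ 0 0) (.cut .v 8388608 (.cut .v 4194304 (.void 4 ⟨0, 0, 100000, 0, 0, 0, 0, 0, 0, ⟨0, 0⟩, 0⟩ 0 0) (.pos 5 .mm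 ⟨0, 0, 412854, 0, 0, 68138382, 0, 0, 0, ⟨0, 0⟩, 0⟩ 0 0)) (.cut .d (-131072) (.pos 3 .mm ⟨0, 0, 0, 0, 0, 270319482, 0, 0, 0, ⟨0, 0⟩, 0⟩ 0 0) (.cut .s 11993088 (.pos 3 .mm ⟨0, 0, 0, 0, 0, 212904389, 0, 0, 0, ⟨0, 0⟩, 0⟩ 0 0) (.pos 3 .mm ⟨0, 0, 0, 0, 0, 257966374, 0, 0, 0, ⟨0, 0⟩, 0⟩ 0 0)))))))))) (.cut .v 268435456 (.cut .v 67108864 (.cut .v 33554432 (.cut .v 25165824 (.cut .d (-8388608) (.void 17 ⟨100000, 0, 0, 0, 0, 0, 0, 0, 0, ⟨0, 0⟩, 0⟩ 0 0) (.cut .v 20971520 (.cut .d (-4194304) (.void 19 ⟨100000, 0, 0, 0, 0, 0, 0, 0, 0, ⟨0, 0⟩, 0⟩ 0 0) (.cut .d (-2097152) (.void 19 ⟨100000, 0, 0, 0, 0, 0, 0, 0, 0, ⟨0, 0⟩, 0⟩ 0 0) (.cut .v 18874368 (.cut .d (-1048576) (.void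 21 ⟨100000, 0, 0, 0, 0, 0, 0, 0, 0, ⟨0, 0⟩, 0⟩ 0 0) (.cut .d (-524288) (.void 21 ⟨100000, 0, 0, 0, 0, 0, 0, 0, 0, ⟨0, 0⟩, 0⟩ 0 0) (.cut .d (-262144) (.void 21 ⟨0, 0, 0, 0, 0, 100000, 0, 0, 0, ⟨0, 0⟩, 0⟩ 0 0) (.cut .v 17825792 (.cut .d (-131072) (.cut .l 1275068 (.void 23 ⟨0, 0, 0, 0, 0, 100000, 0, 0, 0, ⟨0, 0⟩, 0⟩ 0 0) (.cut .v 17301504 (.cut .s 11993088 (.cut .d (-196608) (.cut .s 11862016 (.pos 25 .mp ⟨82731079, 0, 0, 0, 0, 106166259, 0, 0, 0, ⟨0, 0⟩, 0⟩ 0 0) (.pos 25 .mp ⟨90469072, 0, 0, 0, 0, 122217404, 0, 0, 0, ⟨0, 0⟩, 0⟩ 0 0)) (.cut .v 17039360 (.pos 27 .mp ⟨0, 0, 0, 0, 0, 230064106, 0, 0, 0, ⟨0, 0⟩, 0⟩ 0 0) (.cut .s 11862016 (.cut .v 17170432 (.cut .s 11796480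 (.pos 59 .mp ⟨76015836, 0, 0, 0, 0, 96085736, 0, 0, 0, ⟨0, 0⟩, 0⟩ 0 0) (.cut .s 11829248 (.pos 59 .mp ⟨79408682, 0, 0, 0, 0, 97600240, 0, 0, 0, ⟨0, 0⟩, 0⟩ 0 0) (.pos 59 .mp ⟨81146748, 0, 0, 0, 0, 99822660, 0, 0, 0, ⟨0, 0⟩, 0⟩ 0 0))) (.pos 60 .mp ⟨134728161, 0, 0, 0, 0, 9159143, 0, 0, 0, ⟨0, 0⟩, 0⟩ 0 0)) (.cut .s 11927552 (.cut .s 11894784 (.pos 28 .mp ⟨101706152, 0, 0, 0, 0, 70267580, 0, 0, 0, ⟨0, 0⟩, 0⟩ 0 0) (.cut .v 17170432 (.pos 59 .mp ⟨84708867, 0, 0, 0, 0, 104540585, 0, 0, 0, ⟨0, 0⟩, 0⟩ 0 0) (.pos 60 .mp ⟨102717011, 0, 0, 0, 0, 76633065, 0, 0, 0, ⟨0, 0⟩, 0⟩ 0 0))) (.cut .d (-163840) (.cut .s 11960320 (.pos 28 .mp ⟨93002090, 0, 0, 0, 0, 100114192, 0, 0, 0,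 ⟨0, 0⟩, 0⟩ 0 0) (.pos 28 .mp ⟨95237865, 0, 0, 0, 0, 102060897, 0, 0, 0, ⟨0, 0⟩, 0⟩ 0 0)) (.pos 28 .mp ⟨106124622, 0, 0, 0, 0, 73363623, 0, 0, 0, ⟨0, 0⟩, 0⟩ 0 0)))))) (.cut .d (-196608) (.void 25 ⟨0, 0, 0, 0, 0, 100000, 0, 0, 0, ⟨0, 0⟩, 0⟩ 0 0) (.cut .v 17039360 (.pos 27 .mp ⟨0, 0, 0, 0, 0, 278377376, 0, 0, 0, ⟨0, 0⟩, 0⟩ 0 0) (.cut .s 12124160 (.cut .s 12058624 (.cut .d (-163840) (.pos 28 .mp ⟨96737222, 0, 0, 0, 0, 110408075, 0, 0, 0, ⟨0, 0⟩, 0⟩ 0 0) (.pos 28 .mp ⟨110760022, 0, 0, 0, 0, 76969913, 0, 0, 0, ⟨0, 0⟩, 0⟩ 0 0)) (.cut .s 12091392 (.pos 28 .mp ⟨95631141, 0, 0, 0, 0, 118614725, 0, 0, 0, ⟨0, 0⟩, 0⟩ 0 0) (.pos 28 .mp ⟨97644598, 0, 0, 0, 0, 121579033, 0, 0,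 0, ⟨0, 0⟩, 0⟩ 0 0))) (.cut .s 12189696 (.cut .s 12156928 (.pos 28 .mp ⟨99691943, 0, 0, 0, 0, 124634745, 0, 0, 0, ⟨0, 0⟩, 0⟩ 0 0) (.pos 28 .mp ⟨101773878, 0, 0, 0, 0, 127781715, 0, 0, 0, ⟨0, 0⟩, 0⟩ 0 0)) (.pos 28 .mp ⟨103891126, 0, 0, 0, 0, 135312076, 0, 0, 0, ⟨0, 0⟩, 0⟩ 0 0)))))) (.cut .d (-196608) (.pos 26 .mp ⟨197545793, 0, 0, 0, 0, 0, 0, 0, 0, ⟨0, 0⟩, 0⟩ 0 0) (.cut .s 11993088 (.pos 26 .mp ⟨151120405, 0, 0, 0, 0, 0, 0, 0, 0, ⟨0, 0⟩, 0⟩ 0 0) (.pos 26 .mp ⟨179709789, 0, 0, 0, 0, 0, 0, 0, 0, ⟨0, 0⟩, 0⟩ 0 0))))) (.cut .s 11993088 (.cut .v 17301504 (.cut .l 1275068 (.cut .s 11862016 (.cut .v 17039360 (.cut .d (-65536) (.cut .l 822083 (.pos 27 .mp ⟨76260182, 0, 0,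 0, 0, 106303336, 0, 0, 0, ⟨0, 0⟩, 0⟩ 0 0) (.cut .s 11796480 (.pos 27 .mp ⟨72382097, 0, 0, 0, 0, 97008755, 0, 0, 0, ⟨0, 0⟩, 0⟩ 0 0) (.pos 27 .mp ⟨75485104, 0, 0, 0, 0, 101663681, 0, 0, 0, ⟨0, 0⟩, 0⟩ 0 0))) (.cut .l 822083 (.cut .d (-32768) (.cut .s 11796480 (.cut .v 16908288 (.pos 48 .mp ⟨72910845, 0, 0, 0, 0, 92537660, 0, 0, 0, ⟨0, 0⟩, 0⟩ 0 0) (.pos 49 .mp ⟨120720666, 0, 0, 0, 0, 17339042, 0, 0, 0, ⟨0, 0⟩, 0⟩ 0 0)) (.cut .v 16908288 (.cut .s 11829248 (.pos 48 .mp ⟨79034433, 0, 0, 0, 0, 89505341, 0, 0, 0, ⟨0, 0⟩, 0⟩ 0 0) (.pos 48 .mp ⟨80680981, 0, 0, 0, 0, 91529235, 0, 0, 0, ⟨0, 0⟩, 0⟩ 0 0)) (.pos 49 .mp ⟨125241485, 0, 0, 0, 0, 19163292, 0, 0, 0, ⟨0, 0⟩, 0⟩ 0 0)))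 (.cut .s 11796480 (.pos 27 .mp ⟨79463244, 0, 0, 0, 0, 28285504, 0, 0, 0, ⟨0, 0⟩, 0⟩ 0 0) (.cut .s 11829248 (.pos 27 .mp ⟨80755651, 0, 0, 0, 0, 77219206, 0, 0, 0, ⟨0, 0⟩, 0⟩ 0 0) (.pos 27 .mp ⟨82423224, 0, 0, 0, 0, 79195758, 0, 0, 0, ⟨0, 0⟩, 0⟩ 0 0)))) (.pos 27 .mp ⟨81196347, 0, 0, 0, 0, 0, 0, 0, 0, ⟨0, 0⟩, 0⟩ 0 0))) (.pos 28 .mp ⟨137930963, 0, 0, 0, 0, 0, 0, 0, 0, ⟨0, 0⟩, 0⟩ 0 0)) (.cut .v 17039360 (.cut .d (-65536) (.cut .l 822083 (.pos 27 .mp ⟨82891924, 0, 0, 0, 0, 116874024, 0, 0, 0, ⟨0, 0⟩, 0⟩ 0 0) (.cut .s 11927552 (.pos 27 .mp ⟨78683542, 0, 0, 0, 0, 106679073, 0, 0, 0, ⟨0, 0⟩, 0⟩ 0 0) (.pos 27 .mp ⟨81981193, 0, 0, 0, 0, 112050776, 0, 0, 0, ⟨0, 0⟩, 0⟩ 0 0)))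 (.cut .l 822083 (.cut .d (-32768) (.cut .s 11927552 (.cut .v 16908288 (.cut .s 11894784 (.pos 48 .mp ⟨82350447, 0, 0, 0, 0, 93658627, 0, 0, 0, ⟨0, 0⟩, 0⟩ 0 0) (.pos 48 .mp ⟨84043247, 0, 0, 0, 0, 95895928, 0, 0, 0, ⟨0, 0⟩, 0⟩ 0 0)) (.pos 49 .mp ⟨130155317, 0, 0, 0, 0, 20863833, 0, 0, 0, ⟨0, 0⟩, 0⟩ 0 0)) (.cut .v 16908288 (.cut .s 11960320 (.pos 48 .mp ⟨85759802, 0, 0, 0, 0, 98243617, 0, 0, 0, ⟨0, 0⟩, 0⟩ 0 0) (.pos 48 .mp ⟨87500548, 0, 0, 0, 0, 100704241, 0, 0, 0, ⟨0, 0⟩, 0⟩ 0 0)) (.pos 49 .mp ⟨135569992, 0, 0, 0, 0, 22270349, 0, 0, 0, ⟨0, 0⟩, 0⟩ 0 0))) (.cut .d (-16384) (.cut .d (-24576) (.cut .d (-28672) (.cut .v 16908288 (.cut .s 11927552 (.pos 48 .mp ⟨81409406,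 0, 0, 0, 0, 95296706, 0, 0, 0, ⟨0, 0⟩, 0⟩ 0 0) (.pos 48 .mp ⟨84822953, 0, 0, 0, 0, 99881275, 0, 0, 0, ⟨0, 0⟩, 0⟩ 0 0)) (.pos 49 .mp ⟨138856595, 0, 0, 0, 0, 0, 0, 0, 0, ⟨0, 0⟩, 0⟩ 0 0)) (.pos 27 .mp ⟨88389141, 0, 0, 0, 0, 0, 0, 0, 0, ⟨0, 0⟩, 0⟩ 0 0)) (.pos 27 .mp ⟨85866151, 0, 0, 0, 0, 0, 0, 0, 0, ⟨0, 0⟩, 0⟩ 0 0)) (.pos 27 .mp ⟨80783301, 0, 0, 0, 0, 0, 0, 0, 0, ⟨0, 0⟩, 0⟩ 0 0))) (.pos 27 .mp ⟨88589483, 0, 0, 0, 0, 0, 0, 0, 0, ⟨0, 0⟩, 0⟩ 0 0))) (.pos 28 .mp ⟨150157736, 0, 0, 0, 0, 0, 0, 0, 0, ⟨0, 0⟩, 0⟩ 0 0))) (.cut .d (-65536) (.cut .d (-98304) (.cut .v 17039360 (.pos 27 .mp ⟨20703001, 0, 0, 0, 0, 184387276, 0, 0, 0, ⟨0, 0⟩, 0⟩ 0 0) (.cut .s 11862016 (.pos 28 .mp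 ⟨92798762, 0, 0, 0, 0, 63607521, 0, 0, 0, ⟨0, 0⟩, 0⟩ 0 0) (.pos 28 .mp ⟨101030175, 0, 0, 0, 0, 69677341, 0, 0, 0, ⟨0, 0⟩, 0⟩ 0 0))) (.pos 25 .mp ⟨88315135, 0, 0, 0, 0, 0, 0, 0, 0, ⟨0, 0⟩, 0⟩ 0 0)) (.pos 25 .mp ⟨0, 0, 0, 0, 0, 0, 0, 0, 0, ⟨0, 0⟩, 0⟩ 0 0))) (.pos 26 .mp ⟨143825660, 0, 0, 0, 0, 0, 0, 0, 0, ⟨0, 0⟩, 0⟩ 0 0)) (.cut .v 17301504 (.cut .s 12124160 (.cut .l 1275068 (.cut .v 17039360 (.cut .d (-65536) (.cut .l 822083 (.pos 27 .mp ⟨89958443, 0, 0, 0, 0, 129154351, 0, 0, 0, ⟨0, 0⟩, 0⟩ 0 0) (.cut .s 12058624 (.pos 27 .mp ⟨85382045, 0, 0, 0, 0, 117774181, 0, 0, 0, ⟨0, 0⟩, 0⟩ 0 0) (.pos 27 .mp ⟨88890309, 0, 0, 0, 0, 123844189, 0, 0, 0, ⟨0, 0⟩, 0⟩ 0 0))) (.cut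 .l 822083 (.cut .d (-32768) (.cut .s 12058624 (.cut .v 16908288 (.cut .s 12025856 (.pos 48 .mp ⟨89265928, 0, 0, 0, 0, 103280416, 0, 0, 0, ⟨0, 0⟩, 0⟩ 0 0) (.pos 48 .mp ⟨91056399, 0, 0, 0, 0, 105974835, 0, 0, 0, ⟨0, 0⟩, 0⟩ 0 0)) (.pos 49 .mp ⟨141597508, 0, 0, 0, 0, 23203409, 0, 0, 0, ⟨0, 0⟩, 0⟩ 0 0)) (.cut .v 16908288 (.pos 48 .mp ⟨87363250, 0, 0, 0, 0, 121737957, 0, 0, 0, ⟨0, 0⟩, 0⟩ 0 0) (.pos 49 .mp ⟨148354331, 0, 0, 0, 0, 23473865, 0, 0, 0, ⟨0, 0⟩, 0⟩ 0 0))) (.cut .d (-16384) (.cut .d (-24576) (.cut .d (-28672) (.cut .v 16908288 (.cut .s 12058624 (.pos 48 .mp ⟨88284828, 0, 0, 0, 0, 105002632, 0, 0, 0, ⟨0, 0⟩, 0⟩ 0 0) (.pos 48 .mp ⟨91787460, 0, 0, 0, 0, 110702782,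 0, 0, 0, ⟨0, 0⟩, 0⟩ 0 0)) (.pos 49 .mp ⟨151069997, 0, 0, 0, 0, 0, 0, 0, 0, ⟨0, 0⟩, 0⟩ 0 0)) (.pos 27 .mp ⟨95764026, 0, 0, 0, 0, 0, 0, 0, 0, ⟨0, 0⟩, 0⟩ 0 0)) (.pos 27 .mp ⟨92921420, 0, 0, 0, 0, 0, 0, 0, 0, ⟨0, 0⟩, 0⟩ 0 0)) (.pos 27 .mp ⟨87230364, 0, 0, 0, 0, 0, 0, 0, 0, ⟨0, 0⟩, 0⟩ 0 0))) (.pos 27 .mp ⟨96395186, 0, 0, 0, 0, 0, 0, 0, 0, ⟨0, 0⟩, 0⟩ 0 0))) (.pos 28 .mp ⟨163602098, 0, 0, 0, 0, 0, 0, 0, 0, ⟨0, 0⟩, 0⟩ 0 0)) (.cut .v 17039360 (.cut .s 12058624 (.pos 27 .mp ⟨75684230, 0, 0, 0, 0, 122846634, 0, 0, 0, ⟨0, 0⟩, 0⟩ 0 0) (.pos 27 .mp ⟨78622977, 0, 0, 0, 0, 129380317, 0, 0, 0, ⟨0, 0⟩, 0⟩ 0 0)) (.pos 28 .mp ⟨109855457, 0, 0, 0, 0, 74419515, 0, 0, 0, ⟨0, 0⟩, 0⟩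 0 0))) (.cut .l 1275068 (.cut .v 17039360 (.cut .d (-65536) (.cut .s 12189696 (.pos 27 .mp ⟨92510434, 0, 0, 0, 0, 133299060, 0, 0, 0, ⟨0, 0⟩, 0⟩ 0 0) (.pos 27 .mp ⟨96247125, 0, 0, 0, 0, 140578039, 0, 0, 0, ⟨0, 0⟩, 0⟩ 0 0)) (.cut .l 822083 (.cut .d (-32768) (.cut .s 12189696 (.cut .s 12156928 (.pos 27 .mp ⟨96119482, 0, 0, 0, 0, 117984233, 0, 0, 0, ⟨0, 0⟩, 0⟩ 0 0) (.pos 27 .mp ⟨98201196, 0, 0, 0, 0, 120711111, 0, 0, 0, ⟨0, 0⟩, 0⟩ 0 0)) (.cut .s 12222464 (.pos 27 .mp ⟨100367268, 0, 0, 0, 0, 123413780, 0, 0, 0, ⟨0, 0⟩, 0⟩ 0 0) (.pos 27 .mp ⟨102622013, 0, 0, 0, 0, 126084050, 0, 0, 0, ⟨0, 0⟩, 0⟩ 0 0))) (.cut .s 12189696 (.cut .s 12156928 (.pos 27 .mp ⟨98609048, 0, 0,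 0, 0, 100038616, 0, 0, 0, ⟨0, 0⟩, 0⟩ 0 0) (.pos 27 .mp ⟨100548603, 0, 0, 0, 0, 102655721, 0, 0, 0, ⟨0, 0⟩, 0⟩ 0 0)) (.pos 27 .mp ⟨104222218, 0, 0, 0, 0, 102852085, 0, 0, 0, ⟨0, 0⟩, 0⟩ 0 0))) (.pos 27 .mp ⟨104643659, 0, 0, 0, 0, 0, 0, 0, 0, ⟨0, 0⟩, 0⟩ 0 0))) (.pos 28 .mp ⟨178252562, 0, 0, 0, 0, 0, 0, 0, 0, ⟨0, 0⟩, 0⟩ 0 0)) (.cut .v 17039360 (.pos 27 .mp ⟨81640093, 0, 0, 0, 0, 138321797, 0, 0, 0, ⟨0, 0⟩, 0⟩ 0 0) (.pos 28 .mp ⟨119324436, 0, 0, 0, 0, 82363065, 0, 0, 0, ⟨0, 0⟩, 0⟩ 0 0)))) (.pos 26 .mp ⟨170456540, 0, 0, 0, 0, 0, 0, 0, 0, ⟨0, 0⟩, 0⟩ 0 0)))) (.cut .s 11993088 (.pos 24 .mp ⟨161702511, 0, 0, 0, 0, 0, 0, 0, 0, ⟨0, 0⟩, 0⟩ 0 0) (.pos 24 .mp ⟨191468689, 0,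 0, 0, 0, 0, 0, 0, 0, ⟨0, 0⟩, 0⟩ 0 0)))))) (.pos 22 .mp ⟨331554991, 0, 0, 0, 0, 0, 0, 0, 0, ⟨0, 0⟩, 0⟩ 0 0)))) (.void 20 ⟨100000, 0, 0, 0, 0, 0, 0, 0, 0, ⟨0, 0⟩, 0⟩ 0 0))) (.void 18 ⟨100000, 0, 0, 0, 0, 0, 0, 0, 0, ⟨0, 0⟩, 0⟩ 0 0)) (.void 45 ⟨100000, 0, 0, 0, 0, 0, 0, 0, 0, ⟨0, 0⟩, 0⟩ 0 0)) (.void 56 ⟨100000, 0, 0, 0, 0, 0, 0, 0, 0, ⟨0, 0⟩, 0⟩ 0 0)) (.void 83 ⟨93773, 0, 0, 6227, 0, 0, 0, 0, 0, ⟨0, 0⟩, 0⟩ 0 0))) (.cut .v 16777216 (.cut .v 8388608 (.cut .v 4194304 (.cut .v 2097152 (.pos 67 .pm ⟨0, 0, 21043032, 0, 0, 0, 0, 0, 36871070, ⟨0, 0⟩, 2804900⟩ 0 0) (.cut .d 3608508 (.pos 68 .pm ⟨0, 0, 13006674, 0, 0, 0, 0, 0, 0, ⟨0, 0⟩, 0⟩ 0 0) (.pos 68 .pm ⟨0, 30827720,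 0, 0, 0, 0, 0, 0, 0, ⟨0, 0⟩, 0⟩ 0 0))) (.cut .d 3608508 (.pos 5 .pm ⟨0, 0, 412854, 0, 0, 0, 0, 0, 0, ⟨0, 0⟩, 0⟩ 0 0) (.cut .d 5412762 (.pos 5 .pm ⟨0, 0, 0, 0, 0, 0, 0, 0, 0, ⟨0, 0⟩, 0⟩ 0 0) (.cut .d 6314889 (.cut .v 6291456 (.pos 65 .pm ⟨0, 46375781, 0, 0, 0, 0, 0, 0, 0, ⟨0, 0⟩, 0⟩ 0 0) (.pos 66 .pm ⟨0, 50132003, 0, 0, 0, 0, 0, 0, 0, ⟨0, 0⟩, 0⟩ 0 0)) (.cut .v 6291456 (.pos 65 .pm ⟨0, 75916435, 0, 0, 0, 0, 0, 0, 0, ⟨0, 0⟩, 0⟩ 0 0) (.cut .s 11993088 (.pos 66 .pm ⟨0, 71203093, 0, 0, 0, 0, 0, 0, 0, ⟨0, 0⟩, 0⟩ 0 0) (.void 66 ⟨0, 0, 0, 100000, 0, 0, 0, 0, 0, ⟨0, 0⟩, 0⟩ 0 0))))))) (.cut .d 3608508 (.pos 3 .pm ⟨0, 0, 0, 0, 0, 0, 0, 0, 0, ⟨0, 0⟩, 0⟩ 0 0) (.cut .d 5412762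 (.pos 3 .pm ⟨0, 0, 0, 0, 0, 0, 0, 0, 0, ⟨0, 0⟩, 0⟩ 0 0) (.cut .d 6314889 (.pos 3 .pm ⟨0, 55364502, 0, 0, 0, 0, 0, 0, 0, ⟨0, 0⟩, 0⟩ 0 0) (.pos 3 .pm ⟨0, 93278713, 0, 0, 0, 0, 0, 0, 0, ⟨0, 0⟩, 0⟩ 0 0))))) (.cut .v 268435456 (.cut .v 67108864 (.cut .d 3608508 (.cut .d 1804254 (.cut .v 33554432 (.cut .d 902127 (.cut .v 25165824 (.cut .d 451063 (.cut .v 20971520 (.cut .v 18874368 (.pos 21 .pp ⟨112910923, 0, 0, 0, 0, 0, 0, 0, 0, ⟨0, 0⟩, 0⟩ 0 0) (.pos 22 .pp ⟨163752653, 0, 0, 0, 0, 0, 0, 0, 0, ⟨0, 0⟩, 0⟩ 0 0)) (.pos 20 .pp ⟨238565406, 0, 0, 0, 0, 0, 0, 0, 0, ⟨0, 0⟩, 0⟩ 0 0)) (.pos 17 .pp ⟨80757740, 0, 0, 0, 0, 0, 0, 0, 0, ⟨0, 0⟩, 0⟩ 0 0)) (.cut .d 451063 (.pos 18 .pp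 ⟨526383324, 0, 0, 0, 0, 0, 0, 0, 0, ⟨0, 0⟩, 0⟩ 0 0) (.pos 18 .pp ⟨310125215, 0, 0, 0, 0, 0, 0, 0, 0, ⟨0, 0⟩, 0⟩ 0 0))) (.pos 16 .pp ⟨66720031, 0, 0, 0, 0, 0, 0, 0, 0, ⟨0, 0⟩, 0⟩ 0 0)) (.cut .d 902127 (.pos 45 .pp ⟨1774699044, 0, 0, 0, 0, 0, 0, 0, 0, ⟨0, 0⟩, 0⟩ 0 0) (.cut .v 50331648 (.cut .v 41943040 (.pos 50 .pp ⟨395882312, 0, 0, 0, 0, 0, 0, 0, 0, ⟨0, 0⟩, 0⟩ 0 0) (.pos 51 .pp ⟨736806649, 0, 0, 0, 0, 0, 0, 0, 0, ⟨0, 0⟩, 0⟩ 0 0)) (.pos 47 .pp ⟨1417783736, 0, 0, 0, 0, 0, 0, 0, 0, ⟨0, 0⟩, 0⟩ 0 0)))) (.pos 44 .pp ⟨37426928, 0, 0, 0, 0, 0, 0, 0, 0, ⟨0, 0⟩, 0⟩ 0 0)) (.pos 44 .pp ⟨0, 56114853, 0, 0, 0, 0, 0, 0, 0, ⟨0, 0⟩, 0⟩ 0 0)) (.void 56 ⟨36034, 63966, 0, 0, 0, 0,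 0, 0, 0, ⟨0, 0⟩, 0⟩ 0 0)) (.void 83 ⟨0, 0, 0, 100000, 0, 0, 0, 0, 0, ⟨0, 0⟩, 0⟩ 0 0)))),
    by decide +kernel⟩

def covers18 : cell.Covers table row18.1 :=
  ⟨(.cut .d 0 (.cut .v 16777216 (.cut .v 8388608 (.pos 2 .mm ⟨0, 0, 404426469, 0, 0, 157302226, 0, 0, 0, ⟨0, 0⟩, 0⟩ 0 0) (.cut .d (-8388608) (.void 3 ⟨0, 0, 0, 0, 0, 100000, 0, 0, 0, ⟨0, 0⟩, 0⟩ 0 0) (.cut .d (-4194304) (.void 3 ⟨0, 0, 0, 0, 0, 100000, 0, 0, 0, ⟨0, 0⟩, 0⟩ 0 0) (.cut .d (-2097152) (.void 3 ⟨0, 0, 0, 0, 0, 100000, 0, 0, 0, ⟨0, 0⟩, 0⟩ 0 0) (.cut .d (-1048576) (.void 3 ⟨0, 0, 0, 0, 0, 100000, 0, 0, 0, ⟨0, 0⟩, 0⟩ 0 0) (.cut .d (-524288) (.void 3 ⟨0, 0, 0, 0, 0, 100000, 0, 0, 0, ⟨0, 0⟩, 0⟩ 0 0) (.cut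 .d (-262144) (.void 3 ⟨0, 0, 0, 0, 0, 100000, 0, 0, 0, ⟨0, 0⟩, 0⟩ 0 0) (.cut .d (-131072) (.pos 3 .mm ⟨0, 0, 0, 0, 0, 387177192, 0, 0, 0, ⟨0, 0⟩, 0⟩ 0 0) (.cut .s 12484608 (.pos 3 .mm ⟨0, 0, 0, 0, 0, 307802781, 0, 0, 0, ⟨0, 0⟩, 0⟩ 0 0) (.pos 3 .mm ⟨0, 0, 0, 0, 0, 362407842, 0, 0, 0, ⟨0, 0⟩, 0⟩ 0 0)))))))))) (.cut .v 268435456 (.cut .v 67108864 (.cut .v 33554432 (.cut .v 25165824 (.cut .d (-8388608) (.void 17 ⟨100000, 0, 0, 0, 0, 0, 0, 0, 0, ⟨0, 0⟩, 0⟩ 0 0) (.cut .d (-4194304) (.void 17 ⟨100000, 0, 0, 0, 0, 0, 0, 0, 0, ⟨0, 0⟩, 0⟩ 0 0) (.cut .v 20971520 (.cut .d (-2097152) (.void 19 ⟨100000, 0, 0, 0, 0, 0, 0, 0, 0, ⟨0, 0⟩, 0⟩ 0 0) (.cut .v 18874368 (.cut .d (-1048576)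 (.void 21 ⟨100000, 0, 0, 0, 0, 0, 0, 0, 0, ⟨0, 0⟩, 0⟩ 0 0) (.cut .d (-524288) (.void 21 ⟨100000, 0, 0, 0, 0, 0, 0, 0, 0, ⟨0, 0⟩, 0⟩ 0 0) (.cut .d (-262144) (.void 21 ⟨0, 0, 0, 0, 0, 100000, 0, 0, 0, ⟨0, 0⟩, 0⟩ 0 0) (.cut .v 17825792 (.cut .d (-131072) (.cut .d (-196608) (.void 23 ⟨0, 0, 0, 0, 0, 100000, 0, 0, 0, ⟨0, 0⟩, 0⟩ 0 0) (.cut .l 1275068 (.void 23 ⟨0, 0, 0, 0, 0, 100000, 0, 0, 0, ⟨0, 0⟩, 0⟩ 0 0) (.cut .v 17301504 (.cut .s 12484608 (.cut .l 1728053 (.pos 25 .mp ⟨115763676, 0, 0, 0, 0, 172207719, 0, 0, 0, ⟨0, 0⟩, 0⟩ 0 0) (.cut .v 17039360 (.pos 27 .mp ⟨0, 0, 0, 0, 0, 329627100, 0, 0, 0, ⟨0, 0⟩, 0⟩ 0 0) (.cut .d (-163840) (.pos 28 .mp ⟨119422963, 0, 0, 0,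 0, 168430851, 0, 0, 0, ⟨0, 0⟩, 0⟩ 0 0) (.cut .s 12369920 (.pos 28 .mp ⟨129435292, 0, 0, 0, 0, 103638436, 0, 0, 0, ⟨0, 0⟩, 0⟩ 0 0) (.cut .s 12427264 (.pos 28 .mp ⟨134312946, 0, 0, 0, 0, 112823024, 0, 0, 0, ⟨0, 0⟩, 0⟩ 0 0) (.pos 28 .mp ⟨139342207, 0, 0, 0, 0, 117048882, 0, 0, 0, ⟨0, 0⟩, 0⟩ 0 0)))))) (.cut .d (-163840) (.void 25 ⟨0, 0, 0, 0, 0, 100000, 0, 0, 0, ⟨0, 0⟩, 0⟩ 0 0) (.cut .l 1728053 (.void 25 ⟨0, 0, 0, 0, 0, 100000, 0, 0, 0, ⟨0, 0⟩, 0⟩ 0 0) (.cut .v 17039360 (.pos 27 .mp ⟨0, 0, 0, 0, 0, 382121247, 0, 0, 0, ⟨0, 0⟩, 0⟩ 0 0) (.cut .s 12599296 (.cut .v 17170432 (.cut .s 12541952 (.pos 59 .mp ⟨123305076, 0, 0, 0, 0, 161259559, 0, 0, 0, ⟨0, 0⟩, 0⟩ 0 0) (.pos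 59 .mp ⟨127789560, 0, 0, 0, 0, 167838191, 0, 0, 0, ⟨0, 0⟩, 0⟩ 0 0)) (.pos 60 .mp ⟨184290319, 0, 0, 0, 0, 69421577, 0, 0, 0, ⟨0, 0⟩, 0⟩ 0 0)) (.cut .s 12656640 (.pos 28 .mp ⟨134480172, 0, 0, 0, 0, 176517091, 0, 0, 0, ⟨0, 0⟩, 0⟩ 0 0) (.pos 28 .mp ⟨139298864, 0, 0, 0, 0, 183948432, 0, 0, 0, ⟨0, 0⟩, 0⟩ 0 0))))))) (.cut .s 12484608 (.pos 26 .mp ⟨221337691, 0, 0, 0, 0, 0, 0, 0, 0, ⟨0, 0⟩, 0⟩ 0 0) (.pos 26 .mp ⟨254465294, 0, 0, 0, 0, 0, 0, 0, 0, ⟨0, 0⟩, 0⟩ 0 0))))) (.cut .s 12484608 (.cut .v 17301504 (.cut .s 12369920 (.cut .v 17039360 (.cut .d (-65536) (.cut .l 1275068 (.cut .s 12312576 (.pos 27 .mp ⟨100106147, 0, 0, 0, 0, 148362706, 0, 0, 0, ⟨0, 0⟩, 0⟩ 0 0) (.pos 27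 .mp ⟨103672328, 0, 0, 0, 0, 153408086, 0, 0, 0, ⟨0, 0⟩, 0⟩ 0 0)) (.pos 27 .mp ⟨81753063, 0, 0, 0, 0, 174108991, 0, 0, 0, ⟨0, 0⟩, 0⟩ 0 0)) (.cut .l 1275068 (.cut .l 822083 (.cut .d (-32768) (.cut .d (-49152) (.pos 27 .mp ⟨102467782, 0, 0, 0, 0, 155394802, 0, 0, 0, ⟨0, 0⟩, 0⟩ 0 0) (.cut .s 12312576 (.pos 27 .mp ⟨111531776, 0, 0, 0, 0, 116327642, 0, 0, 0, ⟨0, 0⟩, 0⟩ 0 0) (.pos 27 .mp ⟨115589797, 0, 0, 0, 0, 120198579, 0, 0, 0, ⟨0, 0⟩, 0⟩ 0 0))) (.cut .s 12312576 (.pos 27 .mp ⟨108477019, 0, 0, 0, 0, 109092276, 0, 0, 0, ⟨0, 0⟩, 0⟩ 0 0) (.cut .s 12341248 (.pos 27 .mp ⟨110316026, 0, 0, 0, 0, 116220936, 0, 0, 0, ⟨0, 0⟩, 0⟩ 0 0) (.pos 27 .mp ⟨112178027, 0, 0, 0, 0, 118866476,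 0, 0, 0, ⟨0, 0⟩, 0⟩ 0 0)))) (.pos 27 .mp ⟨113133498, 0, 0, 0, 0, 102633316, 0, 0, 0, ⟨0, 0⟩, 0⟩ 0 0)) (.pos 27 .mp ⟨0, 0, 0, 0, 0, 0, 0, 0, 0, ⟨0, 0⟩, 0⟩ 0 0))) (.cut .s 12312576 (.pos 28 .mp ⟨157959782, 0, 0, 0, 0, 46842821, 0, 0, 0, ⟨0, 0⟩, 0⟩ 0 0) (.pos 28 .mp ⟨160147062, 0, 0, 0, 0, 54101223, 0, 0, 0, ⟨0, 0⟩, 0⟩ 0 0))) (.cut .v 17039360 (.cut .d (-65536) (.cut .l 1275068 (.cut .s 12427264 (.pos 27 .mp ⟨107326665, 0, 0, 0, 0, 158967630, 0, 0, 0, ⟨0, 0⟩, 0⟩ 0 0) (.pos 27 .mp ⟨111072671, 0, 0, 0, 0, 165063158, 0, 0, 0, ⟨0, 0⟩, 0⟩ 0 0)) (.pos 27 .mp ⟨78746872, 0, 0, 0, 0, 202433582, 0, 0, 0, ⟨0, 0⟩, 0⟩ 0 0)) (.cut .l 1275068 (.cut .l 822083 (.cut .d (-32768) (.cut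 .d (-49152) (.pos 27 .mp ⟨109733088, 0, 0, 0, 0, 167045666, 0, 0, 0, ⟨0, 0⟩, 0⟩ 0 0) (.cut .v 16908288 (.cut .s 12427264 (.pos 48 .mp ⟨108888311, 0, 0, 0, 0, 146082686, 0, 0, 0, ⟨0, 0⟩, 0⟩ 0 0) (.pos 48 .mp ⟨111411485, 0, 0, 0, 0, 154457373, 0, 0, 0, ⟨0, 0⟩, 0⟩ 0 0)) (.pos 49 .mp ⟨194571256, 0, 0, 0, 0, 8430074, 0, 0, 0, ⟨0, 0⟩, 0⟩ 0 0))) (.cut .d (-16384) (.cut .d (-24576) (.cut .s 12427264 (.pos 27 .mp ⟨114402585, 0, 0, 0, 0, 132564181, 0, 0, 0, ⟨0, 0⟩, 0⟩ 0 0) (.cut .s 12455936 (.pos 27 .mp ⟨115752638, 0, 0, 0, 0, 142283440, 0, 0, 0, ⟨0, 0⟩, 0⟩ 0 0) (.pos 27 .mp ⟨117745279, 0, 0, 0, 0, 145039001, 0, 0, 0, ⟨0, 0⟩, 0⟩ 0 0))) (.pos 27 .mp ⟨117981859, 0, 0, 0,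 0, 0, 0, 0, 0, ⟨0, 0⟩, 0⟩ 0 0)) (.pos 27 .mp ⟨111091403, 0, 0, 0, 0, 0, 0, 0, 0, ⟨0, 0⟩, 0⟩ 0 0))) (.pos 27 .mp ⟨121131973, 0, 0, 0, 0, 112212380, 0, 0, 0, ⟨0, 0⟩, 0⟩ 0 0)) (.pos 27 .mp ⟨0, 0, 0, 0, 0, 0, 0, 0, 0, ⟨0, 0⟩, 0⟩ 0 0))) (.cut .d (-65536) (.cut .l 1275068 (.pos 28 .mp ⟨215790525, 0, 0, 0, 0, 0, 0, 0, 0, ⟨0, 0⟩, 0⟩ 0 0) (.cut .s 12427264 (.pos 28 .mp ⟨133076211, 0, 0, 0, 0, 109881529, 0, 0, 0, ⟨0, 0⟩, 0⟩ 0 0) (.pos 28 .mp ⟨137937712, 0, 0, 0, 0, 114120839, 0, 0, 0, ⟨0, 0⟩, 0⟩ 0 0))) (.pos 28 .mp ⟨196304742, 0, 0, 0, 0, 0, 0, 0, 0, ⟨0, 0⟩, 0⟩ 0 0)))) (.pos 26 .mp ⟨201310392, 0, 0, 0, 0, 0, 0, 0, 0, ⟨0, 0⟩, 0⟩ 0 0)) (.cut .v 17301504 (.cut .s 12599296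 (.cut .v 17039360 (.cut .d (-65536) (.cut .v 16908288 (.pos 48 .mp ⟨0, 0, 0, 0, 0, 375425584, 0, 0, 0, ⟨0, 0⟩, 0⟩ 0 0) (.cut .l 1275068 (.cut .s 12541952 (.pos 49 .mp ⟨116760072, 0, 0, 0, 0, 168731623, 0, 0, 0, ⟨0, 0⟩, 0⟩ 0 0) (.pos 49 .mp ⟨120764821, 0, 0, 0, 0, 176047965, 0, 0, 0, ⟨0, 0⟩, 0⟩ 0 0)) (.cut .d (-98304) (.pos 49 .mp ⟨0, 0, 0, 0, 0, 371730909, 0, 0, 0, ⟨0, 0⟩, 0⟩ 0 0) (.pos 49 .mp ⟨110447504, 0, 0, 0, 0, 169623019, 0, 0, 0, ⟨0, 0⟩, 0⟩ 0 0)))) (.cut .l 1275068 (.cut .l 822083 (.cut .d (-32768) (.cut .d (-49152) (.pos 27 .mp ⟨117369419, 0, 0, 0, 0, 180830473, 0, 0, 0, ⟨0, 0⟩, 0⟩ 0 0) (.cut .v 16908288 (.cut .s 12541952 (.pos 48 .mp ⟨114309051, 0, 0,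 0, 0, 162740787, 0, 0, 0, ⟨0, 0⟩, 0⟩ 0 0) (.pos 48 .mp ⟨115520223, 0, 0, 0, 0, 175741787, 0, 0, 0, ⟨0, 0⟩, 0⟩ 0 0)) (.pos 49 .mp ⟨205308995, 0, 0, 0, 0, 15052647, 0, 0, 0, ⟨0, 0⟩, 0⟩ 0 0))) (.cut .d (-16384) (.cut .d (-24576) (.cut .s 12541952 (.cut .s 12513280 (.pos 27 .mp ⟨119746175, 0, 0, 0, 0, 147961349, 0, 0, 0, ⟨0, 0⟩, 0⟩ 0 0) (.pos 27 .mp ⟨121754122, 0, 0, 0, 0, 151056730, 0, 0, 0, ⟨0, 0⟩, 0⟩ 0 0)) (.pos 27 .mp ⟨126647259, 0, 0, 0, 0, 149099605, 0, 0, 0, ⟨0, 0⟩, 0⟩ 0 0)) (.pos 27 .mp ⟨125874394, 0, 0, 0, 0, 0, 0, 0, 0, ⟨0, 0⟩, 0⟩ 0 0)) (.pos 27 .mp ⟨118177797, 0, 0, 0, 0, 0, 0, 0, 0, ⟨0, 0⟩, 0⟩ 0 0))) (.pos 27 .mp ⟨129572807, 0, 0, 0, 0, 122875804, 0, 0,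 0, ⟨0, 0⟩, 0⟩ 0 0)) (.pos 27 .mp ⟨0, 0, 0, 0, 0, 0, 0, 0, 0, ⟨0, 0⟩, 0⟩ 0 0))) (.cut .d (-65536) (.cut .l 1275068 (.pos 28 .mp ⟨231895802, 0, 0, 0, 0, 0, 0, 0, 0, ⟨0, 0⟩, 0⟩ 0 0) (.cut .s 12541952 (.pos 28 .mp ⟨142947336, 0, 0, 0, 0, 118708501, 0, 0, 0, ⟨0, 0⟩, 0⟩ 0 0) (.pos 28 .mp ⟨148111082, 0, 0, 0, 0, 123641708, 0, 0, 0, ⟨0, 0⟩, 0⟩ 0 0))) (.pos 28 .mp ⟨210336196, 0, 0, 0, 0, 0, 0, 0, 0, ⟨0, 0⟩, 0⟩ 0 0))) (.cut .v 17039360 (.cut .d (-65536) (.cut .v 16908288 (.pos 48 .mp ⟨0, 0, 0, 0, 0, 406225836, 0, 0, 0, ⟨0, 0⟩, 0⟩ 0 0) (.cut .l 1275068 (.cut .s 12656640 (.pos 49 .mp ⟨124874746, 0, 0, 0, 0, 183817604, 0, 0, 0, ⟨0, 0⟩, 0⟩ 0 0) (.pos 49 .mp ⟨129094266, 0, 0,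 0, 0, 192041277, 0, 0, 0, ⟨0, 0⟩, 0⟩ 0 0)) (.cut .d (-98304) (.pos 49 .mp ⟨0, 0, 0, 0, 0, 401837498, 0, 0, 0, ⟨0, 0⟩, 0⟩ 0 0) (.pos 49 .mp ⟨118143856, 0, 0, 0, 0, 184273542, 0, 0, 0, ⟨0, 0⟩, 0⟩ 0 0)))) (.cut .l 1275068 (.cut .l 822083 (.cut .d (-32768) (.cut .d (-49152) (.pos 27 .mp ⟨125407539, 0, 0, 0, 0, 196930725, 0, 0, 0, ⟨0, 0⟩, 0⟩ 0 0) (.cut .v 16908288 (.cut .s 12656640 (.pos 48 .mp ⟨119322019, 0, 0, 0, 0, 183574851, 0, 0, 0, ⟨0, 0⟩, 0⟩ 0 0) (.pos 48 .mp ⟨123220114, 0, 0, 0, 0, 192045424, 0, 0, 0, ⟨0, 0⟩, 0⟩ 0 0)) (.pos 49 .mp ⟨219823605, 0, 0, 0, 0, 17729740, 0, 0, 0, ⟨0, 0⟩, 0⟩ 0 0))) (.cut .d (-16384) (.cut .s 12656640 (.cut .s 12627968 (.pos 27 .mp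 ⟨130049937, 0, 0, 0, 0, 147503793, 0, 0, 0, ⟨0, 0⟩, 0⟩ 0 0) (.pos 27 .mp ⟨132168997, 0, 0, 0, 0, 150879399, 0, 0, 0, ⟨0, 0⟩, 0⟩ 0 0)) (.pos 27 .mp ⟨136493901, 0, 0, 0, 0, 152399114, 0, 0, 0, ⟨0, 0⟩, 0⟩ 0 0)) (.pos 27 .mp ⟨125608589, 0, 0, 0, 0, 0, 0, 0, 0, ⟨0, 0⟩, 0⟩ 0 0))) (.pos 27 .mp ⟨138493421, 0, 0, 0, 0, 134497733, 0, 0, 0, ⟨0, 0⟩, 0⟩ 0 0)) (.pos 27 .mp ⟨0, 0, 0, 0, 0, 0, 0, 0, 0, ⟨0, 0⟩, 0⟩ 0 0))) (.cut .d (-65536) (.cut .l 1275068 (.pos 28 .mp ⟨249003181, 0, 0, 0, 0, 0, 0, 0, 0, ⟨0, 0⟩, 0⟩ 0 0) (.cut .s 12656640 (.pos 28 .mp ⟨153435289, 0, 0, 0, 0, 128917089, 0, 0, 0, ⟨0, 0⟩, 0⟩ 0 0) (.pos 28 .mp ⟨158926649, 0, 0, 0, 0, 134530661, 0, 0, 0, ⟨0, 0⟩, 0⟩ 0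 0))) (.pos 28 .mp ⟨225958781, 0, 0, 0, 0, 0, 0, 0, 0, ⟨0, 0⟩, 0⟩ 0 0)))) (.pos 26 .mp ⟨231895325, 0, 0, 0, 0, 0, 0, 0, 0, ⟨0, 0⟩, 0⟩ 0 0)))) (.pos 24 .mp ⟨251269472, 0, 0, 0, 0, 0, 0, 0, 0, ⟨0, 0⟩, 0⟩ 0 0))))) (.pos 22 .mp ⟨448243244, 0, 0, 0, 0, 0, 0, 0, 0, ⟨0, 0⟩, 0⟩ 0 0))) (.void 20 ⟨100000, 0, 0, 0, 0, 0, 0, 0, 0, ⟨0, 0⟩, 0⟩ 0 0)))) (.void 18 ⟨100000, 0, 0, 0, 0, 0, 0, 0, 0, ⟨0, 0⟩, 0⟩ 0 0)) (.void 45 ⟨100000, 0, 0, 0, 0, 0, 0, 0, 0, ⟨0, 0⟩, 0⟩ 0 0)) (.void 56 ⟨100000, 0, 0, 0, 0, 0, 0, 0, 0, ⟨0, 0⟩, 0⟩ 0 0)) (.void 83 ⟨93555, 0, 0, 6445, 0, 0, 0, 0, 0, ⟨0, 0⟩, 0⟩ 0 0))) (.cut .v 16777216 (.cut .v 8388608 (.cut .v 4194304 (.cut .v 2097152 (.cut .v 1048576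 (.void 90 ⟨0, 0, 19122, 0, 0, 0, 0, 0, 80878, ⟨0, 0⟩, 1983364⟩ 0 0) (.pos 91 .pm ⟨0, 0, 751070, 0, 0, 0, 0, 0, 0, ⟨0, 0⟩, 0⟩ 0 0)) (.cut .d 3095263 (.pos 68 .pm ⟨0, 0, 20361311, 0, 0, 0, 0, 0, 0, ⟨0, 0⟩, 0⟩ 0 0) (.pos 68 .pm ⟨0, 37104585, 0, 0, 0, 0, 0, 0, 0, ⟨0, 0⟩, 0⟩ 0 0))) (.cut .d 3095263 (.pos 5 .pm ⟨0, 0, 2979197, 0, 0, 0, 0, 0, 0, ⟨0, 0⟩, 0⟩ 0 0) (.cut .d 4642894 (.pos 5 .pm ⟨0, 0, 0, 0, 0, 0, 0, 0, 0, ⟨0, 0⟩, 0⟩ 0 0) (.cut .d 5416710 (.pos 5 .pm ⟨0, 51432189, 0, 0, 0, 0, 0, 0, 0, ⟨0, 0⟩, 0⟩ 0 0) (.pos 5 .pm ⟨0, 85074981, 0, 0, 0, 0, 0, 0, 0, ⟨0, 0⟩, 0⟩ 0 0))))) (.cut .d 3095263 (.pos 3 .pm ⟨0, 0, 0, 0, 0, 0, 0, 0, 0, ⟨0, 0⟩, 0⟩ 0 0) (.pos 3 .pm ⟨0, 72224491,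 0, 0, 0, 0, 0, 0, 0, ⟨0, 0⟩, 0⟩ 0 0))) (.cut .v 268435456 (.cut .v 67108864 (.cut .d 3095263 (.cut .d 1547631 (.cut .v 33554432 (.cut .d 773815 (.cut .v 25165824 (.cut .d 386907 (.cut .v 20971520 (.cut .v 18874368 (.pos 21 .pp ⟨147446925, 0, 0, 0, 0, 0, 0, 0, 0, ⟨0, 0⟩, 0⟩ 0 0) (.pos 22 .pp ⟨222249974, 0, 0, 0, 0, 0, 0, 0, 0, ⟨0, 0⟩, 0⟩ 0 0)) (.pos 20 .pp ⟨315597546, 0, 0, 0, 0, 0, 0, 0, 0, ⟨0, 0⟩, 0⟩ 0 0)) (.pos 17 .pp ⟨113714530, 0, 0, 0, 0, 0, 0, 0, 0, ⟨0, 0⟩, 0⟩ 0 0)) (.cut .d 386907 (.pos 18 .pp ⟨689626376, 0, 0, 0, 0, 0, 0, 0, 0, ⟨0, 0⟩, 0⟩ 0 0) (.pos 18 .pp ⟨411713412, 0, 0, 0, 0, 0, 0, 0, 0, ⟨0, 0⟩, 0⟩ 0 0))) (.pos 16 .pp ⟨101976240, 0, 0, 0, 0, 0, 0,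 0, 0, ⟨0, 0⟩, 0⟩ 0 0)) (.cut .d 773815 (.pos 45 .pp ⟨2248461819, 0, 0, 0, 0, 0, 0, 0, 0, ⟨0, 0⟩, 0⟩ 0 0) (.cut .v 50331648 (.cut .v 41943040 (.pos 50 .pp ⟨531154197, 0, 0, 0, 0, 0, 0, 0, 0, ⟨0, 0⟩, 0⟩ 0 0) (.pos 51 .pp ⟨952405561, 0, 0, 0, 0, 0, 0, 0, 0, ⟨0, 0⟩, 0⟩ 0 0)) (.cut .v 58720256 (.pos 92 .pp ⟨1483960399, 0, 0, 0, 0, 0, 0, 0, 0, ⟨0, 0⟩, 0⟩ 0 0) (.pos 93 .pp ⟨2070282523, 0, 0, 0, 0, 0, 0, 0, 0, ⟨0, 0⟩, 0⟩ 0 0))))) (.pos 44 .pp ⟨80857104, 29509001, 0, 0, 0, 0, 0, 0, 0, ⟨0, 0⟩, 0⟩ 0 0)) (.pos 44 .pp ⟨0, 59750237, 0, 0, 0, 0, 0, 0, 0, ⟨0, 0⟩, 0⟩ 0 0)) (.void 56 ⟨35775, 64225, 0, 0, 0, 0, 0, 0, 0, ⟨0, 0⟩, 0⟩ 0 0)) (.void 83 ⟨0, 0, 0, 100000, 0, 0, 0, 0, 0,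 ⟨0, 0⟩, 0⟩ 0 0)))),
    by decide +kernel⟩

def covers19 : cell.Covers table row19.1 :=
  ⟨(.cut .d 0 (.cut .v 16777216 (.cut .v 8388608 (.pos 2 .mm ⟨0, 0, 906369275, 0, 0, 0, 0, 0, 0, ⟨0, 0⟩, 0⟩ 0 0) (.cut .d (-8388608) (.void 3 ⟨0, 0, 0, 0, 0, 100000, 0, 0, 0, ⟨0, 0⟩, 0⟩ 0 0) (.cut .d (-4194304) (.void 3 ⟨0, 0, 0, 0, 0, 100000, 0, 0, 0, ⟨0, 0⟩, 0⟩ 0 0) (.cut .d (-2097152) (.void 3 ⟨0, 0, 0, 0, 0, 100000, 0, 0, 0, ⟨0, 0⟩, 0⟩ 0 0) (.cut .d (-1048576) (.void 3 ⟨0, 0, 0, 0, 0, 100000, 0, 0, 0, ⟨0, 0⟩, 0⟩ 0 0) (.cut .d (-524288) (.void 3 ⟨0, 0, 0, 0, 0, 100000, 0, 0, 0, ⟨0, 0⟩, 0⟩ 0 0) (.cut .d (-262144) (.void 3 ⟨0, 0, 0, 0, 0, 100000, 0, 0, 0, ⟨0, 0⟩, 0⟩ 0 0) (.cut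 .d (-131072) (.pos 3 .mm ⟨0, 0, 0, 0, 0, 565851508, 0, 0, 0, ⟨0, 0⟩, 0⟩ 0 0) (.cut .v 12582912 (.pos 6 .mm ⟨0, 0, 0, 0, 0, 278323892, 0, 0, 0, ⟨0, 0⟩, 0⟩ 0 0) (.cut .v 14680064 (.pos 10 .mm ⟨0, 0, 0, 0, 0, 381040430, 0, 0, 0, ⟨0, 0⟩, 0⟩ 0 0) (.cut .v 15728640 (.pos 12 .mm ⟨0, 0, 0, 0, 0, 424487754, 0, 0, 0, ⟨0, 0⟩, 0⟩ 0 0) (.cut .v 16252928 (.pos 14 .mm ⟨0, 0, 0, 0, 0, 447441373, 0, 0, 0, ⟨0, 0⟩, 0⟩ 0 0) (.cut .s 12976128 (.cut .s 12845056 (.pos 15 .mm ⟨0, 0, 0, 0, 0, 404115003, 0, 0, 0, ⟨0, 0⟩, 0⟩ 0 0) (.pos 15 .mm ⟨0, 0, 0, 0, 0, 443237349, 0, 0, 0, ⟨0, 0⟩, 0⟩ 0 0)) (.cut .s 13107200 (.pos 15 .mm ⟨0, 0, 0, 0, 0, 486032615, 0, 0, 0, ⟨0, 0⟩, 0⟩ 0 0) (.pos 15 .mm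 ⟨0, 0, 0, 0, 0, 532392887, 0, 0, 0, ⟨0, 0⟩, 0⟩ 0 0))))))))))))))) (.cut .v 268435456 (.cut .v 67108864 (.cut .v 33554432 (.cut .d (-8388608) (.void 16 ⟨100000, 0, 0, 0, 0, 0, 0, 0, 0, ⟨0, 0⟩, 0⟩ 0 0) (.cut .v 25165824 (.cut .d (-4194304) (.void 17 ⟨100000, 0, 0, 0, 0, 0, 0, 0, 0, ⟨0, 0⟩, 0⟩ 0 0) (.cut .v 20971520 (.cut .d (-2097152) (.void 19 ⟨100000, 0, 0, 0, 0, 0, 0, 0, 0, ⟨0, 0⟩, 0⟩ 0 0) (.cut .v 18874368 (.cut .d (-1048576) (.void 21 ⟨100000, 0, 0, 0, 0, 0, 0, 0, 0, ⟨0, 0⟩, 0⟩ 0 0) (.cut .d (-524288) (.void 21 ⟨100000, 0, 0, 0, 0, 0, 0, 0, 0, ⟨0, 0⟩, 0⟩ 0 0) (.cut .d (-262144) (.void 21 ⟨100000, 0, 0, 0, 0, 0, 0, 0, 0, ⟨0, 0⟩, 0⟩ 0 0) (.cut .d (-131072) (.cut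 .v 17825792 (.cut .v 17301504 (.cut .d (-196608) (.void 25 ⟨0, 0, 0, 0, 0, 100000, 0, 0, 0, ⟨0, 0⟩, 0⟩ 0 0) (.cut .l 1275068 (.void 25 ⟨0, 0, 0, 0, 0, 100000, 0, 0, 0, ⟨0, 0⟩, 0⟩ 0 0) (.cut .d (-163840) (.void 25 ⟨0, 0, 0, 0, 0, 100000, 0, 0, 0, ⟨0, 0⟩, 0⟩ 0 0) (.cut .l 1728053 (.void 25 ⟨0, 0, 0, 0, 0, 100000, 0, 0, 0, ⟨0, 0⟩, 0⟩ 0 0) (.cut .d (-147456) (.pos 25 .mp ⟨144529321, 0, 0, 0, 0, 345700423, 0, 0, 0, ⟨0, 0⟩, 0⟩ 0 0) (.cut .l 1954546 (.pos 25 .mp ⟨143449460, 0, 0, 0, 0, 343811244, 0, 0, 0, ⟨0, 0⟩, 0⟩ 0 0) (.cut .v 17039360 (.pos 27 .mp ⟨0, 0, 0, 0, 0, 502224471, 0, 0, 0, ⟨0, 0⟩, 0⟩ 0 0) (.cut .s 12976128 (.cut .s 12845056 (.cut .s 12779520 (.pos 28 .mp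 ⟨159154335, 0, 0, 0, 0, 158534822, 0, 0, 0, ⟨0, 0⟩, 0⟩ 0 0) (.pos 28 .mp ⟨152662473, 0, 0, 0, 0, 198935967, 0, 0, 0, ⟨0, 0⟩, 0⟩ 0 0)) (.cut .s 12910592 (.pos 28 .mp ⟨158669430, 0, 0, 0, 0, 208335460, 0, 0, 0, ⟨0, 0⟩, 0⟩ 0 0) (.pos 28 .mp ⟨162967713, 0, 0, 0, 0, 224078430, 0, 0, 0, ⟨0, 0⟩, 0⟩ 0 0))) (.pos 28 .mp ⟨169573681, 0, 0, 0, 0, 279796732, 0, 0, 0, ⟨0, 0⟩, 0⟩ 0 0))))))))) (.pos 26 .mp ⟨363289734, 0, 0, 0, 0, 0, 0, 0, 0, ⟨0, 0⟩, 0⟩ 0 0)) (.void 24 ⟨100000, 0, 0, 0, 0, 0, 0, 0, 0, ⟨0, 0⟩, 0⟩ 0 0)) (.cut .v 17825792 (.cut .s 12976128 (.cut .v 17301504 (.cut .s 12845056 (.cut .d (-65536) (.cut .l 1275068 (.cut .v 17039360 (.cut .s 12779520 (.pos 27 .mp ⟨131342902,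 0, 0, 0, 0, 207072400, 0, 0, 0, ⟨0, 0⟩, 0⟩ 0 0) (.pos 27 .mp ⟨136472176, 0, 0, 0, 0, 216327074, 0, 0, 0, ⟨0, 0⟩, 0⟩ 0 0)) (.pos 28 .mp ⟨273572253, 0, 0, 0, 0, 0, 0, 0, 0, ⟨0, 0⟩, 0⟩ 0 0)) (.cut .v 17039360 (.cut .s 12779520 (.pos 27 .mp ⟨103737266, 0, 0, 0, 0, 244426535, 0, 0, 0, ⟨0, 0⟩, 0⟩ 0 0) (.pos 27 .mp ⟨102511582, 0, 0, 0, 0, 264231116, 0, 0, 0, ⟨0, 0⟩, 0⟩ 0 0)) (.cut .d (-98304) (.cut .s 12779520 (.pos 28 .mp ⟨165567843, 0, 0, 0, 0, 143346118, 0, 0, 0, ⟨0, 0⟩, 0⟩ 0 0) (.cut .s 12812288 (.pos 28 .mp ⟨166505595, 0, 0, 0, 0, 155272880, 0, 0, 0, ⟨0, 0⟩, 0⟩ 0 0) (.pos 28 .mp ⟨169168737, 0, 0, 0, 0, 160088999, 0, 0, 0, ⟨0, 0⟩, 0⟩ 0 0))) (.pos 28 .mp ⟨161649966,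 0, 0, 0, 0, 146761055, 0, 0, 0, ⟨0, 0⟩, 0⟩ 0 0)))) (.cut .l 1275068 (.cut .v 17039360 (.cut .s 12779520 (.cut .l 822083 (.cut .v 16908288 (.cut .d (-32768) (.pos 48 .mp ⟨127242528, 0, 0, 0, 0, 204045244, 0, 0, 0, ⟨0, 0⟩, 0⟩ 0 0) (.cut .s 12746752 (.pos 48 .mp ⟨136914136, 0, 0, 0, 0, 163895662, 0, 0, 0, ⟨0, 0⟩, 0⟩ 0 0) (.pos 48 .mp ⟨139451299, 0, 0, 0, 0, 168051909, 0, 0, 0, ⟨0, 0⟩, 0⟩ 0 0))) (.pos 49 .mp ⟨214336989, 0, 0, 0, 0, 54595143, 0, 0, 0, ⟨0, 0⟩, 0⟩ 0 0)) (.pos 27 .mp ⟨143923134, 0, 0, 0, 0, 155550186, 0, 0, 0, ⟨0, 0⟩, 0⟩ 0 0)) (.cut .l 822083 (.cut .d (-32768) (.cut .s 12812288 (.pos 27 .mp ⟨138601595, 0, 0, 0, 0, 197935440, 0, 0, 0, ⟨0, 0⟩, 0⟩ 0 0) (.pos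 27 .mp ⟨140719136, 0, 0, 0, 0, 203676618, 0, 0, 0, ⟨0, 0⟩, 0⟩ 0 0)) (.cut .d (-16384) (.cut .s 12812288 (.pos 27 .mp ⟨144251638, 0, 0, 0, 0, 171972654, 0, 0, 0, ⟨0, 0⟩, 0⟩ 0 0) (.pos 27 .mp ⟨146896031, 0, 0, 0, 0, 176447598, 0, 0, 0, ⟨0, 0⟩, 0⟩ 0 0)) (.pos 27 .mp ⟨139980489, 0, 0, 0, 0, 0, 0, 0, 0, ⟨0, 0⟩, 0⟩ 0 0))) (.pos 27 .mp ⟨149475579, 0, 0, 0, 0, 163405267, 0, 0, 0, ⟨0, 0⟩, 0⟩ 0 0))) (.pos 28 .mp ⟨251876357, 0, 0, 0, 0, 0, 0, 0, 0, ⟨0, 0⟩, 0⟩ 0 0)) (.pos 25 .mp ⟨144029972, 0, 0, 0, 0, 0, 0, 0, 0, ⟨0, 0⟩, 0⟩ 0 0))) (.cut .d (-65536) (.cut .l 1275068 (.cut .v 17039360 (.cut .s 12910592 (.pos 27 .mp ⟨141731164, 0, 0, 0, 0, 226849509, 0, 0, 0, ⟨0, 0⟩, 0⟩ 0 0)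 (.pos 27 .mp ⟨147126740, 0, 0, 0, 0, 238310429, 0, 0, 0, ⟨0, 0⟩, 0⟩ 0 0)) (.pos 28 .mp ⟨296489090, 0, 0, 0, 0, 0, 0, 0, 0, ⟨0, 0⟩, 0⟩ 0 0)) (.cut .v 17039360 (.cut .s 12910592 (.pos 27 .mp ⟨102810140, 0, 0, 0, 0, 282685796, 0, 0, 0, ⟨0, 0⟩, 0⟩ 0 0) (.pos 27 .mp ⟨104931165, 0, 0, 0, 0, 299281980, 0, 0, 0, ⟨0, 0⟩, 0⟩ 0 0)) (.cut .v 17170432 (.cut .s 12910592 (.cut .s 12877824 (.pos 59 .mp ⟨173072246, 0, 0, 0, 0, 161006093, 0, 0, 0, ⟨0, 0⟩, 0⟩ 0 0) (.pos 59 .mp ⟨175972172, 0, 0, 0, 0, 165845894, 0, 0, 0, ⟨0, 0⟩, 0⟩ 0 0)) (.cut .s 12943360 (.pos 59 .mp ⟨179151189, 0, 0, 0, 0, 170479848, 0, 0, 0, ⟨0, 0⟩, 0⟩ 0 0) (.pos 59 .mp ⟨182630674, 0, 0, 0, 0, 174870060, 0, 0,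 0, ⟨0, 0⟩, 0⟩ 0 0))) (.pos 60 .mp ⟨278121513, 0, 0, 0, 0, 0, 0, 0, 0, ⟨0, 0⟩, 0⟩ 0 0)))) (.cut .l 1275068 (.cut .v 17039360 (.cut .d (-32768) (.cut .l 822083 (.cut .d (-49152) (.pos 27 .mp ⟨144289888, 0, 0, 0, 0, 245812667, 0, 0, 0, ⟨0, 0⟩, 0⟩ 0 0) (.cut .l 595590 (.cut .s 12910592 (.pos 27 .mp ⟨142996476, 0, 0, 0, 0, 227631655, 0, 0, 0, ⟨0, 0⟩, 0⟩ 0 0) (.pos 27 .mp ⟨148231962, 0, 0, 0, 0, 238929308, 0, 0, 0, ⟨0, 0⟩, 0⟩ 0 0)) (.cut .s 12910592 (.pos 27 .mp ⟨153732855, 0, 0, 0, 0, 180966094, 0, 0, 0, ⟨0, 0⟩, 0⟩ 0 0) (.pos 27 .mp ⟨159439640, 0, 0, 0, 0, 190340086, 0, 0, 0, ⟨0, 0⟩, 0⟩ 0 0)))) (.cut .s 12910592 (.pos 27 .mp ⟨152653649, 0, 0, 0, 0, 182492315, 0, 0,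 0, ⟨0, 0⟩, 0⟩ 0 0) (.pos 27 .mp ⟨158967323, 0, 0, 0, 0, 190583127, 0, 0, 0, ⟨0, 0⟩, 0⟩ 0 0))) (.cut .d (-16384) (.cut .v 16908288 (.cut .d (-24576) (.cut .s 12910592 (.pos 48 .mp ⟨149929969, 0, 0, 0, 0, 188250162, 0, 0, 0, ⟨0, 0⟩, 0⟩ 0 0) (.pos 48 .mp ⟨155379737, 0, 0, 0, 0, 198032294, 0, 0, 0, ⟨0, 0⟩, 0⟩ 0 0)) (.pos 48 .mp ⟨152189724, 0, 0, 0, 0, 172385520, 0, 0, 0, ⟨0, 0⟩, 0⟩ 0 0)) (.pos 49 .mp ⟨257926249, 0, 0, 0, 0, 0, 0, 0, 0, ⟨0, 0⟩, 0⟩ 0 0)) (.pos 27 .mp ⟨147799506, 0, 0, 0, 0, 0, 0, 0, 0, ⟨0, 0⟩, 0⟩ 0 0))) (.pos 28 .mp ⟨272781758, 0, 0, 0, 0, 0, 0, 0, 0, ⟨0, 0⟩, 0⟩ 0 0)) (.pos 25 .mp ⟨154459742, 0, 0, 0, 0, 0, 0, 0, 0, ⟨0, 0⟩, 0⟩ 0 0)))) (.cut .s 12845056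 (.pos 26 .mp ⟨260781162, 0, 0, 0, 0, 0, 0, 0, 0, ⟨0, 0⟩, 0⟩ 0 0) (.pos 26 .mp ⟨282594980, 0, 0, 0, 0, 0, 0, 0, 0, ⟨0, 0⟩, 0⟩ 0 0))) (.cut .v 17301504 (.cut .s 13107200 (.cut .d (-65536) (.cut .l 1275068 (.cut .v 17039360 (.pos 27 .mp ⟨152666248, 0, 0, 0, 0, 270434571, 0, 0, 0, ⟨0, 0⟩, 0⟩ 0 0) (.pos 28 .mp ⟨321294567, 0, 0, 0, 0, 0, 0, 0, 0, ⟨0, 0⟩, 0⟩ 0 0)) (.cut .v 17039360 (.cut .s 13041664 (.pos 27 .mp ⟨109190588, 0, 0, 0, 0, 313474558, 0, 0, 0, ⟨0, 0⟩, 0⟩ 0 0) (.pos 27 .mp ⟨115923681, 0, 0, 0, 0, 324678653, 0, 0, 0, ⟨0, 0⟩, 0⟩ 0 0)) (.cut .d (-98304) (.cut .s 13041664 (.cut .s 13008896 (.pos 28 .mp ⟨185491551, 0, 0, 0, 0, 182946698, 0, 0, 0, ⟨0, 0⟩, 0⟩ 0 0)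 (.pos 28 .mp ⟨189463678, 0, 0, 0, 0, 187080774, 0, 0, 0, ⟨0, 0⟩, 0⟩ 0 0)) (.pos 28 .mp ⟨202123694, 0, 0, 0, 0, 180734283, 0, 0, 0, ⟨0, 0⟩, 0⟩ 0 0)) (.pos 28 .mp ⟨188483454, 0, 0, 0, 0, 176681232, 0, 0, 0, ⟨0, 0⟩, 0⟩ 0 0)))) (.cut .l 1275068 (.cut .v 17039360 (.cut .d (-32768) (.cut .l 822083 (.cut .s 13041664 (.cut .s 13008896 (.pos 27 .mp ⟨153278796, 0, 0, 0, 0, 232635469, 0, 0, 0, ⟨0, 0⟩, 0⟩ 0 0) (.pos 27 .mp ⟨156249398, 0, 0, 0, 0, 238354953, 0, 0, 0, ⟨0, 0⟩, 0⟩ 0 0)) (.pos 27 .mp ⟨155477904, 0, 0, 0, 0, 260865828, 0, 0, 0, ⟨0, 0⟩, 0⟩ 0 0)) (.cut .s 13041664 (.pos 27 .mp ⟨164355480, 0, 0, 0, 0, 201886807, 0, 0, 0, ⟨0, 0⟩, 0⟩ 0 0) (.pos 27 .mp ⟨168548774, 0,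 0, 0, 0, 217015702, 0, 0, 0, ⟨0, 0⟩, 0⟩ 0 0))) (.cut .d (-16384) (.cut .v 16908288 (.cut .s 13041664 (.pos 48 .mp ⟨155489796, 0, 0, 0, 0, 218430601, 0, 0, 0, ⟨0, 0⟩, 0⟩ 0 0) (.pos 48 .mp ⟨158776106, 0, 0, 0, 0, 235324441, 0, 0, 0, ⟨0, 0⟩, 0⟩ 0 0)) (.pos 49 .mp ⟨279771558, 0, 0, 0, 0, 0, 0, 0, 0, ⟨0, 0⟩, 0⟩ 0 0)) (.pos 27 .mp ⟨157637663, 0, 0, 0, 0, 0, 0, 0, 0, ⟨0, 0⟩, 0⟩ 0 0))) (.pos 28 .mp ⟨296239272, 0, 0, 0, 0, 0, 0, 0, 0, ⟨0, 0⟩, 0⟩ 0 0)) (.pos 25 .mp ⟨165386175, 0, 0, 0, 0, 0, 0, 0, 0, ⟨0, 0⟩, 0⟩ 0 0))) (.cut .d (-65536) (.cut .l 1275068 (.pos 25 .mp ⟨169521140, 0, 0, 0, 0, 305434164, 0, 0, 0, ⟨0, 0⟩, 0⟩ 0 0) (.cut .v 17039360 (.pos 27 .mp ⟨70896510, 0, 0,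 0, 0, 434590881, 0, 0, 0, ⟨0, 0⟩, 0⟩ 0 0) (.cut .s 13172736 (.pos 28 .mp ⟨210229856, 0, 0, 0, 0, 188145559, 0, 0, 0, ⟨0, 0⟩, 0⟩ 0 0) (.pos 28 .mp ⟨218635380, 0, 0, 0, 0, 198403234, 0, 0, 0, ⟨0, 0⟩, 0⟩ 0 0)))) (.cut .l 1275068 (.cut .v 17039360 (.cut .d (-32768) (.cut .s 13172736 (.cut .l 822083 (.pos 27 .mp ⟨162176824, 0, 0, 0, 0, 272592157, 0, 0, 0, ⟨0, 0⟩, 0⟩ 0 0) (.pos 27 .mp ⟨155983211, 0, 0, 0, 0, 269887917, 0, 0, 0, ⟨0, 0⟩, 0⟩ 0 0)) (.pos 27 .mp ⟨159264210, 0, 0, 0, 0, 300224473, 0, 0, 0, ⟨0, 0⟩, 0⟩ 0 0)) (.cut .s 13172736 (.cut .s 13139968 (.pos 27 .mp ⟨172362586, 0, 0, 0, 0, 219671061, 0, 0, 0, ⟨0, 0⟩, 0⟩ 0 0) (.pos 27 .mp ⟨175396594, 0, 0, 0, 0, 225480689,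 0, 0, 0, ⟨0, 0⟩, 0⟩ 0 0)) (.pos 27 .mp ⟨181601292, 0, 0, 0, 0, 228885153, 0, 0, 0, ⟨0, 0⟩, 0⟩ 0 0))) (.pos 28 .mp ⟨322293714, 0, 0, 0, 0, 0, 0, 0, 0, ⟨0, 0⟩, 0⟩ 0 0)) (.pos 25 .mp ⟨176860153, 0, 0, 0, 0, 0, 0, 0, 0, ⟨0, 0⟩, 0⟩ 0 0)))) (.cut .s 13107200 (.pos 26 .mp ⟨307050919, 0, 0, 0, 0, 0, 0, 0, 0, ⟨0, 0⟩, 0⟩ 0 0) (.pos 26 .mp ⟨334195635, 0, 0, 0, 0, 0, 0, 0, 0, ⟨0, 0⟩, 0⟩ 0 0)))) (.pos 24 .mp ⟨319640225, 0, 0, 0, 0, 0, 0, 0, 0, ⟨0, 0⟩, 0⟩ 0 0)))))) (.pos 22 .mp ⟨631364228, 0, 0, 0, 0, 0, 0, 0, 0, ⟨0, 0⟩, 0⟩ 0 0))) (.void 20 ⟨100000, 0, 0, 0, 0, 0, 0, 0, 0, ⟨0, 0⟩, 0⟩ 0 0))) (.void 18 ⟨100000, 0, 0, 0, 0, 0, 0, 0, 0, ⟨0, 0⟩, 0⟩ 0 0))) (.void 45 ⟨100000, 0, 0,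 0, 0, 0, 0, 0, 0, ⟨0, 0⟩, 0⟩ 0 0)) (.void 56 ⟨100000, 0, 0, 0, 0, 0, 0, 0, 0, ⟨0, 0⟩, 0⟩ 0 0)) (.void 83 ⟨93307, 0, 0, 6693, 0, 0, 0, 0, 0, ⟨0, 0⟩, 0⟩ 0 0))) (.cut .v 16777216 (.cut .v 8388608 (.cut .v 4194304 (.cut .v 2097152 (.cut .v 1048576 (.pos 90 .pm ⟨0, 0, 19122686, 0, 0, 0, 0, 0, 22521070, ⟨0, 0⟩, 1983364⟩ 0 0) (.pos 91 .pm ⟨0, 1736991, 0, 0, 0, 0, 0, 0, 0, ⟨0, 0⟩, 0⟩ 0 0)) (.cut .d 2680896 (.pos 68 .pm ⟨0, 0, 32744670, 0, 0, 0, 0, 0, 0, ⟨0, 0⟩, 0⟩ 0 0) (.cut .d 4021344 (.pos 68 .pm ⟨0, 0, 0, 0, 0, 0, 0, 0, 0, ⟨0, 0⟩, 0⟩ 0 0) (.pos 68 .pm ⟨0, 64187920, 0, 0, 0, 0, 0, 0, 0, ⟨0, 0⟩, 0⟩ 0 0)))) (.cut .d 2680896 (.pos 5 .pm ⟨0, 0, 6899203, 0, 0, 0, 0, 0, 0,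 ⟨0, 0⟩, 0⟩ 0 0) (.cut .d 4021344 (.pos 5 .pm ⟨0, 0, 0, 0, 0, 0, 0, 0, 0, ⟨0, 0⟩, 0⟩ 0 0) (.pos 5 .pm ⟨0, 84799946, 0, 0, 0, 0, 0, 0, 0, ⟨0, 0⟩, 0⟩ 0 0)))) (.cut .d 2680896 (.pos 3 .pm ⟨0, 0, 0, 0, 0, 0, 0, 0, 0, ⟨0, 0⟩, 0⟩ 0 0) (.pos 3 .pm ⟨0, 86108750, 0, 0, 0, 0, 0, 0, 0, ⟨0, 0⟩, 0⟩ 0 0))) (.cut .v 268435456 (.cut .v 67108864 (.cut .d 2680896 (.cut .d 1340448 (.cut .v 33554432 (.cut .d 670224 (.cut .v 25165824 (.cut .d 335112 (.cut .v 20971520 (.cut .v 18874368 (.pos 21 .pp ⟨191285291, 0, 0, 0, 0, 0, 0, 0, 0, ⟨0, 0⟩, 0⟩ 0 0) (.pos 22 .pp ⟨294523361, 0, 0, 0, 0, 0, 0, 0, 0, ⟨0, 0⟩, 0⟩ 0 0)) (.pos 20 .pp ⟨417108393, 0, 0, 0, 0, 0, 0, 0, 0, ⟨0, 0⟩, 0⟩ 0 0)) (.pos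 17 .pp ⟨148944165, 0, 0, 0, 0, 0, 0, 0, 0, ⟨0, 0⟩, 0⟩ 0 0)) (.cut .d 335112 (.pos 18 .pp ⟨805474848, 0, 0, 0, 0, 0, 0, 0, 0, ⟨0, 0⟩, 0⟩ 0 0) (.pos 18 .pp ⟨531179124, 0, 0, 0, 0, 0, 0, 0, 0, ⟨0, 0⟩, 0⟩ 0 0))) (.pos 16 .pp ⟨139739433, 0, 0, 0, 0, 0, 0, 0, 0, ⟨0, 0⟩, 0⟩ 0 0)) (.cut .d 670224 (.cut .v 50331648 (.pos 46 .pp ⟨1705434516, 0, 0, 0, 0, 0, 0, 0, 0, ⟨0, 0⟩, 0⟩ 0 0) (.void 47 ⟨100000, 0, 0, 0, 0, 0, 0, 0, 0, ⟨0, 0⟩, 0⟩ 0 0)) (.cut .v 50331648 (.cut .v 41943040 (.pos 50 .pp ⟨687916107, 0, 0, 0, 0, 0, 0, 0, 0, ⟨0, 0⟩, 0⟩ 0 0) (.pos 51 .pp ⟨1204917067, 0, 0, 0, 0, 0, 0, 0, 0, ⟨0, 0⟩, 0⟩ 0 0)) (.cut .v 58720256 (.pos 92 .pp ⟨1872329514, 0, 0, 0, 0, 0, 0, 0, 0,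 ⟨0, 0⟩, 0⟩ 0 0) (.pos 93 .pp ⟨2624269847, 0, 0, 0, 0, 0, 0, 0, 0, ⟨0, 0⟩, 0⟩ 0 0))))) (.cut .v 33554432 (.pos 16 .pp ⟨0, 0, 0, 0, 0, 0, 0, 0, 0, ⟨0, 0⟩, 0⟩ 0 0) (.pos 45 .pp ⟨505200884, 113656783, 0, 0, 0, 0, 0, 0, 0, ⟨0, 0⟩, 0⟩ 0 0))) (.pos 44 .pp ⟨0, 63689190, 0, 0, 0, 0, 0, 0, 0, ⟨0, 0⟩, 0⟩ 0 0)) (.void 56 ⟨35332, 64668, 0, 0, 0, 0, 0, 0, 0, ⟨0, 0⟩, 0⟩ 0 0)) (.void 83 ⟨0, 0, 0, 100000, 0, 0, 0, 0, 0, ⟨0, 0⟩, 0⟩ 0 0)))),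
    by decide +kernel⟩

def covers20 : cell.Covers table row20.1 :=
  ⟨(.cut .d 0 (.cut .v 16777216 (.cut .v 8388608 (.void 2 ⟨0, 0, 100000, 0, 0, 0, 0, 0, 0, ⟨0, 0⟩, 0⟩ 0 0) (.cut .d (-8388608) (.void 3 ⟨76312, 0, 23688, 0, 0, 0, 0, 0, 0, ⟨0, 0⟩, 0⟩ 0 0) (.cut .d (-4194304) (.void 3 ⟨76312, 0, 23688, 0, 0, 0, 0, 0, 0, ⟨0, 0⟩, 0⟩ 0 0) (.cut .d (-2097152) (.void 3 ⟨0, 0, 0, 0, 0, 100000, 0, 0, 0, ⟨0, 0⟩, 0⟩ 0 0) (.cut .d (-1048576) (.void 3 ⟨0, 0, 0, 0, 0, 100000, 0, 0, 0, ⟨0, 0⟩, 0⟩ 0 0) (.cut .d (-524288) (.void 3 ⟨0, 0, 0, 0, 0, 100000, 0, 0, 0, ⟨0, 0⟩, 0⟩ 0 0) (.cut .d (-262144) (.void 3 ⟨0, 0, 0, 0, 0, 100000, 0, 0, 0, ⟨0, 0⟩, 0⟩ 0 0) (.cut .d (-131072) (.void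 3 ⟨0, 0, 0, 0, 0, 100000, 0, 0, 0, ⟨0, 0⟩, 0⟩ 0 0) (.cut .v 12582912 (.pos 6 .mm ⟨0, 0, 0, 0, 0, 416098031, 0, 0, 0, ⟨0, 0⟩, 0⟩ 0 0) (.cut .v 14680064 (.pos 10 .mm ⟨0, 0, 0, 0, 0, 571302794, 0, 0, 0, ⟨0, 0⟩, 0⟩ 0 0) (.cut .v 15728640 (.pos 12 .mm ⟨0, 0, 0, 0, 0, 629232114, 0, 0, 0, ⟨0, 0⟩, 0⟩ 0 0) (.cut .v 16252928 (.pos 14 .mm ⟨0, 0, 0, 0, 0, 659555723, 0, 0, 0, ⟨0, 0⟩, 0⟩ 0 0) (.cut .s 13500416 (.cut .s 13369344 (.pos 15 .mm ⟨0, 0, 0, 0, 0, 586131713, 0, 0, 0, ⟨0, 0⟩, 0⟩ 0 0) (.pos 15 .mm ⟨0, 0, 0, 0, 0, 642054512, 0, 0, 0, ⟨0, 0⟩, 0⟩ 0 0)) (.cut .s 13631488 (.pos 15 .mm ⟨0, 0, 0, 0, 0, 703378225, 0, 0, 0, ⟨0, 0⟩, 0⟩ 0 0) (.pos 15 .mm ⟨0, 0, 0, 0, 0, 769950096,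 0, 0, 0, ⟨0, 0⟩, 0⟩ 0 0))))))))))))))) (.cut .v 268435456 (.cut .v 67108864 (.cut .v 33554432 (.cut .d (-8388608) (.void 16 ⟨100000, 0, 0, 0, 0, 0, 0, 0, 0, ⟨0, 0⟩, 0⟩ 0 0) (.cut .v 25165824 (.cut .d (-4194304) (.void 17 ⟨100000, 0, 0, 0, 0, 0, 0, 0, 0, ⟨0, 0⟩, 0⟩ 0 0) (.cut .v 20971520 (.cut .d (-2097152) (.void 19 ⟨100000, 0, 0, 0, 0, 0, 0, 0, 0, ⟨0, 0⟩, 0⟩ 0 0) (.cut .v 18874368 (.cut .d (-1048576) (.void 21 ⟨100000, 0, 0, 0, 0, 0, 0, 0, 0, ⟨0, 0⟩, 0⟩ 0 0) (.cut .d (-524288) (.void 21 ⟨100000, 0, 0, 0, 0, 0, 0, 0, 0, ⟨0, 0⟩, 0⟩ 0 0) (.cut .d (-262144) (.void 21 ⟨100000, 0, 0, 0, 0, 0, 0, 0, 0, ⟨0, 0⟩, 0⟩ 0 0) (.cut .d (-131072) (.void 21 ⟨0, 0, 0, 0, 0, 100000,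 0, 0, 0, ⟨0, 0⟩, 0⟩ 0 0) (.cut .v 17825792 (.cut .s 13500416 (.cut .v 17301504 (.cut .d (-65536) (.cut .l 1275068 (.pos 25 .mp ⟨198713154, 0, 0, 0, 0, 368914660, 0, 0, 0, ⟨0, 0⟩, 0⟩ 0 0) (.cut .s 13369344 (.cut .v 17039360 (.pos 27 .mp ⟨62264905, 0, 0, 0, 0, 514124549, 0, 0, 0, ⟨0, 0⟩, 0⟩ 0 0) (.cut .d (-98304) (.pos 28 .mp ⟨186784818, 0, 0, 0, 0, 329555389, 0, 0, 0, ⟨0, 0⟩, 0⟩ 0 0) (.pos 28 .mp ⟨219807039, 0, 0, 0, 0, 234987719, 0, 0, 0, ⟨0, 0⟩, 0⟩ 0 0))) (.cut .v 17039360 (.cut .s 13434880 (.pos 27 .mp ⟨110551657, 0, 0, 0, 0, 465533030, 0, 0, 0, ⟨0, 0⟩, 0⟩ 0 0) (.pos 27 .mp ⟨99430240, 0, 0, 0, 0, 512666713, 0, 0, 0, ⟨0, 0⟩, 0⟩ 0 0)) (.cut .d (-98304) (.cut .s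 13434880 (.pos 28 .mp ⟨213083235, 0, 0, 0, 0, 305965187, 0, 0, 0, ⟨0, 0⟩, 0⟩ 0 0) (.cut .v 17170432 (.pos 59 .mp ⟨202708159, 0, 0, 0, 0, 350601497, 0, 0, 0, ⟨0, 0⟩, 0⟩ 0 0) (.pos 60 .mp ⟨421858078, 0, 0, 0, 0, 0, 0, 0, 0, ⟨0, 0⟩, 0⟩ 0 0))) (.cut .s 13434880 (.pos 28 .mp ⟨228431011, 0, 0, 0, 0, 254751736, 0, 0, 0, ⟨0, 0⟩, 0⟩ 0 0) (.cut .l 1728053 (.pos 28 .mp ⟨237317115, 0, 0, 0, 0, 272795863, 0, 0, 0, ⟨0, 0⟩, 0⟩ 0 0) (.pos 28 .mp ⟨225579806, 0, 0, 0, 0, 281648704, 0, 0, 0, ⟨0, 0⟩, 0⟩ 0 0))))))) (.cut .l 1275068 (.cut .s 13369344 (.cut .v 17039360 (.cut .d (-32768) (.cut .s 13303808 (.pos 27 .mp ⟨173063664, 0, 0, 0, 0, 302668487, 0, 0, 0, ⟨0, 0⟩, 0⟩ 0 0) (.cut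 .l 822083 (.pos 27 .mp ⟨177780971, 0, 0, 0, 0, 331836306, 0, 0, 0, ⟨0, 0⟩, 0⟩ 0 0) (.pos 27 .mp ⟨167568399, 0, 0, 0, 0, 333038042, 0, 0, 0, ⟨0, 0⟩, 0⟩ 0 0))) (.cut .d (-16384) (.cut .s 13303808 (.pos 27 .mp ⟨187598143, 0, 0, 0, 0, 260578949, 0, 0, 0, ⟨0, 0⟩, 0⟩ 0 0) (.pos 27 .mp ⟨194751736, 0, 0, 0, 0, 268989370, 0, 0, 0, ⟨0, 0⟩, 0⟩ 0 0)) (.pos 27 .mp ⟨186379026, 0, 0, 0, 0, 0, 0, 0, 0, ⟨0, 0⟩, 0⟩ 0 0))) (.pos 28 .mp ⟨353198910, 0, 0, 0, 0, 0, 0, 0, 0, ⟨0, 0⟩, 0⟩ 0 0)) (.cut .v 17039360 (.cut .d (-32768) (.cut .s 13434880 (.cut .l 822083 (.pos 27 .mp ⟨184057081, 0, 0, 0, 0, 344501621, 0, 0, 0, ⟨0, 0⟩, 0⟩ 0 0) (.pos 27 .mp ⟨173490757, 0, 0, 0, 0, 347760562, 0,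 0, 0, ⟨0, 0⟩, 0⟩ 0 0)) (.cut .l 822083 (.pos 27 .mp ⟨190451591, 0, 0, 0, 0, 359259249, 0, 0, 0, ⟨0, 0⟩, 0⟩ 0 0) (.cut .d (-49152) (.pos 27 .mp ⟨188329950, 0, 0, 0, 0, 356796596, 0, 0, 0, ⟨0, 0⟩, 0⟩ 0 0) (.pos 27 .mp ⟨206425537, 0, 0, 0, 0, 294922294, 0, 0, 0, ⟨0, 0⟩, 0⟩ 0 0)))) (.cut .d (-16384) (.cut .l 822083 (.cut .v 16908288 (.cut .l 595590 (.cut .s 13434880 (.pos 48 .mp ⟨178091276, 0, 0, 0, 0, 332573915, 0, 0, 0, ⟨0, 0⟩, 0⟩ 0 0) (.cut .s 13467648 (.pos 48 .mp ⟨187980931, 0, 0, 0, 0, 331942384, 0, 0, 0, ⟨0, 0⟩, 0⟩ 0 0) (.pos 48 .mp ⟨190087752, 0, 0, 0, 0, 342449686, 0, 0, 0, ⟨0, 0⟩, 0⟩ 0 0))) (.pos 48 .mp ⟨176121770, 0, 0, 0, 0, 328916862, 0, 0, 0, ⟨0, 0⟩,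 0⟩ 0 0)) (.pos 49 .mp ⟨370350026, 0, 0, 0, 0, 0, 0, 0, 0, ⟨0, 0⟩, 0⟩ 0 0)) (.pos 27 .mp ⟨0, 0, 0, 0, 0, 0, 0, 0, 0, ⟨0, 0⟩, 0⟩ 0 0)) (.pos 27 .mp ⟨199009130, 0, 0, 0, 0, 0, 0, 0, 0, ⟨0, 0⟩, 0⟩ 0 0))) (.pos 28 .mp ⟨380680084, 0, 0, 0, 0, 0, 0, 0, 0, ⟨0, 0⟩, 0⟩ 0 0))) (.pos 25 .mp ⟨211044919, 0, 0, 0, 0, 208160662, 0, 0, 0, ⟨0, 0⟩, 0⟩ 0 0))) (.cut .s 13369344 (.pos 26 .mp ⟨369618845, 0, 0, 0, 0, 0, 0, 0, 0, ⟨0, 0⟩, 0⟩ 0 0) (.pos 26 .mp ⟨399045204, 0, 0, 0, 0, 0, 0, 0, 0, ⟨0, 0⟩, 0⟩ 0 0))) (.cut .v 17301504 (.cut .d (-65536) (.cut .l 1275068 (.void 25 ⟨0, 0, 0, 0, 0, 100000, 0, 0, 0, ⟨0, 0⟩, 0⟩ 0 0) (.cut .s 13631488 (.cut .v 17039360 (.cut .s 13565952 (.pos 27 .mp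 ⟨91805370, 0, 0, 0, 0, 555756508, 0, 0, 0, ⟨0, 0⟩, 0⟩ 0 0) (.pos 27 .mp ⟨89083237, 0, 0, 0, 0, 592326192, 0, 0, 0, ⟨0, 0⟩, 0⟩ 0 0)) (.cut .d (-98304) (.cut .v 17170432 (.cut .s 13565952 (.cut .s 13533184 (.pos 59 .mp ⟨210599522, 0, 0, 0, 0, 356387394, 0, 0, 0, ⟨0, 0⟩, 0⟩ 0 0) (.pos 59 .mp ⟨214619682, 0, 0, 0, 0, 364690789, 0, 0, 0, ⟨0, 0⟩, 0⟩ 0 0)) (.pos 59 .mp ⟨218691651, 0, 0, 0, 0, 382967447, 0, 0, 0, ⟨0, 0⟩, 0⟩ 0 0)) (.pos 60 .mp ⟨447932152, 0, 0, 0, 0, 0, 0, 0, 0, ⟨0, 0⟩, 0⟩ 0 0)) (.cut .v 17170432 (.cut .s 13565952 (.cut .s 13533184 (.pos 59 .mp ⟨235931040, 0, 0, 0, 0, 290243650, 0, 0, 0, ⟨0, 0⟩, 0⟩ 0 0) (.pos 59 .mp ⟨239265306, 0, 0, 0, 0, 299484997, 0,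 0, 0, ⟨0, 0⟩, 0⟩ 0 0)) (.cut .s 13598720 (.pos 59 .mp ⟨243244744, 0, 0, 0, 0, 308007172, 0, 0, 0, ⟨0, 0⟩, 0⟩ 0 0) (.pos 59 .mp ⟨247911885, 0, 0, 0, 0, 315731549, 0, 0, 0, ⟨0, 0⟩, 0⟩ 0 0))) (.pos 60 .mp ⟨411501842, 0, 0, 0, 0, 0, 0, 0, 0, ⟨0, 0⟩, 0⟩ 0 0)))) (.cut .v 17039360 (.pos 27 .mp ⟨0, 0, 0, 0, 0, 802036348, 0, 0, 0, ⟨0, 0⟩, 0⟩ 0 0) (.cut .v 17170432 (.cut .d (-98304) (.pos 59 .mp ⟨226997896, 0, 0, 0, 0, 430972163, 0, 0, 0, ⟨0, 0⟩, 0⟩ 0 0) (.cut .s 13697024 (.cut .s 13664256 (.pos 59 .mp ⟨253310726, 0, 0, 0, 0, 322576492, 0, 0, 0, ⟨0, 0⟩, 0⟩ 0 0) (.pos 59 .mp ⟨259486810, 0, 0, 0, 0, 328457198, 0, 0, 0, ⟨0, 0⟩, 0⟩ 0 0)) (.pos 59 .mp ⟨271761989, 0, 0, 0, 0,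 330591833, 0, 0, 0, ⟨0, 0⟩, 0⟩ 0 0))) (.pos 60 .mp ⟨470347348, 0, 0, 0, 0, 0, 0, 0, 0, ⟨0, 0⟩, 0⟩ 0 0))))) (.cut .l 1275068 (.cut .s 13631488 (.cut .v 17039360 (.cut .d (-32768) (.cut .s 13565952 (.cut .l 822083 (.pos 27 .mp ⟨196972450, 0, 0, 0, 0, 376239689, 0, 0, 0, ⟨0, 0⟩, 0⟩ 0 0) (.cut .s 13533184 (.pos 27 .mp ⟨185627358, 0, 0, 0, 0, 374916623, 0, 0, 0, ⟨0, 0⟩, 0⟩ 0 0) (.pos 27 .mp ⟨188687343, 0, 0, 0, 0, 384510842, 0, 0, 0, ⟨0, 0⟩, 0⟩ 0 0))) (.cut .l 822083 (.pos 27 .mp ⟨203628249, 0, 0, 0, 0, 395583737, 0, 0, 0, ⟨0, 0⟩, 0⟩ 0 0) (.cut .s 13598720 (.pos 27 .mp ⟨191806250, 0, 0, 0, 0, 394449341, 0, 0, 0, ⟨0, 0⟩, 0⟩ 0 0) (.pos 27 .mp ⟨195341425, 0, 0, 0, 0,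 403954315, 0, 0, 0, ⟨0, 0⟩, 0⟩ 0 0)))) (.cut .d (-16384) (.cut .l 822083 (.cut .v 16908288 (.cut .l 595590 (.cut .d (-24576) (.pos 48 .mp ⟨194785509, 0, 0, 0, 0, 390855935, 0, 0, 0, ⟨0, 0⟩, 0⟩ 0 0) (.cut .s 13565952 (.cut .s 13533184 (.pos 48 .mp ⟨193417278, 0, 0, 0, 0, 350093825, 0, 0, 0, ⟨0, 0⟩, 0⟩ 0 0) (.pos 48 .mp ⟨196623183, 0, 0, 0, 0, 358960286, 0, 0, 0, ⟨0, 0⟩, 0⟩ 0 0)) (.pos 48 .mp ⟨196268034, 0, 0, 0, 0, 382691645, 0, 0, 0, ⟨0, 0⟩, 0⟩ 0 0))) (.pos 48 .mp ⟨188043542, 0, 0, 0, 0, 360079089, 0, 0, 0, ⟨0, 0⟩, 0⟩ 0 0)) (.pos 49 .mp ⟨398848594, 0, 0, 0, 0, 0, 0, 0, 0, ⟨0, 0⟩, 0⟩ 0 0)) (.pos 27 .mp ⟨210360126, 0, 0, 0, 0, 0, 0, 0, 0, ⟨0, 0⟩, 0⟩ 0 0)) (.pos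 27 .mp ⟨212163111, 0, 0, 0, 0, 0, 0, 0, 0, ⟨0, 0⟩, 0⟩ 0 0))) (.pos 28 .mp ⟨412031136, 0, 0, 0, 0, 0, 0, 0, 0, ⟨0, 0⟩, 0⟩ 0 0)) (.cut .v 17039360 (.cut .d (-32768) (.cut .l 822083 (.pos 27 .mp ⟨210428289, 0, 0, 0, 0, 445584010, 0, 0, 0, ⟨0, 0⟩, 0⟩ 0 0) (.cut .s 13697024 (.pos 27 .mp ⟨198106103, 0, 0, 0, 0, 422875598, 0, 0, 0, ⟨0, 0⟩, 0⟩ 0 0) (.pos 27 .mp ⟨204526048, 0, 0, 0, 0, 445801177, 0, 0, 0, ⟨0, 0⟩, 0⟩ 0 0))) (.cut .d (-16384) (.cut .l 822083 (.cut .v 16908288 (.cut .s 13697024 (.cut .s 13664256 (.pos 48 .mp ⟨205164341, 0, 0, 0, 0, 391215951, 0, 0, 0, ⟨0, 0⟩, 0⟩ 0 0) (.pos 48 .mp ⟨210073149, 0, 0, 0, 0, 398753173, 0, 0, 0, ⟨0, 0⟩, 0⟩ 0 0)) (.pos 48 .mp ⟨202546286,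 0, 0, 0, 0, 439547893, 0, 0, 0, ⟨0, 0⟩, 0⟩ 0 0)) (.pos 49 .mp ⟨432436716, 0, 0, 0, 0, 0, 0, 0, 0, ⟨0, 0⟩, 0⟩ 0 0)) (.pos 27 .mp ⟨221650683, 0, 0, 0, 0, 0, 0, 0, 0, ⟨0, 0⟩, 0⟩ 0 0)) (.pos 27 .mp ⟨225764079, 0, 0, 0, 0, 101933490, 0, 0, 0, ⟨0, 0⟩, 0⟩ 0 0))) (.pos 28 .mp ⟨447323475, 0, 0, 0, 0, 0, 0, 0, 0, ⟨0, 0⟩, 0⟩ 0 0))) (.cut .s 13631488 (.pos 25 .mp ⟨224161806, 0, 0, 0, 0, 282344287, 0, 0, 0, ⟨0, 0⟩, 0⟩ 0 0) (.pos 25 .mp ⟨236849273, 0, 0, 0, 0, 319707493, 0, 0, 0, ⟨0, 0⟩, 0⟩ 0 0)))) (.cut .s 13631488 (.pos 26 .mp ⟨431345251, 0, 0, 0, 0, 0, 0, 0, 0, ⟨0, 0⟩, 0⟩ 0 0) (.pos 26 .mp ⟨466342106, 0, 0, 0, 0, 0, 0, 0, 0, ⟨0, 0⟩, 0⟩ 0 0)))) (.pos 24 .mp ⟨451118117, 0,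 0, 0, 0, 0, 0, 0, 0, ⟨0, 0⟩, 0⟩ 0 0)))))) (.pos 22 .mp ⟨895862569, 0, 0, 0, 0, 0, 0, 0, 0, ⟨0, 0⟩, 0⟩ 0 0))) (.void 20 ⟨100000, 0, 0, 0, 0, 0, 0, 0, 0, ⟨0, 0⟩, 0⟩ 0 0))) (.void 18 ⟨100000, 0, 0, 0, 0, 0, 0, 0, 0, ⟨0, 0⟩, 0⟩ 0 0))) (.void 45 ⟨100000, 0, 0, 0, 0, 0, 0, 0, 0, ⟨0, 0⟩, 0⟩ 0 0)) (.void 56 ⟨100000, 0, 0, 0, 0, 0, 0, 0, 0, ⟨0, 0⟩, 0⟩ 0 0)) (.void 83 ⟨93060, 0, 0, 6940, 0, 0, 0, 0, 0, ⟨0, 0⟩, 0⟩ 0 0))) (.cut .v 16777216 (.cut .v 8388608 (.cut .v 4194304 (.cut .v 2097152 (.cut .v 1048576 (.pos 90 .pm ⟨0, 0, 13310737, 0, 0, 0, 0, 0, 0, ⟨0, 0⟩, 0⟩ 0 0) (.pos 91 .pm ⟨0, 1480055, 0, 0, 0, 0, 0, 0, 0, ⟨0, 0⟩, 0⟩ 0 0)) (.cut .d 2242500 (.pos 68 .pm ⟨0, 0, 79453072,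 0, 0, 0, 0, 0, 0, ⟨0, 0⟩, 0⟩ 0 0) (.pos 68 .pm ⟨0, 45135486, 0, 0, 0, 0, 0, 0, 0, ⟨0, 0⟩, 0⟩ 0 0))) (.cut .d 2242500 (.pos 5 .pm ⟨0, 0, 107297328, 0, 0, 0, 0, 0, 0, ⟨0, 0⟩, 0⟩ 0 0) (.pos 5 .pm ⟨0, 64805748, 0, 0, 0, 0, 0, 0, 0, ⟨0, 0⟩, 0⟩ 0 0))) (.pos 3 .pm ⟨0, 0, 0, 0, 0, 0, 0, 0, 0, ⟨0, 0⟩, 0⟩ 0 0)) (.cut .v 268435456 (.cut .v 67108864 (.cut .d 2242500 (.cut .d 1121250 (.cut .v 33554432 (.cut .d 560625 (.cut .v 25165824 (.cut .v 20971520 (.cut .v 18874368 (.pos 21 .pp ⟨247570770, 0, 0, 0, 0, 0, 0, 0, 0, ⟨0, 0⟩, 0⟩ 0 0) (.pos 22 .pp ⟨378435269, 0, 0, 0, 0, 0, 0, 0, 0, ⟨0, 0⟩, 0⟩ 0 0)) (.pos 20 .pp ⟨504457763, 0, 0, 0, 0, 0, 0, 0, 0, ⟨0, 0⟩, 0⟩ 0 0)) (.cut .d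 280312 (.pos 18 .pp ⟨1053222017, 0, 0, 0, 0, 0, 0, 0, 0, ⟨0, 0⟩, 0⟩ 0 0) (.pos 18 .pp ⟨695720229, 0, 0, 0, 0, 0, 0, 0, 0, ⟨0, 0⟩, 0⟩ 0 0))) (.pos 16 .pp ⟨190235082, 0, 0, 0, 0, 0, 0, 0, 0, ⟨0, 0⟩, 0⟩ 0 0)) (.cut .d 560625 (.cut .v 50331648 (.pos 46 .pp ⟨2209076944, 0, 0, 0, 0, 0, 0, 0, 0, ⟨0, 0⟩, 0⟩ 0 0) (.void 47 ⟨100000, 0, 0, 0, 0, 0, 0, 0, 0, ⟨0, 0⟩, 0⟩ 0 0)) (.cut .v 50331648 (.cut .v 41943040 (.pos 50 .pp ⟨915815775, 0, 0, 0, 0, 0, 0, 0, 0, ⟨0, 0⟩, 0⟩ 0 0) (.pos 51 .pp ⟨1561766651, 0, 0, 0, 0, 0, 0, 0, 0, ⟨0, 0⟩, 0⟩ 0 0)) (.cut .v 58720256 (.pos 92 .pp ⟨2398381462, 0, 0, 0, 0, 0, 0, 0, 0, ⟨0, 0⟩, 0⟩ 0 0) (.cut .d 840937 (.void 93 ⟨100000, 0, 0, 0, 0, 0,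 0, 0, 0, ⟨0, 0⟩, 0⟩ 0 0) (.pos 93 .pp ⟨3085616969, 0, 0, 0, 0, 0, 0, 0, 0, ⟨0, 0⟩, 0⟩ 0 0)))))) (.cut .v 33554432 (.pos 16 .pp ⟨0, 0, 0, 0, 0, 0, 0, 0, 0, ⟨0, 0⟩, 0⟩ 0 0) (.cut .v 50331648 (.pos 46 .pp ⟨0, 0, 0, 0, 0, 0, 0, 0, 0, ⟨0, 0⟩, 0⟩ 0 0) (.pos 47 .pp ⟨1509896211, 264509588, 0, 0, 0, 0, 0, 0, 0, ⟨0, 0⟩, 0⟩ 0 0)))) (.pos 44 .pp ⟨0, 51463104, 0, 0, 0, 0, 0, 0, 0, ⟨0, 0⟩, 0⟩ 0 0)) (.void 56 ⟨34966, 65034, 0, 0, 0, 0, 0, 0, 0, ⟨0, 0⟩, 0⟩ 0 0)) (.void 83 ⟨0, 0, 0, 100000, 0, 0, 0, 0, 0, ⟨0, 0⟩, 0⟩ 0 0)))),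
    by decide +kernel⟩

def covers21 : cell.Covers table row21.1 :=
  ⟨(.cut .d 0 (.cut .v 16777216 (.cut .v 8388608 (.void 2 ⟨0, 0, 100000, 0, 0, 0, 0, 0, 0, ⟨0, 0⟩, 0⟩ 0 0) (.cut .d (-8388608) (.void 3 ⟨100000, 0, 0, 0, 0, 0, 0, 0, 0, ⟨0, 0⟩, 0⟩ 0 0) (.cut .d (-4194304) (.void 3 ⟨100000, 0, 0, 0, 0, 0, 0, 0, 0, ⟨0, 0⟩, 0⟩ 0 0) (.cut .d (-2097152) (.void 3 ⟨0, 0, 0, 0, 0, 100000, 0, 0, 0, ⟨0, 0⟩, 0⟩ 0 0) (.cut .d (-1048576) (.void 3 ⟨0, 0, 0, 0, 0, 100000, 0, 0, 0, ⟨0, 0⟩, 0⟩ 0 0) (.cut .d (-524288) (.void 3 ⟨0, 0, 0, 0, 0, 100000, 0, 0, 0, ⟨0, 0⟩, 0⟩ 0 0) (.cut .d (-262144) (.void 3 ⟨0, 0, 0, 0, 0, 100000, 0, 0, 0, ⟨0, 0⟩, 0⟩ 0 0) (.cut .d (-131072) (.void 3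 ⟨0, 0, 0, 0, 0, 100000, 0, 0, 0, ⟨0, 0⟩, 0⟩ 0 0) (.cut .d (-65536) (.pos 3 .mm ⟨0, 0, 0, 0, 0, 1024091596, 0, 0, 0, ⟨0, 0⟩, 0⟩ 0 0) (.cut .s 13959168 (.pos 3 .mm ⟨0, 0, 0, 0, 0, 859157916, 0, 0, 0, ⟨0, 0⟩, 0⟩ 0 0) (.cut .s 14057472 (.pos 3 .mm ⟨0, 0, 0, 0, 0, 931654988, 0, 0, 0, ⟨0, 0⟩, 0⟩ 0 0) (.pos 3 .mm ⟨0, 0, 0, 0, 0, 997157494, 0, 0, 0, ⟨0, 0⟩, 0⟩ 0 0)))))))))))) (.cut .v 268435456 (.cut .v 67108864 (.cut .v 33554432 (.cut .d (-8388608) (.void 16 ⟨100000, 0, 0, 0, 0, 0, 0, 0, 0, ⟨0, 0⟩, 0⟩ 0 0) (.cut .v 25165824 (.cut .d (-4194304) (.void 17 ⟨100000, 0, 0, 0, 0, 0, 0, 0, 0, ⟨0, 0⟩, 0⟩ 0 0) (.cut .v 20971520 (.cut .d (-2097152) (.void 19 ⟨100000, 0, 0, 0,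 0, 0, 0, 0, 0, ⟨0, 0⟩, 0⟩ 0 0) (.cut .d (-1048576) (.void 19 ⟨100000, 0, 0, 0, 0, 0, 0, 0, 0, ⟨0, 0⟩, 0⟩ 0 0) (.cut .d (-524288) (.void 19 ⟨100000, 0, 0, 0, 0, 0, 0, 0, 0, ⟨0, 0⟩, 0⟩ 0 0) (.cut .d (-262144) (.void 19 ⟨100000, 0, 0, 0, 0, 0, 0, 0, 0, ⟨0, 0⟩, 0⟩ 0 0) (.cut .d (-131072) (.void 19 ⟨0, 0, 0, 0, 0, 100000, 0, 0, 0, ⟨0, 0⟩, 0⟩ 0 0) (.cut .v 18874368 (.cut .v 17825792 (.cut .d (-65536) (.cut .v 17301504 (.cut .l 1275068 (.void 25 ⟨0, 0, 0, 0, 0, 100000, 0, 0, 0, ⟨0, 0⟩, 0⟩ 0 0) (.cut .d (-98304) (.pos 25 .mp ⟨240373756, 0, 0, 0, 0, 705033675, 0, 0, 0, ⟨0, 0⟩, 0⟩ 0 0) (.cut .s 13959168 (.cut .v 17039360 (.cut .s 13860864 (.pos 27 .mp ⟨146222144, 0, 0,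 0, 0, 617751124, 0, 0, 0, ⟨0, 0⟩, 0⟩ 0 0) (.pos 27 .mp ⟨0, 0, 0, 0, 0, 949702801, 0, 0, 0, ⟨0, 0⟩, 0⟩ 0 0)) (.cut .v 17170432 (.cut .s 13860864 (.cut .s 13811712 (.pos 59 .mp ⟨279788671, 0, 0, 0, 0, 357761605, 0, 0, 0, ⟨0, 0⟩, 0⟩ 0 0) (.pos 59 .mp ⟨285490233, 0, 0, 0, 0, 372360625, 0, 0, 0, ⟨0, 0⟩, 0⟩ 0 0)) (.cut .l 1728053 (.pos 59 .mp ⟨289728263, 0, 0, 0, 0, 429546352, 0, 0, 0, ⟨0, 0⟩, 0⟩ 0 0) (.cut .d (-81920) (.cut .s 13910016 (.pos 59 .mp ⟨245541401, 0, 0, 0, 0, 487433149, 0, 0, 0, ⟨0, 0⟩, 0⟩ 0 0) (.pos 59 .mp ⟨252485125, 0, 0, 0, 0, 501532899, 0, 0, 0, ⟨0, 0⟩, 0⟩ 0 0)) (.pos 59 .mp ⟨274623727, 0, 0, 0, 0, 418071360, 0, 0, 0, ⟨0, 0⟩, 0⟩ 0 0)))) (.pos 60 .mp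 ⟨524549074, 0, 0, 0, 0, 0, 0, 0, 0, ⟨0, 0⟩, 0⟩ 0 0))) (.cut .s 14057472 (.cut .v 17039360 (.pos 27 .mp ⟨0, 0, 0, 0, 0, 1007401621, 0, 0, 0, ⟨0, 0⟩, 0⟩ 0 0) (.cut .l 1728053 (.pos 28 .mp ⟨320885517, 0, 0, 0, 0, 432307680, 0, 0, 0, ⟨0, 0⟩, 0⟩ 0 0) (.cut .v 17170432 (.cut .d (-81920) (.cut .s 14008320 (.pos 59 .mp ⟨259521574, 0, 0, 0, 0, 518268205, 0, 0, 0, ⟨0, 0⟩, 0⟩ 0 0) (.pos 59 .mp ⟨266656416, 0, 0, 0, 0, 536596924, 0, 0, 0, ⟨0, 0⟩, 0⟩ 0 0)) (.cut .s 14008320 (.pos 59 .mp ⟨282220835, 0, 0, 0, 0, 449519704, 0, 0, 0, ⟨0, 0⟩, 0⟩ 0 0) (.pos 59 .mp ⟨287134787, 0, 0, 0, 0, 471484356, 0, 0, 0, ⟨0, 0⟩, 0⟩ 0 0))) (.pos 60 .mp ⟨568279438, 0, 0, 0, 0, 0, 0, 0, 0, ⟨0, 0⟩,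 0⟩ 0 0)))) (.cut .v 17039360 (.pos 27 .mp ⟨0, 0, 0, 0, 0, 1074617816, 0, 0, 0, ⟨0, 0⟩, 0⟩ 0 0) (.cut .s 14106624 (.cut .d (-81920) (.pos 28 .mp ⟨278396592, 0, 0, 0, 0, 561698802, 0, 0, 0, ⟨0, 0⟩, 0⟩ 0 0) (.pos 28 .mp ⟨319455418, 0, 0, 0, 0, 450490719, 0, 0, 0, ⟨0, 0⟩, 0⟩ 0 0)) (.pos 28 .mp ⟨346912541, 0, 0, 0, 0, 444472175, 0, 0, 0, ⟨0, 0⟩, 0⟩ 0 0))))))) (.pos 26 .mp ⟨596495461, 0, 0, 0, 0, 0, 0, 0, 0, ⟨0, 0⟩, 0⟩ 0 0)) (.cut .v 17301504 (.cut .s 13959168 (.cut .s 13860864 (.cut .v 17039360 (.cut .l 1275068 (.cut .d (-32768) (.cut .s 13811712 (.pos 27 .mp ⟨223258553, 0, 0, 0, 0, 452950744, 0, 0, 0, ⟨0, 0⟩, 0⟩ 0 0) (.pos 27 .mp ⟨222258421, 0, 0, 0, 0, 481721152,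 0, 0, 0, ⟨0, 0⟩, 0⟩ 0 0)) (.cut .d (-16384) (.cut .s 13811712 (.pos 27 .mp ⟨244066172, 0, 0, 0, 0, 391784625, 0, 0, 0, ⟨0, 0⟩, 0⟩ 0 0) (.cut .s 13836288 (.pos 27 .mp ⟨241534732, 0, 0, 0, 0, 417857216, 0, 0, 0, ⟨0, 0⟩, 0⟩ 0 0) (.pos 27 .mp ⟨246645515, 0, 0, 0, 0, 419754412, 0, 0, 0, ⟨0, 0⟩, 0⟩ 0 0))) (.pos 27 .mp ⟨236735987, 0, 0, 0, 0, 382502017, 0, 0, 0, ⟨0, 0⟩, 0⟩ 0 0))) (.pos 27 .mp ⟨187014137, 0, 0, 0, 0, 497196047, 0, 0, 0, ⟨0, 0⟩, 0⟩ 0 0)) (.pos 28 .mp ⟨470163413, 0, 0, 0, 0, 0, 0, 0, 0, ⟨0, 0⟩, 0⟩ 0 0)) (.cut .v 17039360 (.cut .d (-32768) (.cut .l 1275068 (.cut .l 822083 (.pos 27 .mp ⟨238025377, 0, 0, 0, 0, 521599108, 0, 0, 0, ⟨0, 0⟩, 0⟩ 0 0) (.cut .s 13910016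 (.pos 27 .mp ⟨221731244, 0, 0, 0, 0, 506573946, 0, 0, 0, ⟨0, 0⟩, 0⟩ 0 0) (.cut .s 13934592 (.pos 27 .mp ⟨227120785, 0, 0, 0, 0, 515688535, 0, 0, 0, ⟨0, 0⟩, 0⟩ 0 0) (.pos 27 .mp ⟨229826654, 0, 0, 0, 0, 525480863, 0, 0, 0, ⟨0, 0⟩, 0⟩ 0 0)))) (.cut .s 13910016 (.pos 27 .mp ⟨203820310, 0, 0, 0, 0, 526090116, 0, 0, 0, ⟨0, 0⟩, 0⟩ 0 0) (.pos 27 .mp ⟨206700650, 0, 0, 0, 0, 548855915, 0, 0, 0, ⟨0, 0⟩, 0⟩ 0 0))) (.cut .l 1275068 (.cut .l 822083 (.cut .v 16908288 (.cut .d (-16384) (.cut .s 13910016 (.pos 48 .mp ⟨220179109, 0, 0, 0, 0, 495383412, 0, 0, 0, ⟨0, 0⟩, 0⟩ 0 0) (.cut .s 13934592 (.pos 48 .mp ⟨235505653, 0, 0, 0, 0, 484186747, 0, 0, 0, ⟨0, 0⟩, 0⟩ 0 0) (.pos 48 .mp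 ⟨236928084, 0, 0, 0, 0, 496276706, 0, 0, 0, ⟨0, 0⟩, 0⟩ 0 0))) (.cut .s 13910016 (.pos 48 .mp ⟨238273645, 0, 0, 0, 0, 425963685, 0, 0, 0, ⟨0, 0⟩, 0⟩ 0 0) (.pos 48 .mp ⟨243724822, 0, 0, 0, 0, 443281483, 0, 0, 0, ⟨0, 0⟩, 0⟩ 0 0))) (.pos 49 .mp ⟨475746357, 0, 0, 0, 0, 43864933, 0, 0, 0, ⟨0, 0⟩, 0⟩ 0 0)) (.pos 27 .mp ⟨247469134, 0, 0, 0, 0, 0, 0, 0, 0, ⟨0, 0⟩, 0⟩ 0 0)) (.pos 27 .mp ⟨0, 0, 0, 0, 0, 0, 0, 0, 0, ⟨0, 0⟩, 0⟩ 0 0))) (.cut .l 1275068 (.pos 28 .mp ⟨519233973, 0, 0, 0, 0, 0, 0, 0, 0, ⟨0, 0⟩, 0⟩ 0 0) (.pos 28 .mp ⟨360734658, 0, 0, 0, 0, 247855015, 0, 0, 0, ⟨0, 0⟩, 0⟩ 0 0)))) (.cut .s 14057472 (.cut .l 1275068 (.cut .v 17039360 (.cut .d (-32768) (.cut .l 822083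 (.pos 27 .mp ⟨247469134, 0, 0, 0, 0, 565988091, 0, 0, 0, ⟨0, 0⟩, 0⟩ 0 0) (.cut .s 14008320 (.cut .s 13983744 (.pos 27 .mp ⟨232540305, 0, 0, 0, 0, 535651941, 0, 0, 0, ⟨0, 0⟩, 0⟩ 0 0) (.pos 27 .mp ⟨235262041, 0, 0, 0, 0, 546203822, 0, 0, 0, ⟨0, 0⟩, 0⟩ 0 0)) (.pos 27 .mp ⟨237992170, 0, 0, 0, 0, 566870481, 0, 0, 0, ⟨0, 0⟩, 0⟩ 0 0))) (.cut .l 822083 (.cut .v 16908288 (.cut .d (-16384) (.cut .s 14008320 (.cut .s 13983744 (.pos 48 .mp ⟨238747969, 0, 0, 0, 0, 507968196, 0, 0, 0, ⟨0, 0⟩, 0⟩ 0 0) (.pos 48 .mp ⟨240985426, 0, 0, 0, 0, 519222755, 0, 0, 0, ⟨0, 0⟩, 0⟩ 0 0)) (.pos 48 .mp ⟨233848383, 0, 0, 0, 0, 558932445, 0, 0, 0, ⟨0, 0⟩, 0⟩ 0 0)) (.cut .s 14008320 (.pos 48 .mp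 ⟨249231022, 0, 0, 0, 0, 461501996, 0, 0, 0, ⟨0, 0⟩, 0⟩ 0 0) (.pos 48 .mp ⟨254795905, 0, 0, 0, 0, 480607317, 0, 0, 0, ⟨0, 0⟩, 0⟩ 0 0))) (.pos 49 .mp ⟨495573741, 0, 0, 0, 0, 63294607, 0, 0, 0, ⟨0, 0⟩, 0⟩ 0 0)) (.pos 27 .mp ⟨258689816, 0, 0, 0, 0, 335750888, 0, 0, 0, ⟨0, 0⟩, 0⟩ 0 0))) (.pos 28 .mp ⟨550432739, 0, 0, 0, 0, 0, 0, 0, 0, ⟨0, 0⟩, 0⟩ 0 0)) (.cut .d (-32768) (.cut .d (-49152) (.cut .l 1728053 (.cut .v 17039360 (.pos 27 .mp ⟨232382731, 0, 0, 0, 0, 551051773, 0, 0, 0, ⟨0, 0⟩, 0⟩ 0 0) (.pos 28 .mp ⟨388887268, 0, 0, 0, 0, 266062495, 0, 0, 0, ⟨0, 0⟩, 0⟩ 0 0)) (.pos 25 .mp ⟨268887647, 0, 0, 0, 0, 0, 0, 0, 0, ⟨0, 0⟩, 0⟩ 0 0)) (.pos 25 .mp ⟨268425832, 0, 0, 0, 0,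 0, 0, 0, 0, ⟨0, 0⟩, 0⟩ 0 0)) (.pos 25 .mp ⟨0, 0, 0, 0, 0, 0, 0, 0, 0, ⟨0, 0⟩, 0⟩ 0 0))) (.cut .l 1275068 (.cut .v 17039360 (.cut .d (-32768) (.cut .s 14106624 (.pos 27 .mp ⟨243478914, 0, 0, 0, 0, 596619381, 0, 0, 0, ⟨0, 0⟩, 0⟩ 0 0) (.pos 27 .mp ⟨249003249, 0, 0, 0, 0, 622520863, 0, 0, 0, ⟨0, 0⟩, 0⟩ 0 0)) (.cut .d (-16384) (.cut .l 822083 (.cut .v 16908288 (.cut .s 14106624 (.pos 48 .mp ⟨238928632, 0, 0, 0, 0, 582639389, 0, 0, 0, ⟨0, 0⟩, 0⟩ 0 0) (.pos 48 .mp ⟨244035104, 0, 0, 0, 0, 608185821, 0, 0, 0, ⟨0, 0⟩, 0⟩ 0 0)) (.pos 49 .mp ⟨516690136, 0, 0, 0, 0, 88640960, 0, 0, 0, ⟨0, 0⟩, 0⟩ 0 0)) (.pos 27 .mp ⟨259345759, 0, 0, 0, 0, 509005102, 0, 0, 0, ⟨0, 0⟩, 0⟩ 0 0))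 (.pos 27 .mp ⟨270323190, 0, 0, 0, 0, 484061685, 0, 0, 0, ⟨0, 0⟩, 0⟩ 0 0))) (.pos 28 .mp ⟨583748089, 0, 0, 0, 0, 0, 0, 0, 0, ⟨0, 0⟩, 0⟩ 0 0)) (.cut .v 17039360 (.cut .s 14106624 (.pos 27 .mp ⟨211271854, 0, 0, 0, 0, 618723079, 0, 0, 0, ⟨0, 0⟩, 0⟩ 0 0) (.pos 27 .mp ⟨215140986, 0, 0, 0, 0, 644206548, 0, 0, 0, ⟨0, 0⟩, 0⟩ 0 0)) (.pos 28 .mp ⟨365308608, 0, 0, 0, 0, 355668763, 0, 0, 0, ⟨0, 0⟩, 0⟩ 0 0))))) (.cut .s 13959168 (.pos 26 .mp ⟨498923976, 0, 0, 0, 0, 0, 0, 0, 0, ⟨0, 0⟩, 0⟩ 0 0) (.pos 26 .mp ⟨559998780, 0, 0, 0, 0, 0, 0, 0, 0, ⟨0, 0⟩, 0⟩ 0 0)))) (.pos 24 .mp ⟨595313246, 0, 0, 0, 0, 0, 0, 0, 0, ⟨0, 0⟩, 0⟩ 0 0)) (.pos 22 .mp ⟨673536730, 0, 0, 0, 0, 0, 0, 0, 0, ⟨0,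 0⟩, 0⟩ 0 0))))))) (.void 20 ⟨100000, 0, 0, 0, 0, 0, 0, 0, 0, ⟨0, 0⟩, 0⟩ 0 0))) (.void 18 ⟨100000, 0, 0, 0, 0, 0, 0, 0, 0, ⟨0, 0⟩, 0⟩ 0 0))) (.void 45 ⟨100000, 0, 0, 0, 0, 0, 0, 0, 0, ⟨0, 0⟩, 0⟩ 0 0)) (.void 56 ⟨100000, 0, 0, 0, 0, 0, 0, 0, 0, ⟨0, 0⟩, 0⟩ 0 0)) (.void 83 ⟨92876, 0, 0, 7124, 0, 0, 0, 0, 0, ⟨0, 0⟩, 0⟩ 0 0))) (.cut .v 16777216 (.cut .v 8388608 (.cut .v 4194304 (.cut .v 2097152 (.cut .v 1048576 (.pos 90 .pm ⟨0, 0, 15175969, 0, 0, 0, 0, 0, 0, ⟨0, 0⟩, 0⟩ 0 0) (.pos 91 .pm ⟨0, 0, 6142396, 0, 0, 0, 0, 0, 0, ⟨0, 0⟩, 0⟩ 0 0)) (.pos 68 .pm ⟨0, 0, 2918044, 0, 0, 0, 0, 0, 0, ⟨0, 0⟩, 0⟩ 0 0)) (.pos 5 .pm ⟨0, 0, 2673026, 0, 0, 0, 0, 0, 0, ⟨0, 0⟩, 0⟩ 0 0)) (.pos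 3 .pm ⟨0, 0, 0, 0, 0, 0, 0, 0, 0, ⟨0, 0⟩, 0⟩ 0 0)) (.cut .v 268435456 (.cut .v 67108864 (.cut .d 1837506 (.cut .d 918753 (.cut .v 33554432 (.cut .d 459376 (.cut .v 25165824 (.cut .v 20971520 (.pos 19 .pp ⟨389758044, 0, 0, 0, 0, 0, 0, 0, 0, ⟨0, 0⟩, 0⟩ 0 0) (.pos 20 .pp ⟨658769499, 0, 0, 0, 0, 0, 0, 0, 0, ⟨0, 0⟩, 0⟩ 0 0)) (.pos 18 .pp ⟨1129629481, 0, 0, 0, 0, 0, 0, 0, 0, ⟨0, 0⟩, 0⟩ 0 0)) (.pos 16 .pp ⟨246488341, 0, 0, 0, 0, 0, 0, 0, 0, ⟨0, 0⟩, 0⟩ 0 0)) (.cut .v 50331648 (.cut .d 459376 (.pos 46 .pp ⟨2727161104, 0, 0, 0, 0, 0, 0, 0, 0, ⟨0, 0⟩, 0⟩ 0 0) (.cut .v 41943040 (.pos 50 .pp ⟨1205580627, 0, 0, 0, 0, 0, 0, 0, 0, ⟨0, 0⟩, 0⟩ 0 0) (.pos 51 .pp ⟨1998333685, 0,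 0, 0, 0, 0, 0, 0, 0, ⟨0, 0⟩, 0⟩ 0 0))) (.cut .d 459376 (.void 47 ⟨100000, 0, 0, 0, 0, 0, 0, 0, 0, ⟨0, 0⟩, 0⟩ 0 0) (.cut .v 58720256 (.pos 92 .pp ⟨3022448262, 0, 0, 0, 0, 0, 0, 0, 0, ⟨0, 0⟩, 0⟩ 0 0) (.cut .d 689064 (.void 93 ⟨100000, 0, 0, 0, 0, 0, 0, 0, 0, ⟨0, 0⟩, 0⟩ 0 0) (.cut .d 803908 (.pos 93 .pp ⟨4332043516, 159895043, 0, 0, 0, 0, 0, 0, 0, ⟨0, 0⟩, 0⟩ 0 0) (.pos 93 .pp ⟨3769337395, 0, 0, 0, 0, 0, 0, 0, 0, ⟨0, 0⟩, 0⟩ 0 0))))))) (.cut .v 33554432 (.pos 16 .pp ⟨0, 0, 0, 0, 0, 0, 0, 0, 0, ⟨0, 0⟩, 0⟩ 0 0) (.cut .v 50331648 (.pos 46 .pp ⟨0, 0, 0, 0, 0, 0, 0, 0, 0, ⟨0, 0⟩, 0⟩ 0 0) (.pos 47 .pp ⟨2032556496, 477724523, 0, 0, 0, 0, 0, 0, 0, ⟨0, 0⟩, 0⟩ 0 0)))) (.pos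 44 .pp ⟨0, 15656531, 0, 0, 0, 0, 0, 0, 0, ⟨0, 0⟩, 0⟩ 0 0)) (.pos 56 .pp ⟨60383145098, 107389014902, 0, 0, 0, 0, 0, 0, 0, ⟨0, 0⟩, 0⟩ 0 0)) (.void 83 ⟨0, 0, 0, 100000, 0, 0, 0, 0, 0, ⟨0, 0⟩, 0⟩ 0 0)))),
    by decide +kernel⟩

def covers22 : cell.Covers table row22.1 :=
  ⟨(.cut .d 0 (.cut .v 16777216 (.cut .v 8388608 (.void 2 ⟨0, 0, 100000, 0, 0, 0, 0, 0, 0, ⟨0, 0⟩, 0⟩ 0 0) (.cut .d (-8388608) (.void 3 ⟨100000, 0, 0, 0, 0, 0, 0, 0, 0, ⟨0, 0⟩, 0⟩ 0 0) (.cut .d (-4194304) (.void 3 ⟨100000, 0, 0, 0, 0, 0, 0, 0, 0, ⟨0, 0⟩, 0⟩ 0 0) (.cut .d (-2097152) (.void 3 ⟨75331, 0, 24669, 0, 0, 0, 0, 0, 0, ⟨0, 0⟩, 0⟩ 0 0) (.cut .d (-1048576) (.void 3 ⟨0, 0, 0, 0, 0, 100000, 0,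 0, 0, ⟨0, 0⟩, 0⟩ 0 0) (.cut .d (-524288) (.void 3 ⟨0, 0, 0, 0, 0, 100000, 0, 0, 0, ⟨0, 0⟩, 0⟩ 0 0) (.cut .d (-262144) (.void 3 ⟨0, 0, 1, 0, 0, 99999, 0, 0, 0, ⟨0, 0⟩, 0⟩ 0 0) (.cut .d (-131072) (.void 3 ⟨0, 0, 0, 0, 0, 100000, 0, 0, 0, ⟨0, 0⟩, 0⟩ 0 0) (.cut .d (-65536) (.pos 3 .mm ⟨0, 0, 0, 0, 0, 1315022418, 0, 0, 0, ⟨0, 0⟩, 0⟩ 0 0) (.cut .s 14319616 (.pos 3 .mm ⟨0, 0, 0, 0, 0, 1111864163, 0, 0, 0, ⟨0, 0⟩, 0⟩ 0 0) (.pos 3 .mm ⟨0, 0, 0, 0, 0, 1243941755, 0, 0, 0, ⟨0, 0⟩, 0⟩ 0 0))))))))))) (.cut .v 268435456 (.cut .v 67108864 (.cut .v 33554432 (.cut .d (-8388608) (.void 16 ⟨100000, 0, 0, 0, 0, 0, 0, 0, 0, ⟨0, 0⟩, 0⟩ 0 0) (.cut .v 25165824 (.cut .d (-4194304) (.void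 17 ⟨100000, 0, 0, 0, 0, 0, 0, 0, 0, ⟨0, 0⟩, 0⟩ 0 0) (.cut .d (-2097152) (.void 17 ⟨100000, 0, 0, 0, 0, 0, 0, 0, 0, ⟨0, 0⟩, 0⟩ 0 0) (.cut .v 20971520 (.cut .d (-1048576) (.void 19 ⟨100000, 0, 0, 0, 0, 0, 0, 0, 0, ⟨0, 0⟩, 0⟩ 0 0) (.cut .v 18874368 (.cut .d (-524288) (.void 21 ⟨100000, 0, 0, 0, 0, 0, 0, 0, 0, ⟨0, 0⟩, 0⟩ 0 0) (.cut .d (-262144) (.void 21 ⟨100000, 0, 0, 0, 0, 0, 0, 0, 0, ⟨0, 0⟩, 0⟩ 0 0) (.cut .d (-131072) (.void 21 ⟨100000, 0, 0, 0, 0, 0, 0, 0, 0, ⟨0, 0⟩, 0⟩ 0 0) (.cut .v 17825792 (.cut .d (-65536) (.cut .v 17301504 (.cut .d (-98304) (.void 25 ⟨0, 0, 0, 0, 0, 100000, 0, 0, 0, ⟨0, 0⟩, 0⟩ 0 0) (.cut .l 1275068 (.void 25 ⟨0, 0, 0, 0, 0, 100000, 0, 0,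 0, ⟨0, 0⟩, 0⟩ 0 0) (.cut .d (-81920) (.pos 25 .mp ⟨283978081, 0, 0, 0, 0, 894530371, 0, 0, 0, ⟨0, 0⟩, 0⟩ 0 0) (.cut .l 1728053 (.pos 25 .mp ⟨282794643, 0, 0, 0, 0, 926053429, 0, 0, 0, ⟨0, 0⟩, 0⟩ 0 0) (.cut .v 17039360 (.pos 27 .mp ⟨0, 0, 0, 0, 0, 1242928837, 0, 0, 0, ⟨0, 0⟩, 0⟩ 0 0) (.cut .v 17170432 (.cut .s 14319616 (.cut .s 14237696 (.pos 59 .mp ⟨320680957, 0, 0, 0, 0, 551346967, 0, 0, 0, ⟨0, 0⟩, 0⟩ 0 0) (.pos 59 .mp ⟨282869120, 0, 0, 0, 0, 687168042, 0, 0, 0, ⟨0, 0⟩, 0⟩ 0 0)) (.cut .s 14401536 (.pos 59 .mp ⟨295387640, 0, 0, 0, 0, 723815575, 0, 0, 0, ⟨0, 0⟩, 0⟩ 0 0) (.pos 59 .mp ⟨308000101, 0, 0, 0, 0, 767288668, 0, 0, 0, ⟨0, 0⟩, 0⟩ 0 0))) (.pos 60 .mp ⟨691250718,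 0, 0, 0, 0, 0, 0, 0, 0, ⟨0, 0⟩, 0⟩ 0 0))))))) (.pos 26 .mp ⟨766810151, 0, 0, 0, 0, 0, 0, 0, 0, ⟨0, 0⟩, 0⟩ 0 0)) (.cut .v 17301504 (.cut .s 14319616 (.cut .s 14237696 (.cut .v 17039360 (.cut .d (-32768) (.cut .l 1275068 (.pos 27 .mp ⟨254555410, 0, 0, 0, 0, 671398914, 0, 0, 0, ⟨0, 0⟩, 0⟩ 0 0) (.pos 27 .mp ⟨221256623, 0, 0, 0, 0, 706926869, 0, 0, 0, ⟨0, 0⟩, 0⟩ 0 0)) (.cut .d (-16384) (.cut .s 14196736 (.pos 27 .mp ⟨294389314, 0, 0, 0, 0, 537474413, 0, 0, 0, ⟨0, 0⟩, 0⟩ 0 0) (.cut .s 14217216 (.pos 27 .mp ⟨293492419, 0, 0, 0, 0, 561926746, 0, 0, 0, ⟨0, 0⟩, 0⟩ 0 0) (.pos 27 .mp ⟨299349995, 0, 0, 0, 0, 563103045, 0, 0, 0, ⟨0, 0⟩, 0⟩ 0 0))) (.pos 27 .mp ⟨280494506, 0,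 0, 0, 0, 539152322, 0, 0, 0, ⟨0, 0⟩, 0⟩ 0 0))) (.pos 28 .mp ⟨493903797, 0, 0, 0, 0, 203267260, 0, 0, 0, ⟨0, 0⟩, 0⟩ 0 0)) (.cut .v 17039360 (.cut .d (-32768) (.cut .v 16908288 (.pos 48 .mp ⟨0, 0, 0, 0, 0, 1204370072, 0, 0, 0, ⟨0, 0⟩, 0⟩ 0 0) (.cut .l 1275068 (.cut .s 14278656 (.pos 49 .mp ⟨269266532, 0, 0, 0, 0, 677455640, 0, 0, 0, ⟨0, 0⟩, 0⟩ 0 0) (.pos 49 .mp ⟨274379822, 0, 0, 0, 0, 699215371, 0, 0, 0, ⟨0, 0⟩, 0⟩ 0 0)) (.cut .s 14278656 (.pos 49 .mp ⟨234351646, 0, 0, 0, 0, 727306931, 0, 0, 0, ⟨0, 0⟩, 0⟩ 0 0) (.pos 49 .mp ⟨238661782, 0, 0, 0, 0, 749522017, 0, 0, 0, ⟨0, 0⟩, 0⟩ 0 0)))) (.cut .d (-16384) (.cut .l 1275068 (.cut .l 822083 (.cut .s 14278656 (.pos 27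 .mp ⟨262828950, 0, 0, 0, 0, 677745790, 0, 0, 0, ⟨0, 0⟩, 0⟩ 0 0) (.pos 27 .mp ⟨267286739, 0, 0, 0, 0, 700002039, 0, 0, 0, ⟨0, 0⟩, 0⟩ 0 0)) (.pos 27 .mp ⟨293147697, 0, 0, 0, 0, 580956667, 0, 0, 0, ⟨0, 0⟩, 0⟩ 0 0)) (.pos 27 .mp ⟨0, 0, 0, 0, 0, 0, 0, 0, 0, ⟨0, 0⟩, 0⟩ 0 0)) (.pos 27 .mp ⟨290431931, 0, 0, 0, 0, 576475386, 0, 0, 0, ⟨0, 0⟩, 0⟩ 0 0))) (.cut .s 14278656 (.pos 28 .mp ⟨404340246, 0, 0, 0, 0, 411221056, 0, 0, 0, ⟨0, 0⟩, 0⟩ 0 0) (.pos 28 .mp ⟨404002009, 0, 0, 0, 0, 442004813, 0, 0, 0, ⟨0, 0⟩, 0⟩ 0 0)))) (.cut .s 14401536 (.cut .v 17039360 (.cut .d (-32768) (.cut .v 16908288 (.pos 48 .mp ⟨0, 0, 0, 0, 0, 1269391839, 0, 0, 0, ⟨0, 0⟩, 0⟩ 0 0) (.cut .l 1275068 (.pos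 49 .mp ⟨279484671, 0, 0, 0, 0, 750182284, 0, 0, 0, ⟨0, 0⟩, 0⟩ 0 0) (.cut .s 14360576 (.pos 49 .mp ⟨242897127, 0, 0, 0, 0, 773703404, 0, 0, 0, ⟨0, 0⟩, 0⟩ 0 0) (.pos 49 .mp ⟨238827079, 0, 0, 0, 0, 815184800, 0, 0, 0, ⟨0, 0⟩, 0⟩ 0 0)))) (.cut .d (-16384) (.cut .l 1275068 (.cut .s 14360576 (.cut .v 16908288 (.pos 48 .mp ⟨240874751, 0, 0, 0, 0, 767580379, 0, 0, 0, ⟨0, 0⟩, 0⟩ 0 0) (.pos 49 .mp ⟨323019468, 0, 0, 0, 0, 610657948, 0, 0, 0, ⟨0, 0⟩, 0⟩ 0 0)) (.pos 27 .mp ⟨323853549, 0, 0, 0, 0, 630486925, 0, 0, 0, ⟨0, 0⟩, 0⟩ 0 0)) (.pos 27 .mp ⟨0, 0, 0, 0, 0, 0, 0, 0, 0, ⟨0, 0⟩, 0⟩ 0 0)) (.pos 27 .mp ⟨300418276, 0, 0, 0, 0, 617651568, 0, 0, 0, ⟨0, 0⟩, 0⟩ 0 0))) (.cut .s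 14360576 (.pos 28 .mp ⟨408809510, 0, 0, 0, 0, 465115075, 0, 0, 0, ⟨0, 0⟩, 0⟩ 0 0) (.pos 28 .mp ⟨419258463, 0, 0, 0, 0, 479620321, 0, 0, 0, ⟨0, 0⟩, 0⟩ 0 0))) (.cut .v 17039360 (.cut .d (-32768) (.cut .l 1275068 (.pos 27 .mp ⟨284610580, 0, 0, 0, 0, 814416315, 0, 0, 0, ⟨0, 0⟩, 0⟩ 0 0) (.pos 27 .mp ⟨197159795, 0, 0, 0, 0, 937505714, 0, 0, 0, ⟨0, 0⟩, 0⟩ 0 0)) (.cut .s 14442496 (.pos 27 .mp ⟨329937357, 0, 0, 0, 0, 647166537, 0, 0, 0, ⟨0, 0⟩, 0⟩ 0 0) (.pos 27 .mp ⟨336094112, 0, 0, 0, 0, 672240612, 0, 0, 0, ⟨0, 0⟩, 0⟩ 0 0))) (.cut .s 14442496 (.pos 28 .mp ⟨435876507, 0, 0, 0, 0, 484524775, 0, 0, 0, ⟨0, 0⟩, 0⟩ 0 0) (.pos 28 .mp ⟨459226080, 0, 0, 0, 0, 478762683, 0, 0,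 0, ⟨0, 0⟩, 0⟩ 0 0))))) (.pos 26 .mp ⟨666215652, 0, 0, 0, 0, 0, 0, 0, 0, ⟨0, 0⟩, 0⟩ 0 0))) (.pos 24 .mp ⟨747498572, 0, 0, 0, 0, 0, 0, 0, 0, ⟨0, 0⟩, 0⟩ 0 0))))) (.pos 22 .mp ⟨1193537764, 0, 0, 0, 0, 0, 0, 0, 0, ⟨0, 0⟩, 0⟩ 0 0))) (.void 20 ⟨100000, 0, 0, 0, 0, 0, 0, 0, 0, ⟨0, 0⟩, 0⟩ 0 0)))) (.void 18 ⟨100000, 0, 0, 0, 0, 0, 0, 0, 0, ⟨0, 0⟩, 0⟩ 0 0))) (.void 45 ⟨100000, 0, 0, 0, 0, 0, 0, 0, 0, ⟨0, 0⟩, 0⟩ 0 0)) (.void 56 ⟨100000, 0, 0, 0, 0, 0, 0, 0, 0, ⟨0, 0⟩, 0⟩ 0 0)) (.void 83 ⟨92723, 0, 0, 7277, 0, 0, 0, 0, 0, ⟨0, 0⟩, 0⟩ 0 0))) (.cut .v 16777216 (.cut .v 8388608 (.cut .v 4194304 (.cut .v 2097152 (.cut .v 1048576 (.cut .v 524288 (.pos 96 .pm ⟨0, 0, 19645494, 0,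 0, 0, 0, 0, 0, ⟨0, 0⟩, 0⟩ 0 0) (.pos 97 .pm ⟨0, 0, 17118312, 0, 0, 0, 0, 0, 0, ⟨0, 0⟩, 0⟩ 0 0)) (.pos 91 .pm ⟨0, 0, 16174469, 0, 0, 0, 0, 0, 0, ⟨0, 0⟩, 0⟩ 0 0)) (.pos 68 .pm ⟨0, 0, 16713211, 0, 0, 0, 0, 0, 0, ⟨0, 0⟩, 0⟩ 0 0)) (.pos 5 .pm ⟨0, 0, 26715169, 0, 0, 0, 0, 0, 0, ⟨0, 0⟩, 0⟩ 0 0)) (.pos 3 .pm ⟨0, 0, 0, 0, 0, 0, 0, 0, 0, ⟨0, 0⟩, 0⟩ 0 0)) (.cut .v 268435456 (.cut .v 67108864 (.cut .d 1553447 (.cut .v 33554432 (.cut .d 776723 (.cut .d 388361 (.cut .v 25165824 (.cut .v 20971520 (.pos 19 .pp ⟨446103519, 0, 0, 0, 0, 0, 0, 0, 0, ⟨0, 0⟩, 0⟩ 0 0) (.pos 20 .pp ⟨812394121, 0, 0, 0, 0, 0, 0, 0, 0, ⟨0, 0⟩, 0⟩ 0 0)) (.pos 18 .pp ⟨1361882870, 0, 0, 0, 0, 0, 0, 0, 0,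 ⟨0, 0⟩, 0⟩ 0 0)) (.pos 16 .pp ⟨288868483, 0, 0, 0, 0, 0, 0, 0, 0, ⟨0, 0⟩, 0⟩ 0 0)) (.pos 16 .pp ⟨0, 0, 0, 0, 0, 0, 0, 0, 0, ⟨0, 0⟩, 0⟩ 0 0)) (.cut .d 776723 (.cut .v 50331648 (.cut .d 388361 (.pos 46 .pp ⟨3244117064, 0, 0, 0, 0, 0, 0, 0, 0, ⟨0, 0⟩, 0⟩ 0 0) (.cut .v 41943040 (.pos 50 .pp ⟨1488675538, 0, 0, 0, 0, 0, 0, 0, 0, ⟨0, 0⟩, 0⟩ 0 0) (.pos 51 .pp ⟨2423523395, 0, 0, 0, 0, 0, 0, 0, 0, ⟨0, 0⟩, 0⟩ 0 0))) (.cut .d 388361 (.void 47 ⟨100000, 0, 0, 0, 0, 0, 0, 0, 0, ⟨0, 0⟩, 0⟩ 0 0) (.cut .v 58720256 (.pos 92 .pp ⟨3629948828, 0, 0, 0, 0, 0, 0, 0, 0, ⟨0, 0⟩, 0⟩ 0 0) (.cut .d 582542 (.void 93 ⟨100000, 0, 0, 0, 0, 0, 0, 0, 0, ⟨0, 0⟩, 0⟩ 0 0) (.cut .v 62914560 (.pos 94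 .pp ⟨4139230875, 0, 0, 0, 0, 0, 0, 0, 0, ⟨0, 0⟩, 0⟩ 0 0) (.cut .d 679632 (.pos 95 .pp ⟨5339087184, 645200656, 0, 0, 0, 0, 0, 0, 0, ⟨0, 0⟩, 0⟩ 0 0) (.cut .v 65011712 (.pos 98 .pp ⟨4267170779, 0, 0, 0, 0, 0, 0, 0, 0, ⟨0, 0⟩, 0⟩ 0 0) (.pos 99 .pp ⟨4869193190, 1072134458, 0, 0, 0, 0, 0, 0, 0, ⟨0, 0⟩, 0⟩ 0 0)))))))) (.cut .v 50331648 (.pos 46 .pp ⟨0, 0, 0, 0, 0, 0, 0, 0, 0, ⟨0, 0⟩, 0⟩ 0 0) (.cut .v 58720256 (.pos 92 .pp ⟨2252342835, 0, 0, 0, 0, 0, 0, 0, 0, ⟨0, 0⟩, 0⟩ 0 0) (.pos 93 .pp ⟨3319039839, 747784938, 0, 0, 0, 0, 0, 0, 0, ⟨0, 0⟩, 0⟩ 0 0))))) (.pos 44 .pp ⟨0, 0, 0, 0, 0, 0, 0, 0, 0, ⟨0, 0⟩, 0⟩ 0 0)) (.void 56 ⟨34645, 65355, 0, 0, 0, 0, 0, 0, 0, ⟨0, 0⟩, 0⟩ 0 0))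 (.void 83 ⟨0, 0, 0, 100000, 0, 0, 0, 0, 0, ⟨0, 0⟩, 0⟩ 0 0)))),
    by decide +kernel⟩

def covers23 : cell.Covers table row23.1 :=
  ⟨(.cut .d 0 (.cut .v 16777216 (.cut .v 8388608 (.void 2 ⟨0, 0, 100000, 0, 0, 0, 0, 0, 0, ⟨0, 0⟩, 0⟩ 0 0) (.cut .d (-8388608) (.void 3 ⟨100000, 0, 0, 0, 0, 0, 0, 0, 0, ⟨0, 0⟩, 0⟩ 0 0) (.cut .d (-4194304) (.void 3 ⟨100000, 0, 0, 0, 0, 0, 0, 0, 0, ⟨0, 0⟩, 0⟩ 0 0) (.cut .d (-2097152) (.void 3 ⟨100000, 0, 0, 0, 0, 0, 0, 0, 0, ⟨0, 0⟩, 0⟩ 0 0) (.cut .d (-1048576) (.void 3 ⟨0, 0, 0, 0, 0, 100000, 0, 0, 0, ⟨0, 0⟩, 0⟩ 0 0) (.cut .d (-524288) (.void 3 ⟨0, 0, 0, 0, 0, 100000, 0, 0, 0, ⟨0, 0⟩, 0⟩ 0 0) (.cut .d (-262144) (.void 3 ⟨0, 0, 0, 0,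 0, 100000, 0, 0, 0, ⟨0, 0⟩, 0⟩ 0 0) (.cut .d (-131072) (.void 3 ⟨0, 0, 0, 0, 0, 100000, 0, 0, 0, ⟨0, 0⟩, 0⟩ 0 0) (.cut .d (-65536) (.pos 3 .mm ⟨0, 0, 0, 0, 0, 1695849516, 0, 0, 0, ⟨0, 0⟩, 0⟩ 0 0) (.cut .l 1275068 (.cut .s 14647296 (.pos 3 .mm ⟨0, 0, 0, 0, 0, 1405970713, 0, 0, 0, ⟨0, 0⟩, 0⟩ 0 0) (.pos 3 .mm ⟨0, 0, 0, 0, 0, 1585398502, 0, 0, 0, ⟨0, 0⟩, 0⟩ 0 0)) (.pos 3 .mm ⟨0, 0, 0, 0, 0, 1318412491, 0, 0, 0, ⟨0, 0⟩, 0⟩ 0 0))))))))))) (.cut .v 268435456 (.cut .v 67108864 (.cut .v 33554432 (.cut .d (-8388608) (.void 16 ⟨100000, 0, 0, 0, 0, 0, 0, 0, 0, ⟨0, 0⟩, 0⟩ 0 0) (.cut .d (-4194304) (.void 16 ⟨100000, 0, 0, 0, 0, 0, 0, 0, 0, ⟨0, 0⟩, 0⟩ 0 0) (.cut .v 25165824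 (.cut .d (-2097152) (.void 17 ⟨100000, 0, 0, 0, 0, 0, 0, 0, 0, ⟨0, 0⟩, 0⟩ 0 0) (.cut .v 20971520 (.cut .d (-1048576) (.void 19 ⟨100000, 0, 0, 0, 0, 0, 0, 0, 0, ⟨0, 0⟩, 0⟩ 0 0) (.cut .v 18874368 (.cut .d (-524288) (.void 21 ⟨100000, 0, 0, 0, 0, 0, 0, 0, 0, ⟨0, 0⟩, 0⟩ 0 0) (.cut .d (-262144) (.void 21 ⟨100000, 0, 0, 0, 0, 0, 0, 0, 0, ⟨0, 0⟩, 0⟩ 0 0) (.cut .d (-131072) (.void 21 ⟨100000, 0, 0, 0, 0, 0, 0, 0, 0, ⟨0, 0⟩, 0⟩ 0 0) (.cut .v 17825792 (.cut .d (-65536) (.cut .s 14647296 (.cut .v 17301504 (.pos 25 .mp ⟨315279549, 0, 0, 0, 0, 978531699, 0, 0, 0, ⟨0, 0⟩, 0⟩ 0 0) (.void 26 ⟨100000, 0, 0, 0, 0, 0, 0, 0, 0, ⟨0, 0⟩, 0⟩ 0 0)) (.void 23 ⟨0, 0, 0, 0, 0, 100000, 0,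 0, 0, ⟨0, 0⟩, 0⟩ 0 0)) (.cut .v 17301504 (.cut .s 14647296 (.cut .s 14565376 (.cut .v 17039360 (.cut .l 1275068 (.cut .d (-32768) (.pos 27 .mp ⟨294575522, 0, 0, 0, 0, 881883977, 0, 0, 0, ⟨0, 0⟩, 0⟩ 0 0) (.cut .s 14524416 (.pos 27 .mp ⟨342431062, 0, 0, 0, 0, 700036670, 0, 0, 0, ⟨0, 0⟩, 0⟩ 0 0) (.pos 27 .mp ⟨348783977, 0, 0, 0, 0, 725424212, 0, 0, 0, ⟨0, 0⟩, 0⟩ 0 0))) (.pos 27 .mp ⟨244063765, 0, 0, 0, 0, 902013999, 0, 0, 0, ⟨0, 0⟩, 0⟩ 0 0)) (.pos 28 .mp ⟨609820896, 0, 0, 0, 0, 254762841, 0, 0, 0, ⟨0, 0⟩, 0⟩ 0 0)) (.cut .d (-32768) (.cut .l 1275068 (.pos 25 .mp ⟨315418830, 0, 0, 0, 0, 978200538, 0, 0, 0, ⟨0, 0⟩, 0⟩ 0 0) (.pos 25 .mp ⟨387633302, 0, 0, 0, 0, 717454236,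 0, 0, 0, ⟨0, 0⟩, 0⟩ 0 0)) (.pos 25 .mp ⟨373647049, 0, 0, 0, 0, 742581061, 0, 0, 0, ⟨0, 0⟩, 0⟩ 0 0))) (.cut .v 17039360 (.cut .s 14729216 (.cut .s 14688256 (.pos 27 .mp ⟨300117823, 0, 0, 0, 0, 981872715, 0, 0, 0, ⟨0, 0⟩, 0⟩ 0 0) (.pos 27 .mp ⟨303598255, 0, 0, 0, 0, 1020362786, 0, 0, 0, ⟨0, 0⟩, 0⟩ 0 0)) (.pos 27 .mp ⟨306945350, 0, 0, 0, 0, 1098123276, 0, 0, 0, ⟨0, 0⟩, 0⟩ 0 0)) (.pos 28 .mp ⟨869599444, 0, 0, 0, 0, 0, 0, 0, 0, ⟨0, 0⟩, 0⟩ 0 0))) (.pos 26 .mp ⟨829169772, 0, 0, 0, 0, 0, 0, 0, 0, ⟨0, 0⟩, 0⟩ 0 0))) (.pos 24 .mp ⟨930007933, 0, 0, 0, 0, 0, 0, 0, 0, ⟨0, 0⟩, 0⟩ 0 0))))) (.pos 22 .mp ⟨1501786652, 0, 0, 0, 0, 0, 0, 0, 0, ⟨0, 0⟩, 0⟩ 0 0))) (.void 20 ⟨100000,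 0, 0, 0, 0, 0, 0, 0, 0, ⟨0, 0⟩, 0⟩ 0 0))) (.void 18 ⟨100000, 0, 0, 0, 0, 0, 0, 0, 0, ⟨0, 0⟩, 0⟩ 0 0)))) (.void 45 ⟨100000, 0, 0, 0, 0, 0, 0, 0, 0, ⟨0, 0⟩, 0⟩ 0 0)) (.void 56 ⟨100000, 0, 0, 0, 0, 0, 0, 0, 0, ⟨0, 0⟩, 0⟩ 0 0)) (.void 83 ⟨92571, 0, 0, 7429, 0, 0, 0, 0, 0, ⟨0, 0⟩, 0⟩ 0 0))) (.cut .v 16777216 (.cut .v 8388608 (.cut .v 4194304 (.cut .v 2097152 (.cut .v 1048576 (.cut .v 524288 (.pos 96 .pm ⟨0, 0, 21435267, 0, 0, 0, 0, 0, 0, ⟨0, 0⟩, 0⟩ 0 0) (.pos 97 .pm ⟨0, 0, 23239165, 0, 0, 0, 0, 0, 0, ⟨0, 0⟩, 0⟩ 0 0)) (.pos 91 .pm ⟨0, 0, 27658221, 0, 0, 0, 0, 0, 0, ⟨0, 0⟩, 0⟩ 0 0)) (.pos 68 .pm ⟨0, 0, 33317952, 0, 0, 0, 0, 0, 0, ⟨0, 0⟩, 0⟩ 0 0)) (.pos 5 .pm ⟨0, 0, 64006553,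 0, 0, 0, 0, 0, 0, ⟨0, 0⟩, 0⟩ 0 0)) (.pos 3 .pm ⟨0, 0, 0, 0, 0, 0, 0, 0, 0, ⟨0, 0⟩, 0⟩ 0 0)) (.cut .v 268435456 (.cut .v 67108864 (.cut .d 1328514 (.cut .v 33554432 (.cut .d 664257 (.cut .d 332128 (.cut .v 25165824 (.cut .v 20971520 (.pos 19 .pp ⟨498263900, 0, 0, 0, 0, 0, 0, 0, 0, ⟨0, 0⟩, 0⟩ 0 0) (.pos 20 .pp ⟨980429210, 0, 0, 0, 0, 0, 0, 0, 0, ⟨0, 0⟩, 0⟩ 0 0)) (.pos 18 .pp ⟨1625171260, 0, 0, 0, 0, 0, 0, 0, 0, ⟨0, 0⟩, 0⟩ 0 0)) (.pos 16 .pp ⟨318921657, 0, 0, 0, 0, 0, 0, 0, 0, ⟨0, 0⟩, 0⟩ 0 0)) (.pos 16 .pp ⟨0, 0, 0, 0, 0, 0, 0, 0, 0, ⟨0, 0⟩, 0⟩ 0 0)) (.cut .d 664257 (.cut .v 50331648 (.cut .d 332128 (.pos 46 .pp ⟨3831896113, 0, 0, 0, 0, 0, 0, 0, 0, ⟨0, 0⟩, 0⟩ 0 0)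 (.cut .v 41943040 (.pos 50 .pp ⟨1786813145, 0, 0, 0, 0, 0, 0, 0, 0, ⟨0, 0⟩, 0⟩ 0 0) (.pos 51 .pp ⟨2870153794, 0, 0, 0, 0, 0, 0, 0, 0, ⟨0, 0⟩, 0⟩ 0 0))) (.cut .d 332128 (.void 47 ⟨100000, 0, 0, 0, 0, 0, 0, 0, 0, ⟨0, 0⟩, 0⟩ 0 0) (.cut .v 58720256 (.pos 92 .pp ⟨4262360929, 0, 0, 0, 0, 0, 0, 0, 0, ⟨0, 0⟩, 0⟩ 0 0) (.cut .d 498192 (.void 93 ⟨100000, 0, 0, 0, 0, 0, 0, 0, 0, ⟨0, 0⟩, 0⟩ 0 0) (.cut .v 62914560 (.pos 94 .pp ⟨4796095150, 0, 0, 0, 0, 0, 0, 0, 0, ⟨0, 0⟩, 0⟩ 0 0) (.cut .d 581224 (.cut .v 65011712 (.pos 98 .pp ⟨5822965711, 0, 0, 0, 0, 0, 0, 0, 0, ⟨0, 0⟩, 0⟩ 0 0) (.cut .v 66060288 (.cut .v 65536000 (.pos 102 .pp ⟨5854632086, 0, 0, 0, 0, 0, 0, 0, 0, ⟨0, 0⟩, 0⟩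 0 0) (.cut .v 65798144 (.pos 104 .pp ⟨5870492992, 0, 0, 0, 0, 0, 0, 0, 0, ⟨0, 0⟩, 0⟩ 0 0) (.cut .s 14647296 (.void 105 ⟨100000, 0, 0, 0, 0, 0, 0, 0, 0, ⟨0, 0⟩, 0⟩ 0 0) (.cut .s 14729216 (.void 105 ⟨100000, 0, 0, 0, 0, 0, 0, 0, 0, ⟨0, 0⟩, 0⟩ 0 0) (.cut .s 14770176 (.pos 105 .pp ⟨6220311104, 1127864181, 0, 0, 0, 0, 0, 0, 0, ⟨0, 0⟩, 0⟩ 0 0) (.pos 105 .pp ⟨6282704677, 1087269056, 0, 0, 0, 0, 0, 0, 0, ⟨0, 0⟩, 0⟩ 0 0)))))) (.pos 101 .pp ⟨6868755424, 2139493042, 0, 0, 0, 0, 0, 0, 0, ⟨0, 0⟩, 0⟩ 0 0))) (.cut .s 14647296 (.cut .v 65011712 (.pos 98 .pp ⟨4864623067, 0, 0, 0, 0, 0, 0, 0, 0, ⟨0, 0⟩, 0⟩ 0 0) (.cut .d 622740 (.pos 99 .pp ⟨5893923293, 963421972, 0, 0, 0, 0, 0,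 0, 0, ⟨0, 0⟩, 0⟩ 0 0) (.cut .s 14565376 (.pos 99 .pp ⟨5485801668, 1172167572, 0, 0, 0, 0, 0, 0, 0, ⟨0, 0⟩, 0⟩ 0 0) (.pos 99 .pp ⟨5541274975, 1135859960, 0, 0, 0, 0, 0, 0, 0, ⟨0, 0⟩, 0⟩ 0 0)))) (.cut .v 65011712 (.pos 98 .pp ⟨5085928145, 0, 0, 0, 0, 0, 0, 0, 0, ⟨0, 0⟩, 0⟩ 0 0) (.cut .v 66060288 (.cut .s 14729216 (.cut .d 622740 (.cut .s 14688256 (.pos 100 .pp ⟨5785370487, 906774359, 0, 0, 0, 0, 0, 0, 0, ⟨0, 0⟩, 0⟩ 0 0) (.pos 100 .pp ⟨5818438254, 874568741, 0, 0, 0, 0, 0, 0, 0, ⟨0, 0⟩, 0⟩ 0 0)) (.pos 100 .pp ⟨4251125356, 1572311103, 0, 0, 0, 0, 0, 0, 0, ⟨0, 0⟩, 0⟩ 0 0)) (.pos 100 .pp ⟨5871540224, 1228869709, 0, 0, 0, 0, 0, 0, 0, ⟨0, 0⟩, 0⟩ 0 0)) (.void 101 ⟨31468,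 68532, 0, 0, 0, 0, 0, 0, 0, ⟨0, 0⟩, 0⟩ 0 0)))))))))) (.cut .v 50331648 (.pos 46 .pp ⟨0, 0, 0, 0, 0, 0, 0, 0, 0, ⟨0, 0⟩, 0⟩ 0 0) (.cut .v 58720256 (.pos 92 .pp ⟨2710046388, 0, 0, 0, 0, 0, 0, 0, 0, ⟨0, 0⟩, 0⟩ 0 0) (.cut .v 62914560 (.pos 94 .pp ⟨3460723996, 0, 0, 0, 0, 0, 0, 0, 0, ⟨0, 0⟩, 0⟩ 0 0) (.pos 95 .pp ⟨4519596757, 1112241738, 0, 0, 0, 0, 0, 0, 0, ⟨0, 0⟩, 0⟩ 0 0)))))) (.pos 44 .pp ⟨0, 0, 0, 0, 0, 0, 0, 0, 0, ⟨0, 0⟩, 0⟩ 0 0)) (.cut .d 1328514 (.void 56 ⟨35267, 64733, 0, 0, 0, 0, 0, 0, 0, ⟨0, 0⟩, 0⟩ 0 0) (.void 56 ⟨0, 0, 0, 100000, 0, 0, 0, 0, 0, ⟨0, 0⟩, 0⟩ 0 0))) (.void 83 ⟨0, 0, 0, 100000, 0, 0, 0, 0, 0, ⟨0, 0⟩, 0⟩ 0 0)))),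
    by decide +kernel⟩

def covers24 : cell.Covers table row24.1 :=
  ⟨(.cut .d 0 (.cut .v 16777216 (.cut .v 8388608 (.void 2 ⟨0, 0, 100000, 0, 0, 0, 0, 0, 0, ⟨0, 0⟩, 0⟩ 0 0) (.cut .d (-8388608) (.void 3 ⟨100000, 0, 0, 0, 0, 0, 0, 0, 0, ⟨0, 0⟩, 0⟩ 0 0) (.cut .d (-4194304) (.void 3 ⟨100000, 0, 0, 0, 0, 0, 0, 0, 0, ⟨0, 0⟩, 0⟩ 0 0) (.cut .d (-2097152) (.void 3 ⟨100000, 0, 0, 0, 0, 0, 0, 0, 0, ⟨0, 0⟩, 0⟩ 0 0) (.cut .d (-1048576) (.void 3 ⟨74641, 0, 25359, 0, 0, 0, 0, 0, 0, ⟨0, 0⟩, 0⟩ 0 0) (.cut .d (-524288) (.void 3 ⟨0, 0, 0, 0, 0, 100000, 0, 0, 0, ⟨0, 0⟩, 0⟩ 0 0) (.cut .v 12582912 (.pos 6 .mm ⟨0, 0, 35613025, 0, 0, 1535106128, 0, 0, 0, ⟨0, 0⟩, 0⟩ 0 0) (.cut .d (-262144)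 (.void 7 ⟨0, 0, 0, 0, 0, 100000, 0, 0, 0, ⟨0, 0⟩, 0⟩ 0 0) (.cut .s 14942208 (.pos 7 .mm ⟨0, 0, 0, 0, 0, 1884212241, 0, 0, 0, ⟨0, 0⟩, 0⟩ 0 0) (.pos 7 .mm ⟨0, 0, 0, 0, 0, 2091807849, 0, 0, 0, ⟨0, 0⟩, 0⟩ 0 0)))))))))) (.cut .v 268435456 (.cut .v 67108864 (.cut .v 33554432 (.cut .d (-8388608) (.void 16 ⟨100000, 0, 0, 0, 0, 0, 0, 0, 0, ⟨0, 0⟩, 0⟩ 0 0) (.cut .d (-4194304) (.void 16 ⟨100000, 0, 0, 0, 0, 0, 0, 0, 0, ⟨0, 0⟩, 0⟩ 0 0) (.cut .v 25165824 (.cut .d (-2097152) (.void 17 ⟨100000, 0, 0, 0, 0, 0, 0, 0, 0, ⟨0, 0⟩, 0⟩ 0 0) (.cut .v 20971520 (.cut .d (-1048576) (.void 19 ⟨100000, 0, 0, 0, 0, 0, 0, 0, 0, ⟨0, 0⟩, 0⟩ 0 0) (.cut .v 18874368 (.cut .d (-524288) (.void 21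 ⟨100000, 0, 0, 0, 0, 0, 0, 0, 0, ⟨0, 0⟩, 0⟩ 0 0) (.cut .d (-262144) (.void 21 ⟨100000, 0, 0, 0, 0, 0, 0, 0, 0, ⟨0, 0⟩, 0⟩ 0 0) (.cut .d (-131072) (.void 21 ⟨100000, 0, 0, 0, 0, 0, 0, 0, 0, ⟨0, 0⟩, 0⟩ 0 0) (.cut .d (-65536) (.void 21 ⟨0, 0, 0, 0, 0, 100000, 0, 0, 0, ⟨0, 0⟩, 0⟩ 0 0) (.cut .l 1275068 (.cut .d (-32768) (.pos 21 .mp ⟨423427435, 0, 0, 0, 0, 1831048642, 0, 0, 0, ⟨0, 0⟩, 0⟩ 0 0) (.cut .d (-16384) (.pos 21 .mp ⟨544562454, 0, 0, 0, 0, 958157121, 0, 0, 0, ⟨0, 0⟩, 0⟩ 0 0) (.cut .s 14942208 (.pos 21 .mp ⟨465872833, 0, 0, 0, 0, 870086726, 0, 0, 0, ⟨0, 0⟩, 0⟩ 0 0) (.pos 21 .mp ⟨487752510, 0, 0, 0, 0, 983439144, 0, 0, 0, ⟨0, 0⟩, 0⟩ 0 0)))) (.pos 21 .mp ⟨576074340,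 0, 0, 0, 0, 678631791, 0, 0, 0, ⟨0, 0⟩, 0⟩ 0 0)))))) (.pos 22 .mp ⟨1834956605, 0, 0, 0, 0, 0, 0, 0, 0, ⟨0, 0⟩, 0⟩ 0 0))) (.void 20 ⟨100000, 0, 0, 0, 0, 0, 0, 0, 0, ⟨0, 0⟩, 0⟩ 0 0))) (.void 18 ⟨100000, 0, 0, 0, 0, 0, 0, 0, 0, ⟨0, 0⟩, 0⟩ 0 0)))) (.void 45 ⟨100000, 0, 0, 0, 0, 0, 0, 0, 0, ⟨0, 0⟩, 0⟩ 0 0)) (.void 56 ⟨100000, 0, 0, 0, 0, 0, 0, 0, 0, ⟨0, 0⟩, 0⟩ 0 0)) (.void 83 ⟨92449, 0, 0, 7551, 0, 0, 0, 0, 0, ⟨0, 0⟩, 0⟩ 0 0))) (.cut .v 16777216 (.cut .v 8388608 (.cut .v 4194304 (.cut .v 2097152 (.cut .v 1048576 (.cut .v 524288 (.pos 96 .pm ⟨0, 0, 24732701, 0, 0, 0, 0, 0, 0, ⟨0, 0⟩, 0⟩ 0 0) (.pos 97 .pm ⟨0, 0, 33811753, 0, 0, 0, 0, 0, 0, ⟨0, 0⟩, 0⟩ 0 0)) (.pos 91 .pm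 ⟨0, 0, 43948332, 0, 0, 0, 0, 0, 0, ⟨0, 0⟩, 0⟩ 0 0)) (.pos 68 .pm ⟨0, 0, 61260144, 0, 0, 0, 0, 0, 0, ⟨0, 0⟩, 0⟩ 0 0)) (.pos 5 .pm ⟨0, 0, 135964410, 0, 0, 0, 0, 0, 0, ⟨0, 0⟩, 0⟩ 0 0)) (.pos 3 .pm ⟨0, 0, 0, 0, 0, 0, 0, 0, 0, ⟨0, 0⟩, 0⟩ 0 0)) (.cut .v 268435456 (.cut .v 67108864 (.cut .d 1113533 (.cut .v 33554432 (.cut .d 556766 (.cut .d 278383 (.cut .v 25165824 (.cut .v 20971520 (.pos 19 .pp ⟨550923535, 0, 0, 0, 0, 0, 0, 0, 0, ⟨0, 0⟩, 0⟩ 0 0) (.pos 20 .pp ⟨1194493842, 0, 0, 0, 0, 0, 0, 0, 0, ⟨0, 0⟩, 0⟩ 0 0)) (.pos 18 .pp ⟨1939012037, 0, 0, 0, 0, 0, 0, 0, 0, ⟨0, 0⟩, 0⟩ 0 0)) (.pos 16 .pp ⟨335236052, 0, 0, 0, 0, 0, 0, 0, 0, ⟨0, 0⟩, 0⟩ 0 0)) (.pos 16 .pp ⟨0, 0, 0, 0,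 0, 0, 0, 0, 0, ⟨0, 0⟩, 0⟩ 0 0)) (.cut .d 556766 (.cut .d 278383 (.pos 45 .pp ⟨7462521030, 0, 0, 0, 0, 0, 0, 0, 0, ⟨0, 0⟩, 0⟩ 0 0) (.cut .v 50331648 (.cut .v 41943040 (.pos 50 .pp ⟨2189797025, 0, 0, 0, 0, 0, 0, 0, 0, ⟨0, 0⟩, 0⟩ 0 0) (.pos 51 .pp ⟨3470877741, 0, 0, 0, 0, 0, 0, 0, 0, ⟨0, 0⟩, 0⟩ 0 0)) (.cut .v 58720256 (.pos 92 .pp ⟨5114665405, 0, 0, 0, 0, 0, 0, 0, 0, ⟨0, 0⟩, 0⟩ 0 0) (.cut .d 417574 (.void 93 ⟨100000, 0, 0, 0, 0, 0, 0, 0, 0, ⟨0, 0⟩, 0⟩ 0 0) (.cut .d 487170 (.pos 93 .pp ⟨7449937204, 787650222, 0, 0, 0, 0, 0, 0, 0, ⟨0, 0⟩, 0⟩ 0 0) (.cut .v 62914560 (.pos 94 .pp ⟨5547610771, 0, 0, 0, 0, 0, 0, 0, 0, ⟨0, 0⟩, 0⟩ 0 0) (.cut .v 65011712 (.pos 98 .pp ⟨5871939640,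 0, 0, 0, 0, 0, 0, 0, 0, ⟨0, 0⟩, 0⟩ 0 0) (.cut .s 14942208 (.cut .d 521968 (.pos 99 .pp ⟨7031689473, 1363839464, 0, 0, 0, 0, 0, 0, 0, ⟨0, 0⟩, 0⟩ 0 0) (.cut .l 1275068 (.pos 99 .pp ⟨6792850670, 1383580682, 0, 0, 0, 0, 0, 0, 0, ⟨0, 0⟩, 0⟩ 0 0) (.cut .l 1728053 (.pos 99 .pp ⟨6683890210, 1231525168, 0, 0, 0, 0, 0, 0, 0, ⟨0, 0⟩, 0⟩ 0 0) (.cut .s 14876672 (.cut .v 66060288 (.pos 100 .pp ⟨5771990210, 0, 0, 0, 0, 0, 0, 0, 0, ⟨0, 0⟩, 0⟩ 0 0) (.pos 101 .pp ⟨6690797832, 1657079975, 0, 0, 0, 0, 0, 0, 0, ⟨0, 0⟩, 0⟩ 0 0)) (.cut .v 66060288 (.pos 100 .pp ⟨5852055924, 0, 0, 0, 0, 0, 0, 0, 0, ⟨0, 0⟩, 0⟩ 0 0) (.pos 101 .pp ⟨6775721915, 1607979527, 0, 0, 0, 0, 0, 0, 0, ⟨0, 0⟩, 0⟩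 0 0)))))) (.cut .v 66060288 (.pos 100 .pp ⟨6371254032, 572880688, 0, 0, 0, 0, 0, 0, 0, ⟨0, 0⟩, 0⟩ 0 0) (.cut .d 521968 (.pos 101 .pp ⟨7247845852, 1810774656, 0, 0, 0, 0, 0, 0, 0, ⟨0, 0⟩, 0⟩ 0 0) (.pos 101 .pp ⟨5975258180, 1924482737, 0, 0, 0, 0, 0, 0, 0, ⟨0, 0⟩, 0⟩ 0 0))))))))))) (.cut .v 50331648 (.pos 46 .pp ⟨0, 0, 0, 0, 0, 0, 0, 0, 0, ⟨0, 0⟩, 0⟩ 0 0) (.cut .v 58720256 (.pos 92 .pp ⟨3297148890, 0, 0, 0, 0, 0, 0, 0, 0, ⟨0, 0⟩, 0⟩ 0 0) (.cut .v 62914560 (.pos 94 .pp ⟨4267502355, 0, 0, 0, 0, 0, 0, 0, 0, ⟨0, 0⟩, 0⟩ 0 0) (.cut .v 65011712 (.pos 98 .pp ⟨4942886464, 422715059, 0, 0, 0, 0, 0, 0, 0, ⟨0, 0⟩, 0⟩ 0 0) (.cut .d 835149 (.cut .v 66060288 (.pos 100 .pp ⟨5423823116,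 240668343, 0, 0, 0, 0, 0, 0, 0, ⟨0, 0⟩, 0⟩ 0 0) (.pos 101 .pp ⟨6189526338, 1501265764, 0, 0, 0, 0, 0, 0, 0, ⟨0, 0⟩, 0⟩ 0 0)) (.void 99 ⟨0, 0, 0, 100000, 0, 0, 0, 0, 0, ⟨0, 0⟩, 0⟩ 0 0)))))))) (.pos 44 .pp ⟨0, 0, 0, 0, 0, 0, 0, 0, 0, ⟨0, 0⟩, 0⟩ 0 0)) (.cut .d 1113533 (.void 56 ⟨35008, 64992, 0, 0, 0, 0, 0, 0, 0, ⟨0, 0⟩, 0⟩ 0 0) (.void 56 ⟨0, 0, 0, 100000, 0, 0, 0, 0, 0, ⟨0, 0⟩, 0⟩ 0 0))) (.void 83 ⟨0, 0, 0, 100000, 0, 0, 0, 0, 0, ⟨0, 0⟩, 0⟩ 0 0)))),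
    by decide +kernel⟩

def covers25 : cell.Covers table row25.1 :=
  ⟨(.cut .d 0 (.cut .v 16777216 (.cut .v 8388608 (.void 2 ⟨0, 0, 100000, 0, 0, 0, 0, 0, 0, ⟨0, 0⟩, 0⟩ 0 0) (.cut .d (-8388608) (.void 3 ⟨100000, 0, 0, 0, 0, 0, 0, 0, 0, ⟨0, 0⟩, 0⟩ 0 0) (.cut .d (-4194304) (.void 3 ⟨100000, 0, 0, 0, 0, 0, 0, 0, 0, ⟨0, 0⟩, 0⟩ 0 0) (.cut .d (-2097152) (.void 3 ⟨100000, 0, 0, 0, 0, 0, 0, 0, 0, ⟨0, 0⟩, 0⟩ 0 0) (.cut .d (-1048576) (.void 3 ⟨74368, 0, 25632, 0, 0, 0, 0, 0, 0, ⟨0, 0⟩, 0⟩ 0 0) (.cut .d (-524288) (.void 3 ⟨0, 0, 0, 0, 0, 100000, 0, 0, 0, ⟨0, 0⟩, 0⟩ 0 0) (.cut .v 12582912 (.pos 6 .mm ⟨0, 0, 42685947, 0, 0, 1830738478, 0, 0, 0, ⟨0, 0⟩, 0⟩ 0 0) (.cut .s 15171584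 (.cut .d (-262144) (.void 7 ⟨0, 0, 0, 0, 0, 100000, 0, 0, 0, ⟨0, 0⟩, 0⟩ 0 0) (.pos 7 .mm ⟨0, 0, 0, 0, 0, 2258978787, 0, 0, 0, ⟨0, 0⟩, 0⟩ 0 0)) (.pos 7 .mm ⟨0, 0, 0, 0, 0, 2646212320, 0, 0, 0, ⟨0, 0⟩, 0⟩ 0 0))))))))) (.cut .v 268435456 (.cut .v 67108864 (.cut .v 33554432 (.cut .d (-8388608) (.void 16 ⟨100000, 0, 0, 0, 0, 0, 0, 0, 0, ⟨0, 0⟩, 0⟩ 0 0) (.cut .d (-4194304) (.void 16 ⟨100000, 0, 0, 0, 0, 0, 0, 0, 0, ⟨0, 0⟩, 0⟩ 0 0) (.cut .v 25165824 (.cut .d (-2097152) (.void 17 ⟨100000, 0, 0, 0, 0, 0, 0, 0, 0, ⟨0, 0⟩, 0⟩ 0 0) (.cut .v 20971520 (.cut .d (-1048576) (.void 19 ⟨100000, 0, 0, 0, 0, 0, 0, 0, 0, ⟨0, 0⟩, 0⟩ 0 0) (.cut .v 18874368 (.cut .d (-524288) (.void 21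 ⟨100000, 0, 0, 0, 0, 0, 0, 0, 0, ⟨0, 0⟩, 0⟩ 0 0) (.cut .v 17825792 (.cut .d (-262144) (.void 23 ⟨100000, 0, 0, 0, 0, 0, 0, 0, 0, ⟨0, 0⟩, 0⟩ 0 0) (.cut .s 15171584 (.cut .d (-131072) (.void 23 ⟨100000, 0, 0, 0, 0, 0, 0, 0, 0, ⟨0, 0⟩, 0⟩ 0 0) (.cut .d (-65536) (.void 23 ⟨0, 0, 0, 0, 0, 100000, 0, 0, 0, ⟨0, 0⟩, 0⟩ 0 0) (.pos 23 .mp ⟨620514310, 0, 0, 0, 0, 965915842, 0, 0, 0, ⟨0, 0⟩, 0⟩ 0 0))) (.pos 23 .mp ⟨372457843, 0, 0, 0, 0, 1977750197, 0, 0, 0, ⟨0, 0⟩, 0⟩ 0 0))) (.pos 24 .mp ⟨1639131098, 0, 0, 0, 0, 0, 0, 0, 0, ⟨0, 0⟩, 0⟩ 0 0))) (.pos 22 .mp ⟨2158098155, 0, 0, 0, 0, 0, 0, 0, 0, ⟨0, 0⟩, 0⟩ 0 0))) (.void 20 ⟨100000, 0, 0, 0, 0, 0, 0, 0, 0, ⟨0, 0⟩, 0⟩ 0 0))) (.void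 18 ⟨100000, 0, 0, 0, 0, 0, 0, 0, 0, ⟨0, 0⟩, 0⟩ 0 0)))) (.void 45 ⟨100000, 0, 0, 0, 0, 0, 0, 0, 0, ⟨0, 0⟩, 0⟩ 0 0)) (.void 56 ⟨100000, 0, 0, 0, 0, 0, 0, 0, 0, ⟨0, 0⟩, 0⟩ 0 0)) (.void 83 ⟨92358, 0, 0, 7642, 0, 0, 0, 0, 0, ⟨0, 0⟩, 0⟩ 0 0))) (.cut .v 16777216 (.cut .v 8388608 (.cut .v 4194304 (.cut .v 2097152 (.cut .v 1048576 (.cut .v 524288 (.pos 96 .pm ⟨0, 0, 28842538, 0, 0, 0, 0, 0, 0, ⟨0, 0⟩, 0⟩ 0 0) (.pos 97 .pm ⟨0, 0, 43990966, 0, 0, 0, 0, 0, 0, ⟨0, 0⟩, 0⟩ 0 0)) (.pos 91 .pm ⟨0, 0, 60935680, 0, 0, 0, 0, 0, 0, ⟨0, 0⟩, 0⟩ 0 0)) (.pos 68 .pm ⟨0, 0, 95022623, 0, 0, 0, 0, 0, 0, ⟨0, 0⟩, 0⟩ 0 0)) (.pos 5 .pm ⟨0, 0, 222929472, 0, 0, 0, 0, 0, 0, ⟨0, 0⟩, 0⟩ 0 0)) (.pos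 3 .pm ⟨0, 0, 0, 0, 0, 0, 0, 0, 0, ⟨0, 0⟩, 0⟩ 0 0)) (.cut .v 268435456 (.cut .v 67108864 (.cut .d 948278 (.cut .v 33554432 (.cut .d 474139 (.cut .v 25165824 (.pos 17 .pp ⟨886181787, 0, 0, 0, 0, 0, 0, 0, 0, ⟨0, 0⟩, 0⟩ 0 0) (.pos 18 .pp ⟨1931467044, 0, 0, 0, 0, 0, 0, 0, 0, ⟨0, 0⟩, 0⟩ 0 0)) (.pos 16 .pp ⟨0, 0, 0, 0, 0, 0, 0, 0, 0, ⟨0, 0⟩, 0⟩ 0 0)) (.cut .d 474139 (.cut .d 237069 (.pos 45 .pp ⟨8981305204, 0, 0, 0, 0, 0, 0, 0, 0, ⟨0, 0⟩, 0⟩ 0 0) (.cut .v 50331648 (.pos 46 .pp ⟨3267162307, 0, 0, 0, 0, 0, 0, 0, 0, ⟨0, 0⟩, 0⟩ 0 0) (.cut .v 58720256 (.pos 92 .pp ⟨5965019934, 0, 0, 0, 0, 0, 0, 0, 0, ⟨0, 0⟩, 0⟩ 0 0) (.cut .v 62914560 (.pos 94 .pp ⟨6872915655, 0, 0, 0, 0,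 0, 0, 0, 0, ⟨0, 0⟩, 0⟩ 0 0) (.pos 95 .pp ⟨8400766987, 1249803540, 0, 0, 0, 0, 0, 0, 0, ⟨0, 0⟩, 0⟩ 0 0))))) (.cut .v 50331648 (.pos 46 .pp ⟨0, 0, 0, 0, 0, 0, 0, 0, 0, ⟨0, 0⟩, 0⟩ 0 0) (.cut .v 58720256 (.pos 92 .pp ⟨0, 0, 0, 0, 0, 0, 0, 0, 0, ⟨0, 0⟩, 0⟩ 0 0) (.cut .v 62914560 (.pos 94 .pp ⟨4995324748, 0, 0, 0, 0, 0, 0, 0, 0, ⟨0, 0⟩, 0⟩ 0 0) (.cut .v 65011712 (.pos 98 .pp ⟨5537670525, 0, 0, 0, 0, 0, 0, 0, 0, ⟨0, 0⟩, 0⟩ 0 0) (.pos 99 .pp ⟨6909075722, 2194372317, 0, 0, 0, 0, 0, 0, 0, ⟨0, 0⟩, 0⟩ 0 0))))))) (.pos 44 .pp ⟨0, 0, 0, 0, 0, 0, 0, 0, 0, ⟨0, 0⟩, 0⟩ 0 0)) (.cut .d 948278 (.pos 56 .pp ⟨63269622987, 104502537013, 0, 0, 0, 0, 0, 0, 0, ⟨0, 0⟩, 0⟩ 0 0) (.void 56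 ⟨0, 0, 0, 100000, 0, 0, 0, 0, 0, ⟨0, 0⟩, 0⟩ 0 0))) (.void 83 ⟨0, 0, 0, 100000, 0, 0, 0, 0, 0, ⟨0, 0⟩, 0⟩ 0 0)))),
    by decide +kernel⟩

def covers26 : cell.Covers table row26.1 :=
  ⟨(.cut .d 0 (.cut .v 16777216 (.cut .v 8388608 (.void 2 ⟨0, 0, 100000, 0, 0, 0, 0, 0, 0, ⟨0, 0⟩, 0⟩ 0 0) (.cut .d (-8388608) (.void 3 ⟨100000, 0, 0, 0, 0, 0, 0, 0, 0, ⟨0, 0⟩, 0⟩ 0 0) (.cut .d (-4194304) (.void 3 ⟨100000, 0, 0, 0, 0, 0, 0, 0, 0, ⟨0, 0⟩, 0⟩ 0 0) (.cut .d (-2097152) (.void 3 ⟨100000, 0, 0, 0, 0, 0, 0, 0, 0, ⟨0, 0⟩, 0⟩ 0 0) (.cut .d (-1048576) (.void 3 ⟨100000, 0, 0, 0, 0, 0, 0, 0, 0, ⟨0, 0⟩, 0⟩ 0 0) (.cut .d (-524288) (.void 3 ⟨0, 0, 0, 0, 0, 100000, 0, 0, 0, ⟨0, 0⟩,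 0⟩ 0 0) (.cut .v 12582912 (.cut .v 10485760 (.pos 8 .mm ⟨0, 0, 67534266, 0, 0, 1917904988, 0, 0, 0, ⟨0, 0⟩, 0⟩ 0 0) (.pos 9 .mm ⟨0, 0, 0, 0, 0, 2416682293, 0, 0, 0, ⟨0, 0⟩, 0⟩ 0 0)) (.pos 7 .mm ⟨0, 0, 0, 0, 0, 3401494721, 0, 0, 0, ⟨0, 0⟩, 0⟩ 0 0)))))))) (.cut .v 268435456 (.cut .v 67108864 (.cut .v 33554432 (.cut .d (-8388608) (.void 16 ⟨100000, 0, 0, 0, 0, 0, 0, 0, 0, ⟨0, 0⟩, 0⟩ 0 0) (.cut .d (-4194304) (.void 16 ⟨100000, 0, 0, 0, 0, 0, 0, 0, 0, ⟨0, 0⟩, 0⟩ 0 0) (.cut .v 25165824 (.cut .d (-2097152) (.void 17 ⟨100000, 0, 0, 0, 0, 0, 0, 0, 0, ⟨0, 0⟩, 0⟩ 0 0) (.cut .v 20971520 (.cut .d (-1048576) (.void 19 ⟨100000, 0, 0, 0, 0, 0, 0, 0, 0, ⟨0, 0⟩, 0⟩ 0 0) (.cut .v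 18874368 (.cut .d (-524288) (.void 21 ⟨100000, 0, 0, 0, 0, 0, 0, 0, 0, ⟨0, 0⟩, 0⟩ 0 0) (.cut .s 15400960 (.pos 21 .mp ⟨434674538, 0, 0, 0, 0, 2669916996, 0, 0, 0, ⟨0, 0⟩, 0⟩ 0 0) (.pos 21 .mp ⟨436776707, 0, 0, 0, 0, 3125410834, 0, 0, 0, ⟨0, 0⟩, 0⟩ 0 0))) (.pos 22 .mp ⟨39232405880, 0, 0, 0, 0, 0, 0, 0, 0, ⟨0, 0⟩, 0⟩ 0 0))) (.void 20 ⟨100000, 0, 0, 0, 0, 0, 0, 0, 0, ⟨0, 0⟩, 0⟩ 0 0))) (.void 18 ⟨100000, 0, 0, 0, 0, 0, 0, 0, 0, ⟨0, 0⟩, 0⟩ 0 0)))) (.void 45 ⟨100000, 0, 0, 0, 0, 0, 0, 0, 0, ⟨0, 0⟩, 0⟩ 0 0)) (.void 56 ⟨100000, 0, 0, 0, 0, 0, 0, 0, 0, ⟨0, 0⟩, 0⟩ 0 0)) (.void 83 ⟨92237, 0, 0, 7763, 0, 0, 0, 0, 0, ⟨0, 0⟩, 0⟩ 0 0))) (.cut .v 16777216 (.cut .v 8388608 (.cut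 .v 4194304 (.cut .v 2097152 (.cut .v 1048576 (.cut .v 524288 (.pos 96 .pm ⟨0, 0, 34324151, 0, 0, 0, 0, 0, 0, ⟨0, 0⟩, 0⟩ 0 0) (.pos 97 .pm ⟨0, 0, 56312563, 0, 0, 0, 0, 0, 0, ⟨0, 0⟩, 0⟩ 0 0)) (.pos 91 .pm ⟨0, 0, 82438375, 0, 0, 0, 0, 0, 0, ⟨0, 0⟩, 0⟩ 0 0)) (.pos 68 .pm ⟨0, 0, 136885988, 0, 0, 0, 0, 0, 0, ⟨0, 0⟩, 0⟩ 0 0)) (.pos 5 .pm ⟨0, 0, 316968434, 0, 0, 0, 0, 0, 0, ⟨0, 0⟩, 0⟩ 0 0)) (.pos 3 .pm ⟨0, 0, 12987751, 0, 0, 0, 0, 0, 0, ⟨0, 0⟩, 0⟩ 0 0)) (.cut .v 268435456 (.cut .v 67108864 (.cut .d 828061 (.cut .v 33554432 (.cut .v 25165824 (.pos 17 .pp ⟨934228021, 0, 0, 0, 0, 0, 0, 0, 0, ⟨0, 0⟩, 0⟩ 0 0) (.cut .d 414030 (.pos 18 .pp ⟨2244828934, 0, 0, 0, 0, 0, 0, 0, 0,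 ⟨0, 0⟩, 0⟩ 0 0) (.pos 18 .pp ⟨0, 0, 0, 0, 0, 0, 0, 0, 0, ⟨0, 0⟩, 0⟩ 0 0))) (.cut .l 1275068 (.cut .d 414030 (.cut .d 207015 (.pos 45 .pp ⟨10587162259, 0, 0, 0, 0, 0, 0, 0, 0, ⟨0, 0⟩, 0⟩ 0 0) (.cut .v 50331648 (.pos 46 .pp ⟨3744007779, 0, 0, 0, 0, 0, 0, 0, 0, ⟨0, 0⟩, 0⟩ 0 0) (.cut .v 58720256 (.pos 92 .pp ⟨6926357287, 0, 0, 0, 0, 0, 0, 0, 0, ⟨0, 0⟩, 0⟩ 0 0) (.cut .d 310522 (.void 93 ⟨100000, 0, 0, 0, 0, 0, 0, 0, 0, ⟨0, 0⟩, 0⟩ 0 0) (.cut .s 15400960 (.pos 93 .pp ⟨8951503869, 1358990253, 0, 0, 0, 0, 0, 0, 0, ⟨0, 0⟩, 0⟩ 0 0) (.cut .d 362276 (.pos 93 .pp ⟨9953437230, 1909507043, 0, 0, 0, 0, 0, 0, 0, ⟨0, 0⟩, 0⟩ 0 0) (.cut .d 388153 (.cut .v 62914560 (.pos 94 .pp ⟨7604898516,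 0, 0, 0, 0, 0, 0, 0, 0, ⟨0, 0⟩, 0⟩ 0 0) (.pos 95 .pp ⟨9635543184, 2232529674, 0, 0, 0, 0, 0, 0, 0, ⟨0, 0⟩, 0⟩ 0 0)) (.pos 93 .pp ⟨8564521791, 1661245680, 0, 0, 0, 0, 0, 0, 0, ⟨0, 0⟩, 0⟩ 0 0)))))))) (.cut .v 50331648 (.pos 46 .pp ⟨0, 0, 0, 0, 0, 0, 0, 0, 0, ⟨0, 0⟩, 0⟩ 0 0) (.cut .v 58720256 (.pos 92 .pp ⟨0, 0, 0, 0, 0, 0, 0, 0, 0, ⟨0, 0⟩, 0⟩ 0 0) (.cut .v 62914560 (.pos 94 .pp ⟨5673529330, 0, 0, 0, 0, 0, 0, 0, 0, ⟨0, 0⟩, 0⟩ 0 0) (.cut .v 65011712 (.pos 98 .pp ⟨6264133786, 0, 0, 0, 0, 0, 0, 0, 0, ⟨0, 0⟩, 0⟩ 0 0) (.pos 99 .pp ⟨7972904672, 2834418942, 0, 0, 0, 0, 0, 0, 0, ⟨0, 0⟩, 0⟩ 0 0)))))) (.pos 45 .pp ⟨4091824795, 0, 0, 0, 0, 0, 0, 0, 0, ⟨0, 0⟩, 0⟩ 0 0))) (.pos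 44 .pp ⟨0, 0, 0, 0, 0, 0, 0, 0, 0, ⟨0, 0⟩, 0⟩ 0 0)) (.cut .d 828061 (.pos 56 .pp ⟨63532016435, 104240143565, 0, 0, 0, 0, 0, 0, 0, ⟨0, 0⟩, 0⟩ 0 0) (.void 56 ⟨0, 0, 0, 100000, 0, 0, 0, 0, 0, ⟨0, 0⟩, 0⟩ 0 0))) (.void 83 ⟨0, 0, 0, 100000, 0, 0, 0, 0, 0, ⟨0, 0⟩, 0⟩ 0 0)))),
    by decide +kernel⟩

def covers27 : cell.Covers table row27.1 :=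
  ⟨(.cut .d 0 (.cut .v 16777216 (.cut .v 8388608 (.void 2 ⟨0, 0, 100000, 0, 0, 0, 0, 0, 0, ⟨0, 0⟩, 0⟩ 0 0) (.cut .d (-8388608) (.void 3 ⟨100000, 0, 0, 0, 0, 0, 0, 0, 0, ⟨0, 0⟩, 0⟩ 0 0) (.cut .d (-4194304) (.void 3 ⟨100000, 0, 0, 0, 0, 0, 0, 0, 0, ⟨0, 0⟩, 0⟩ 0 0) (.cut .d (-2097152) (.void 3 ⟨100000, 0, 0, 0, 0, 0, 0, 0, 0, ⟨0, 0⟩, 0⟩ 0 0) (.cut .d (-1048576) (.void 3 ⟨100000, 0, 0, 0, 0, 0, 0, 0, 0, ⟨0, 0⟩, 0⟩ 0 0) (.cut .d (-524288) (.void 3 ⟨0, 0, 0, 0, 0, 100000, 0, 0, 0, ⟨0, 0⟩, 0⟩ 0 0) (.cut .v 12582912 (.cut .v 10485760 (.cut .v 9437184 (.cut .s 15654912 (.pos 69 .mm ⟨0, 0, 75377955, 0, 0, 1946570159, 0, 0, 0, ⟨0, 0⟩, 0⟩ 0 0) (.pos 69 .mm ⟨0, 0, 108495864,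 0, 0, 2244462841, 0, 0, 0, ⟨0, 0⟩, 0⟩ 0 0)) (.pos 70 .mm ⟨0, 0, 0, 0, 0, 2609733980, 0, 0, 0, ⟨0, 0⟩, 0⟩ 0 0)) (.pos 9 .mm ⟨0, 0, 0, 0, 0, 3175389554, 0, 0, 0, ⟨0, 0⟩, 0⟩ 0 0)) (.pos 7 .mm ⟨0, 0, 0, 0, 0, 4403151603, 0, 0, 0, ⟨0, 0⟩, 0⟩ 0 0)))))))) (.cut .v 268435456 (.cut .v 67108864 (.cut .v 33554432 (.cut .d (-8388608) (.void 16 ⟨100000, 0, 0, 0, 0, 0, 0, 0, 0, ⟨0, 0⟩, 0⟩ 0 0) (.cut .d (-4194304) (.void 16 ⟨100000, 0, 0, 0, 0, 0, 0, 0, 0, ⟨0, 0⟩, 0⟩ 0 0) (.cut .v 25165824 (.cut .d (-2097152) (.void 17 ⟨100000, 0, 0, 0, 0, 0, 0, 0, 0, ⟨0, 0⟩, 0⟩ 0 0) (.cut .d (-1048576) (.void 17 ⟨100000, 0, 0, 0, 0, 0, 0, 0, 0, ⟨0, 0⟩, 0⟩ 0 0) (.cut .v 20971520 (.cut .d (-524288)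 (.void 19 ⟨100000, 0, 0, 0, 0, 0, 0, 0, 0, ⟨0, 0⟩, 0⟩ 0 0) (.cut .v 18874368 (.cut .s 15654912 (.pos 21 .mp ⟨429621915, 0, 0, 0, 0, 3633143428, 0, 0, 0, ⟨0, 0⟩, 0⟩ 0 0) (.pos 21 .mp ⟨373025270, 0, 0, 0, 0, 4406237498, 0, 0, 0, ⟨0, 0⟩, 0⟩ 0 0)) (.pos 22 .mp ⟨48570223537, 0, 0, 0, 0, 0, 0, 0, 0, ⟨0, 0⟩, 0⟩ 0 0))) (.void 20 ⟨100000, 0, 0, 0, 0, 0, 0, 0, 0, ⟨0, 0⟩, 0⟩ 0 0)))) (.void 18 ⟨100000, 0, 0, 0, 0, 0, 0, 0, 0, ⟨0, 0⟩, 0⟩ 0 0)))) (.void 45 ⟨100000, 0, 0, 0, 0, 0, 0, 0, 0, ⟨0, 0⟩, 0⟩ 0 0)) (.void 56 ⟨100000, 0, 0, 0, 0, 0, 0, 0, 0, ⟨0, 0⟩, 0⟩ 0 0)) (.void 83 ⟨92124, 0, 0, 7876, 0, 0, 0, 0, 0, ⟨0, 0⟩, 0⟩ 0 0))) (.cut .v 16777216 (.cut .v 8388608 (.cut .v 4194304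 (.cut .v 2097152 (.cut .v 1048576 (.cut .v 524288 (.cut .v 262144 (.pos 112 .pm ⟨0, 0, 32918035, 0, 0, 0, 0, 0, 0, ⟨0, 0⟩, 0⟩ 0 0) (.pos 113 .pm ⟨0, 0, 53601376, 0, 0, 0, 0, 0, 0, ⟨0, 0⟩, 0⟩ 0 0)) (.pos 97 .pm ⟨0, 0, 79052858, 0, 0, 0, 0, 0, 0, ⟨0, 0⟩, 0⟩ 0 0)) (.pos 91 .pm ⟨0, 0, 125038448, 0, 0, 0, 0, 0, 0, ⟨0, 0⟩, 0⟩ 0 0)) (.pos 68 .pm ⟨0, 0, 220840373, 0, 0, 0, 0, 0, 0, ⟨0, 0⟩, 0⟩ 0 0)) (.pos 5 .pm ⟨0, 0, 497480358, 0, 0, 0, 0, 0, 0, ⟨0, 0⟩, 0⟩ 0 0)) (.pos 3 .pm ⟨0, 0, 19953067, 0, 0, 0, 0, 0, 0, ⟨0, 0⟩, 0⟩ 0 0)) (.cut .v 268435456 (.cut .v 67108864 (.cut .d 672505 (.cut .v 33554432 (.cut .v 25165824 (.pos 17 .pp ⟨991343009, 0, 0, 0, 0, 0, 0, 0, 0, ⟨0, 0⟩,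 0⟩ 0 0) (.pos 18 .pp ⟨2226910349, 0, 0, 0, 0, 0, 0, 0, 0, ⟨0, 0⟩, 0⟩ 0 0)) (.cut .l 1275068 (.cut .d 336252 (.cut .d 168126 (.pos 45 .pp ⟨12633705823, 0, 0, 0, 0, 0, 0, 0, 0, ⟨0, 0⟩, 0⟩ 0 0) (.cut .v 50331648 (.pos 46 .pp ⟨4493923013, 0, 0, 0, 0, 0, 0, 0, 0, ⟨0, 0⟩, 0⟩ 0 0) (.cut .s 15654912 (.pos 47 .pp ⟨11098427032, 94558469, 0, 0, 0, 0, 0, 0, 0, ⟨0, 0⟩, 0⟩ 0 0) (.pos 47 .pp ⟨10709657108, 126809227, 0, 0, 0, 0, 0, 0, 0, ⟨0, 0⟩, 0⟩ 0 0)))) (.cut .v 50331648 (.pos 46 .pp ⟨0, 0, 0, 0, 0, 0, 0, 0, 0, ⟨0, 0⟩, 0⟩ 0 0) (.cut .v 58720256 (.pos 92 .pp ⟨0, 0, 0, 0, 0, 0, 0, 0, 0, ⟨0, 0⟩, 0⟩ 0 0) (.cut .v 62914560 (.pos 94 .pp ⟨6876467185, 0, 0, 0, 0, 0, 0, 0, 0, ⟨0, 0⟩,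 0⟩ 0 0) (.cut .v 65011712 (.pos 98 .pp ⟨7543190610, 0, 0, 0, 0, 0, 0, 0, 0, ⟨0, 0⟩, 0⟩ 0 0) (.cut .d 504378 (.pos 99 .pp ⟨10063503331, 3685334269, 0, 0, 0, 0, 0, 0, 0, ⟨0, 0⟩, 0⟩ 0 0) (.void 99 ⟨0, 0, 0, 100000, 0, 0, 0, 0, 0, ⟨0, 0⟩, 0⟩ 0 0))))))) (.pos 45 .pp ⟨4805003253, 0, 0, 0, 0, 0, 0, 0, 0, ⟨0, 0⟩, 0⟩ 0 0))) (.pos 44 .pp ⟨0, 0, 0, 0, 0, 0, 0, 0, 0, ⟨0, 0⟩, 0⟩ 0 0)) (.cut .d 672505 (.pos 56 .pp ⟨64329026204, 103443133796, 0, 0, 0, 0, 0, 0, 0, ⟨0, 0⟩, 0⟩ 0 0) (.void 56 ⟨0, 0, 0, 100000, 0, 0, 0, 0, 0, ⟨0, 0⟩, 0⟩ 0 0))) (.void 83 ⟨0, 0, 0, 100000, 0, 0, 0, 0, 0, ⟨0, 0⟩, 0⟩ 0 0)))),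
    by decide +kernel⟩

def covers28 : cell.Covers table row28.1 :=
  ⟨(.cut .d 0 (.cut .v 16777216 (.cut .v 8388608 (.void 2 ⟨0, 0, 100000, 0, 0, 0, 0, 0, 0, ⟨0, 0⟩, 0⟩ 0 0) (.cut .d (-8388608) (.void 3 ⟨100000, 0, 0, 0, 0, 0, 0, 0, 0, ⟨0, 0⟩, 0⟩ 0 0) (.cut .d (-4194304) (.void 3 ⟨100000, 0, 0, 0, 0, 0, 0, 0, 0, ⟨0, 0⟩, 0⟩ 0 0) (.cut .v 12582912 (.cut .d (-2097152) (.void 6 ⟨100000, 0, 0, 0, 0, 0, 0, 0, 0, ⟨0, 0⟩, 0⟩ 0 0) (.cut .d (-1048576) (.void 6 ⟨100000, 0, 0, 0, 0, 0, 0, 0, 0, ⟨0, 0⟩, 0⟩ 0 0) (.cut .v 10485760 (.cut .v 9437184 (.cut .d (-524288) (.void 69 ⟨65870, 0, 34130, 0, 0, 0, 0, 0, 0, ⟨0, 0⟩, 0⟩ 0 0) (.cut .s 15876096 (.pos 69 .mm ⟨0, 0, 137097244,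 0, 0, 2550949264, 0, 0, 0, ⟨0, 0⟩, 0⟩ 0 0) (.pos 69 .mm ⟨0, 0, 181879134, 0, 0, 2934333745, 0, 0, 0, ⟨0, 0⟩, 0⟩ 0 0))) (.pos 70 .mm ⟨0, 0, 0, 0, 0, 4087692305, 0, 0, 0, ⟨0, 0⟩, 0⟩ 0 0)) (.pos 9 .mm ⟨0, 0, 0, 0, 0, 4959052312, 0, 0, 0, ⟨0, 0⟩, 0⟩ 0 0)))) (.pos 7 .mm ⟨0, 0, 0, 0, 0, 12743114749, 0, 0, 0, ⟨0, 0⟩, 0⟩ 0 0))))) (.cut .d (-8388608) (.void 82 ⟨100000, 0, 0, 0, 0, 0, 0, 0, 0, ⟨0, 0⟩, 0⟩ 0 0) (.cut .v 268435456 (.cut .v 67108864 (.cut .v 33554432 (.cut .d (-4194304) (.void 16 ⟨100000, 0, 0, 0, 0, 0, 0, 0, 0, ⟨0, 0⟩, 0⟩ 0 0) (.cut .d (-2097152) (.void 16 ⟨100000, 0, 0, 0, 0, 0, 0, 0, 0, ⟨0, 0⟩, 0⟩ 0 0) (.cut .v 25165824 (.pos 17 .mp ⟨927558411, 0, 0, 0,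 0, 12110536077, 0, 0, 0, ⟨0, 0⟩, 0⟩ 0 0) (.void 18 ⟨100000, 0, 0, 0, 0, 0, 0, 0, 0, ⟨0, 0⟩, 0⟩ 0 0)))) (.void 45 ⟨100000, 0, 0, 0, 0, 0, 0, 0, 0, ⟨0, 0⟩, 0⟩ 0 0)) (.void 56 ⟨100000, 0, 0, 0, 0, 0, 0, 0, 0, ⟨0, 0⟩, 0⟩ 0 0)) (.void 83 ⟨88508, 0, 0, 11492, 0, 0, 0, 0, 0, ⟨0, 0⟩, 0⟩ 0 0)))) (.cut .v 16777216 (.cut .v 8388608 (.cut .v 4194304 (.cut .v 2097152 (.cut .v 1048576 (.cut .v 524288 (.cut .v 262144 (.pos 112 .pm ⟨0, 0, 41376002, 0, 0, 0, 0, 0, 0, ⟨0, 0⟩, 0⟩ 0 0) (.pos 113 .pm ⟨0, 0, 73014441, 0, 0, 0, 0, 0, 0, ⟨0, 0⟩, 0⟩ 0 0)) (.pos 97 .pm ⟨0, 0, 115171532, 0, 0, 0, 0, 0, 0, ⟨0, 0⟩, 0⟩ 0 0)) (.pos 91 .pm ⟨0, 0, 192998073, 0, 0, 0, 0, 0, 0, ⟨0, 0⟩, 0⟩ 0 0))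 (.pos 68 .pm ⟨0, 0, 349682975, 0, 0, 0, 0, 0, 0, ⟨0, 0⟩, 0⟩ 0 0)) (.pos 5 .pm ⟨0, 0, 779991427, 0, 0, 0, 0, 0, 0, ⟨0, 0⟩, 0⟩ 0 0)) (.pos 3 .pm ⟨0, 0, 71302148, 0, 0, 0, 0, 0, 0, ⟨0, 0⟩, 0⟩ 0 0)) (.cut .v 268435456 (.cut .v 67108864 (.cut .d 531367 (.cut .v 33554432 (.cut .v 25165824 (.pos 17 .pp ⟨927558411, 0, 0, 0, 0, 0, 0, 0, 0, ⟨0, 0⟩, 0⟩ 0 0) (.pos 18 .pp ⟨2820243888, 0, 0, 0, 0, 0, 0, 0, 0, ⟨0, 0⟩, 0⟩ 0 0)) (.cut .l 1275068 (.cut .d 265683 (.cut .v 50331648 (.pos 46 .pp ⟨6933793208, 0, 0, 0, 0, 0, 0, 0, 0, ⟨0, 0⟩, 0⟩ 0 0) (.pos 47 .pp ⟨13905219435, 465695825, 0, 0, 0, 0, 0, 0, 0, ⟨0, 0⟩, 0⟩ 0 0)) (.cut .v 50331648 (.pos 46 .pp ⟨0, 0, 0, 0, 0, 0, 0, 0, 0,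 ⟨0, 0⟩, 0⟩ 0 0) (.pos 47 .pp ⟨7848156197, 0, 0, 0, 0, 0, 0, 0, 0, ⟨0, 0⟩, 0⟩ 0 0))) (.pos 45 .pp ⟨5841931654, 0, 0, 0, 0, 0, 0, 0, 0, ⟨0, 0⟩, 0⟩ 0 0))) (.pos 44 .pp ⟨0, 0, 0, 0, 0, 0, 0, 0, 0, ⟨0, 0⟩, 0⟩ 0 0)) (.cut .d 531367 (.cut .d 265683 (.pos 56 .pp ⟨66604526045, 101167633955, 0, 0, 0, 0, 0, 0, 0, ⟨0, 0⟩, 0⟩ 0 0) (.pos 56 .pp ⟨61010437853, 106761722147, 0, 0, 0, 0, 0, 0, 0, ⟨0, 0⟩, 0⟩ 0 0)) (.void 56 ⟨0, 0, 0, 100000, 0, 0, 0, 0, 0, ⟨0, 0⟩, 0⟩ 0 0))) (.void 83 ⟨0, 0, 0, 100000, 0, 0, 0, 0, 0, ⟨0, 0⟩, 0⟩ 0 0)))),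
    by decide +kernel⟩

def covers29 : cell.Covers table row29.1 :=
  ⟨(.cut .d 0 (.cut .v 16777216 (.cut .v 8388608 (.void 2 ⟨0, 0, 100000, 0, 0, 0, 0, 0, 0, ⟨0, 0⟩, 0⟩ 0 0) (.cut .d (-8388608) (.void 3 ⟨100000, 0, 0, 0, 0, 0, 0, 0, 0, ⟨0, 0⟩, 0⟩ 0 0) (.cut .d (-4194304) (.void 3 ⟨100000, 0, 0, 0, 0, 0, 0, 0, 0, ⟨0, 0⟩, 0⟩ 0 0) (.cut .d (-2097152) (.void 3 ⟨100000, 0, 0, 0, 0, 0, 0, 0, 0, ⟨0, 0⟩, 0⟩ 0 0) (.cut .v 12582912 (.cut .d (-1048576) (.void 6 ⟨100000, 0, 0, 0, 0, 0, 0, 0, 0, ⟨0, 0⟩, 0⟩ 0 0) (.cut .v 10485760 (.cut .v 9437184 (.cut .d (-524288) (.void 69 ⟨100000, 0, 0, 0, 0, 0, 0, 0, 0, ⟨0, 0⟩, 0⟩ 0 0) (.cut .d (-262144) (.void 69 ⟨0, 0, 0, 0, 0, 100000,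 0, 0, 0, ⟨0, 0⟩, 0⟩ 0 0) (.cut .s 16056320 (.pos 69 .mm ⟨0, 0, 227418327, 0, 0, 3021822941, 0, 0, 0, ⟨0, 0⟩, 0⟩ 0 0) (.pos 69 .mm ⟨0, 0, 291288730, 0, 0, 3498732083, 0, 0, 0, ⟨0, 0⟩, 0⟩ 0 0)))) (.pos 70 .mm ⟨0, 0, 0, 0, 0, 5487963919, 0, 0, 0, ⟨0, 0⟩, 0⟩ 0 0)) (.pos 9 .mm ⟨0, 0, 0, 0, 0, 6638487073, 0, 0, 0, ⟨0, 0⟩, 0⟩ 0 0))) (.pos 7 .mm ⟨0, 0, 0, 0, 0, 11774590535, 0, 0, 0, ⟨0, 0⟩, 0⟩ 0 0)))))) (.cut .v 268435456 (.cut .v 67108864 (.cut .v 33554432 (.cut .d (-8388608) (.void 16 ⟨100000, 0, 0, 0, 0, 0, 0, 0, 0, ⟨0, 0⟩, 0⟩ 0 0) (.cut .d (-4194304) (.void 16 ⟨100000, 0, 0, 0, 0, 0, 0, 0, 0, ⟨0, 0⟩, 0⟩ 0 0) (.cut .d (-2097152) (.void 16 ⟨100000, 0, 0, 0, 0, 0, 0,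 0, 0, ⟨0, 0⟩, 0⟩ 0 0) (.pos 16 .mp ⟨2230161834, 0, 0, 0, 0, 21194174487, 0, 0, 0, ⟨0, 0⟩, 0⟩ 0 0)))) (.void 45 ⟨100000, 0, 0, 0, 0, 0, 0, 0, 0, ⟨0, 0⟩, 0⟩ 0 0)) (.void 56 ⟨100000, 0, 0, 0, 0, 0, 0, 0, 0, ⟨0, 0⟩, 0⟩ 0 0)) (.void 83 ⟨81514, 0, 0, 6976, 0, 0, 0, 0, 0, ⟨0, 0⟩, 0⟩ 0 0))) (.cut .v 16777216 (.cut .v 8388608 (.cut .v 4194304 (.cut .v 2097152 (.cut .v 1048576 (.cut .v 524288 (.cut .v 262144 (.cut .v 131072 (.pos 114 .pm ⟨0, 0, 37271893, 0, 0, 0, 0, 0, 0, ⟨0, 0⟩, 0⟩ 0 0) (.pos 115 .pm ⟨0, 0, 64710857, 0, 0, 0, 0, 0, 0, ⟨0, 0⟩, 0⟩ 0 0)) (.pos 113 .pm ⟨0, 0, 101648923, 0, 0, 0, 0, 0, 0, ⟨0, 0⟩, 0⟩ 0 0)) (.pos 97 .pm ⟨0, 0, 168448719, 0, 0, 0, 0, 0, 0, ⟨0,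 0⟩, 0⟩ 0 0)) (.pos 91 .pm ⟨0, 0, 292822585, 0, 0, 0, 0, 0, 0, ⟨0, 0⟩, 0⟩ 0 0)) (.pos 68 .pm ⟨0, 0, 530149533, 0, 0, 0, 0, 0, 0, ⟨0, 0⟩, 0⟩ 0 0)) (.pos 5 .pm ⟨0, 0, 1170068090, 0, 0, 0, 0, 0, 0, ⟨0, 0⟩, 0⟩ 0 0)) (.pos 3 .pm ⟨0, 0, 149303472, 0, 0, 0, 0, 0, 0, ⟨0, 0⟩, 0⟩ 0 0)) (.cut .v 268435456 (.cut .v 67108864 (.cut .d 421582 (.cut .v 33554432 (.pos 16 .pp ⟨2143420233, 0, 0, 0, 0, 0, 0, 0, 0, ⟨0, 0⟩, 0⟩ 0 0) (.cut .d 210791 (.cut .v 50331648 (.pos 46 .pp ⟨8567152569, 0, 0, 0, 0, 0, 0, 0, 0, ⟨0, 0⟩, 0⟩ 0 0) (.pos 47 .pp ⟨17361508890, 1064682289, 0, 0, 0, 0, 0, 0, 0, ⟨0, 0⟩, 0⟩ 0 0)) (.pos 45 .pp ⟨6153079647, 0, 0, 0, 0, 0, 0, 0, 0, ⟨0, 0⟩, 0⟩ 0 0))) (.pos 44 .pp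 ⟨0, 0, 0, 0, 0, 0, 0, 0, 0, ⟨0, 0⟩, 0⟩ 0 0)) (.cut .d 421582 (.cut .d 210791 (.pos 56 .pp ⟨75654356065, 89986858944, 0, 2130944991, 0, 0, 0, 0, 0, ⟨0, 0⟩, 0⟩ 0 0) (.pos 56 .pp ⟨63362678860, 104409481140, 0, 0, 0, 0, 0, 0, 0, ⟨0, 0⟩, 0⟩ 0 0)) (.void 56 ⟨0, 0, 0, 100000, 0, 0, 0, 0, 0, ⟨0, 0⟩, 0⟩ 0 0))) (.void 83 ⟨0, 0, 0, 100000, 0, 0, 0, 0, 0, ⟨0, 0⟩, 0⟩ 0 0)))),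
    by decide +kernel⟩

def covers30 : cell.Covers table row30.1 :=
  ⟨(.cut .d 0 (.cut .v 16777216 (.cut .v 8388608 (.void 2 ⟨0, 0, 100000, 0, 0, 0, 0, 0, 0, ⟨0, 0⟩, 0⟩ 0 0) (.cut .d (-8388608) (.void 3 ⟨100000, 0, 0, 0, 0, 0, 0, 0, 0, ⟨0, 0⟩, 0⟩ 0 0) (.cut .d (-4194304) (.void 3 ⟨100000, 0, 0, 0, 0, 0, 0, 0, 0, ⟨0, 0⟩, 0⟩ 0 0) (.cut .d (-2097152) (.void 3 ⟨100000, 0, 0, 0, 0, 0, 0, 0, 0, ⟨0, 0⟩, 0⟩ 0 0) (.cut .v 12582912 (.cut .d (-1048576) (.void 6 ⟨100000, 0, 0, 0, 0, 0, 0, 0, 0, ⟨0, 0⟩, 0⟩ 0 0) (.cut .v 10485760 (.cut .v 9437184 (.cut .d (-524288) (.void 69 ⟨100000, 0, 0, 0, 0, 0, 0, 0, 0, ⟨0, 0⟩, 0⟩ 0 0) (.cut .v 8912896 (.void 71 ⟨0, 0, 100000, 0, 0, 0,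 0, 0, 0, ⟨0, 0⟩, 0⟩ 0 0) (.cut .d (-262144) (.void 72 ⟨66269, 0, 33731, 0, 0, 0, 0, 0, 0, ⟨0, 0⟩, 0⟩ 0 0) (.cut .s 16203776 (.pos 72 .mm ⟨0, 0, 329118667, 0, 0, 4030739158, 0, 0, 0, ⟨0, 0⟩, 0⟩ 0 0) (.pos 72 .mm ⟨0, 0, 403586249, 0, 0, 4705213301, 0, 0, 0, ⟨0, 0⟩, 0⟩ 0 0))))) (.pos 70 .mm ⟨0, 0, 0, 0, 0, 7388944167, 0, 0, 0, ⟨0, 0⟩, 0⟩ 0 0)) (.pos 9 .mm ⟨0, 0, 0, 0, 0, 8918430222, 0, 0, 0, ⟨0, 0⟩, 0⟩ 0 0))) (.pos 7 .mm ⟨0, 0, 0, 0, 0, 15763071525, 0, 0, 0, ⟨0, 0⟩, 0⟩ 0 0)))))) (.cut .v 268435456 (.cut .v 67108864 (.cut .v 33554432 (.cut .d (-8388608) (.void 16 ⟨100000, 0, 0, 0, 0, 0, 0, 0, 0, ⟨0, 0⟩, 0⟩ 0 0) (.cut .d (-4194304) (.void 16 ⟨100000, 0, 0, 0, 0, 0,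 0, 0, 0, ⟨0, 0⟩, 0⟩ 0 0) (.pos 16 .mp ⟨2248716789, 0, 0, 0, 0, 44018888123, 0, 0, 0, ⟨0, 0⟩, 0⟩ 0 0))) (.void 45 ⟨100000, 0, 0, 0, 0, 0, 0, 0, 0, ⟨0, 0⟩, 0⟩ 0 0)) (.void 56 ⟨100000, 0, 0, 0, 0, 0, 0, 0, 0, ⟨0, 0⟩, 0⟩ 0 0)) (.void 83 ⟨98161, 0, 0, 7809, 0, 0, 0, 0, 0, ⟨0, 0⟩, 0⟩ 0 0))) (.cut .v 16777216 (.cut .v 8388608 (.cut .v 4194304 (.cut .v 2097152 (.cut .v 1048576 (.cut .v 524288 (.cut .v 262144 (.cut .v 131072 (.pos 114 .pm ⟨0, 0, 45760174, 0, 0, 0, 0, 0, 0, ⟨0, 0⟩, 0⟩ 0 0) (.pos 115 .pm ⟨0, 0, 87432476, 0, 0, 0, 0, 0, 0, ⟨0, 0⟩, 0⟩ 0 0)) (.pos 113 .pm ⟨0, 0, 144025820, 0, 0, 0, 0, 0, 0, ⟨0, 0⟩, 0⟩ 0 0)) (.pos 97 .pm ⟨0, 0, 247353070, 0, 0, 0, 0, 0, 0, ⟨0,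 0⟩, 0⟩ 0 0)) (.pos 91 .pm ⟨0, 0, 432417268, 0, 0, 0, 0, 0, 0, ⟨0, 0⟩, 0⟩ 0 0)) (.pos 68 .pm ⟨0, 0, 797791000, 0, 0, 0, 0, 0, 0, ⟨0, 0⟩, 0⟩ 0 0)) (.pos 5 .pm ⟨0, 0, 1743797499, 0, 0, 0, 0, 0, 0, ⟨0, 0⟩, 0⟩ 0 0)) (.pos 3 .pm ⟨0, 0, 267477367, 0, 0, 0, 0, 0, 0, ⟨0, 0⟩, 0⟩ 0 0)) (.cut .v 268435456 (.cut .v 67108864 (.cut .v 33554432 (.pos 16 .pp ⟨2248716789, 0, 0, 0, 0, 0, 0, 0, 0, ⟨0, 0⟩, 0⟩ 0 0) (.cut .d 332139 (.cut .d 166069 (.cut .v 50331648 (.pos 46 .pp ⟨10864390237, 0, 0, 0, 0, 0, 0, 0, 0, ⟨0, 0⟩, 0⟩ 0 0) (.pos 47 .pp ⟨22224376062, 2126004407, 0, 0, 0, 0, 0, 0, 0, ⟨0, 0⟩, 0⟩ 0 0)) (.pos 45 .pp ⟨8054820365, 0, 0, 0, 0, 0, 0, 0, 0, ⟨0, 0⟩, 0⟩ 0 0)) (.pos 45 .pp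 ⟨0, 0, 0, 0, 0, 0, 0, 0, 0, ⟨0, 0⟩, 0⟩ 0 0))) (.cut .v 134217728 (.cut .d 332139 (.cut .d 166069 (.pos 108 .pp ⟨71045863152, 96726296848, 0, 0, 0, 0, 0, 0, 0, ⟨0, 0⟩, 0⟩ 0 0) (.pos 108 .pp ⟨65900197107, 101871962893, 0, 0, 0, 0, 0, 0, 0, ⟨0, 0⟩, 0⟩ 0 0)) (.void 108 ⟨0, 0, 0, 100000, 0, 0, 0, 0, 0, ⟨0, 0⟩, 0⟩ 0 0)) (.void 109 ⟨0, 0, 0, 100000, 0, 0, 0, 0, 0, ⟨0, 0⟩, 0⟩ 0 0))) (.void 83 ⟨0, 0, 0, 100000, 0, 0, 0, 0, 0, ⟨0, 0⟩, 0⟩ 0 0)))),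
    by decide +kernel⟩

def covers31 : cell.Covers table row31.1 :=
  ⟨(.cut .d 0 (.cut .v 16777216 (.cut .v 8388608 (.pos 2 .mm ⟨0, 0, 167772160000, 0, 0, 0, 0, 0, 0, ⟨0, 0⟩, 0⟩ 0 0) (.cut .d (-8388608) (.void 3 ⟨100000, 0, 0, 0, 0, 0, 0, 0, 0, ⟨0, 0⟩, 0⟩ 0 0) (.cut .d (-4194304) (.void 3 ⟨100000, 0, 0, 0, 0, 0, 0, 0, 0, ⟨0, 0⟩, 0⟩ 0 0) (.cut .d (-2097152) (.void 3 ⟨100000, 0, 0, 0, 0, 0, 0, 0, 0, ⟨0, 0⟩, 0⟩ 0 0) (.cut .v 12582912 (.cut .d (-1048576) (.void 6 ⟨100000, 0, 0, 0, 0, 0, 0, 0, 0, ⟨0, 0⟩, 0⟩ 0 0) (.cut .d (-524288) (.void 6 ⟨100000, 0, 0, 0, 0, 0, 0, 0, 0, ⟨0, 0⟩, 0⟩ 0 0) (.cut .v 10485760 (.cut .d (-262144) (.void 8 ⟨66768, 0, 33232, 0, 0, 0, 0, 0,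 0, ⟨0, 0⟩, 0⟩ 0 0) (.pos 8 .mm ⟨0, 0, 507642466, 0, 0, 5213969059, 0, 0, 0, ⟨0, 0⟩, 0⟩ 0 0)) (.pos 9 .mm ⟨0, 0, 0, 0, 0, 8192743938, 0, 0, 0, ⟨0, 0⟩, 0⟩ 0 0)))) (.pos 7 .mm ⟨0, 0, 0, 0, 0, 20141979167, 0, 0, 0, ⟨0, 0⟩, 0⟩ 0 0)))))) (.cut .d (-8388608) (.void 82 ⟨100000, 0, 0, 0, 0, 0, 0, 0, 0, ⟨0, 0⟩, 0⟩ 0 0) (.cut .v 268435456 (.cut .v 67108864 (.cut .v 33554432 (.cut .d (-4194304) (.void 16 ⟨100000, 0, 0, 0, 0, 0, 0, 0, 0, ⟨0, 0⟩, 0⟩ 0 0) (.pos 16 .mp ⟨2251219939, 0, 0, 0, 0, 57844318458, 0, 0, 0, ⟨0, 0⟩, 0⟩ 0 0)) (.void 45 ⟨100000, 0, 0, 0, 0, 0, 0, 0, 0, ⟨0, 0⟩, 0⟩ 0 0)) (.void 56 ⟨100000, 0, 0, 0, 0, 0, 0, 0, 0, ⟨0, 0⟩, 0⟩ 0 0)) (.void 83 ⟨88259, 0, 0, 11741,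 0, 0, 0, 0, 0, ⟨0, 0⟩, 0⟩ 0 0)))) (.cut .v 16777216 (.cut .v 8388608 (.cut .v 4194304 (.cut .v 2097152 (.cut .v 1048576 (.cut .v 524288 (.cut .v 262144 (.cut .v 131072 (.pos 114 .pm ⟨0, 0, 51353296, 0, 0, 0, 0, 0, 0, ⟨0, 0⟩, 0⟩ 0 0) (.pos 115 .pm ⟨0, 0, 98063422, 0, 0, 0, 0, 0, 0, ⟨0, 0⟩, 0⟩ 0 0)) (.pos 113 .pm ⟨0, 0, 162737986, 0, 0, 0, 0, 0, 0, ⟨0, 0⟩, 0⟩ 0 0)) (.pos 97 .pm ⟨0, 0, 280072050, 0, 0, 0, 0, 0, 0, ⟨0, 0⟩, 0⟩ 0 0)) (.pos 91 .pm ⟨0, 0, 501745708, 0, 0, 0, 0, 0, 0, ⟨0, 0⟩, 0⟩ 0 0)) (.pos 68 .pm ⟨0, 0, 980148757, 0, 0, 0, 0, 0, 0, ⟨0, 0⟩, 0⟩ 0 0)) (.pos 5 .pm ⟨0, 0, 2491414217, 0, 0, 0, 0, 0, 0, ⟨0, 0⟩, 0⟩ 0 0)) (.pos 3 .pm ⟨0, 0, 386679200, 0, 0, 0,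 0, 0, 0, ⟨0, 0⟩, 0⟩ 0 0)) (.cut .v 268435456 (.cut .v 67108864 (.cut .v 33554432 (.pos 16 .pp ⟨2251219939, 0, 0, 0, 0, 0, 0, 0, 0, ⟨0, 0⟩, 0⟩ 0 0) (.cut .d 261881 (.cut .d 130940 (.cut .v 50331648 (.pos 46 .pp ⟨12446377219, 0, 0, 0, 0, 0, 0, 0, 0, ⟨0, 0⟩, 0⟩ 0 0) (.pos 47 .pp ⟨34859303224, 0, 0, 0, 0, 0, 0, 0, 0, ⟨0, 0⟩, 0⟩ 0 0)) (.pos 45 .pp ⟨10789901629, 0, 0, 0, 0, 0, 0, 0, 0, ⟨0, 0⟩, 0⟩ 0 0)) (.pos 45 .pp ⟨0, 0, 0, 0, 0, 0, 0, 0, 0, ⟨0, 0⟩, 0⟩ 0 0))) (.cut .v 134217728 (.cut .d 261881 (.pos 108 .pp ⟨55924191485, 68662432773, 0, 0, 0, 0, 0, 0, 0, ⟨0, 0⟩, 0⟩ 0 0) (.void 108 ⟨0, 0, 0, 100000, 0, 0, 0, 0, 0, ⟨0, 0⟩, 0⟩ 0 0)) (.void 109 ⟨0, 0, 0, 100000, 0, 0,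 0, 0, 0, ⟨0, 0⟩, 0⟩ 0 0))) (.void 83 ⟨0, 0, 0, 100000, 0, 0, 0, 0, 0, ⟨0, 0⟩, 0⟩ 0 0)))),
    by decide +kernel⟩

def covers32 : cell.Covers table row32.1 :=
  ⟨(.cut .d 0 (.cut .v 16777216 (.cut .v 8388608 (.pos 2 .mm ⟨0, 0, 167772160000, 0, 0, 0, 0, 0, 0, ⟨0, 0⟩, 0⟩ 0 0) (.cut .d (-8388608) (.void 3 ⟨100000, 0, 0, 0, 0, 0, 0, 0, 0, ⟨0, 0⟩, 0⟩ 0 0) (.pos 3 .mm ⟨0, 0, 2755498767, 0, 0, 61956327738, 0, 0, 0, ⟨0, 0⟩, 0⟩ 0 0))) (.cut .v 4294967296 (.cut .d (-8388608) (.void 82 ⟨100000, 0, 0, 0, 0, 0, 0, 0, 0, ⟨0, 0⟩, 0⟩ 0 0) (.cut .v 268435456 (.cut .v 67108864 (.cut .d (-4194304) (.void 44 ⟨100000, 0, 0, 0, 0, 0, 0, 0, 0, ⟨0, 0⟩, 0⟩ 0 0) (.pos 44 .mp ⟨5111915258,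 0, 0, 0, 0, 162198622572, 0, 0, 0, ⟨0, 0⟩, 0⟩ 0 0)) (.void 56 ⟨100000, 0, 0, 0, 0, 0, 0, 0, 0, ⟨0, 0⟩, 0⟩ 0 0)) (.void 83 ⟨88207, 0, 0, 11793, 0, 0, 0, 0, 0, ⟨0, 0⟩, 0⟩ 0 0))) (.void 122 ⟨91816, 0, 0, 8184, 0, 0, 0, 0, 0, ⟨0, 0⟩, 0⟩ 0 0))) (.cut .v 16777216 (.cut .v 8388608 (.cut .v 4194304 (.cut .v 2097152 (.cut .v 1048576 (.cut .v 524288 (.cut .v 262144 (.cut .v 131072 (.cut .v 65536 (.pos 123 .pm ⟨0, 0, 44155701, 0, 0, 0, 0, 0, 0, ⟨0, 0⟩, 0⟩ 0 0) (.pos 124 .pm ⟨0, 0, 83883122, 0, 0, 0, 0, 0, 0, ⟨0, 0⟩, 0⟩ 0 0)) (.pos 115 .pm ⟨0, 0, 137441354, 0, 0, 0, 0, 0, 0, ⟨0, 0⟩, 0⟩ 0 0)) (.pos 113 .pm ⟨0, 0, 228665415, 0, 0, 0, 0, 0, 0, ⟨0, 0⟩, 0⟩ 0 0)) (.pos 97 .pm ⟨0,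 0, 384783051, 0, 0, 0, 0, 0, 0, ⟨0, 0⟩, 0⟩ 0 0)) (.pos 91 .pm ⟨0, 0, 701943602, 0, 0, 0, 0, 0, 0, ⟨0, 0⟩, 0⟩ 0 0)) (.pos 68 .pm ⟨0, 0, 1301874278, 0, 0, 0, 0, 0, 0, ⟨0, 0⟩, 0⟩ 0 0)) (.pos 5 .pm ⟨0, 0, 2424287128, 0, 0, 0, 0, 0, 0, ⟨0, 0⟩, 0⟩ 0 0)) (.pos 3 .pm ⟨0, 0, 2163310025, 0, 0, 0, 0, 0, 0, ⟨0, 0⟩, 0⟩ 0 0)) (.cut .v 4294967296 (.cut .v 268435456 (.cut .v 67108864 (.pos 44 .pp ⟨5635178752, 0, 0, 0, 0, 0, 0, 0, 0, ⟨0, 0⟩, 0⟩ 0 0) (.pos 56 .pp ⟨144421799854, 0, 0, 23350360146, 0, 0, 0, 0, 0, ⟨0, 0⟩, 0⟩ 0 0)) (.void 83 ⟨0, 0, 0, 100000, 0, 0, 0, 0, 0, ⟨0, 0⟩, 0⟩ 0 0)) (.void 122 ⟨0, 0, 0, 100000, 0, 0, 0, 0, 0, ⟨0, 0⟩, 0⟩ 0 0)))),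
    by decide +kernel⟩

def covers33 : cell.Covers table row33.1 :=
  ⟨(.cut .d 0 (.cut .v 16777216 (.cut .v 8388608 (.void 2 ⟨0, 0, 134877, 0, 0, 0, 0, 0, 0, ⟨0, 0⟩, 0⟩ 0 0) (.cut .v 12582912 (.pos 6 .mm ⟨0, 0, 4522432920, 0, 0, 106877069994, 0, 0, 0, ⟨0, 0⟩, 0⟩ 0 0) (.pos 7 .mm ⟨0, 0, 0, 0, 0, 148735264366, 0, 0, 0, ⟨0, 0⟩, 0⟩ 0 0))) (.cut .v 4294967296 (.cut .v 268435456 (.cut .v 67108864 (.cut .d (-8388608) (.void 44 ⟨100000, 0, 0, 0, 0, 0, 0, 0, 0, ⟨0, 0⟩, 0⟩ 0 0) (.cut .v 33554432 (.pos 16 .mp ⟨7474148191, 0, 0, 0, 0, 160298011809, 0, 0, 0, ⟨0, 0⟩, 0⟩ 0 0) (.void 45 ⟨100000, 0, 0, 0, 0, 0, 0, 0, 0, ⟨0, 0⟩, 0⟩ 0 0))) (.void 56 ⟨100000, 0, 0, 0, 0, 0, 0, 0,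 0, ⟨0, 0⟩, 0⟩ 0 0)) (.void 83 ⟨91934, 0, 0, 7838, 0, 0, 0, 0, 0, ⟨0, 0⟩, 0⟩ 0 0)) (.void 122 ⟨91786, 0, 0, 8214, 0, 0, 0, 0, 0, ⟨0, 0⟩, 0⟩ 0 0))) (.cut .v 16777216 (.cut .v 8388608 (.cut .v 4194304 (.cut .v 2097152 (.cut .v 1048576 (.cut .v 524288 (.cut .v 262144 (.cut .v 131072 (.cut .v 65536 (.pos 123 .pm ⟨0, 0, 55024367, 0, 0, 0, 0, 0, 0, ⟨0, 0⟩, 0⟩ 0 0) (.pos 124 .pm ⟨0, 0, 112719559, 0, 0, 0, 0, 0, 0, ⟨0, 0⟩, 0⟩ 0 0)) (.pos 115 .pm ⟨0, 0, 190850152, 0, 0, 0, 0, 0, 0, ⟨0, 0⟩, 0⟩ 0 0)) (.pos 113 .pm ⟨0, 0, 320500798, 0, 0, 0, 0, 0, 0, ⟨0, 0⟩, 0⟩ 0 0)) (.pos 97 .pm ⟨0, 0, 548994876, 0, 0, 0, 0, 0, 0, ⟨0, 0⟩, 0⟩ 0 0)) (.pos 91 .pm ⟨0, 0, 1004495393, 0, 0, 0,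 0, 0, 0, ⟨0, 0⟩, 0⟩ 0 0)) (.pos 68 .pm ⟨0, 0, 1872045950, 0, 0, 0, 0, 0, 0, ⟨0, 0⟩, 0⟩ 0 0)) (.pos 5 .pm ⟨0, 0, 3489105688, 0, 0, 0, 0, 0, 0, ⟨0, 0⟩, 0⟩ 0 0)) (.pos 3 .pm ⟨0, 0, 3032761024, 0, 0, 0, 0, 0, 0, ⟨0, 0⟩, 0⟩ 0 0)) (.cut .v 4294967296 (.cut .v 268435456 (.cut .v 67108864 (.pos 44 .pp ⟨7559565780, 0, 0, 0, 0, 0, 0, 0, 0, ⟨0, 0⟩, 0⟩ 0 0) (.cut .v 134217728 (.pos 108 .pp ⟨106831514607, 52505130366, 0, 8435515027, 0, 0, 0, 0, 0, ⟨0, 0⟩, 0⟩ 0 0) (.void 109 ⟨0, 0, 0, 100000, 0, 0, 0, 0, 0, ⟨0, 0⟩, 0⟩ 0 0))) (.void 83 ⟨0, 0, 0, 100000, 0, 0, 0, 0, 0, ⟨0, 0⟩, 0⟩ 0 0)) (.void 122 ⟨0, 0, 0, 100000, 0, 0, 0, 0, 0, ⟨0, 0⟩, 0⟩ 0 0)))),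
    by decide +kernel⟩

def covers34 : cell.Covers table row34.1 :=
  ⟨(.cut .d 0 (.cut .v 16777216 (.cut .d (-8388608) (.void 1 ⟨0, 0, 0, 0, 0, 100000, 0, 0, 0, ⟨0, 0⟩, 0⟩ 0 0) (.cut .v 8388608 (.pos 2 .mm ⟨0, 0, 167772160000, 0, 0, 0, 0, 0, 0, ⟨0, 0⟩, 0⟩ 0 0) (.pos 3 .mm ⟨0, 0, 4892175352, 0, 0, 104054688579, 0, 0, 0, ⟨0, 0⟩, 0⟩ 0 0))) (.cut .v 4294967296 (.cut .d (-8388608) (.void 82 ⟨100000, 0, 0, 0, 0, 0, 0, 0, 0, ⟨0, 0⟩, 0⟩ 0 0) (.cut .v 268435456 (.cut .v 67108864 (.cut .d (-4194304) (.void 44 ⟨100000, 0, 0, 0, 0, 0, 0, 0, 0, ⟨0, 0⟩, 0⟩ 0 0) (.pos 44 .mp ⟨156692579856, 0, 0, 0, 0, 11079580144, 0, 0, 0, ⟨0, 0⟩, 0⟩ 0 0)) (.void 56 ⟨100000, 0, 0, 0, 0, 0,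 0, 0, 0, ⟨0, 0⟩, 0⟩ 0 0)) (.void 83 ⟨88134, 0, 0, 11866, 0, 0, 0, 0, 0, ⟨0, 0⟩, 0⟩ 0 0))) (.void 122 ⟨91764, 0, 0, 8236, 0, 0, 0, 0, 0, ⟨0, 0⟩, 0⟩ 0 0))) (.cut .v 16777216 (.cut .v 8388608 (.cut .v 4194304 (.cut .v 2097152 (.cut .v 1048576 (.cut .v 524288 (.cut .v 262144 (.cut .v 131072 (.cut .v 65536 (.pos 123 .pm ⟨0, 0, 69525910, 0, 0, 0, 0, 0, 0, ⟨0, 0⟩, 0⟩ 0 0) (.pos 124 .pm ⟨0, 0, 151007241, 0, 0, 0, 0, 0, 0, ⟨0, 0⟩, 0⟩ 0 0)) (.pos 115 .pm ⟨0, 0, 259663997, 0, 0, 0, 0, 0, 0, ⟨0, 0⟩, 0⟩ 0 0)) (.pos 113 .pm ⟨0, 0, 444195467, 0, 0, 0, 0, 0, 0, ⟨0, 0⟩, 0⟩ 0 0)) (.pos 97 .pm ⟨0, 0, 771054050, 0, 0, 0, 0, 0, 0, ⟨0, 0⟩, 0⟩ 0 0)) (.pos 91 .pm ⟨0, 0, 1417344504, 0,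 0, 0, 0, 0, 0, ⟨0, 0⟩, 0⟩ 0 0)) (.pos 68 .pm ⟨0, 0, 2659968384, 0, 0, 0, 0, 0, 0, ⟨0, 0⟩, 0⟩ 0 0)) (.pos 5 .pm ⟨0, 0, 5018677026, 0, 0, 0, 0, 0, 0, ⟨0, 0⟩, 0⟩ 0 0)) (.pos 3 .pm ⟨0, 0, 4263147873, 0, 0, 0, 0, 0, 0, ⟨0, 0⟩, 0⟩ 0 0)) (.cut .v 4294967296 (.cut .v 268435456 (.cut .v 67108864 (.pos 44 .pp ⟨10453222816, 0, 0, 0, 0, 0, 0, 0, 0, ⟨0, 0⟩, 0⟩ 0 0) (.cut .v 134217728 (.pos 108 .pp ⟨144359218380, 6078612404, 0, 17334329216, 0, 0, 0, 0, 0, ⟨0, 0⟩, 0⟩ 0 0) (.void 109 ⟨0, 0, 0, 100000, 0, 0, 0, 0, 0, ⟨0, 0⟩, 0⟩ 0 0))) (.void 83 ⟨0, 0, 0, 100000, 0, 0, 0, 0, 0, ⟨0, 0⟩, 0⟩ 0 0)) (.void 122 ⟨0, 0, 0, 100000, 0, 0, 0, 0, 0, ⟨0, 0⟩, 0⟩ 0 0)))),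
    by decide +kernel⟩

def covers35 : cell.Covers table row35.1 :=
  ⟨(.cut .d 0 (.cut .v 16777216 (.cut .v 8388608 (.void 2 ⟨0, 0, 100000, 0, 0, 0, 0, 0, 0, ⟨0, 0⟩, 0⟩ 0 0) (.cut .d (-8388608) (.void 3 ⟨87650, 0, 0, 0, 0, 0, 0, 0, 0, ⟨0, 0⟩, 0⟩ 0 0) (.pos 3 .mm ⟨0, 0, 6632848978, 0, 0, 142729083381, 0, 0, 0, ⟨0, 0⟩, 0⟩ 0 0))) (.cut .v 4294967296 (.cut .d (-8388608) (.void 82 ⟨100000, 0, 0, 0, 0, 0, 0, 0, 0, ⟨0, 0⟩, 0⟩ 0 0) (.cut .v 268435456 (.cut .v 67108864 (.cut .d (-4194304) (.void 44 ⟨100000, 0, 0, 0, 0, 0, 0, 0, 0, ⟨0, 0⟩, 0⟩ 0 0) (.cut .d (-2097152) (.void 44 ⟨100000, 0, 0, 0, 0, 0, 0, 0, 0, ⟨0, 0⟩, 0⟩ 0 0) (.pos 44 .mp ⟨132811401172, 0, 0, 0, 0, 34960758828,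 0, 0, 0, ⟨0, 0⟩, 0⟩ 0 0))) (.void 56 ⟨100000, 0, 0, 0, 0, 0, 0, 0, 0, ⟨0, 0⟩, 0⟩ 0 0)) (.void 83 ⟨88103, 0, 0, 11897, 0, 0, 0, 0, 0, ⟨0, 0⟩, 0⟩ 0 0))) (.void 122 ⟨91741, 0, 0, 8259, 0, 0, 0, 0, 0, ⟨0, 0⟩, 0⟩ 0 0))) (.cut .v 16777216 (.cut .v 8388608 (.cut .v 4194304 (.cut .v 2097152 (.cut .v 1048576 (.cut .v 524288 (.cut .v 262144 (.cut .v 131072 (.cut .v 65536 (.cut .v 32768 (.pos 125 .pm ⟨0, 0, 58593446, 0, 0, 0, 0, 0, 0, ⟨0, 0⟩, 0⟩ 0 0) (.pos 126 .pm ⟨0, 0, 124862515, 0, 0, 0, 0, 0, 0, ⟨0, 0⟩, 0⟩ 0 0)) (.pos 124 .pm ⟨0, 0, 216300404, 0, 0, 0, 0, 0, 0, ⟨0, 0⟩, 0⟩ 0 0)) (.pos 115 .pm ⟨0, 0, 371924046, 0, 0, 0, 0, 0, 0, ⟨0, 0⟩, 0⟩ 0 0)) (.pos 113 .pm ⟨0, 0, 643717009,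 0, 0, 0, 0, 0, 0, ⟨0, 0⟩, 0⟩ 0 0)) (.pos 97 .pm ⟨0, 0, 1127911971, 0, 0, 0, 0, 0, 0, ⟨0, 0⟩, 0⟩ 0 0)) (.pos 91 .pm ⟨0, 0, 2072630342, 0, 0, 0, 0, 0, 0, ⟨0, 0⟩, 0⟩ 0 0)) (.pos 68 .pm ⟨0, 0, 3857354392, 0, 0, 0, 0, 0, 0, ⟨0, 0⟩, 0⟩ 0 0)) (.pos 5 .pm ⟨0, 0, 7104299608, 0, 0, 0, 0, 0, 0, ⟨0, 0⟩, 0⟩ 0 0)) (.pos 3 .pm ⟨0, 0, 5847805918, 0, 0, 0, 0, 0, 0, ⟨0, 0⟩, 0⟩ 0 0)) (.cut .v 4294967296 (.cut .v 268435456 (.cut .v 67108864 (.pos 44 .pp ⟨14465630071, 0, 0, 0, 0, 0, 0, 0, 0, ⟨0, 0⟩, 0⟩ 0 0) (.cut .v 134217728 (.cut .v 100663296 (.pos 118 .pp ⟨149649131571, 0, 0, 18123028429, 0, 0, 0, 0, 0, ⟨0, 0⟩, 0⟩ 0 0) (.void 119 ⟨0, 0, 0, 100000, 0, 0, 0, 0, 0, ⟨0, 0⟩, 0⟩ 0 0))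 (.void 109 ⟨0, 0, 0, 100000, 0, 0, 0, 0, 0, ⟨0, 0⟩, 0⟩ 0 0))) (.void 83 ⟨0, 0, 0, 100000, 0, 0, 0, 0, 0, ⟨0, 0⟩, 0⟩ 0 0)) (.void 122 ⟨0, 0, 0, 100000, 0, 0, 0, 0, 0, ⟨0, 0⟩, 0⟩ 0 0)))),
    by decide +kernel⟩

def covers36 : cell.Covers table row36.1 :=
  ⟨(.cut .d 0 (.cut .v 16777216 (.cut .v 8388608 (.void 2 ⟨0, 0, 100000, 0, 0, 0, 0, 0, 0, ⟨0, 0⟩, 0⟩ 0 0) (.cut .d (-8388608) (.cut .d (-12582912) (.void 3 ⟨107378, 0, 0, 0, 0, 0, 0, 0, 0, ⟨0, 0⟩, 0⟩ 0 0) (.void 3 ⟨100000, 0, 0, 0, 0, 0, 0, 0, 0, ⟨0, 0⟩, 0⟩ 0 0)) (.cut .d (-4194304) (.void 3 ⟨100000, 0, 0, 0, 0, 0, 0, 0, 0, ⟨0, 0⟩, 0⟩ 0 0) (.pos 3 .mm ⟨0, 0, 8710589764, 0, 0, 118044052895, 0, 0, 0, ⟨0, 0⟩, 0⟩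 0 0)))) (.cut .v 4294967296 (.cut .d (-8388608) (.void 82 ⟨100000, 0, 0, 0, 0, 0, 0, 0, 0, ⟨0, 0⟩, 0⟩ 0 0) (.cut .v 268435456 (.cut .v 67108864 (.cut .d (-4194304) (.void 44 ⟨100000, 0, 0, 0, 0, 0, 0, 0, 0, ⟨0, 0⟩, 0⟩ 0 0) (.cut .v 33554432 (.pos 16 .mp ⟨117300811451, 0, 0, 0, 0, 50471348549, 0, 0, 0, ⟨0, 0⟩, 0⟩ 0 0) (.void 45 ⟨100000, 0, 0, 0, 0, 0, 0, 0, 0, ⟨0, 0⟩, 0⟩ 0 0))) (.void 56 ⟨100000, 0, 0, 0, 0, 0, 0, 0, 0, ⟨0, 0⟩, 0⟩ 0 0)) (.void 83 ⟨88083, 0, 0, 11917, 0, 0, 0, 0, 0, ⟨0, 0⟩, 0⟩ 0 0))) (.void 122 ⟨91726, 0, 0, 8274, 0, 0, 0, 0, 0, ⟨0, 0⟩, 0⟩ 0 0))) (.cut .v 16777216 (.cut .v 8388608 (.cut .v 4194304 (.cut .v 2097152 (.cut .v 1048576 (.cut .v 524288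 (.cut .v 262144 (.cut .v 131072 (.cut .v 65536 (.cut .v 32768 (.pos 125 .pm ⟨0, 0, 76083765, 0, 0, 0, 0, 0, 0, ⟨0, 0⟩, 0⟩ 0 0) (.pos 126 .pm ⟨0, 0, 171703187, 0, 0, 0, 0, 0, 0, ⟨0, 0⟩, 0⟩ 0 0)) (.pos 124 .pm ⟨0, 0, 302834624, 0, 0, 0, 0, 0, 0, ⟨0, 0⟩, 0⟩ 0 0)) (.pos 115 .pm ⟨0, 0, 530036932, 0, 0, 0, 0, 0, 0, ⟨0, 0⟩, 0⟩ 0 0)) (.pos 113 .pm ⟨0, 0, 930581681, 0, 0, 0, 0, 0, 0, ⟨0, 0⟩, 0⟩ 0 0)) (.pos 97 .pm ⟨0, 0, 1637496362, 0, 0, 0, 0, 0, 0, ⟨0, 0⟩, 0⟩ 0 0)) (.pos 91 .pm ⟨0, 0, 3040315359, 0, 0, 0, 0, 0, 0, ⟨0, 0⟩, 0⟩ 0 0)) (.pos 68 .pm ⟨0, 0, 5720231668, 0, 0, 0, 0, 0, 0, ⟨0, 0⟩, 0⟩ 0 0)) (.pos 5 .pm ⟨0, 0, 10780466437, 0, 0, 0, 0, 0, 0, ⟨0, 0⟩, 0⟩ 0 0)) (.pos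 3 .pm ⟨0, 0, 8710589764, 0, 0, 0, 0, 0, 0, ⟨0, 0⟩, 0⟩ 0 0)) (.cut .v 4294967296 (.cut .v 268435456 (.cut .v 67108864 (.pos 44 .pp ⟨21788823578, 0, 0, 0, 0, 0, 0, 0, 0, ⟨0, 0⟩, 0⟩ 0 0) (.cut .v 134217728 (.cut .v 100663296 (.cut .v 83886080 (.pos 127 .pp ⟨157075638868, 0, 0, 10696521132, 0, 0, 0, 0, 0, ⟨0, 0⟩, 0⟩ 0 0) (.void 128 ⟨84653, 0, 0, 15347, 0, 0, 0, 0, 0, ⟨0, 0⟩, 0⟩ 0 0)) (.void 119 ⟨0, 0, 0, 100000, 0, 0, 0, 0, 0, ⟨0, 0⟩, 0⟩ 0 0)) (.void 109 ⟨0, 0, 0, 100000, 0, 0, 0, 0, 0, ⟨0, 0⟩, 0⟩ 0 0))) (.void 83 ⟨0, 0, 0, 100000, 0, 0, 0, 0, 0, ⟨0, 0⟩, 0⟩ 0 0)) (.void 122 ⟨0, 0, 0, 100000, 0, 0, 0, 0, 0, ⟨0, 0⟩, 0⟩ 0 0)))),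
    by decide +kernel⟩

def covers37 : cell.Covers table row37.1 :=
  ⟨(.cut .d 0 (.cut .v 16777216 (.cut .d (-8388608) (.void 1 ⟨0, 0, 101536, 0, 0, 0, 0, 0, 0, ⟨0, 0⟩, 0⟩ 0 0) (.cut .v 8388608 (.pos 2 .mm ⟨0, 0, 167772160000, 0, 0, 0, 0, 0, 0, ⟨0, 0⟩, 0⟩ 0 0) (.cut .d (-4194304) (.void 3 ⟨100000, 0, 0, 0, 0, 0, 0, 0, 0, ⟨0, 0⟩, 0⟩ 0 0) (.pos 3 .mm ⟨0, 0, 12216132238, 0, 0, 138062973537, 0, 0, 0, ⟨0, 0⟩, 0⟩ 0 0)))) (.cut .v 4294967296 (.cut .v 268435456 (.cut .v 67108864 (.cut .d (-8388608) (.void 44 ⟨100000, 0, 0, 0, 0, 0, 0, 0, 0, ⟨0, 0⟩, 0⟩ 0 0) (.cut .d (-4194304) (.void 44 ⟨100000, 0, 0, 0, 0, 0, 0, 0, 0, ⟨0, 0⟩, 0⟩ 0 0) (.cut .v 33554432 (.cut .d (-2097152)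 (.void 16 ⟨100000, 0, 0, 0, 0, 0, 0, 0, 0, ⟨0, 0⟩, 0⟩ 0 0) (.pos 16 .mp ⟨62839808631, 0, 0, 0, 0, 104932351369, 0, 0, 0, ⟨0, 0⟩, 0⟩ 0 0)) (.void 45 ⟨100000, 0, 0, 0, 0, 0, 0, 0, 0, ⟨0, 0⟩, 0⟩ 0 0)))) (.void 56 ⟨100000, 0, 0, 0, 0, 0, 0, 0, 0, ⟨0, 0⟩, 0⟩ 0 0)) (.void 83 ⟨0, 0, 6003, 8298, 0, 85313, 0, 0, 0, ⟨0, 0⟩, 0⟩ 0 0)) (.void 122 ⟨91719, 0, 0, 8281, 0, 0, 0, 0, 0, ⟨0, 0⟩, 0⟩ 0 0))) (.cut .v 16777216 (.cut .v 8388608 (.cut .v 4194304 (.cut .v 2097152 (.cut .v 1048576 (.cut .v 524288 (.cut .v 262144 (.cut .v 131072 (.cut .v 65536 (.cut .v 32768 (.cut .v 16384 (.pos 129 .pm ⟨0, 0, 57386271, 0, 0, 0, 0, 0, 0, ⟨0, 0⟩, 0⟩ 0 0) (.pos 130 .pm ⟨0, 0, 122633006, 0,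 0, 0, 0, 0, 0, ⟨0, 0⟩, 0⟩ 0 0)) (.pos 126 .pm ⟨0, 0, 213129614, 0, 0, 0, 0, 0, 0, ⟨0, 0⟩, 0⟩ 0 0)) (.pos 124 .pm ⟨0, 0, 379493454, 0, 0, 0, 0, 0, 0, ⟨0, 0⟩, 0⟩ 0 0)) (.pos 115 .pm ⟨0, 0, 675253499, 0, 0, 0, 0, 0, 0, ⟨0, 0⟩, 0⟩ 0 0)) (.pos 113 .pm ⟨0, 0, 1198040766, 0, 0, 0, 0, 0, 0, ⟨0, 0⟩, 0⟩ 0 0)) (.pos 97 .pm ⟨0, 0, 2113146161, 0, 0, 0, 0, 0, 0, ⟨0, 0⟩, 0⟩ 0 0)) (.pos 91 .pm ⟨0, 0, 3999783405, 0, 0, 0, 0, 0, 0, ⟨0, 0⟩, 0⟩ 0 0)) (.pos 68 .pm ⟨0, 0, 7668236173, 0, 0, 0, 0, 0, 0, ⟨0, 0⟩, 0⟩ 0 0)) (.pos 5 .pm ⟨0, 0, 15298427931, 0, 0, 0, 0, 0, 0, ⟨0, 0⟩, 0⟩ 0 0)) (.pos 3 .pm ⟨0, 0, 12216132238, 0, 0, 0, 0, 0, 0, ⟨0, 0⟩, 0⟩ 0 0)) (.cut .v 4294967296 (.cut .v 268435456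 (.cut .v 67108864 (.pos 44 .pp ⟨30598826163, 0, 0, 0, 0, 0, 0, 0, 0, ⟨0, 0⟩, 0⟩ 0 0) (.cut .v 134217728 (.cut .v 100663296 (.cut .v 83886080 (.pos 127 .pp ⟨163995399836, 0, 0, 3776760164, 0, 0, 0, 0, 0, ⟨0, 0⟩, 0⟩ 0 0) (.void 128 ⟨84653, 0, 0, 15347, 0, 0, 0, 0, 0, ⟨0, 0⟩, 0⟩ 0 0)) (.void 119 ⟨0, 0, 0, 100000, 0, 0, 0, 0, 0, ⟨0, 0⟩, 0⟩ 0 0)) (.void 109 ⟨0, 0, 0, 100000, 0, 0, 0, 0, 0, ⟨0, 0⟩, 0⟩ 0 0))) (.void 83 ⟨0, 0, 0, 100000, 0, 0, 0, 0, 0, ⟨0, 0⟩, 0⟩ 0 0)) (.void 122 ⟨0, 0, 0, 100000, 0, 0, 0, 0, 0, ⟨0, 0⟩, 0⟩ 0 0)))),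
    by decide +kernel⟩

def covers38 : cell.Covers table row38.1 :=
  ⟨(.cut .d 0 (.cut .v 16777216 (.cut .d (-8388608) (.void 1 ⟨0, 0, 0, 0, 0, 100000, 0, 0, 0, ⟨0, 0⟩, 0⟩ 0 0) (.cut .d (-4194304) (.void 1 ⟨0, 0, 0, 0, 0, 99979, 0, 0, 0, ⟨0, 0⟩, 0⟩ 0 0) (.cut .v 8388608 (.pos 2 .mm ⟨0, 0, 167772160000, 0, 0, 0, 0, 0, 0, ⟨0, 0⟩, 0⟩ 0 0) (.cut .v 12582912 (.pos 6 .mm ⟨8578052166, 0, 19451251296, 0, 0, 139742856539, 0, 0, 0, ⟨0, 0⟩, 0⟩ 0 0) (.pos 7 .mm ⟨86625385971, 0, 0, 0, 0, 81146774029, 0, 0, 0, ⟨0, 0⟩, 0⟩ 0 0))))) (.cut .v 4294967296 (.cut .v 268435456 (.cut .v 67108864 (.cut .d (-8388608) (.void 44 ⟨100000, 0, 0, 0, 0, 0, 0, 0, 0, ⟨0, 0⟩, 0⟩ 0 0) (.cut .d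 (-4194304) (.void 44 ⟨100000, 0, 0, 0, 0, 0, 0, 0, 0, ⟨0, 0⟩, 0⟩ 0 0) (.cut .v 33554432 (.cut .d (-2097152) (.void 16 ⟨100000, 0, 0, 0, 0, 0, 0, 0, 0, ⟨0, 0⟩, 0⟩ 0 0) (.cut .d (-1048576) (.void 16 ⟨100000, 0, 0, 0, 0, 0, 0, 0, 0, ⟨0, 0⟩, 0⟩ 0 0) (.pos 16 .mp ⟨135034146480, 0, 0, 0, 0, 32738013520, 0, 0, 0, ⟨0, 0⟩, 0⟩ 0 0))) (.void 45 ⟨100000, 0, 0, 0, 0, 0, 0, 0, 0, ⟨0, 0⟩, 0⟩ 0 0)))) (.void 56 ⟨100000, 0, 0, 0, 0, 0, 0, 0, 0, ⟨0, 0⟩, 0⟩ 0 0)) (.void 83 ⟨91704, 0, 0, 8296, 0, 0, 0, 0, 0, ⟨0, 0⟩, 0⟩ 0 0)) (.void 122 ⟨91704, 0, 0, 8296, 0, 0, 0, 0, 0, ⟨0, 0⟩, 0⟩ 0 0))) (.cut .v 16777216 (.cut .v 8388608 (.cut .v 4194304 (.cut .v 2097152 (.cut .v 1048576 (.cut .v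 524288 (.cut .v 262144 (.cut .v 131072 (.cut .v 65536 (.cut .v 32768 (.cut .v 16384 (.cut .v 8192 (.pos 131 .pm ⟨0, 0, 49853695, 0, 0, 0, 0, 0, 0, ⟨0, 0⟩, 0⟩ 0 0) (.pos 132 .pm ⟨0, 0, 104296242, 0, 0, 0, 0, 0, 0, ⟨0, 0⟩, 0⟩ 0 0)) (.pos 130 .pm ⟨0, 0, 181262213, 0, 0, 0, 0, 0, 0, ⟨0, 0⟩, 0⟩ 0 0)) (.pos 126 .pm ⟨0, 0, 321181473, 0, 0, 0, 0, 0, 0, ⟨0, 0⟩, 0⟩ 0 0)) (.pos 124 .pm ⟨0, 0, 567492511, 0, 0, 0, 0, 0, 0, ⟨0, 0⟩, 0⟩ 0 0)) (.pos 115 .pm ⟨0, 0, 1007128474, 0, 0, 0, 0, 0, 0, ⟨0, 0⟩, 0⟩ 0 0)) (.pos 113 .pm ⟨0, 0, 1779287931, 0, 0, 0, 0, 0, 0, ⟨0, 0⟩, 0⟩ 0 0)) (.pos 97 .pm ⟨0, 0, 3172954079, 0, 0, 0, 0, 0, 0, ⟨0, 0⟩, 0⟩ 0 0)) (.pos 91 .pm ⟨0, 0, 5872882603, 0,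 0, 0, 0, 0, 0, ⟨0, 0⟩, 0⟩ 0 0)) (.pos 68 .pm ⟨0, 0, 10840633553, 0, 0, 0, 0, 0, 0, ⟨0, 0⟩, 0⟩ 0 0)) (.pos 5 .pm ⟨0, 0, 19510697946, 0, 0, 0, 0, 0, 0, ⟨0, 0⟩, 0⟩ 0 0)) (.pos 3 .pm ⟨0, 0, 14952952147, 0, 0, 0, 0, 0, 0, ⟨0, 0⟩, 0⟩ 0 0)) (.cut .v 4294967296 (.cut .v 268435456 (.cut .v 67108864 (.pos 44 .pp ⟨39791125976, 0, 0, 0, 0, 0, 0, 0, 0, ⟨0, 0⟩, 0⟩ 0 0) (.cut .v 134217728 (.cut .v 100663296 (.cut .v 83886080 (.cut .v 75497472 (.pos 133 .pp ⟨167772160000, 0, 0, 0, 0, 0, 0, 0, 0, ⟨0, 0⟩, 0⟩ 0 0) (.void 134 ⟨84634, 0, 0, 15366, 0, 0, 0, 0, 0, ⟨0, 0⟩, 0⟩ 0 0)) (.void 128 ⟨84634, 0, 0, 15366, 0, 0, 0, 0, 0, ⟨0, 0⟩, 0⟩ 0 0)) (.void 119 ⟨0, 0, 0, 100000, 0, 0, 0, 0,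 0, ⟨0, 0⟩, 0⟩ 0 0)) (.void 109 ⟨0, 0, 0, 100000, 0, 0, 0, 0, 0, ⟨0, 0⟩, 0⟩ 0 0))) (.void 83 ⟨0, 0, 0, 100000, 0, 0, 0, 0, 0, ⟨0, 0⟩, 0⟩ 0 0)) (.void 122 ⟨0, 0, 0, 100000, 0, 0, 0, 0, 0, ⟨0, 0⟩, 0⟩ 0 0)))),
    by decide +kernel⟩

def covers39 : cell.Covers table row39.1 :=
  ⟨(.cut .d 0 (.cut .v 16777216 (.cut .d (-8388608) (.void 1 ⟨0, 0, 0, 0, 0, 99991, 0, 0, 0, ⟨0, 0⟩, 0⟩ 0 0) (.cut .d (-4194304) (.void 1 ⟨0, 0, 0, 0, 0, 1000000000, 0, 0, 0, ⟨0, 0⟩, 0⟩ 0 0) (.cut .v 8388608 (.pos 2 .mm ⟨0, 0, 167772160000, 0, 0, 0, 0, 0, 0, ⟨0, 0⟩, 0⟩ 0 0) (.cut .d (-2097152) (.void 3 ⟨100000, 0, 0, 0, 0, 0, 0, 0, 0, ⟨0, 0⟩, 0⟩ 0 0) (.cut .v 12582912 (.pos 6 .mm ⟨13437669064,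 0, 31979670448, 0, 0, 122354820488, 0, 0, 0, ⟨0, 0⟩, 0⟩ 0 0) (.pos 7 .mm ⟨81812546183, 0, 0, 0, 0, 85959613817, 0, 0, 0, ⟨0, 0⟩, 0⟩ 0 0)))))) (.cut .v 4294967296 (.cut .v 268435456 (.cut .v 67108864 (.cut .d (-8388608) (.void 44 ⟨100000, 0, 0, 0, 0, 0, 0, 0, 0, ⟨0, 0⟩, 0⟩ 0 0) (.cut .d (-4194304) (.void 44 ⟨100000, 0, 0, 0, 0, 0, 0, 0, 0, ⟨0, 0⟩, 0⟩ 0 0) (.cut .d (-2097152) (.void 44 ⟨100000, 0, 0, 0, 0, 0, 0, 0, 0, ⟨0, 0⟩, 0⟩ 0 0) (.cut .v 33554432 (.cut .d (-1048576) (.void 16 ⟨100000, 0, 0, 0, 0, 0, 0, 0, 0, ⟨0, 0⟩, 0⟩ 0 0) (.cut .v 25165824 (.pos 17 .mp ⟨146407625470, 0, 0, 0, 0, 21364534530, 0, 0, 0, ⟨0, 0⟩, 0⟩ 0 0) (.void 18 ⟨100000, 0, 0, 0, 0, 0, 0, 0,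 0, ⟨0, 0⟩, 0⟩ 0 0))) (.void 45 ⟨100000, 0, 0, 0, 0, 0, 0, 0, 0, ⟨0, 0⟩, 0⟩ 0 0))))) (.void 56 ⟨100000, 0, 0, 0, 0, 0, 0, 0, 0, ⟨0, 0⟩, 0⟩ 0 0)) (.void 83 ⟨91696, 0, 0, 8303, 0, 0, 0, 0, 0, ⟨0, 0⟩, 0⟩ 0 0)) (.void 122 ⟨91697, 0, 0, 8303, 0, 0, 0, 0, 0, ⟨0, 0⟩, 0⟩ 0 0))) (.cut .v 16777216 (.cut .v 8388608 (.cut .v 4194304 (.cut .v 2097152 (.cut .v 1048576 (.cut .v 524288 (.cut .v 262144 (.cut .v 131072 (.cut .v 65536 (.cut .v 32768 (.cut .v 16384 (.cut .v 8192 (.pos 131 .pm ⟨0, 0, 64660711, 0, 0, 0, 0, 0, 0, ⟨0, 0⟩, 0⟩ 0 0) (.pos 132 .pm ⟨0, 0, 144720665, 0, 0, 0, 0, 0, 0, ⟨0, 0⟩, 0⟩ 0 0)) (.pos 130 .pm ⟨0, 0, 257461283, 0, 0, 0, 0, 0, 0, ⟨0, 0⟩, 0⟩ 0 0)) (.pos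 126 .pm ⟨0, 0, 468130056, 0, 0, 0, 0, 0, 0, ⟨0, 0⟩, 0⟩ 0 0)) (.pos 124 .pm ⟨0, 0, 842853414, 0, 0, 0, 0, 0, 0, ⟨0, 0⟩, 0⟩ 0 0)) (.pos 115 .pm ⟨0, 0, 1516611231, 0, 0, 0, 0, 0, 0, ⟨0, 0⟩, 0⟩ 0 0)) (.pos 113 .pm ⟨0, 0, 2712978459, 0, 0, 0, 0, 0, 0, ⟨0, 0⟩, 0⟩ 0 0)) (.pos 97 .pm ⟨0, 0, 4836088874, 0, 0, 0, 0, 0, 0, ⟨0, 0⟩, 0⟩ 0 0)) (.pos 91 .pm ⟨0, 0, 9065272244, 0, 0, 0, 0, 0, 0, ⟨0, 0⟩, 0⟩ 0 0)) (.pos 68 .pm ⟨0, 0, 17147276186, 0, 0, 0, 0, 0, 0, ⟨0, 0⟩, 0⟩ 0 0)) (.pos 5 .pm ⟨0, 0, 32701572821, 0, 0, 0, 0, 0, 0, ⟨0, 0⟩, 0⟩ 0 0)) (.pos 3 .pm ⟨0, 0, 24868482034, 0, 0, 0, 0, 0, 0, ⟨0, 0⟩, 0⟩ 0 0)) (.cut .v 4294967296 (.cut .v 268435456 (.cut .v 67108864 (.pos 44 .pp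 ⟨67163157880, 0, 0, 0, 0, 0, 0, 0, 0, ⟨0, 0⟩, 0⟩ 0 0) (.cut .v 134217728 (.cut .v 100663296 (.cut .v 83886080 (.cut .v 75497472 (.pos 133 .pp ⟨167772160000, 0, 0, 0, 0, 0, 0, 0, 0, ⟨0, 0⟩, 0⟩ 0 0) (.void 134 ⟨84634, 0, 0, 15366, 0, 0, 0, 0, 0, ⟨0, 0⟩, 0⟩ 0 0)) (.void 128 ⟨84634, 0, 0, 15366, 0, 0, 0, 0, 0, ⟨0, 0⟩, 0⟩ 0 0)) (.void 119 ⟨0, 0, 0, 100000, 0, 0, 0, 0, 0, ⟨0, 0⟩, 0⟩ 0 0)) (.void 109 ⟨0, 0, 0, 100000, 0, 0, 0, 0, 0, ⟨0, 0⟩, 0⟩ 0 0))) (.void 83 ⟨0, 0, 0, 100000, 0, 0, 0, 0, 0, ⟨0, 0⟩, 0⟩ 0 0)) (.void 122 ⟨0, 0, 0, 100000, 0, 0, 0, 0, 0, ⟨0, 0⟩, 0⟩ 0 0)))),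
    by decide +kernel⟩

def covers40 : cell.Covers table row40.1 :=
  ⟨(.cut .d 0 (.cut .v 16777216 (.cut .d (-8388608) (.void 1 ⟨0, 0, 0, 0, 0, 100001, 0, 0, 0, ⟨0, 0⟩, 0⟩ 0 0) (.cut .d (-4194304) (.void 1 ⟨0, 0, 138066, 0, 0, 0, 0, 0, 0, ⟨0, 0⟩, 0⟩ 0 0) (.cut .d (-2097152) (.void 1 ⟨0, 0, 100000, 0, 0, 0, 0, 0, 0, ⟨0, 0⟩, 0⟩ 0 0) (.cut .v 8388608 (.void 2 ⟨0, 0, 100000, 0, 0, 0, 0, 0, 0, ⟨0, 0⟩, 0⟩ 0 0) (.cut .d (-1048576) (.void 3 ⟨100000, 0, 0, 0, 0, 0, 0, 0, 0, ⟨0, 0⟩, 0⟩ 0 0) (.cut .v 12582912 (.pos 6 .mm ⟨69289186918, 0, 67610371799, 0, 0, 30872601283, 0, 0, 0, ⟨0, 0⟩, 0⟩ 0 0) (.pos 7 .mm ⟨150991770045, 0, 0, 0, 0, 16780389955, 0, 0, 0, ⟨0, 0⟩, 0⟩ 0 0)))))))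 (.cut .v 4294967296 (.cut .v 268435456 (.cut .v 67108864 (.cut .d (-8388608) (.void 44 ⟨100000, 0, 0, 0, 0, 0, 0, 0, 0, ⟨0, 0⟩, 0⟩ 0 0) (.cut .d (-4194304) (.void 44 ⟨100000, 0, 0, 0, 0, 0, 0, 0, 0, ⟨0, 0⟩, 0⟩ 0 0) (.cut .d (-2097152) (.void 44 ⟨100000, 0, 0, 0, 0, 0, 0, 0, 0, ⟨0, 0⟩, 0⟩ 0 0) (.cut .v 33554432 (.cut .d (-1048576) (.void 16 ⟨100000, 0, 0, 0, 0, 0, 0, 0, 0, ⟨0, 0⟩, 0⟩ 0 0) (.cut .d (-524288) (.void 16 ⟨100000, 0, 0, 0, 0, 0, 0, 0, 0, ⟨0, 0⟩, 0⟩ 0 0) (.cut .v 25165824 (.cut .v 20971520 (.cut .d (-262144) (.void 19 ⟨100000, 0, 0, 0, 0, 0, 0, 0, 0, ⟨0, 0⟩, 0⟩ 0 0) (.pos 19 .mp ⟨167772160000, 0, 0, 0, 0, 0, 0, 0, 0, ⟨0, 0⟩, 0⟩ 0 0)) (.void 20 ⟨100000,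 0, 0, 0, 0, 0, 0, 0, 0, ⟨0, 0⟩, 0⟩ 0 0)) (.void 18 ⟨100000, 0, 0, 0, 0, 0, 0, 0, 0, ⟨0, 0⟩, 0⟩ 0 0)))) (.void 45 ⟨100000, 0, 0, 0, 0, 0, 0, 0, 0, ⟨0, 0⟩, 0⟩ 0 0))))) (.void 56 ⟨100000, 0, 0, 0, 0, 0, 0, 0, 0, ⟨0, 0⟩, 0⟩ 0 0)) (.void 83 ⟨91689, 0, 0, 8311, 0, 0, 0, 0, 0, ⟨0, 0⟩, 0⟩ 0 0)) (.void 122 ⟨91689, 0, 0, 8311, 0, 0, 0, 0, 0, ⟨0, 0⟩, 0⟩ 0 0))) (.cut .v 16777216 (.cut .v 8388608 (.cut .v 4194304 (.cut .v 2097152 (.cut .v 1048576 (.cut .v 524288 (.cut .v 262144 (.cut .v 131072 (.cut .v 65536 (.cut .v 32768 (.cut .v 16384 (.cut .v 8192 (.cut .v 4096 (.pos 135 .pm ⟨0, 0, 54782531, 0, 0, 0, 0, 0, 0, ⟨0, 0⟩, 0⟩ 0 0) (.pos 136 .pm ⟨0, 0, 118849030, 0, 0, 0, 0,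 0, 0, ⟨0, 0⟩, 0⟩ 0 0)) (.pos 132 .pm ⟨0, 0, 209987715, 0, 0, 0, 0, 0, 0, ⟨0, 0⟩, 0⟩ 0 0)) (.pos 130 .pm ⟨0, 0, 382240473, 0, 0, 0, 0, 0, 0, ⟨0, 0⟩, 0⟩ 0 0)) (.pos 126 .pm ⟨0, 0, 692657693, 0, 0, 0, 0, 0, 0, ⟨0, 0⟩, 0⟩ 0 0)) (.pos 124 .pm ⟨0, 0, 1254952971, 0, 0, 0, 0, 0, 0, ⟨0, 0⟩, 0⟩ 0 0)) (.pos 115 .pm ⟨0, 0, 2264644382, 0, 0, 0, 0, 0, 0, ⟨0, 0⟩, 0⟩ 0 0)) (.pos 113 .pm ⟨0, 0, 4053395558, 0, 0, 0, 0, 0, 0, ⟨0, 0⟩, 0⟩ 0 0)) (.pos 97 .pm ⟨0, 0, 7302681594, 0, 0, 0, 0, 0, 0, ⟨0, 0⟩, 0⟩ 0 0)) (.pos 91 .pm ⟨0, 0, 13562584832, 0, 0, 0, 0, 0, 0, ⟨0, 0⟩, 0⟩ 0 0)) (.pos 68 .pm ⟨0, 0, 25376711036, 0, 0, 0, 0, 0, 0, ⟨0, 0⟩, 0⟩ 0 0)) (.pos 5 .pm ⟨0, 0, 46704403477, 0, 0,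 0, 0, 0, 0, ⟨0, 0⟩, 0⟩ 0 0)) (.pos 3 .pm ⟨0, 0, 34829536932, 0, 0, 0, 0, 0, 0, ⟨0, 0⟩, 0⟩ 0 0)) (.cut .v 4294967296 (.cut .v 268435456 (.cut .v 67108864 (.pos 44 .pp ⟨98181700802, 0, 0, 0, 0, 0, 0, 0, 0, ⟨0, 0⟩, 0⟩ 0 0) (.cut .v 134217728 (.cut .v 100663296 (.cut .v 83886080 (.cut .v 75497472 (.cut .v 71303168 (.pos 137 .pp ⟨167772160000, 0, 0, 0, 0, 0, 0, 0, 0, ⟨0, 0⟩, 0⟩ 0 0) (.void 138 ⟨84628, 0, 0, 15372, 0, 0, 0, 0, 0, ⟨0, 0⟩, 0⟩ 0 0)) (.void 134 ⟨84628, 0, 0, 15372, 0, 0, 0, 0, 0, ⟨0, 0⟩, 0⟩ 0 0)) (.void 128 ⟨84628, 0, 0, 15372, 0, 0, 0, 0, 0, ⟨0, 0⟩, 0⟩ 0 0)) (.void 119 ⟨0, 0, 0, 100000, 0, 0, 0, 0, 0, ⟨0, 0⟩, 0⟩ 0 0)) (.void 109 ⟨0, 0, 0, 100000, 0, 0,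 0, 0, 0, ⟨0, 0⟩, 0⟩ 0 0))) (.void 83 ⟨0, 0, 0, 100000, 0, 0, 0, 0, 0, ⟨0, 0⟩, 0⟩ 0 0)) (.void 122 ⟨0, 0, 0, 100000, 0, 0, 0, 0, 0, ⟨0, 0⟩, 0⟩ 0 0)))),
    by decide +kernel⟩

def covers41 : cell.Covers table row41.1 :=
  ⟨(.cut .d 0 (.cut .v 16777216 (.cut .d (-8388608) (.void 1 ⟨0, 0, 0, 0, 0, 100000, 0, 0, 0, ⟨0, 0⟩, 0⟩ 0 0) (.cut .d (-4194304) (.void 1 ⟨0, 0, 0, 0, 0, 100000, 0, 0, 0, ⟨0, 0⟩, 0⟩ 0 0) (.cut .d (-2097152) (.void 1 ⟨0, 0, 0, 0, 0, 100000, 0, 0, 0, ⟨0, 0⟩, 0⟩ 0 0) (.cut .d (-1048576) (.void 1 ⟨0, 0, 0, 0, 0, 100000, 0, 0, 0, ⟨0, 0⟩, 0⟩ 0 0) (.cut .d (-524288) (.void 1 ⟨0, 0, 215, 0, 0, 99612, 0, 0, 0, ⟨0, 0⟩, 0⟩ 0 0) (.cut .d (-262144) (.void 1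 ⟨0, 0, 0, 0, 0, 100000, 0, 0, 0, ⟨0, 0⟩, 0⟩ 0 0) (.cut .v 8388608 (.cut .v 4194304 (.pos 4 .mm ⟨0, 0, 167772160000, 0, 0, 0, 0, 0, 0, ⟨0, 0⟩, 0⟩ 0 0) (.void 5 ⟨0, 0, 100000, 0, 0, 0, 0, 0, 0, ⟨0, 0⟩, 0⟩ 0 0)) (.cut .d (-131072) (.void 3 ⟨100000, 0, 0, 0, 0, 0, 0, 0, 0, ⟨0, 0⟩, 0⟩ 0 0) (.cut .d (-65536) (.void 3 ⟨100000, 0, 0, 0, 0, 0, 0, 0, 0, ⟨0, 0⟩, 0⟩ 0 0) (.cut .d (-32768) (.void 3 ⟨100000, 0, 0, 0, 0, 0, 0, 0, 0, ⟨0, 0⟩, 0⟩ 0 0) (.cut .d (-16384) (.void 3 ⟨0, 0, 0, 0, 0, 100000, 0, 0, 0, ⟨0, 0⟩, 0⟩ 0 0) (.pos 3 .mm ⟨57747830649, 0, 0, 0, 0, 110024329351, 0, 0, 0, ⟨0, 0⟩, 0⟩ 0 0)))))))))))) (.cut .v 4294967296 (.cut .v 268435456 (.cut .v 67108864 (.cut .d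 (-8388608) (.void 44 ⟨100000, 0, 0, 0, 0, 0, 0, 0, 0, ⟨0, 0⟩, 0⟩ 0 0) (.cut .d (-4194304) (.void 44 ⟨100000, 0, 0, 0, 0, 0, 0, 0, 0, ⟨0, 0⟩, 0⟩ 0 0) (.cut .d (-2097152) (.void 44 ⟨100000, 0, 0, 0, 0, 0, 0, 0, 0, ⟨0, 0⟩, 0⟩ 0 0) (.cut .v 33554432 (.cut .d (-1048576) (.void 16 ⟨100000, 0, 0, 0, 0, 0, 0, 0, 0, ⟨0, 0⟩, 0⟩ 0 0) (.cut .d (-524288) (.void 16 ⟨100000, 0, 0, 0, 0, 0, 0, 0, 0, ⟨0, 0⟩, 0⟩ 0 0) (.cut .d (-262144) (.void 16 ⟨100000, 0, 0, 0, 0, 0, 0, 0, 0, ⟨0, 0⟩, 0⟩ 0 0) (.cut .d (-131072) (.void 16 ⟨100000, 0, 0, 0, 0, 0, 0, 0, 0, ⟨0, 0⟩, 0⟩ 0 0) (.cut .d (-65536) (.void 16 ⟨100000, 0, 0, 0, 0, 0, 0, 0, 0, ⟨0, 0⟩, 0⟩ 0 0) (.cut .d (-32768) (.void 16 ⟨100000,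 0, 0, 0, 0, 0, 0, 0, 0, ⟨0, 0⟩, 0⟩ 0 0) (.cut .d (-16384) (.void 16 ⟨100000, 0, 0, 0, 0, 0, 0, 0, 0, ⟨0, 0⟩, 0⟩ 0 0) (.cut .d (-8192) (.void 16 ⟨100000, 0, 0, 0, 0, 0, 0, 0, 0, ⟨0, 0⟩, 0⟩ 0 0) (.pos 16 .mp ⟨167772160000, 0, 0, 0, 0, 0, 0, 0, 0, ⟨0, 0⟩, 0⟩ 0 0))))))))) (.void 45 ⟨100000, 0, 0, 0, 0, 0, 0, 0, 0, ⟨0, 0⟩, 0⟩ 0 0))))) (.void 56 ⟨100000, 0, 0, 0, 0, 0, 0, 0, 0, ⟨0, 0⟩, 0⟩ 0 0)) (.void 83 ⟨91682, 0, 0, 8318, 0, 0, 0, 0, 0, ⟨0, 0⟩, 0⟩ 0 0)) (.void 122 ⟨91682, 0, 0, 8318, 0, 0, 0, 0, 0, ⟨0, 0⟩, 0⟩ 0 0))) (.cut .v 16777216 (.cut .v 8388608 (.cut .v 4194304 (.cut .v 2097152 (.cut .v 1048576 (.cut .v 524288 (.cut .v 262144 (.cut .v 131072 (.cut .v 65536 (.cut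 .v 32768 (.cut .v 16384 (.cut .v 8192 (.cut .v 4096 (.cut .v 2048 (.pos 139 .pm ⟨0, 0, 52577740, 0, 0, 0, 0, 0, 0, ⟨0, 0⟩, 0⟩ 0 0) (.pos 140 .pm ⟨0, 0, 111086470, 0, 0, 0, 0, 0, 0, ⟨0, 0⟩, 0⟩ 0 0)) (.pos 136 .pm ⟨0, 0, 196583085, 0, 0, 0, 0, 0, 0, ⟨0, 0⟩, 0⟩ 0 0)) (.pos 132 .pm ⟨0, 0, 357476206, 0, 0, 0, 0, 0, 0, ⟨0, 0⟩, 0⟩ 0 0)) (.pos 130 .pm ⟨0, 0, 645822251, 0, 0, 0, 0, 0, 0, ⟨0, 0⟩, 0⟩ 0 0)) (.pos 126 .pm ⟨0, 0, 1175913709, 0, 0, 0, 0, 0, 0, ⟨0, 0⟩, 0⟩ 0 0)) (.pos 124 .pm ⟨0, 0, 2137447886, 0, 0, 0, 0, 0, 0, ⟨0, 0⟩, 0⟩ 0 0)) (.pos 115 .pm ⟨0, 0, 3854839494, 0, 0, 0, 0, 0, 0, ⟨0, 0⟩, 0⟩ 0 0)) (.pos 113 .pm ⟨0, 0, 6872516524, 0, 0, 0, 0, 0, 0, ⟨0, 0⟩, 0⟩ 0 0))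 (.pos 97 .pm ⟨0, 0, 12400289699, 0, 0, 0, 0, 0, 0, ⟨0, 0⟩, 0⟩ 0 0)) (.pos 91 .pm ⟨0, 0, 23268697284, 0, 0, 0, 0, 0, 0, ⟨0, 0⟩, 0⟩ 0 0)) (.pos 68 .pm ⟨0, 0, 42607527869, 0, 0, 0, 0, 0, 0, ⟨0, 0⟩, 0⟩ 0 0)) (.pos 5 .pm ⟨0, 0, 75075790509, 0, 0, 0, 0, 0, 0, ⟨0, 0⟩, 0⟩ 0 0)) (.pos 3 .pm ⟨0, 0, 53749037418, 0, 0, 0, 0, 0, 0, ⟨0, 0⟩, 0⟩ 0 0)) (.cut .v 4294967296 (.cut .v 268435456 (.cut .v 67108864 (.pos 44 .pp ⟨160843550630, 0, 0, 0, 0, 0, 0, 0, 0, ⟨0, 0⟩, 0⟩ 0 0) (.cut .v 134217728 (.cut .v 100663296 (.cut .v 83886080 (.cut .v 75497472 (.cut .v 71303168 (.cut .d 24649 (.cut .d 12324 (.cut .d 6162 (.void 137 ⟨100000, 0, 0, 0, 0, 0, 0, 0, 0, ⟨0, 0⟩, 0⟩ 0 0) (.pos 137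 .pp ⟨167772160000, 0, 0, 0, 0, 0, 0, 0, 0, ⟨0, 0⟩, 0⟩ 0 0)) (.pos 137 .pp ⟨105192085327, 0, 0, 62580074673, 0, 0, 0, 0, 0, ⟨0, 0⟩, 0⟩ 0 0)) (.void 137 ⟨0, 0, 0, 100000, 0, 0, 0, 0, 0, ⟨0, 0⟩, 0⟩ 0 0)) (.void 138 ⟨84622, 0, 0, 15378, 0, 0, 0, 0, 0, ⟨0, 0⟩, 0⟩ 0 0)) (.void 134 ⟨84622, 0, 0, 15378, 0, 0, 0, 0, 0, ⟨0, 0⟩, 0⟩ 0 0)) (.void 128 ⟨84622, 0, 0, 15378, 0, 0, 0, 0, 0, ⟨0, 0⟩, 0⟩ 0 0)) (.void 119 ⟨0, 0, 0, 100000, 0, 0, 0, 0, 0, ⟨0, 0⟩, 0⟩ 0 0)) (.void 109 ⟨0, 0, 0, 100000, 0, 0, 0, 0, 0, ⟨0, 0⟩, 0⟩ 0 0))) (.void 83 ⟨0, 0, 0, 100000, 0, 0, 0, 0, 0, ⟨0, 0⟩, 0⟩ 0 0)) (.void 122 ⟨0, 0, 0, 100000, 0, 0, 0, 0, 0, ⟨0, 0⟩, 0⟩ 0 0)))),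
    by decide +kernel⟩

def covers42 : cell.Covers table row42.1 :=
  ⟨(.cut .d 0 (.cut .v 16777216 (.cut .d (-8388608) (.void 1 ⟨0, 0, 0, 0, 0, 100000, 0, 0, 0, ⟨0, 0⟩, 0⟩ 0 0) (.cut .d (-4194304) (.void 1 ⟨0, 0, 0, 0, 0, 99997, 0, 0, 0, ⟨0, 0⟩, 0⟩ 0 0) (.cut .d (-2097152) (.void 1 ⟨0, 0, 0, 0, 0, 100000, 0, 0, 0, ⟨0, 0⟩, 0⟩ 0 0) (.cut .d (-1048576) (.void 1 ⟨0, 0, 0, 0, 0, 100000, 0, 0, 0, ⟨0, 0⟩, 0⟩ 0 0) (.cut .d (-524288) (.void 1 ⟨0, 0, 0, 0, 0, 100000, 0, 0, 0, ⟨0, 0⟩, 0⟩ 0 0) (.cut .d (-262144) (.void 1 ⟨0, 0, 0, 0, 0, 100000, 0, 0, 0, ⟨0, 0⟩, 0⟩ 0 0) (.cut .d (-131072) (.void 1 ⟨0, 0, 0, 0, 0, 100000, 0, 0, 0, ⟨0, 0⟩, 0⟩ 0 0) (.cut .v 8388608 (.void 2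 ⟨0, 0, 177374, 0, 0, 3696, 0, 0, 0, ⟨0, 0⟩, 0⟩ 0 0) (.cut .d (-65536) (.void 3 ⟨100000, 0, 0, 0, 0, 0, 0, 0, 0, ⟨0, 0⟩, 0⟩ 0 0) (.cut .d (-32768) (.void 3 ⟨100000, 0, 0, 0, 0, 0, 0, 0, 0, ⟨0, 0⟩, 0⟩ 0 0) (.cut .d (-16384) (.void 3 ⟨100000, 0, 0, 0, 0, 0, 0, 0, 0, ⟨0, 0⟩, 0⟩ 0 0) (.pos 3 .mm ⟨88594734713, 0, 0, 0, 0, 79177425287, 0, 0, 0, ⟨0, 0⟩, 0⟩ 0 0)))))))))))) (.cut .v 4294967296 (.cut .v 268435456 (.cut .v 67108864 (.cut .d (-8388608) (.void 44 ⟨100000, 0, 0, 0, 0, 0, 0, 0, 0, ⟨0, 0⟩, 0⟩ 0 0) (.cut .d (-4194304) (.void 44 ⟨100000, 0, 0, 0, 0, 0, 0, 0, 0, ⟨0, 0⟩, 0⟩ 0 0) (.cut .d (-2097152) (.void 44 ⟨100000, 0, 0, 0, 0, 0, 0, 0, 0, ⟨0, 0⟩, 0⟩ 0 0) (.cut .d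 (-1048576) (.void 44 ⟨100000, 0, 0, 0, 0, 0, 0, 0, 0, ⟨0, 0⟩, 0⟩ 0 0) (.cut .v 33554432 (.cut .d (-524288) (.void 16 ⟨100000, 0, 0, 0, 0, 0, 0, 0, 0, ⟨0, 0⟩, 0⟩ 0 0) (.cut .d (-262144) (.void 16 ⟨100000, 0, 0, 0, 0, 0, 0, 0, 0, ⟨0, 0⟩, 0⟩ 0 0) (.cut .d (-131072) (.void 16 ⟨100000, 0, 0, 0, 0, 0, 0, 0, 0, ⟨0, 0⟩, 0⟩ 0 0) (.cut .d (-65536) (.void 16 ⟨100000, 0, 0, 0, 0, 0, 0, 0, 0, ⟨0, 0⟩, 0⟩ 0 0) (.cut .d (-32768) (.void 16 ⟨100000, 0, 0, 0, 0, 0, 0, 0, 0, ⟨0, 0⟩, 0⟩ 0 0) (.cut .d (-16384) (.void 16 ⟨100000, 0, 0, 0, 0, 0, 0, 0, 0, ⟨0, 0⟩, 0⟩ 0 0) (.cut .d (-8192) (.void 16 ⟨100000, 0, 0, 0, 0, 0, 0, 0, 0, ⟨0, 0⟩, 0⟩ 0 0) (.pos 16 .mp ⟨167772160000, 0, 0, 0, 0,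 0, 0, 0, 0, ⟨0, 0⟩, 0⟩ 0 0)))))))) (.void 45 ⟨100000, 0, 0, 0, 0, 0, 0, 0, 0, ⟨0, 0⟩, 0⟩ 0 0)))))) (.void 56 ⟨100000, 0, 0, 0, 0, 0, 0, 0, 0, ⟨0, 0⟩, 0⟩ 0 0)) (.void 83 ⟨91676, 0, 0, 8324, 0, 0, 0, 0, 0, ⟨0, 0⟩, 0⟩ 0 0)) (.void 122 ⟨91547, 0, 0, 8454, 0, 0, 0, 0, 0, ⟨0, 0⟩, 0⟩ 0 0))) (.cut .v 16777216 (.cut .v 8388608 (.cut .v 4194304 (.cut .v 2097152 (.cut .v 1048576 (.cut .v 524288 (.cut .v 262144 (.cut .v 131072 (.cut .v 65536 (.cut .v 32768 (.cut .v 16384 (.cut .v 8192 (.cut .v 4096 (.pos 135 .pm ⟨0, 0, 92812244, 0, 0, 0, 0, 0, 0, ⟨0, 0⟩, 0⟩ 0 0) (.pos 136 .pm ⟨0, 0, 225191831, 0, 0, 0, 0, 0, 0, ⟨0, 0⟩, 0⟩ 0 0)) (.pos 132 .pm ⟨0, 0, 409995456, 0, 0, 0, 0,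 0, 0, ⟨0, 0⟩, 0⟩ 0 0)) (.pos 130 .pm ⟨0, 0, 755026373, 0, 0, 0, 0, 0, 0, ⟨0, 0⟩, 0⟩ 0 0)) (.pos 126 .pm ⟨0, 0, 1392932172, 0, 0, 0, 0, 0, 0, ⟨0, 0⟩, 0⟩ 0 0)) (.pos 124 .pm ⟨0, 0, 2559521881, 0, 0, 0, 0, 0, 0, ⟨0, 0⟩, 0⟩ 0 0)) (.pos 115 .pm ⟨0, 0, 4669410454, 0, 0, 0, 0, 0, 0, ⟨0, 0⟩, 0⟩ 0 0)) (.pos 113 .pm ⟨0, 0, 8453370999, 0, 0, 0, 0, 0, 0, ⟨0, 0⟩, 0⟩ 0 0)) (.pos 97 .pm ⟨0, 0, 15502304428, 0, 0, 0, 0, 0, 0, ⟨0, 0⟩, 0⟩ 0 0)) (.pos 91 .pm ⟨0, 0, 30203652278, 0, 0, 0, 0, 0, 0, ⟨0, 0⟩, 0⟩ 0 0)) (.pos 68 .pm ⟨0, 0, 60062841860, 0, 0, 0, 0, 0, 0, ⟨0, 0⟩, 0⟩ 0 0)) (.pos 5 .pm ⟨0, 0, 135247566978, 0, 0, 0, 0, 0, 0, ⟨0, 0⟩, 0⟩ 0 0)) (.pos 3 .pm ⟨0, 0, 98965400466, 0,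 0, 0, 0, 0, 0, ⟨0, 0⟩, 0⟩ 0 0)) (.cut .v 4294967296 (.cut .v 268435456 (.cut .v 67108864 (.pos 44 .pp ⟨167772160000, 0, 0, 0, 0, 0, 0, 0, 0, ⟨0, 0⟩, 0⟩ 0 0) (.cut .v 134217728 (.cut .v 100663296 (.cut .v 83886080 (.cut .v 75497472 (.cut .v 71303168 (.cut .s 16750592 (.cut .s 16747520 (.cut .s 16745984 (.cut .s 16745216 (.cut .d 16417 (.cut .d 8208 (.cut .d 4104 (.void 137 ⟨100000, 0, 0, 0, 0, 0, 0, 0, 0, ⟨0, 0⟩, 0⟩ 0 0) (.pos 137 .pp ⟨167772160000, 0, 0, 0, 0, 0, 0, 0, 0, ⟨0, 0⟩, 0⟩ 0 0)) (.pos 137 .pp ⟨40128252051, 0, 0, 127643907949, 0, 0, 0, 0, 0, ⟨0, 0⟩, 0⟩ 0 0)) (.void 137 ⟨0, 0, 0, 100000, 0, 0, 0, 0, 0, ⟨0, 0⟩, 0⟩ 0 0)) (.pos 137 .pp ⟨167772160000, 0, 0,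 0, 0, 0, 0, 0, 0, ⟨0, 0⟩, 0⟩ 0 0)) (.pos 137 .pp ⟨167772160000, 0, 0, 0, 0, 0, 0, 0, 0, ⟨0, 0⟩, 0⟩ 0 0)) (.pos 137 .pp ⟨167772160000, 0, 0, 0, 0, 0, 0, 0, 0, ⟨0, 0⟩, 0⟩ 0 0)) (.pos 137 .pp ⟨167772160000, 0, 0, 0, 0, 0, 0, 0, 0, ⟨0, 0⟩, 0⟩ 0 0)) (.void 138 ⟨84619, 0, 0, 15381, 0, 0, 0, 0, 0, ⟨0, 0⟩, 0⟩ 0 0)) (.void 134 ⟨84619, 0, 0, 15381, 0, 0, 0, 0, 0, ⟨0, 0⟩, 0⟩ 0 0)) (.void 128 ⟨84619, 0, 0, 15381, 0, 0, 0, 0, 0, ⟨0, 0⟩, 0⟩ 0 0)) (.void 119 ⟨84619, 0, 0, 15381, 0, 0, 0, 0, 0, ⟨0, 0⟩, 0⟩ 0 0)) (.void 109 ⟨84619, 0, 0, 15381, 0, 0, 0, 0, 0, ⟨0, 0⟩, 0⟩ 0 0))) (.void 83 ⟨84619, 0, 0, 15381, 0, 0, 0, 0, 0, ⟨0, 0⟩, 0⟩ 0 0)) (.void 122 ⟨84619, 0, 0, 15381, 0, 0, 0,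 0, 0, ⟨0, 0⟩, 0⟩ 0 0)))),
    by decide +kernel⟩

def covers43 : cell.Covers table row43.1 :=
  ⟨(.cut .d 0 (.cut .v 16777216 (.cut .d (-8388608) (.void 1 ⟨0, 0, 0, 0, 0, 100000, 0, 0, 0, ⟨0, 0⟩, 0⟩ 0 0) (.cut .d (-4194304) (.void 1 ⟨0, 0, 0, 0, 0, 100000, 0, 0, 0, ⟨0, 0⟩, 0⟩ 0 0) (.cut .d (-2097152) (.void 1 ⟨0, 0, 0, 0, 0, 100000, 0, 0, 0, ⟨0, 0⟩, 0⟩ 0 0) (.cut .d (-1048576) (.void 1 ⟨0, 0, 0, 0, 0, 100000, 0, 0, 0, ⟨0, 0⟩, 0⟩ 0 0) (.cut .d (-524288) (.void 1 ⟨0, 0, 0, 0, 0, 100000, 0, 0, 0, ⟨0, 0⟩, 0⟩ 0 0) (.cut .d (-262144) (.void 1 ⟨0, 0, 0, 0, 0, 100000, 0, 0, 0, ⟨0, 0⟩, 0⟩ 0 0) (.cut .d (-131072) (.void 1 ⟨0, 0, 0, 0, 0, 100000, 0, 0, 0, ⟨0, 0⟩, 0⟩ 0 0)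 (.cut .d (-65536) (.void 1 ⟨0, 0, 0, 0, 0, 100000, 0, 0, 0, ⟨0, 0⟩, 0⟩ 0 0) (.cut .v 8388608 (.void 2 ⟨0, 0, 100000, 0, 0, 0, 0, 0, 0, ⟨0, 0⟩, 0⟩ 0 0) (.cut .d (-32768) (.void 3 ⟨100000, 0, 0, 0, 0, 0, 0, 0, 0, ⟨0, 0⟩, 0⟩ 0 0) (.cut .d (-16384) (.void 3 ⟨100000, 0, 0, 0, 0, 0, 0, 0, 0, ⟨0, 0⟩, 0⟩ 0 0) (.cut .s 16760832 (.cut .s 16758784 (.pos 3 .mm ⟨167772160000, 0, 0, 0, 0, 0, 0, 0, 0, ⟨0, 0⟩, 0⟩ 0 0) (.pos 3 .mm ⟨167772160000, 0, 0, 0, 0, 0, 0, 0, 0, ⟨0, 0⟩, 0⟩ 0 0)) (.cut .d (-8192) (.void 3 ⟨100000, 0, 0, 0, 0, 0, 0, 0, 0, ⟨0, 0⟩, 0⟩ 0 0) (.pos 3 .mm ⟨167772160000, 0, 0, 0, 0, 0, 0, 0, 0, ⟨0, 0⟩, 0⟩ 0 0)))))))))))))) (.cut .v 4294967296 (.cut .d (-8388608)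 (.void 82 ⟨100000, 0, 0, 0, 0, 0, 0, 0, 0, ⟨0, 0⟩, 0⟩ 0 0) (.cut .v 268435456 (.cut .v 67108864 (.cut .d (-4194304) (.void 44 ⟨100000, 0, 0, 0, 0, 0, 0, 0, 0, ⟨0, 0⟩, 0⟩ 0 0) (.cut .d (-2097152) (.void 44 ⟨100000, 0, 0, 0, 0, 0, 0, 0, 0, ⟨0, 0⟩, 0⟩ 0 0) (.cut .d (-1048576) (.void 44 ⟨100000, 0, 0, 0, 0, 0, 0, 0, 0, ⟨0, 0⟩, 0⟩ 0 0) (.cut .d (-524288) (.void 44 ⟨1000000000, 0, 0, 0, 0, 0, 0, 0, 0, ⟨0, 0⟩, 0⟩ 0 0) (.cut .v 33554432 (.cut .d (-262144) (.void 16 ⟨1000000000, 0, 0, 0, 0, 0, 0, 0, 0, ⟨0, 0⟩, 0⟩ 0 0) (.cut .d (-131072) (.void 16 ⟨1000000000, 0, 0, 0, 0, 0, 0, 0, 0, ⟨0, 0⟩, 0⟩ 0 0) (.cut .d (-65536) (.cut .v 25165824 (.void 17 ⟨100000, 0, 0, 0, 0, 0, 0,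 0, 0, ⟨0, 0⟩, 0⟩ 0 0) (.void 18 ⟨100000, 0, 0, 0, 0, 0, 0, 0, 0, ⟨0, 0⟩, 0⟩ 0 0)) (.cut .d (-32768) (.void 16 ⟨1000000000, 0, 0, 0, 0, 0, 0, 0, 0, ⟨0, 0⟩, 0⟩ 0 0) (.cut .d (-16384) (.void 16 ⟨1000000000, 0, 0, 0, 0, 0, 0, 0, 0, ⟨0, 0⟩, 0⟩ 0 0) (.cut .d (-8192) (.void 16 ⟨1000000000, 0, 0, 0, 0, 0, 0, 0, 0, ⟨0, 0⟩, 0⟩ 0 0) (.pos 16 .mp ⟨167772160000, 0, 0, 0, 0, 0, 0, 0, 0, ⟨0, 0⟩, 0⟩ 0 0))))))) (.void 45 ⟨1000000000, 0, 0, 0, 0, 0, 0, 0, 0, ⟨0, 0⟩, 0⟩ 0 0)))))) (.void 56 ⟨1000000000, 0, 0, 0, 0, 0, 0, 0, 0, ⟨0, 0⟩, 0⟩ 0 0)) (.void 83 ⟨88008, 0, 0, 11992, 0, 0, 0, 0, 0, ⟨0, 0⟩, 0⟩ 0 0))) (.void 122 ⟨91672, 0, 0, 8328, 0, 0, 0, 0, 0, ⟨0, 0⟩, 0⟩ 0 0))) (.cut .v 16777216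 (.cut .v 8388608 (.cut .v 4194304 (.cut .v 2097152 (.cut .v 1048576 (.cut .v 524288 (.cut .v 262144 (.cut .v 131072 (.cut .v 65536 (.cut .v 32768 (.cut .v 16384 (.cut .v 8192 (.cut .d 10254 (.pos 131 .pm ⟨0, 0, 167772160000, 0, 0, 0, 0, 0, 0, ⟨0, 0⟩, 0⟩ 0 0) (.cut .v 4096 (.cut .v 2048 (.pos 139 .pm ⟨0, 0, 59636140, 0, 0, 0, 0, 0, 0, ⟨0, 0⟩, 0⟩ 0 0) (.pos 140 .pm ⟨0, 0, 165224629, 0, 0, 0, 0, 0, 0, ⟨0, 0⟩, 0⟩ 0 0)) (.pos 136 .pm ⟨0, 0, 0, 0, 0, 0, 0, 0, 0, ⟨0, 0⟩, 0⟩ 0 0))) (.pos 132 .pm ⟨0, 0, 840939245, 0, 0, 0, 0, 0, 0, ⟨0, 0⟩, 0⟩ 0 0)) (.pos 130 .pm ⟨0, 0, 1588656169, 0, 0, 0, 0, 0, 0, ⟨0, 0⟩, 0⟩ 0 0)) (.pos 126 .pm ⟨0, 0, 3101364237, 0, 0, 0, 0, 0, 0, ⟨0,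 0⟩, 0⟩ 0 0)) (.pos 124 .pm ⟨0, 0, 6072089583, 0, 0, 0, 0, 0, 0, ⟨0, 0⟩, 0⟩ 0 0)) (.pos 115 .pm ⟨0, 0, 11889230339, 0, 0, 0, 0, 0, 0, ⟨0, 0⟩, 0⟩ 0 0)) (.pos 113 .pm ⟨0, 0, 23176746246, 0, 0, 0, 0, 0, 0, ⟨0, 0⟩, 0⟩ 0 0)) (.pos 97 .pm ⟨0, 0, 43728677059, 0, 0, 0, 0, 0, 0, ⟨0, 0⟩, 0⟩ 0 0)) (.pos 91 .pm ⟨0, 0, 80832338047, 0, 0, 0, 0, 0, 0, ⟨0, 0⟩, 0⟩ 0 0)) (.pos 68 .pm ⟨0, 0, 144329348090, 0, 0, 0, 0, 0, 0, ⟨0, 0⟩, 0⟩ 0 0)) (.pos 5 .pm ⟨0, 0, 167772160000, 0, 0, 0, 0, 0, 0, ⟨0, 0⟩, 0⟩ 0 0)) (.pos 3 .pm ⟨0, 0, 167772160000, 0, 0, 0, 0, 0, 0, ⟨0, 0⟩, 0⟩ 0 0)) (.cut .v 4294967296 (.cut .v 268435456 (.cut .v 67108864 (.pos 44 .pp ⟨0, 0, 0, 0, 0, 0, 0, 0, 0, ⟨0, 0⟩, 0⟩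 0 0) (.cut .v 134217728 (.cut .v 100663296 (.pos 118 .pp ⟨0, 0, 0, 167772160000, 0, 0, 0, 0, 0, ⟨0, 0⟩, 0⟩ 0 0) (.void 119 ⟨0, 0, 0, 25763, 0, 53317, 0, 0, 0, ⟨0, 0⟩, 0⟩ 0 0)) (.void 109 ⟨0, 0, 0, 25763, 0, 53317, 0, 0, 0, ⟨0, 0⟩, 0⟩ 0 0))) (.void 83 ⟨0, 0, 0, 25763, 0, 53317, 0, 0, 0, ⟨0, 0⟩, 0⟩ 0 0)) (.cut .s 16760832 (.void 122 ⟨0, 0, 0, 1000000000, 0, 0, 0, 0, 0, ⟨0, 0⟩, 0⟩ 0 0) (.void 122 ⟨0, 0, 0, 100000, 0, 0, 0, 0, 0, ⟨0, 0⟩, 0⟩ 0 0))))),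
    by decide +kernel⟩

def covers44 : cell.Covers table row44.1 :=
  ⟨(.cut .d 0 (.cut .v 16777216 (.cut .d (-8388608) (.void 1 ⟨0, 0, 100000, 0, 0, 0, 0, 0, 0, ⟨0, 0⟩, 0⟩ 0 0) (.cut .d (-4194304) (.void 1 ⟨0, 0, 0, 0, 0, 99999, 0, 0, 0, ⟨0, 0⟩, 0⟩ 0 0) (.cut .d (-2097152) (.void 1 ⟨0, 0, 0, 0, 0, 100000, 0, 0, 0, ⟨0, 0⟩, 0⟩ 0 0) (.cut .d (-1048576) (.void 1 ⟨0, 0, 0, 0, 0, 100000, 0, 0, 0, ⟨0, 0⟩, 0⟩ 0 0) (.cut .d (-524288) (.void 1 ⟨0, 0, 0, 0, 0, 100000, 0, 0, 0, ⟨0, 0⟩, 0⟩ 0 0) (.cut .d (-262144) (.void 1 ⟨0, 0, 0, 0, 0, 100000, 0, 0, 0, ⟨0, 0⟩, 0⟩ 0 0) (.cut .d (-131072) (.void 1 ⟨0, 0, 100000, 0, 0, 0, 0, 0, 0, ⟨0, 0⟩, 0⟩ 0 0) (.cut .d (-65536) (.void 1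 ⟨0, 0, 0, 0, 0, 100000, 0, 0, 0, ⟨0, 0⟩, 0⟩ 0 0) (.cut .d (-32768) (.void 1 ⟨0, 0, 100000, 0, 0, 0, 0, 0, 0, ⟨0, 0⟩, 0⟩ 0 0) (.cut .d (-16384) (.void 1 ⟨0, 0, 0, 0, 0, 100000, 0, 0, 0, ⟨0, 0⟩, 0⟩ 0 0) (.cut .v 8388608 (.void 2 ⟨0, 0, 100000, 0, 0, 0, 0, 0, 0, ⟨0, 0⟩, 0⟩ 0 0) (.cut .d (-8192) (.void 3 ⟨100000, 0, 0, 0, 0, 0, 0, 0, 0, ⟨0, 0⟩, 0⟩ 0 0) (.pos 3 .mm ⟨167772160000, 0, 0, 0, 0, 0, 0, 0, 0, ⟨0, 0⟩, 0⟩ 0 0))))))))))))) (.cut .v 4294967296 (.cut .d (-8388608) (.void 82 ⟨1000000000, 0, 0, 0, 0, 0, 0, 0, 0, ⟨0, 0⟩, 0⟩ 0 0) (.cut .v 268435456 (.cut .v 67108864 (.cut .d (-4194304) (.void 44 ⟨1000000000, 0, 0, 0, 0, 0, 0, 0, 0, ⟨0, 0⟩, 0⟩ 0 0) (.cut .d (-2097152)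 (.void 44 ⟨1000000000, 0, 0, 0, 0, 0, 0, 0, 0, ⟨0, 0⟩, 0⟩ 0 0) (.cut .d (-1048576) (.void 44 ⟨1000000000, 0, 0, 0, 0, 0, 0, 0, 0, ⟨0, 0⟩, 0⟩ 0 0) (.cut .d (-524288) (.void 44 ⟨1000000000, 0, 0, 0, 0, 0, 0, 0, 0, ⟨0, 0⟩, 0⟩ 0 0) (.cut .d (-262144) (.void 44 ⟨1000000000, 0, 0, 0, 0, 0, 0, 0, 0, ⟨0, 0⟩, 0⟩ 0 0) (.cut .d (-131072) (.void 44 ⟨1000000000, 0, 0, 0, 0, 0, 0, 0, 0, ⟨0, 0⟩, 0⟩ 0 0) (.cut .d (-65536) (.void 44 ⟨1000000000, 0, 0, 0, 0, 0, 0, 0, 0, ⟨0, 0⟩, 0⟩ 0 0) (.cut .d (-32768) (.void 44 ⟨1000000000, 0, 0, 0, 0, 0, 0, 0, 0, ⟨0, 0⟩, 0⟩ 0 0) (.cut .d (-16384) (.void 44 ⟨1000000000, 0, 0, 0, 0, 0, 0, 0, 0, ⟨0, 0⟩, 0⟩ 0 0) (.cut .d (-8192) (.void 44 ⟨1000000000,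 0, 0, 0, 0, 0, 0, 0, 0, ⟨0, 0⟩, 0⟩ 0 0) (.cut .d (-4096) (.void 44 ⟨1000000000, 0, 0, 0, 0, 0, 0, 0, 0, ⟨0, 0⟩, 0⟩ 0 0) (.pos 44 .mp ⟨167772160000, 0, 0, 0, 0, 0, 0, 0, 0, ⟨0, 0⟩, 0⟩ 0 0)))))))))))) (.void 56 ⟨1000000000, 0, 0, 0, 0, 0, 0, 0, 0, ⟨0, 0⟩, 0⟩ 0 0)) (.void 83 ⟨1000000000, 0, 0, 0, 0, 0, 0, 0, 0, ⟨0, 0⟩, 0⟩ 0 0))) (.void 122 ⟨91665, 0, 0, 8328, 0, 0, 0, 0, 0, ⟨0, 0⟩, 0⟩ 0 0))) (.cut .v 16777216 (.cut .v 8388608 (.cut .v 4194304 (.cut .v 2097152 (.cut .v 1048576 (.cut .v 524288 (.cut .v 262144 (.cut .v 131072 (.cut .v 65536 (.cut .v 32768 (.cut .v 16384 (.cut .v 8192 (.cut .s 16766976 (.cut .v 4096 (.pos 135 .pm ⟨0, 0, 235338553, 0, 0, 0, 0, 0, 0, ⟨0,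 0⟩, 0⟩ 0 0) (.pos 136 .pm ⟨0, 0, 604729546, 0, 0, 0, 0, 0, 0, ⟨0, 0⟩, 0⟩ 0 0)) (.pos 131 .pm ⟨0, 0, 26003569, 0, 0, 0, 0, 0, 0, ⟨0, 0⟩, 0⟩ 0 0)) (.pos 132 .pm ⟨0, 0, 1107124250, 0, 0, 0, 0, 0, 0, ⟨0, 0⟩, 0⟩ 0 0)) (.pos 130 .pm ⟨0, 0, 2139910224, 0, 0, 0, 0, 0, 0, ⟨0, 0⟩, 0⟩ 0 0)) (.pos 126 .pm ⟨0, 0, 4260929571, 0, 0, 0, 0, 0, 0, ⟨0, 0⟩, 0⟩ 0 0)) (.pos 124 .pm ⟨0, 0, 8502974043, 0, 0, 0, 0, 0, 0, ⟨0, 0⟩, 0⟩ 0 0)) (.pos 115 .pm ⟨0, 0, 16987086093, 0, 0, 0, 0, 0, 0, ⟨0, 0⟩, 0⟩ 0 0)) (.pos 113 .pm ⟨0, 0, 33955402620, 0, 0, 0, 0, 0, 0, ⟨0, 0⟩, 0⟩ 0 0)) (.pos 97 .pm ⟨0, 0, 67892405384, 0, 0, 0, 0, 0, 0, ⟨0, 0⟩, 0⟩ 0 0)) (.pos 91 .pm ⟨0, 0, 135767889752, 0, 0, 0, 0,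 0, 0, ⟨0, 0⟩, 0⟩ 0 0)) (.pos 68 .pm ⟨0, 0, 167772160000, 0, 0, 0, 0, 0, 0, ⟨0, 0⟩, 0⟩ 0 0)) (.pos 5 .pm ⟨0, 0, 167772160000, 0, 0, 0, 0, 0, 0, ⟨0, 0⟩, 0⟩ 0 0)) (.pos 3 .pm ⟨0, 0, 167772160000, 0, 0, 0, 0, 0, 0, ⟨0, 0⟩, 0⟩ 0 0)) (.cut .v 4294967296 (.cut .v 268435456 (.cut .v 67108864 (.pos 44 .pp ⟨0, 0, 0, 0, 0, 0, 0, 0, 0, ⟨0, 0⟩, 0⟩ 0 0) (.cut .v 134217728 (.cut .v 100663296 (.pos 118 .pp ⟨0, 0, 0, 167772160000, 0, 0, 0, 0, 0, ⟨0, 0⟩, 0⟩ 0 0) (.void 119 ⟨0, 0, 0, 100000, 0, 0, 0, 0, 0, ⟨0, 0⟩, 0⟩ 0 0)) (.void 109 ⟨0, 0, 0, 100000, 0, 0, 0, 0, 0, ⟨0, 0⟩, 0⟩ 0 0))) (.void 83 ⟨0, 0, 0, 100000, 0, 0, 0, 0, 0, ⟨0, 0⟩, 0⟩ 0 0)) (.void 122 ⟨0, 0, 0, 100000, 0, 0, 0,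 0, 0, ⟨0, 0⟩, 0⟩ 0 0)))),
    by decide +kernel⟩

def covers45 : cell.Covers table row45.1 :=
  ⟨(.cut .d 0 (.cut .v 16777216 (.cut .d (-8388608) (.void 1 ⟨0, 0, 4549, 0, 0, 95451, 0, 0, 0, ⟨0, 0⟩, 0⟩ 0 0) (.cut .d (-4194304) (.void 1 ⟨0, 0, 2384, 0, 0, 97616, 0, 0, 0, ⟨0, 0⟩, 0⟩ 0 0) (.cut .d (-2097152) (.void 1 ⟨0, 0, 1301, 0, 0, 98699, 0, 0, 0, ⟨0, 0⟩, 0⟩ 0 0) (.cut .d (-1048576) (.void 1 ⟨0, 0, 0, 0, 0, 100000, 0, 0, 0, ⟨0, 0⟩, 0⟩ 0 0) (.cut .d (-524288) (.void 1 ⟨0, 0, 0, 0, 0, 100000, 0, 0, 0, ⟨0, 0⟩, 0⟩ 0 0) (.cut .d (-262144) (.void 1 ⟨0, 0, 0, 0, 0, 100000, 0, 0, 0, ⟨0, 0⟩, 0⟩ 0 0) (.cut .d (-131072) (.void 1 ⟨0, 0, 0, 0, 0, 100000, 0, 0, 0, ⟨0, 0⟩, 0⟩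 0 0) (.cut .d (-65536) (.void 1 ⟨0, 0, 253, 0, 0, 99747, 0, 0, 0, ⟨0, 0⟩, 0⟩ 0 0) (.cut .d (-32768) (.void 1 ⟨0, 0, 236, 0, 0, 99764, 0, 0, 0, ⟨0, 0⟩, 0⟩ 0 0) (.cut .d (-16384) (.void 1 ⟨0, 0, 227, 0, 0, 99773, 0, 0, 0, ⟨0, 0⟩, 0⟩ 0 0) (.cut .d (-8192) (.void 1 ⟨0, 0, 0, 0, 0, 100000, 0, 0, 0, ⟨0, 0⟩, 0⟩ 0 0) (.cut .v 8388608 (.void 2 ⟨0, 0, 100000, 0, 0, 0, 0, 0, 0, ⟨0, 0⟩, 0⟩ 0 0) (.pos 3 .mm ⟨167772160000, 0, 0, 0, 0, 0, 0, 0, 0, ⟨0, 0⟩, 0⟩ 0 0))))))))))))) (.cut .v 4294967296 (.cut .d (-8388608) (.void 82 ⟨100000, 0, 0, 0, 0, 0, 0, 0, 0, ⟨0, 0⟩, 0⟩ 0 0) (.cut .v 268435456 (.cut .v 67108864 (.cut .d (-4194304) (.void 44 ⟨100000, 0, 0, 0, 0, 0, 0, 0, 0, ⟨0,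 0⟩, 0⟩ 0 0) (.cut .d (-2097152) (.void 44 ⟨100000, 0, 0, 0, 0, 0, 0, 0, 0, ⟨0, 0⟩, 0⟩ 0 0) (.cut .d (-1048576) (.void 44 ⟨100000, 0, 0, 0, 0, 0, 0, 0, 0, ⟨0, 0⟩, 0⟩ 0 0) (.cut .d (-524288) (.void 44 ⟨100000, 0, 0, 0, 0, 0, 0, 0, 0, ⟨0, 0⟩, 0⟩ 0 0) (.cut .d (-262144) (.void 44 ⟨100000, 0, 0, 0, 0, 0, 0, 0, 0, ⟨0, 0⟩, 0⟩ 0 0) (.cut .d (-131072) (.void 44 ⟨100000, 0, 0, 0, 0, 0, 0, 0, 0, ⟨0, 0⟩, 0⟩ 0 0) (.cut .d (-65536) (.void 44 ⟨100000, 0, 0, 0, 0, 0, 0, 0, 0, ⟨0, 0⟩, 0⟩ 0 0) (.cut .d (-32768) (.void 44 ⟨100000, 0, 0, 0, 0, 0, 0, 0, 0, ⟨0, 0⟩, 0⟩ 0 0) (.cut .d (-16384) (.void 44 ⟨100000, 0, 0, 0, 0, 0, 0, 0, 0, ⟨0, 0⟩, 0⟩ 0 0) (.cut .d (-8192) (.void 44 ⟨100000,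 0, 0, 0, 0, 0, 0, 0, 0, ⟨0, 0⟩, 0⟩ 0 0) (.cut .d (-4096) (.void 44 ⟨100000, 0, 0, 0, 0, 0, 0, 0, 0, ⟨0, 0⟩, 0⟩ 0 0) (.pos 44 .mp ⟨167772160000, 0, 0, 0, 0, 0, 0, 0, 0, ⟨0, 0⟩, 0⟩ 0 0)))))))))))) (.void 56 ⟨100000, 0, 0, 0, 0, 0, 0, 0, 0, ⟨0, 0⟩, 0⟩ 0 0)) (.void 83 ⟨88004, 0, 0, 11996, 0, 0, 0, 0, 0, ⟨0, 0⟩, 0⟩ 0 0))) (.void 122 ⟨91527, 0, 0, 8317, 0, 0, 0, 0, 0, ⟨0, 0⟩, 0⟩ 0 0))) (.cut .v 16777216 (.pos 1 .pm ⟨0, 0, 18877894, 0, 0, 0, 0, 0, 0, ⟨0, 0⟩, 0⟩ 0 0) (.cut .v 4294967296 (.cut .v 268435456 (.cut .d 4099 (.cut .v 67108864 (.pos 44 .pp ⟨0, 0, 0, 0, 0, 0, 0, 0, 0, ⟨0, 0⟩, 0⟩ 0 0) (.cut .v 134217728 (.pos 108 .pp ⟨167772160000, 0, 0, 0, 0, 0, 0, 0, 0, ⟨0,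 0⟩, 0⟩ 0 0) (.void 109 ⟨0, 0, 0, 100000, 0, 0, 0, 0, 0, ⟨0, 0⟩, 0⟩ 0 0))) (.pos 55 .pp ⟨0, 0, 0, 0, 0, 0, 0, 0, 0, ⟨0, 0⟩, 0⟩ 0 0)) (.cut .s 16771072 (.void 83 ⟨0, 0, 0, 100000, 0, 0, 0, 0, 0, ⟨0, 0⟩, 0⟩ 0 0) (.void 83 ⟨0, 0, 0, 100000, 0, 0, 0, 0, 0, ⟨0, 0⟩, 0⟩ 0 0))) (.void 122 ⟨0, 0, 0, 100000, 0, 0, 0, 0, 0, ⟨0, 0⟩, 0⟩ 0 0)))),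
    by decide +kernel⟩

end Vale.Agent.P237.Petty.Cor.Grid.N10.Low
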