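import Vale.Agent.P237.Petty.Cor.Grid.N10.MidCert

/-!
# P237: a cell in dimension 10, subdivisions
-/

namespace Vale.Agent.P237.Petty.Cor.Grid.N10.Mid

def covers0 : cell.Covers table row0.1 :=
  ⟨(.cut .d 0 (.cut .v 16777216 (.cut .v 8388608 (.cut .v 4194304 (.void 4 ⟨0, 0, 100000, 0, 0, 0, 0, 0, 0, ⟨0, 0⟩, 0⟩ 0 0) (.pos 5 .mm ⟨0, 0, 0, 0, 0, 175675, 0, 0, 0, ⟨0, 0⟩, 0⟩ 0 0)) (.cut .d (-8388608) (.pos 3 .mm ⟨0, 0, 0, 0, 0, 0, 0, 0, 0, ⟨0, 0⟩, 0⟩ 0 0) (.cut .d (-4194304) (.pos 3 .mm ⟨0, 0, 0, 0, 0, 0, 0, 0, 0, ⟨0, 0⟩, 0⟩ 0 0) (.cut .v 12582912 (.pos 6 .mm ⟨0, 0, 0, 0, 1121611, 0, 0, 0, 0, ⟨0, 0⟩, 0⟩ 0 0) (.pos 7 .mm ⟨0, 0, 0, 0, 0, 0, 0, 0, 0, ⟨0, 0⟩, 0⟩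 0 0))))) (.cut .v 33554432 (.cut .v 25165824 (.cut .v 20971520 (.cut .v 18874368 (.cut .v 17825792 (.pos 17 .mp ⟨0, 0, 0, 0, 0, 0, 0, 0, 0, ⟨0, 0⟩, 0⟩ 0 0) (.pos 18 .mp ⟨0, 0, 0, 0, 0, 0, 0, 0, 0, ⟨0, 0⟩, 0⟩ 0 0)) (.pos 16 .mp ⟨0, 0, 0, 0, 0, 0, 0, 0, 0, ⟨0, 0⟩, 0⟩ 0 0)) (.pos 14 .mp ⟨648571, 0, 0, 0, 0, 0, 0, 0, 0, ⟨0, 0⟩, 0⟩ 0 0)) (.pos 12 .mp ⟨810466, 0, 0, 0, 0, 0, 0, 0, 0, ⟨0, 0⟩, 0⟩ 0 0)) (.pos 10 .mp ⟨1151960, 0, 0, 0, 0, 0, 0, 0, 0, ⟨0, 0⟩, 0⟩ 0 0))) (.cut .v 16777216 (.cut .v 8388608 (.cut .v 4194304 (.void 4 ⟨0, 0, 87593, 0, 12407, 0, 0, 0, 0, ⟨0, 0⟩, 0⟩ 0 0) (.pos 5 .pm ⟨0, 0, 0, 0, 2221381, 0, 0, 0, 0, ⟨0, 0⟩, 0⟩ 0 0)) (.pos 3 .pm ⟨0, 0, 0, 0,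 1014838, 0, 0, 0, 0, ⟨0, 0⟩, 0⟩ 0 0)) (.cut .v 33554432 (.cut .d 12021102 (.cut .v 25165824 (.cut .v 20971520 (.cut .d 6010551 (.cut .v 18874368 (.cut .d 3005275 (.cut .d 1502637 (.cut .v 17825792 (.pos 17 .pp ⟨0, 0, 0, 0, 0, 0, 0, 0, 0, ⟨0, 0⟩, 0⟩ 0 0) (.pos 18 .pp ⟨0, 0, 0, 0, 0, 0, 0, 0, 0, ⟨0, 0⟩, 0⟩ 0 0)) (.pos 15 .pp ⟨0, 0, 0, 0, 2602244, 0, 0, 0, 0, ⟨0, 0⟩, 0⟩ 0 0)) (.pos 15 .pp ⟨0, 0, 0, 0, 0, 0, 0, 0, 619520, ⟨0, 0⟩, 17278579⟩ 0 0)) (.cut .d 3005275 (.pos 16 .pp ⟨0, 0, 0, 0, 0, 0, 0, 0, 0, ⟨0, 0⟩, 0⟩ 0 0) (.pos 16 .pp ⟨0, 0, 0, 0, 0, 0, 0, 0, 0, ⟨0, 0⟩, 0⟩ 0 0))) (.pos 13 .pp ⟨0, 0, 0, 0, 0, 0, 0, 1436015, 289613, ⟨(-1), 16024251⟩, 17739746⟩ 0 45))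 (.cut .d 6010551 (.pos 14 .pp ⟨648571, 0, 0, 0, 0, 0, 0, 0, 0, ⟨0, 0⟩, 0⟩ 0 0) (.pos 14 .pp ⟨648289, 0, 0, 0, 0, 0, 0, 430610, 0, ⟨(-1), 16024251⟩, 0⟩ 0 45))) (.pos 12 .pp ⟨810466, 0, 0, 0, 0, 0, 0, 0, 0, ⟨0, 0⟩, 0⟩ 0 0)) (.cut .v 25165824 (.pos 11 .pp ⟨0, 0, 0, 0, 358170, 0, 225925, 0, 946713, ⟨0, 0⟩, 18567042⟩ 0 0) (.pos 12 .pp ⟨809688, 0, 0, 0, 0, 0, 0, 1139723, 0, ⟨(-1), 15303672⟩, 0⟩ 0 64))) (.cut .v 50331648 (.cut .d 12021102 (.pos 23 .pp ⟨1151960, 0, 0, 0, 0, 0, 0, 0, 0, ⟨0, 0⟩, 0⟩ 0 0) (.cut .v 41943040 (.pos 25 .pp ⟨0, 0, 0, 0, 0, 0, 3161137, 0, 7315782, ⟨0, 0⟩, 25087789⟩ 0 0) (.cut .v 46137344 (.cut .v 44040192 (.cut .s 851968 (.void 29 ⟨0, 0, 0,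 0, 0, 0, 100000, 0, 0, ⟨0, 0⟩, 0⟩ 0 0) (.cut .s 1277952 (.pos 29 .pp ⟨107779396, 0, 0, 0, 0, 0, 0, 68302260, 0, ⟨106029, 15358838⟩, 0⟩ 22 48) (.cut .d 18031653 (.pos 29 .pp ⟨21876196, 0, 0, 0, 0, 0, 0, 0, 0, ⟨0, 0⟩, 0⟩ 0 0) (.cut .d 21036928 (.pos 29 .pp ⟨14575396, 12864126, 0, 0, 0, 0, 577771, 0, 0, ⟨0, 0⟩, 0⟩ 0 0) (.cut .l 7801405 (.void 29 ⟨0, 0, 0, 0, 0, 0, 100000, 0, 0, ⟨0, 0⟩, 0⟩ 0 0) (.cut .l 10611589 (.void 29 ⟨0, 0, 0, 0, 0, 0, 100000, 0, 0, ⟨0, 0⟩, 0⟩ 0 0) (.cut .l 12016681 (.void 29 ⟨0, 0, 0, 0, 0, 0, 100000, 0, 0, ⟨0, 0⟩, 0⟩ 0 0) (.cut .l 12719227 (.pos 29 .pp ⟨0, 17455538, 0, 0, 0, 0, 5617901, 37775581, 0, ⟨401371, 13698182⟩, 0⟩ 43 64) (.cut .l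 13070500 (.pos 29 .pp ⟨0, 18497632, 0, 0, 0, 0, 4810346, 36499249, 0, ⟨401371, 13698182⟩, 0⟩ 43 64) (.cut .d 22539566 (.cut .v 42991616 (.pos 31 .pp ⟨0, 0, 0, 0, 0, 0, 3071936, 1855304, 0, ⟨374079, 13860664⟩, 0⟩ 43 61) (.cut .s 1490944 (.pos 32 .pp ⟨0, 19169631, 0, 0, 0, 0, 4746174, 36326898, 0, ⟨312892, 14224942⟩, 0⟩ 43 54) (.pos 32 .pp ⟨0, 46399581, 0, 0, 0, 0, 0, 4453971, 0, ⟨471967, 13449856⟩, 0⟩ 51 61))) (.cut .s 1490944 (.pos 29 .pp ⟨0, 23145278, 0, 0, 0, 0, 0, 79089668, 0, ⟨351318, 14025634⟩, 0⟩ 45 56) (.pos 29 .pp ⟨0, 23333071, 0, 0, 0, 0, 0, 48242926, 0, ⟨532506, 13173643⟩, 0⟩ 53 64)))))))))))) (.pos 30 .pp ⟨761029608, 419618369, 0, 0, 0, 0, 0, 0,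 0, ⟨0, 0⟩, 0⟩ 0 0)) (.void 28 ⟨0, 0, 0, 0, 0, 0, 100000, 0, 0, ⟨0, 0⟩, 0⟩ 0 0)))) (.void 24 ⟨0, 0, 0, 0, 0, 0, 100000, 0, 0, ⟨0, 0⟩, 0⟩ 0 0))))),
    by decide +kernel⟩

def covers1 : cell.Covers table row1.1 :=
  ⟨(.cut .d 0 (.cut .v 16777216 (.cut .v 8388608 (.cut .v 4194304 (.void 4 ⟨0, 0, 100000, 0, 0, 0, 0, 0, 0, ⟨0, 0⟩, 0⟩ 0 0) (.pos 5 .mm ⟨0, 0, 0, 0, 0, 150038, 0, 0, 0, ⟨0, 0⟩, 0⟩ 0 0)) (.cut .v 12582912 (.pos 6 .mm ⟨0, 0, 0, 0, 0, 241523, 0, 0, 0, ⟨0, 0⟩, 0⟩ 0 0) (.cut .d (-8388608) (.pos 7 .mm ⟨0, 0, 0, 0, 0, 250063, 0, 0, 0, ⟨0, 0⟩, 0⟩ 0 0) (.cut .v 14680064 (.pos 35 .mm ⟨0, 0, 0, 0, 0, 262566, 0, 0, 0, ⟨0, 0⟩, 0⟩ 0 0) (.cut .d (-4194304) (.pos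 36 .mm ⟨0, 0, 0, 0, 0, 275069, 0, 0, 0, ⟨0, 0⟩, 0⟩ 0 0) (.pos 36 .mm ⟨0, 0, 0, 0, 0, 0, 0, 0, 0, ⟨0, 0⟩, 0⟩ 0 0)))))) (.cut .v 33554432 (.cut .v 25165824 (.cut .v 20971520 (.cut .v 18874368 (.pos 15 .mp ⟨0, 0, 0, 0, 0, 0, 0, 0, 0, ⟨0, 0⟩, 0⟩ 0 0) (.pos 16 .mp ⟨0, 0, 0, 0, 0, 0, 0, 0, 0, ⟨0, 0⟩, 0⟩ 0 0)) (.pos 14 .mp ⟨1170109, 0, 0, 0, 0, 0, 0, 0, 0, ⟨0, 0⟩, 0⟩ 0 0)) (.pos 12 .mp ⟨1664940, 0, 0, 0, 0, 0, 0, 0, 0, ⟨0, 0⟩, 0⟩ 0 0)) (.pos 10 .mp ⟨2124396, 0, 0, 0, 0, 0, 0, 0, 0, ⟨0, 0⟩, 0⟩ 0 0))) (.cut .v 16777216 (.cut .v 8388608 (.void 2 ⟨0, 0, 0, 0, 100000, 0, 0, 0, 0, ⟨0, 0⟩, 0⟩ 0 0) (.pos 3 .pm ⟨0, 0, 0, 0, 1124753, 0, 0, 0, 0, ⟨0, 0⟩, 0⟩ 0 0)) (.cut .v 33554432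 (.cut .d 24115578 (.cut .d 12057789 (.cut .v 25165824 (.cut .d 6028894 (.cut .v 20971520 (.cut .v 18874368 (.cut .d 3014447 (.cut .l 7801405 (.cut .v 17825792 (.cut .d 1507223 (.pos 17 .pp ⟨0, 0, 0, 0, 0, 0, 0, 0, 0, ⟨0, 0⟩, 0⟩ 0 0) (.pos 17 .pp ⟨0, 0, 0, 0, 0, 0, 0, 0, 0, ⟨0, 0⟩, 0⟩ 0 0)) (.cut .d 1507223 (.pos 18 .pp ⟨0, 0, 0, 0, 0, 0, 0, 0, 0, ⟨0, 0⟩, 0⟩ 0 0) (.pos 18 .pp ⟨0, 0, 0, 0, 0, 0, 0, 0, 0, ⟨0, 0⟩, 0⟩ 0 0))) (.pos 15 .pp ⟨0, 0, 0, 0, 0, 0, 0, 0, 0, ⟨0, 0⟩, 0⟩ 0 0)) (.pos 15 .pp ⟨0, 0, 0, 0, 1423046, 0, 0, 0, 514770, ⟨0, 0⟩, 17278579⟩ 0 0)) (.cut .d 3014447 (.pos 16 .pp ⟨0, 0, 0, 0, 0, 0, 0, 0, 0, ⟨0, 0⟩, 0⟩ 0 0) (.pos 16 .pp ⟨0, 0, 0, 0, 1285618,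 0, 0, 0, 505783, ⟨0, 0⟩, 18269873⟩ 0 0))) (.pos 14 .pp ⟨1239502, 0, 0, 0, 0, 0, 0, 0, 0, ⟨0, 0⟩, 0⟩ 0 0)) (.pos 11 .pp ⟨0, 0, 0, 0, 17595580, 0, 0, 0, 506847, ⟨0, 0⟩, 18567042⟩ 0 0)) (.pos 12 .pp ⟨1703403, 0, 0, 0, 0, 0, 0, 0, 0, ⟨0, 0⟩, 0⟩ 0 0)) (.pos 9 .pp ⟨0, 0, 0, 0, 27090546, 0, 0, 0, 679467, ⟨0, 0⟩, 19951585⟩ 0 0)) (.void 9 ⟨0, 0, 0, 0, 0, 0, 0, 0, 100000, ⟨0, 0⟩, 19951585⟩ 0 0)) (.cut .v 50331648 (.cut .d 24115578 (.cut .d 12057789 (.pos 23 .pp ⟨2421142, 0, 0, 0, 0, 0, 0, 0, 0, ⟨0, 0⟩, 0⟩ 0 0) (.cut .v 41943040 (.pos 25 .pp ⟨0, 8239168, 0, 0, 0, 0, 0, 0, 6736255, ⟨0, 0⟩, 25087789⟩ 0 0) (.cut .v 46137344 (.cut .v 44040192 (.pos 29 .pp ⟨0, 24298887, 0,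 0, 0, 0, 1011860, 0, 0, ⟨0, 0⟩, 0⟩ 0 0) (.pos 30 .pp ⟨35034744, 69724739, 0, 0, 0, 0, 0, 0, 0, ⟨0, 0⟩, 0⟩ 0 0)) (.pos 28 .pp ⟨46993402, 151207451, 0, 0, 0, 0, 0, 0, 0, ⟨0, 0⟩, 0⟩ 0 0)))) (.cut .s 2359296 (.void 23 ⟨0, 36814, 0, 0, 0, 0, 0, 0, 63186, ⟨0, 0⟩, 26257762⟩ 0 0) (.void 23 ⟨0, 46051, 0, 0, 0, 0, 0, 0, 53949, ⟨0, 0⟩, 26257762⟩ 0 0))) (.pos 24 .pp ⟨212235477, 271681436, 0, 0, 0, 0, 0, 0, 0, ⟨0, 0⟩, 0⟩ 0 0))))),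
    by decide +kernel⟩

def covers2 : cell.Covers table row2.1 :=
  ⟨(.cut .d 0 (.cut .v 16777216 (.cut .v 8388608 (.cut .v 4194304 (.void 4 ⟨0, 0, 100000, 0, 0, 0, 0, 0, 0, ⟨0, 0⟩, 0⟩ 0 0) (.pos 5 .mm ⟨0, 0, 0, 0, 0, 172513, 0, 0, 0, ⟨0, 0⟩, 0⟩ 0 0)) (.cut .v 12582912 (.pos 6 .mm ⟨0, 0, 0, 0, 0, 258769, 0, 0, 0, ⟨0, 0⟩, 0⟩ 0 0) (.cut .v 14680064 (.pos 35 .mm ⟨0, 0, 0, 0, 0, 276468, 0, 0, 0, ⟨0, 0⟩, 0⟩ 0 0) (.cut .d (-8388608) (.pos 36 .mm ⟨0, 0, 0, 0, 0, 316273, 0, 0, 0, ⟨0, 0⟩, 0⟩ 0 0) (.pos 36 .mm ⟨0, 0, 0, 0, 0, 151947, 0, 0, 0, ⟨0, 0⟩, 0⟩ 0 0))))) (.cut .v 33554432 (.cut .v 25165824 (.cut .v 20971520 (.cut .v 18874368 (.pos 15 .mp ⟨0, 0, 0, 0, 0, 0, 0,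 0, 0, ⟨0, 0⟩, 0⟩ 0 0) (.pos 16 .mp ⟨0, 0, 0, 0, 0, 0, 0, 0, 0, ⟨0, 0⟩, 0⟩ 0 0)) (.pos 14 .mp ⟨671975, 0, 0, 0, 0, 0, 0, 0, 0, ⟨0, 0⟩, 0⟩ 0 0)) (.pos 12 .mp ⟨839712, 0, 0, 0, 0, 0, 0, 0, 0, ⟨0, 0⟩, 0⟩ 0 0)) (.pos 10 .mp ⟨1193529, 0, 0, 0, 0, 0, 0, 0, 0, ⟨0, 0⟩, 0⟩ 0 0))) (.cut .v 16777216 (.cut .v 8388608 (.void 2 ⟨0, 0, 0, 0, 100000, 0, 0, 0, 0, ⟨0, 0⟩, 0⟩ 0 0) (.cut .v 12582912 (.void 6 ⟨0, 0, 0, 0, 100000, 0, 0, 0, 0, ⟨0, 0⟩, 0⟩ 0 0) (.cut .v 14680064 (.pos 35 .pm ⟨0, 0, 0, 0, 0, 0, 0, 0, 0, ⟨0, 0⟩, 0⟩ 0 0) (.cut .v 15728640 (.pos 37 .pm ⟨0, 0, 0, 0, 0, 0, 0, 0, 0, ⟨0, 0⟩, 0⟩ 0 0) (.cut .d 38295820 (.cut .d 19147910 (.cut .d 9573955 (.cut .d 4786977 (.cut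 .d 2393488 (.pos 38 .pm ⟨0, 0, 0, 0, 0, 0, 0, 0, 0, ⟨0, 0⟩, 0⟩ 0 0) (.pos 38 .pm ⟨0, 0, 0, 0, 0, 0, 0, 0, 424548, ⟨0, 0⟩, 16508694⟩ 0 0)) (.void 38 ⟨0, 0, 0, 0, 100000, 0, 0, 0, 0, ⟨0, 0⟩, 0⟩ 0 0)) (.void 38 ⟨0, 0, 0, 0, 100000, 0, 0, 0, 0, ⟨0, 0⟩, 0⟩ 0 0)) (.void 38 ⟨0, 0, 0, 0, 0, 0, 0, 0, 100000, ⟨0, 0⟩, 16508694⟩ 0 0)) (.void 38 ⟨0, 0, 0, 0, 0, 0, 0, 0, 100000, ⟨0, 0⟩, 16508694⟩ 0 0)))))) (.cut .d 38295820 (.cut .v 33554432 (.cut .d 19147910 (.cut .v 25165824 (.cut .d 9573955 (.cut .v 20971520 (.cut .d 4786977 (.cut .v 18874368 (.cut .d 2393488 (.cut .v 17825792 (.cut .d 1196744 (.pos 17 .pp ⟨0, 0, 0, 0, 0, 0, 0, 0, 0, ⟨0, 0⟩, 0⟩ 0 0) (.pos 17 .pp ⟨0,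 0, 0, 0, 0, 0, 0, 0, 0, ⟨0, 0⟩, 0⟩ 0 0)) (.pos 18 .pp ⟨0, 0, 0, 0, 0, 0, 0, 0, 0, ⟨0, 0⟩, 0⟩ 0 0)) (.pos 15 .pp ⟨0, 0, 0, 0, 0, 0, 0, 0, 424481, ⟨0, 0⟩, 17278579⟩ 0 0)) (.pos 16 .pp ⟨0, 0, 0, 0, 0, 0, 0, 0, 0, ⟨0, 0⟩, 0⟩ 0 0)) (.pos 13 .pp ⟨0, 0, 0, 0, 5734803, 0, 0, 0, 411221, ⟨0, 0⟩, 17739746⟩ 0 0)) (.pos 14 .pp ⟨0, 0, 0, 0, 0, 0, 0, 0, 498483, ⟨0, 0⟩, 19632256⟩ 0 0)) (.pos 11 .pp ⟨0, 0, 0, 0, 15091129, 0, 0, 0, 435543, ⟨0, 0⟩, 18567042⟩ 0 0)) (.pos 12 .pp ⟨0, 0, 0, 0, 0, 0, 0, 0, 484774, ⟨0, 0⟩, 22080058⟩ 0 0)) (.pos 9 .pp ⟨0, 0, 0, 0, 0, 0, 0, 0, 6721370, ⟨0, 0⟩, 19951585⟩ 0 0)) (.cut .v 50331648 (.cut .d 19147910 (.pos 23 .pp ⟨0, 4639316, 0, 0, 0, 0,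 0, 0, 575032, ⟨0, 0⟩, 26257762⟩ 0 0) (.cut .v 41943040 (.cut .v 37748736 (.pos 45 .pp ⟨0, 9258728, 0, 0, 0, 0, 0, 0, 7627258, ⟨0, 0⟩, 24435601⟩ 0 0) (.pos 46 .pp ⟨0, 30904832, 0, 0, 0, 0, 0, 0, 536025, ⟨0, 0⟩, 25837502⟩ 0 0)) (.void 26 ⟨0, 100000, 0, 0, 0, 0, 0, 0, 0, ⟨0, 0⟩, 0⟩ 0 0))) (.pos 24 .pp ⟨100246653, 190647471, 0, 0, 0, 0, 0, 0, 0, ⟨0, 0⟩, 0⟩ 0 0))) (.void 8 ⟨0, 52442, 0, 0, 0, 0, 0, 0, 47558, ⟨0, 0⟩, 23726566⟩ 0 0)))),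
    by decide +kernel⟩

def covers3 : cell.Covers table row3.1 :=
  ⟨(.cut .d 0 (.cut .v 16777216 (.cut .v 8388608 (.cut .v 4194304 (.void 4 ⟨0, 0, 100000, 0, 0, 0, 0, 0, 0, ⟨0, 0⟩, 0⟩ 0 0) (.pos 5 .mm ⟨0, 0, 0, 0, 0, 192075, 0, 0, 0, ⟨0, 0⟩, 0⟩ 0 0)) (.cut .v 12582912 (.pos 6 .mm ⟨0, 0, 0, 0, 0, 288112, 0, 0, 0, ⟨0, 0⟩, 0⟩ 0 0) (.cut .d (-8388608) (.pos 7 .mm ⟨0, 0, 0, 0, 0, 324035, 0, 0, 0, ⟨0, 0⟩, 0⟩ 0 0) (.cut .v 14680064 (.pos 35 .mm ⟨0, 0, 0, 0, 0, 336131, 0, 0, 0, ⟨0, 0⟩, 0⟩ 0 0) (.cut .v 15728640 (.pos 37 .mm ⟨0, 0, 0, 0, 0, 352137, 0, 0, 0, ⟨0, 0⟩, 0⟩ 0 0) (.pos 38 .mm ⟨0, 0, 0, 0, 0, 110779, 0, 0, 0, ⟨0, 0⟩, 0⟩ 0 0)))))) (.cut .v 67108864 (.cut .v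 33554432 (.cut .v 25165824 (.cut .v 20971520 (.pos 13 .mp ⟨0, 0, 0, 0, 0, 0, 0, 0, 0, ⟨0, 0⟩, 0⟩ 0 0) (.pos 14 .mp ⟨703148, 0, 0, 0, 0, 0, 0, 0, 0, ⟨0, 0⟩, 0⟩ 0 0)) (.pos 12 .mp ⟨878666, 0, 0, 0, 0, 0, 0, 0, 0, ⟨0, 0⟩, 0⟩ 0 0)) (.pos 10 .mp ⟨1248897, 0, 0, 0, 0, 0, 0, 0, 0, ⟨0, 0⟩, 0⟩ 0 0)) (.void 49 ⟨100000, 0, 0, 0, 0, 0, 0, 0, 0, ⟨0, 0⟩, 0⟩ 0 0))) (.cut .v 16777216 (.cut .v 8388608 (.void 2 ⟨0, 0, 0, 0, 100000, 0, 0, 0, 0, ⟨0, 0⟩, 0⟩ 0 0) (.cut .v 12582912 (.void 6 ⟨0, 0, 0, 0, 100000, 0, 0, 0, 0, ⟨0, 0⟩, 0⟩ 0 0) (.cut .v 14680064 (.pos 35 .pm ⟨0, 0, 0, 0, 0, 0, 0, 0, 0, ⟨0, 0⟩, 0⟩ 0 0) (.cut .v 15728640 (.pos 37 .pm ⟨0, 0, 0, 0, 0, 0, 0, 0, 0, ⟨0, 0⟩,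 0⟩ 0 0) (.cut .d 28636973 (.cut .d 14318486 (.cut .d 7159243 (.cut .d 3579621 (.cut .d 1789810 (.pos 38 .pm ⟨0, 0, 0, 0, 0, 0, 0, 0, 0, ⟨0, 0⟩, 0⟩ 0 0) (.pos 38 .pm ⟨0, 0, 0, 0, 0, 0, 0, 0, 0, ⟨0, 0⟩, 0⟩ 0 0)) (.pos 38 .pm ⟨0, 0, 0, 0, 0, 0, 0, 0, 352394, ⟨0, 0⟩, 16508694⟩ 0 0)) (.void 38 ⟨0, 0, 0, 0, 100000, 0, 0, 0, 0, ⟨0, 0⟩, 0⟩ 0 0)) (.void 38 ⟨0, 0, 0, 0, 100000, 0, 0, 0, 0, ⟨0, 0⟩, 0⟩ 0 0)) (.void 38 ⟨0, 0, 0, 0, 0, 0, 0, 0, 100000, ⟨0, 0⟩, 16508694⟩ 0 0)))))) (.cut .v 67108864 (.cut .d 28636973 (.cut .v 33554432 (.cut .v 25165824 (.cut .d 14318486 (.cut .v 20971520 (.cut .d 7159243 (.cut .v 18874368 (.cut .d 3579621 (.cut .d 1789810 (.pos 15 .pp ⟨0,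 0, 0, 0, 0, 0, 0, 0, 0, ⟨0, 0⟩, 0⟩ 0 0) (.pos 15 .pp ⟨0, 0, 0, 0, 0, 0, 0, 0, 0, ⟨0, 0⟩, 0⟩ 0 0)) (.pos 15 .pp ⟨0, 0, 0, 0, 0, 0, 0, 0, 349196, ⟨0, 0⟩, 17278579⟩ 0 0)) (.pos 16 .pp ⟨0, 0, 0, 0, 0, 0, 0, 0, 406799, ⟨0, 0⟩, 18269873⟩ 0 0)) (.pos 13 .pp ⟨0, 0, 0, 0, 3648833, 0, 0, 0, 354181, ⟨0, 0⟩, 17739746⟩ 0 0)) (.pos 14 .pp ⟨0, 0, 0, 0, 0, 0, 0, 0, 398771, ⟨0, 0⟩, 19632256⟩ 0 0)) (.pos 11 .pp ⟨0, 0, 0, 0, 6282511, 0, 0, 0, 381832, ⟨0, 0⟩, 18567042⟩ 0 0)) (.cut .d 14318486 (.pos 12 .pp ⟨0, 0, 0, 0, 0, 0, 0, 0, 321900, ⟨0, 0⟩, 22080058⟩ 0 0) (.pos 12 .pp ⟨0, 0, 0, 0, 0, 0, 0, 0, 7434681, ⟨0, 0⟩, 22080058⟩ 0 0))) (.cut .v 50331648 (.cut .d 14318486 (.pos 23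 .pp ⟨0, 0, 0, 0, 0, 0, 0, 0, 375595, ⟨0, 0⟩, 26257762⟩ 0 0) (.cut .d 21477729 (.pos 23 .pp ⟨0, 11873892, 0, 0, 0, 0, 0, 0, 1226154, ⟨0, 0⟩, 26257762⟩ 0 0) (.pos 23 .pp ⟨0, 36790561, 0, 0, 0, 0, 0, 0, 16721715, ⟨0, 0⟩, 26257762⟩ 0 0))) (.pos 24 .pp ⟨45859938, 133388030, 0, 0, 0, 0, 0, 0, 0, ⟨0, 0⟩, 0⟩ 0 0))) (.void 8 ⟨0, 62733, 0, 0, 0, 0, 0, 0, 37267, ⟨0, 0⟩, 23726566⟩ 0 0)) (.void 49 ⟨40664, 59336, 0, 0, 0, 0, 0, 0, 0, ⟨0, 0⟩, 0⟩ 0 0)))),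
    by decide +kernel⟩

def covers4 : cell.Covers table row4.1 :=
  ⟨(.cut .d 0 (.cut .v 16777216 (.cut .v 8388608 (.cut .v 4194304 (.void 4 ⟨0, 0, 100000, 0, 0, 0, 0, 0, 0, ⟨0, 0⟩, 0⟩ 0 0) (.pos 5 .mm ⟨0, 0, 0, 0, 0, 224347, 0, 0, 0, ⟨0, 0⟩, 0⟩ 0 0)) (.cut .v 12582912 (.pos 6 .mm ⟨0, 0, 0, 0, 0, 328785, 0, 0, 0, ⟨0, 0⟩, 0⟩ 0 0) (.cut .d (-8388608) (.pos 7 .mm ⟨0, 0, 0, 0, 0, 411304, 0, 0, 0, ⟨0, 0⟩, 0⟩ 0 0) (.cut .v 14680064 (.pos 35 .mm ⟨0, 0, 0, 0, 0, 353029, 0, 0, 0, ⟨0, 0⟩, 0⟩ 0 0) (.cut .v 15728640 (.pos 37 .mm ⟨0, 0, 0, 0, 0, 338773, 0, 0, 0, ⟨0, 0⟩, 0⟩ 0 0) (.pos 38 .mm ⟨0, 0, 0, 0, 0, 180846, 0, 0, 0, ⟨0, 0⟩, 0⟩ 0 0)))))) (.cut .v 67108864 (.cut .v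 33554432 (.cut .v 25165824 (.cut .v 20971520 (.pos 13 .mp ⟨0, 0, 0, 0, 0, 0, 0, 0, 0, ⟨0, 0⟩, 0⟩ 0 0) (.pos 14 .mp ⟨724390, 0, 0, 0, 0, 0, 0, 0, 0, ⟨0, 0⟩, 0⟩ 0 0)) (.pos 12 .mp ⟨905211, 0, 0, 0, 0, 0, 0, 0, 0, ⟨0, 0⟩, 0⟩ 0 0)) (.pos 10 .mp ⟨1286627, 0, 0, 0, 0, 0, 0, 0, 0, ⟨0, 0⟩, 0⟩ 0 0)) (.void 49 ⟨100000, 0, 0, 0, 0, 0, 0, 0, 0, ⟨0, 0⟩, 0⟩ 0 0))) (.cut .v 16777216 (.cut .v 8388608 (.void 2 ⟨0, 0, 0, 0, 100000, 0, 0, 0, 0, ⟨0, 0⟩, 0⟩ 0 0) (.cut .v 12582912 (.pos 6 .pm ⟨0, 0, 0, 0, 0, 0, 0, 0, 0, ⟨0, 0⟩, 0⟩ 0 0) (.cut .v 14680064 (.pos 35 .pm ⟨0, 0, 0, 0, 0, 0, 0, 0, 0, ⟨0, 0⟩, 0⟩ 0 0) (.cut .v 15728640 (.pos 37 .pm ⟨0, 0, 0, 0, 0, 0, 0, 0, 0, ⟨0, 0⟩, 0⟩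 0 0) (.cut .v 16252928 (.pos 43 .pm ⟨0, 0, 0, 0, 0, 0, 0, 0, 61223, ⟨0, 0⟩, 16378180⟩ 0 0) (.cut .v 16515072 (.pos 52 .pm ⟨0, 0, 0, 0, 0, 0, 0, 0, 183083, ⟨0, 0⟩, 16579177⟩ 0 0) (.cut .s 4882432 (.cut .v 16646144 (.pos 54 .pm ⟨0, 0, 0, 0, 0, 0, 0, 0, 246027, ⟨0, 0⟩, 16678557⟩ 0 0) (.cut .v 16711680 (.pos 56 .pm ⟨0, 0, 0, 0, 0, 0, 0, 0, 278240, ⟨0, 0⟩, 16727976⟩ 0 0) (.pos 57 .pm ⟨0, 0, 0, 0, 0, 0, 0, 0, 309220, ⟨0, 0⟩, 16760808⟩ 0 0))) (.pos 53 .pm ⟨0, 0, 0, 0, 0, 0, 0, 0, 232070, ⟨0, 0⟩, 16711292⟩ 0 0)))))))) (.cut .v 67108864 (.cut .d 22734344 (.cut .v 33554432 (.cut .v 25165824 (.cut .d 11367172 (.cut .v 20971520 (.cut .d 5683586 (.cut .d 2841793 (.pos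 13 .pp ⟨0, 0, 0, 0, 0, 0, 0, 0, 0, ⟨0, 0⟩, 0⟩ 0 0) (.pos 13 .pp ⟨0, 0, 0, 0, 0, 0, 0, 0, 74730, ⟨0, 0⟩, 17739746⟩ 0 0)) (.pos 13 .pp ⟨0, 0, 0, 0, 0, 0, 0, 0, 284445, ⟨0, 0⟩, 17739746⟩ 0 0)) (.pos 14 .pp ⟨0, 0, 0, 0, 0, 0, 0, 0, 330746, ⟨0, 0⟩, 19632256⟩ 0 0)) (.pos 11 .pp ⟨0, 0, 0, 0, 7079456, 0, 0, 0, 321044, ⟨0, 0⟩, 18567042⟩ 0 0)) (.cut .d 11367172 (.pos 12 .pp ⟨0, 0, 0, 0, 0, 0, 0, 0, 313115, ⟨0, 0⟩, 22080058⟩ 0 0) (.cut .v 29360128 (.pos 50 .pp ⟨0, 0, 0, 0, 0, 0, 0, 0, 4586630, ⟨0, 0⟩, 21355130⟩ 0 0) (.pos 51 .pp ⟨0, 7874816, 0, 0, 0, 0, 0, 0, 2701673, ⟨0, 0⟩, 22947581⟩ 0 0)))) (.pos 10 .pp ⟨0, 20165030, 0, 0, 0, 0, 0, 0, 287075, ⟨0, 0⟩, 28215802⟩ 0 0))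 (.void 8 ⟨0, 70192, 0, 0, 0, 0, 0, 0, 29808, ⟨0, 0⟩, 23726566⟩ 0 0)) (.void 49 ⟨40454, 59546, 0, 0, 0, 0, 0, 0, 0, ⟨0, 0⟩, 0⟩ 0 0)))),
    by decide +kernel⟩

def covers5 : cell.Covers table row5.1 :=
  ⟨(.cut .d 0 (.cut .v 16777216 (.cut .v 8388608 (.cut .v 4194304 (.void 4 ⟨0, 0, 100000, 0, 0, 0, 0, 0, 0, ⟨0, 0⟩, 0⟩ 0 0) (.pos 5 .mm ⟨0, 0, 0, 0, 0, 273797, 0, 0, 0, ⟨0, 0⟩, 0⟩ 0 0)) (.cut .v 12582912 (.pos 6 .mm ⟨0, 0, 0, 0, 0, 279809, 0, 0, 0, ⟨0, 0⟩, 0⟩ 0 0) (.cut .d (-8388608) (.pos 7 .mm ⟨0, 0, 0, 0, 0, 341989, 0, 0, 0, ⟨0, 0⟩, 0⟩ 0 0) (.cut .v 14680064 (.pos 35 .mm ⟨0, 0, 0, 0, 0, 326444, 0, 0, 0, ⟨0, 0⟩, 0⟩ 0 0) (.cut .v 15728640 (.pos 37 .mm ⟨0, 0,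 0, 0, 0, 341989, 0, 0, 0, ⟨0, 0⟩, 0⟩ 0 0) (.pos 38 .mm ⟨0, 0, 0, 0, 0, 218251, 0, 0, 0, ⟨0, 0⟩, 0⟩ 0 0)))))) (.cut .v 67108864 (.cut .v 33554432 (.cut .v 25165824 (.pos 11 .mp ⟨0, 0, 0, 0, 0, 0, 0, 0, 0, ⟨0, 0⟩, 0⟩ 0 0) (.pos 12 .mp ⟨981823, 0, 0, 0, 0, 0, 0, 0, 0, ⟨0, 0⟩, 0⟩ 0 0)) (.pos 10 .mp ⟨1395521, 0, 0, 0, 0, 0, 0, 0, 0, ⟨0, 0⟩, 0⟩ 0 0)) (.void 49 ⟨100000, 0, 0, 0, 0, 0, 0, 0, 0, ⟨0, 0⟩, 0⟩ 0 0))) (.cut .v 16777216 (.cut .v 8388608 (.void 2 ⟨0, 0, 0, 0, 100000, 0, 0, 0, 0, ⟨0, 0⟩, 0⟩ 0 0) (.cut .v 12582912 (.pos 6 .pm ⟨0, 0, 0, 0, 0, 0, 0, 0, 0, ⟨0, 0⟩, 0⟩ 0 0) (.cut .v 14680064 (.pos 35 .pm ⟨0, 0, 0, 0, 0, 0, 0, 0, 0, ⟨0, 0⟩, 0⟩ 0 0) (.cut .v 15728640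 (.pos 37 .pm ⟨0, 0, 0, 0, 0, 0, 0, 0, 0, ⟨0, 0⟩, 0⟩ 0 0) (.cut .d 18454939 (.pos 38 .pm ⟨0, 0, 0, 0, 0, 0, 0, 0, 95655, ⟨0, 0⟩, 16508694⟩ 0 0) (.void 38 ⟨0, 0, 0, 0, 0, 0, 0, 0, 100000, ⟨0, 0⟩, 16508694⟩ 0 0)))))) (.cut .v 67108864 (.cut .v 33554432 (.cut .d 18454939 (.cut .v 25165824 (.cut .v 20971520 (.cut .d 9227469 (.pos 13 .pp ⟨0, 0, 0, 0, 0, 0, 0, 0, 247188, ⟨0, 0⟩, 17739746⟩ 0 0) (.pos 13 .pp ⟨0, 0, 0, 0, 0, 0, 0, 0, 218427, ⟨0, 0⟩, 17739746⟩ 0 0)) (.pos 14 .pp ⟨0, 0, 0, 0, 0, 0, 0, 0, 1072453, ⟨0, 0⟩, 19632256⟩ 0 0)) (.pos 12 .pp ⟨0, 0, 0, 0, 0, 0, 0, 0, 1715734, ⟨0, 0⟩, 22080058⟩ 0 0)) (.cut .v 25165824 (.void 11 ⟨0, 0, 0, 0, 0, 0, 0, 0, 100000, ⟨0,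 0⟩, 18567042⟩ 0 0) (.pos 12 .pp ⟨0, 8355722, 0, 0, 0, 0, 0, 0, 8610674, ⟨0, 0⟩, 22080058⟩ 0 0))) (.cut .d 18454939 (.pos 10 .pp ⟨0, 22335435, 0, 0, 0, 0, 0, 0, 254586, ⟨0, 0⟩, 28215802⟩ 0 0) (.void 10 ⟨0, 100000, 0, 0, 0, 0, 0, 0, 0, ⟨0, 0⟩, 0⟩ 0 0))) (.void 49 ⟨39851, 60149, 0, 0, 0, 0, 0, 0, 0, ⟨0, 0⟩, 0⟩ 0 0)))),
    by decide +kernel⟩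

def covers6 : cell.Covers table row6.1 :=
  ⟨(.cut .d 0 (.cut .v 16777216 (.cut .v 8388608 (.cut .v 4194304 (.void 4 ⟨0, 0, 100000, 0, 0, 0, 0, 0, 0, ⟨0, 0⟩, 0⟩ 0 0) (.pos 5 .mm ⟨0, 0, 158296, 0, 0, 186616, 0, 0, 0, ⟨0, 0⟩, 0⟩ 0 0)) (.cut .v 12582912 (.pos 6 .mm ⟨0, 0, 0, 0, 0, 474708, 0, 0, 0, ⟨0, 0⟩, 0⟩ 0 0) (.cut .v 14680064 (.pos 35 .mm ⟨0, 0, 0, 0, 0, 322574, 0, 0, 0, ⟨0, 0⟩, 0⟩ 0 0) (.cut .v 15728640 (.pos 37 .mm ⟨0, 0, 0, 0, 0, 257420, 0, 0, 0, ⟨0, 0⟩, 0⟩ 0 0) (.pos 38 .mm ⟨0, 0, 0, 0, 0, 127989, 0, 0, 0, ⟨0, 0⟩, 0⟩ 0 0))))) (.cut .v 67108864 (.cut .v 33554432 (.cut .v 25165824 (.pos 11 .mp ⟨0, 0, 0, 0, 0, 0, 0, 0, 0, ⟨0, 0⟩, 0⟩ 0 0) (.pos 12 .mp ⟨0,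 0, 0, 0, 0, 2600717, 0, 0, 0, ⟨0, 0⟩, 0⟩ 0 0)) (.pos 10 .mp ⟨24580062, 0, 0, 0, 0, 0, 0, 0, 0, ⟨0, 0⟩, 0⟩ 0 0)) (.void 49 ⟨100000, 0, 0, 0, 0, 0, 0, 0, 0, ⟨0, 0⟩, 0⟩ 0 0))) (.cut .v 16777216 (.cut .v 8388608 (.void 2 ⟨0, 0, 0, 0, 100000, 0, 0, 0, 0, ⟨0, 0⟩, 0⟩ 0 0) (.cut .v 12582912 (.pos 6 .pm ⟨0, 0, 0, 0, 0, 0, 0, 0, 39104, ⟨0, 0⟩, 13128881⟩ 0 0) (.cut .v 14680064 (.pos 35 .pm ⟨0, 0, 0, 0, 0, 0, 0, 0, 58709, ⟨0, 0⟩, 15100357⟩ 0 0) (.cut .v 15728640 (.cut .v 15204352 (.pos 58 .pm ⟨0, 0, 0, 0, 0, 0, 0, 0, 50707, ⟨0, 0⟩, 15831932⟩ 0 0) (.pos 59 .pm ⟨0, 0, 0, 0, 0, 0, 0, 0, 44427, ⟨0, 0⟩, 16107373⟩ 0 0)) (.pos 38 .pm ⟨0, 0, 0, 0, 0, 0, 0, 0, 29986, ⟨0, 0⟩, 16508694⟩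 0 0))))) (.cut .v 67108864 (.cut .v 33554432 (.cut .v 25165824 (.cut .d 14953607 (.pos 11 .pp ⟨0, 0, 0, 0, 0, 0, 0, 0, 193006, ⟨0, 0⟩, 18567042⟩ 0 0) (.pos 11 .pp ⟨0, 0, 0, 0, 0, 0, 0, 0, 5691992, ⟨0, 0⟩, 18567042⟩ 0 0)) (.cut .d 14953607 (.pos 12 .pp ⟨0, 0, 0, 0, 0, 0, 0, 0, 261518, ⟨0, 0⟩, 22080058⟩ 0 0) (.pos 12 .pp ⟨0, 11150700, 0, 0, 0, 0, 0, 0, 301975, ⟨0, 0⟩, 22080058⟩ 0 0))) (.pos 10 .pp ⟨0, 20882140, 0, 0, 0, 0, 239972, 0, 0, ⟨0, 0⟩, 0⟩ 0 0)) (.void 49 ⟨39422, 60578, 0, 0, 0, 0, 0, 0, 0, ⟨0, 0⟩, 0⟩ 0 0)))),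
    by decide +kernel⟩

def covers7 : cell.Covers table row7.1 :=
  ⟨(.cut .d 0 (.cut .v 16777216 (.cut .d (-8388608) (.void 1 ⟨0, 0, 0, 0, 0, 100000, 0, 0, 0, ⟨0, 0⟩, 0⟩ 0 0) (.cut .v 8388608 (.cut .v 4194304 (.void 4 ⟨0, 0, 100000, 0, 0, 0, 0, 0, 0, ⟨0, 0⟩, 0⟩ 0 0) (.pos 5 .mm ⟨0, 0, 0, 0, 0, 0, 0, 0, 259075, ⟨0, 0⟩, 9975792⟩ 0 0)) (.cut .v 12582912 (.pos 6 .mm ⟨0, 0, 0, 0, 0, 0, 0, 0, 0, ⟨0, 0⟩, 0⟩ 0 0) (.cut .v 14680064 (.pos 35 .mm ⟨0, 0, 0, 0, 0, 0, 0, 0, 0, ⟨0, 0⟩, 0⟩ 0 0) (.cut .v 15728640 (.pos 37 .mm ⟨0, 0, 0, 0, 0, 0, 0, 0, 0, ⟨0, 0⟩, 0⟩ 0 0) (.pos 38 .mm ⟨0, 0, 0, 0, 0, 0, 0, 0, 0, ⟨0, 0⟩, 0⟩ 0 0)))))) (.cut .v 67108864 (.cut .v 33554432 (.cut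 .v 25165824 (.pos 11 .mp ⟨684281, 0, 0, 0, 0, 0, 0, 0, 0, ⟨0, 0⟩, 0⟩ 0 0) (.pos 12 .mp ⟨18969033, 0, 0, 0, 0, 0, 0, 0, 0, ⟨0, 0⟩, 0⟩ 0 0)) (.pos 10 .mp ⟨100925658, 0, 0, 0, 0, 0, 0, 0, 0, ⟨0, 0⟩, 0⟩ 0 0)) (.void 49 ⟨100000, 0, 0, 0, 0, 0, 0, 0, 0, ⟨0, 0⟩, 0⟩ 0 0))) (.cut .v 16777216 (.cut .v 8388608 (.cut .v 4194304 (.void 4 ⟨0, 0, 50000, 0, 50000, 0, 0, 0, 0, ⟨0, 0⟩, 0⟩ 0 0) (.pos 5 .pm ⟨0, 0, 0, 0, 852251, 0, 0, 0, 259075, ⟨0, 0⟩, 9975792⟩ 0 0)) (.cut .v 12582912 (.pos 6 .pm ⟨0, 0, 0, 0, 604001, 0, 0, 0, 243474, ⟨0, 0⟩, 13128881⟩ 0 0) (.cut .d 12260274 (.cut .d 6130137 (.cut .v 14680064 (.cut .d 3065068 (.cut .d 1532534 (.pos 35 .pm ⟨0, 0, 0, 0, 0, 0, 0,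 0, 0, ⟨0, 0⟩, 0⟩ 0 0) (.pos 35 .pm ⟨0, 0, 0, 0, 0, 0, 0, 0, 0, ⟨0, 0⟩, 0⟩ 0 0)) (.pos 35 .pm ⟨0, 0, 0, 0, 0, 0, 0, 0, 0, ⟨0, 0⟩, 0⟩ 0 0)) (.cut .d 3065068 (.cut .v 15728640 (.cut .s 7176192 (.cut .d 1532534 (.pos 37 .pm ⟨0, 0, 0, 0, 0, 0, 0, 0, 0, ⟨0, 0⟩, 0⟩ 0 0) (.pos 37 .pm ⟨0, 0, 0, 0, 0, 0, 0, 0, 0, ⟨0, 0⟩, 0⟩ 0 0)) (.pos 37 .pm ⟨0, 0, 0, 0, 0, 0, 0, 0, 0, ⟨0, 0⟩, 0⟩ 0 0)) (.pos 38 .pm ⟨0, 0, 0, 0, 0, 0, 0, 0, 0, ⟨0, 0⟩, 0⟩ 0 0)) (.pos 36 .pm ⟨0, 0, 0, 0, 0, 0, 0, 0, 0, ⟨0, 0⟩, 0⟩ 0 0))) (.pos 7 .pm ⟨0, 0, 0, 0, 0, 0, 0, 0, 152050, ⟨0, 0⟩, 15612959⟩ 0 0)) (.pos 7 .pm ⟨0, 0, 0, 0, 386191, 0, 0, 0, 261079, ⟨0, 0⟩, 15612959⟩ 0 0)))) (.cut .v 67108864 (.cut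 .v 33554432 (.cut .v 25165824 (.pos 11 .pp ⟨0, 0, 0, 0, 0, 0, 0, 0, 28230, ⟨0, 0⟩, 18567042⟩ 0 0) (.pos 12 .pp ⟨0, 928192, 0, 0, 0, 0, 0, 0, 226101, ⟨0, 0⟩, 22080058⟩ 0 0)) (.pos 10 .pp ⟨0, 4424505, 0, 0, 0, 0, 182409, 0, 0, ⟨0, 0⟩, 0⟩ 0 0)) (.void 49 ⟨39139, 60861, 0, 0, 0, 0, 0, 0, 0, ⟨0, 0⟩, 0⟩ 0 0)))),
    by decide +kernel⟩

def covers8 : cell.Covers table row8.1 :=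
  ⟨(.cut .d 0 (.cut .v 16777216 (.cut .d (-8388608) (.void 1 ⟨0, 0, 0, 0, 0, 100000, 0, 0, 0, ⟨0, 0⟩, 0⟩ 0 0) (.cut .v 8388608 (.cut .v 4194304 (.void 4 ⟨0, 0, 100000, 0, 0, 0, 0, 0, 0, ⟨0, 0⟩, 0⟩ 0 0) (.pos 5 .mm ⟨0, 0, 0, 0, 0, 0, 0, 0, 0, ⟨0, 0⟩, 0⟩ 0 0)) (.cut .v 12582912 (.pos 6 .mm ⟨0, 0, 0, 0, 0, 0, 0, 0, 0, ⟨0, 0⟩, 0⟩ 0 0) (.cut .v 14680064 (.pos 35 .mm ⟨0, 0, 0, 0, 0, 0, 0, 0, 0, ⟨0, 0⟩, 0⟩ 0 0) (.cut .v 15728640 (.pos 37 .mm ⟨0, 0, 0, 0, 0, 405603, 0, 0, 0, ⟨0, 0⟩, 0⟩ 0 0) (.pos 38 .mm ⟨0, 0, 0, 0, 0, 629683, 0, 0, 0, ⟨0, 0⟩, 0⟩ 0 0)))))) (.cut .v 67108864 (.cut .v 33554432 (.cut .d (-8388608) (.void 9 ⟨0, 0, 0, 0, 0, 100000, 0, 0, 0, ⟨0, 0⟩, 0⟩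 0 0) (.cut .v 25165824 (.cut .d (-4194304) (.pos 11 .mp ⟨0, 0, 0, 0, 0, 2244330, 0, 0, 0, ⟨0, 0⟩, 0⟩ 0 0) (.pos 11 .mp ⟨805942, 0, 0, 0, 0, 45622, 0, 0, 0, ⟨0, 0⟩, 0⟩ 0 0)) (.pos 12 .mp ⟨18611258, 0, 0, 0, 0, 0, 0, 0, 0, ⟨0, 0⟩, 0⟩ 0 0))) (.pos 10 .mp ⟨246590631, 0, 0, 0, 0, 0, 0, 0, 0, ⟨0, 0⟩, 0⟩ 0 0)) (.void 49 ⟨100000, 0, 0, 0, 0, 0, 0, 0, 0, ⟨0, 0⟩, 0⟩ 0 0))) (.cut .v 16777216 (.cut .v 8388608 (.cut .v 4194304 (.void 4 ⟨0, 0, 50000, 0, 50000, 0, 0, 0, 0, ⟨0, 0⟩, 0⟩ 0 0) (.pos 5 .pm ⟨0, 0, 0, 0, 1969537, 0, 0, 0, 197785, ⟨0, 0⟩, 9975792⟩ 0 0)) (.cut .d 10285164 (.cut .v 12582912 (.cut .d 5142582 (.pos 6 .pm ⟨0, 0, 0, 0, 0, 0, 0, 0, 0, ⟨0, 0⟩, 0⟩ 0 0) (.pos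 6 .pm ⟨0, 0, 0, 0, 0, 0, 0, 0, 147141, ⟨0, 0⟩, 13128881⟩ 0 0)) (.cut .d 5142582 (.cut .v 14680064 (.cut .d 2571291 (.cut .d 1285645 (.cut .s 7798784 (.pos 35 .pm ⟨0, 0, 0, 0, 0, 0, 0, 0, 0, ⟨0, 0⟩, 0⟩ 0 0) (.pos 35 .pm ⟨0, 0, 0, 0, 0, 0, 0, 0, 0, ⟨0, 0⟩, 0⟩ 0 0)) (.pos 35 .pm ⟨0, 0, 0, 0, 0, 0, 0, 0, 0, ⟨0, 0⟩, 0⟩ 0 0)) (.pos 35 .pm ⟨0, 0, 0, 0, 0, 0, 0, 0, 0, ⟨0, 0⟩, 0⟩ 0 0)) (.cut .d 2571291 (.cut .s 7798784 (.pos 36 .pm ⟨0, 0, 0, 0, 0, 0, 0, 0, 0, ⟨0, 0⟩, 0⟩ 0 0) (.pos 36 .pm ⟨0, 0, 0, 0, 0, 0, 0, 0, 0, ⟨0, 0⟩, 0⟩ 0 0)) (.pos 36 .pm ⟨0, 0, 0, 0, 0, 0, 0, 0, 0, ⟨0, 0⟩, 0⟩ 0 0))) (.pos 7 .pm ⟨0, 0, 0, 0, 0, 0, 0, 0, 131070, ⟨0, 0⟩, 15612959⟩ 0 0))) (.pos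 3 .pm ⟨0, 0, 0, 0, 980400, 0, 0, 0, 239981, ⟨0, 0⟩, 14107901⟩ 0 0))) (.cut .v 67108864 (.cut .v 33554432 (.pos 9 .pp ⟨554126, 0, 0, 0, 0, 0, 0, 0, 0, ⟨0, 0⟩, 0⟩ 0 0) (.pos 10 .pp ⟨1659221, 0, 0, 0, 0, 0, 0, 0, 0, ⟨0, 0⟩, 0⟩ 0 0)) (.void 49 ⟨39215, 60785, 0, 0, 0, 0, 0, 0, 0, ⟨0, 0⟩, 0⟩ 0 0)))),
    by decide +kernel⟩

def covers9 : cell.Covers table row9.1 :=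
  ⟨(.cut .d 0 (.cut .v 16777216 (.cut .d (-8388608) (.void 1 ⟨0, 0, 0, 0, 0, 100000, 0, 0, 0, ⟨0, 0⟩, 0⟩ 0 0) (.cut .v 8388608 (.cut .v 4194304 (.void 4 ⟨0, 0, 100000, 0, 0, 0, 0, 0, 0, ⟨0, 0⟩, 0⟩ 0 0) (.pos 5 .mm ⟨0, 0, 0, 0, 0, 0, 0, 0, 0, ⟨0, 0⟩, 0⟩ 0 0)) (.cut .v 12582912 (.pos 6 .mm ⟨0, 0, 0, 0, 0, 0, 0, 0, 0, ⟨0, 0⟩, 0⟩ 0 0) (.cut .d (-4194304) (.pos 7 .mm ⟨0, 0, 0, 0, 0, 2756033, 0, 0, 0, ⟨0, 0⟩, 0⟩ 0 0) (.cut .v 14680064 (.cut .d (-2097152) (.pos 35 .mm ⟨0, 0, 0, 0, 0, 1040038, 0, 0, 0, ⟨0, 0⟩, 0⟩ 0 0) (.cut .d (-1048576) (.pos 35 .mm ⟨0, 0, 0, 0, 0, 764153, 0, 0, 0, ⟨0, 0⟩, 0⟩ 0 0) (.pos 35 .mm ⟨0, 0, 0, 0, 0, 59695, 0, 0, 0, ⟨0, 0⟩, 0⟩ 0 0))) (.cut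 .l 7801405 (.cut .d (-2097152) (.pos 36 .mm ⟨0, 0, 0, 0, 0, 2087107, 0, 0, 0, ⟨0, 0⟩, 0⟩ 0 0) (.cut .v 15728640 (.cut .d (-1048576) (.pos 37 .mm ⟨0, 0, 0, 0, 0, 1073229, 0, 0, 0, ⟨0, 0⟩, 0⟩ 0 0) (.pos 37 .mm ⟨0, 0, 0, 0, 0, 599391, 0, 0, 0, ⟨0, 0⟩, 0⟩ 0 0)) (.pos 38 .mm ⟨0, 0, 0, 0, 0, 1175708, 0, 0, 0, ⟨0, 0⟩, 0⟩ 0 0))) (.pos 36 .mm ⟨0, 0, 0, 0, 0, 0, 0, 0, 0, ⟨0, 0⟩, 0⟩ 0 0))))))) (.cut .v 67108864 (.cut .d (-8388608) (.void 8 ⟨0, 0, 0, 0, 0, 100000, 0, 0, 0, ⟨0, 0⟩, 0⟩ 0 0) (.cut .v 33554432 (.cut .v 25165824 (.cut .d (-4194304) (.cut .v 20971520 (.cut .v 18874368 (.pos 15 .mp ⟨0, 0, 0, 0, 0, 5175434, 0, 0, 0, ⟨0, 0⟩, 0⟩ 0 0) (.pos 16 .mp ⟨3689480, 0, 0,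 0, 0, 6925326, 0, 0, 0, ⟨0, 0⟩, 0⟩ 0 0)) (.pos 14 .mp ⟨25597565, 0, 0, 0, 0, 0, 0, 0, 0, ⟨0, 0⟩, 0⟩ 0 0)) (.cut .v 20971520 (.cut .s 8323072 (.pos 13 .mp ⟨0, 0, 0, 0, 0, 1160500, 0, 0, 0, ⟨0, 0⟩, 0⟩ 0 0) (.cut .s 8454144 (.pos 13 .mp ⟨0, 0, 0, 0, 0, 2296829, 0, 0, 0, ⟨0, 0⟩, 0⟩ 0 0) (.pos 13 .mp ⟨3138730, 0, 0, 0, 0, 268694, 0, 0, 0, ⟨0, 0⟩, 0⟩ 0 0))) (.pos 14 .mp ⟨9949390, 0, 0, 0, 0, 0, 0, 0, 0, ⟨0, 0⟩, 0⟩ 0 0))) (.pos 12 .mp ⟨43533889, 0, 0, 0, 0, 0, 0, 0, 0, ⟨0, 0⟩, 0⟩ 0 0)) (.pos 10 .mp ⟨231818632, 0, 0, 0, 0, 0, 0, 0, 0, ⟨0, 0⟩, 0⟩ 0 0))) (.void 49 ⟨100000, 0, 0, 0, 0, 0, 0, 0, 0, ⟨0, 0⟩, 0⟩ 0 0))) (.cut .v 16777216 (.cut .v 8388608 (.cut .v 4194304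 (.void 4 ⟨0, 0, 50000, 0, 50000, 0, 0, 0, 0, ⟨0, 0⟩, 0⟩ 0 0) (.pos 5 .pm ⟨0, 0, 0, 0, 1969613, 0, 0, 0, 855714, ⟨0, 0⟩, 9975792⟩ 0 0)) (.cut .d 9070610 (.cut .v 12582912 (.cut .d 4535305 (.pos 6 .pm ⟨0, 0, 0, 0, 0, 0, 0, 0, 0, ⟨0, 0⟩, 0⟩ 0 0) (.pos 6 .pm ⟨0, 0, 0, 0, 0, 0, 0, 0, 210449, ⟨0, 0⟩, 13128881⟩ 0 0)) (.cut .v 14680064 (.cut .d 4535305 (.cut .d 2267652 (.cut .v 13631488 (.pos 60 .pm ⟨0, 0, 0, 0, 0, 0, 0, 0, 0, ⟨0, 0⟩, 0⟩ 0 0) (.pos 61 .pm ⟨0, 0, 0, 0, 0, 0, 0, 0, 0, ⟨0, 0⟩, 0⟩ 0 0)) (.pos 35 .pm ⟨0, 0, 0, 0, 0, 0, 0, 0, 0, ⟨0, 0⟩, 0⟩ 0 0)) (.pos 35 .pm ⟨0, 0, 0, 0, 0, 0, 0, 0, 66632, ⟨0, 0⟩, 15100357⟩ 0 0)) (.pos 36 .pm ⟨0, 0, 0, 0, 0, 0, 0, 0, 0,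 ⟨0, 0⟩, 0⟩ 0 0))) (.pos 3 .pm ⟨0, 0, 0, 0, 0, 0, 0, 0, 250388, ⟨0, 0⟩, 14107901⟩ 0 0))) (.cut .v 67108864 (.cut .v 33554432 (.pos 9 .pp ⟨998897, 0, 0, 0, 0, 0, 0, 0, 0, ⟨0, 0⟩, 0⟩ 0 0) (.pos 10 .pp ⟨8411846, 0, 0, 0, 0, 0, 0, 0, 0, ⟨0, 0⟩, 0⟩ 0 0)) (.void 49 ⟨38808, 61192, 0, 0, 0, 0, 0, 0, 0, ⟨0, 0⟩, 0⟩ 0 0)))),
    by decide +kernel⟩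

def covers10 : cell.Covers table row10.1 :=
  ⟨(.cut .d 0 (.cut .v 16777216 (.cut .d (-8388608) (.void 1 ⟨0, 0, 0, 0, 0, 100000, 0, 0, 0, ⟨0, 0⟩, 0⟩ 0 0) (.cut .v 8388608 (.cut .v 4194304 (.void 4 ⟨0, 0, 100000, 0, 0, 0, 0, 0, 0, ⟨0, 0⟩, 0⟩ 0 0) (.pos 5 .mm ⟨0, 0, 0, 0, 0, 0, 0, 0, 0, ⟨0, 0⟩, 0⟩ 0 0)) (.cut .v 12582912 (.pos 6 .mm ⟨0, 0, 0, 0, 0, 411713, 0, 0, 0, ⟨0, 0⟩, 0⟩ 0 0) (.cut .d (-4194304) (.pos 7 .mm ⟨0, 0, 0, 0, 0, 8416540, 0, 0, 0, ⟨0, 0⟩, 0⟩ 0 0) (.cut .s 8814592 (.cut .d (-2097152) (.pos 7 .mm ⟨0, 0, 0, 0, 0, 4239977, 0, 0, 0, ⟨0, 0⟩, 0⟩ 0 0) (.cut .l 7801405 (.cut .l 4991221 (.cut .v 14680064 (.cut .s 8699904 (.pos 35 .mm ⟨0, 0, 0, 0, 0, 1421118,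 0, 0, 0, ⟨0, 0⟩, 0⟩ 0 0) (.pos 35 .mm ⟨0, 0, 0, 0, 0, 1964510, 0, 0, 0, ⟨0, 0⟩, 0⟩ 0 0)) (.cut .d (-1048576) (.pos 36 .mm ⟨0, 0, 0, 0, 0, 4165420, 0, 0, 0, ⟨0, 0⟩, 0⟩ 0 0) (.cut .d (-524288) (.pos 36 .mm ⟨0, 0, 0, 0, 0, 3455019, 0, 0, 0, ⟨0, 0⟩, 0⟩ 0 0) (.pos 36 .mm ⟨0, 0, 0, 0, 0, 2178282, 0, 0, 0, ⟨0, 0⟩, 0⟩ 0 0)))) (.pos 7 .mm ⟨0, 0, 0, 0, 0, 0, 0, 0, 0, ⟨0, 0⟩, 0⟩ 0 0)) (.pos 7 .mm ⟨0, 0, 0, 0, 0, 0, 0, 0, 0, ⟨0, 0⟩, 0⟩ 0 0))) (.cut .d (-2097152) (.pos 7 .mm ⟨0, 0, 0, 0, 0, 7570128, 0, 0, 0, ⟨0, 0⟩, 0⟩ 0 0) (.cut .l 7801405 (.cut .v 14680064 (.cut .s 8929280 (.pos 35 .mm ⟨0, 0, 0, 0, 0, 2633486, 0, 0, 0, ⟨0, 0⟩, 0⟩ 0 0) (.pos 35 .mm ⟨0, 0, 0, 0, 0, 3423337,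 0, 0, 0, ⟨0, 0⟩, 0⟩ 0 0)) (.cut .d (-1048576) (.pos 36 .mm ⟨0, 0, 0, 0, 0, 6887133, 0, 0, 0, ⟨0, 0⟩, 0⟩ 0 0) (.cut .d (-524288) (.pos 36 .mm ⟨0, 0, 0, 0, 0, 5998823, 0, 0, 0, ⟨0, 0⟩, 0⟩ 0 0) (.cut .v 15728640 (.pos 37 .mm ⟨0, 0, 0, 0, 0, 2785888, 0, 0, 0, ⟨0, 0⟩, 0⟩ 0 0) (.pos 38 .mm ⟨0, 0, 0, 0, 0, 4627633, 0, 0, 0, ⟨0, 0⟩, 0⟩ 0 0))))) (.pos 7 .mm ⟨0, 0, 0, 0, 0, 0, 0, 0, 0, ⟨0, 0⟩, 0⟩ 0 0)))))))) (.cut .v 67108864 (.cut .d (-8388608) (.void 8 ⟨0, 0, 0, 0, 0, 100000, 0, 0, 0, ⟨0, 0⟩, 0⟩ 0 0) (.cut .v 33554432 (.cut .d (-4194304) (.cut .v 25165824 (.cut .v 20971520 (.cut .v 18874368 (.pos 15 .mp ⟨2609115, 0, 0, 0, 0, 10951588, 0, 0, 0, ⟨0, 0⟩, 0⟩ 0 0) (.cut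 .s 8814592 (.pos 16 .mp ⟨18532763, 0, 0, 0, 0, 0, 0, 0, 0, ⟨0, 0⟩, 0⟩ 0 0) (.void 16 ⟨100000, 0, 0, 0, 0, 0, 0, 0, 0, ⟨0, 0⟩, 0⟩ 0 0))) (.void 14 ⟨100000, 0, 0, 0, 0, 0, 0, 0, 0, ⟨0, 0⟩, 0⟩ 0 0)) (.void 12 ⟨100000, 0, 0, 0, 0, 0, 0, 0, 0, ⟨0, 0⟩, 0⟩ 0 0)) (.cut .v 25165824 (.cut .v 20971520 (.cut .d (-2097152) (.cut .l 7801405 (.cut .s 8814592 (.pos 13 .mp ⟨0, 0, 0, 0, 0, 10495155, 0, 0, 0, ⟨0, 0⟩, 0⟩ 0 0) (.pos 13 .mp ⟨1340614, 0, 0, 0, 0, 16939919, 0, 0, 0, ⟨0, 0⟩, 0⟩ 0 0)) (.cut .s 8814592 (.cut .v 18874368 (.cut .s 8699904 (.pos 15 .mp ⟨0, 0, 0, 0, 0, 4609930, 0, 0, 0, ⟨0, 0⟩, 0⟩ 0 0) (.pos 15 .mp ⟨0, 0, 0, 0, 0, 6481853, 0, 0, 0, ⟨0, 0⟩, 0⟩ 0 0)) (.pos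 16 .mp ⟨8163616, 0, 0, 0, 0, 0, 0, 0, 0, ⟨0, 0⟩, 0⟩ 0 0)) (.cut .d (-3145728) (.cut .v 18874368 (.pos 15 .mp ⟨1223067, 0, 0, 0, 0, 10023583, 0, 0, 0, ⟨0, 0⟩, 0⟩ 0 0) (.pos 16 .mp ⟨15246544, 0, 0, 0, 0, 0, 0, 0, 0, ⟨0, 0⟩, 0⟩ 0 0)) (.pos 13 .mp ⟨7741067, 0, 0, 0, 0, 0, 0, 0, 0, ⟨0, 0⟩, 0⟩ 0 0)))) (.cut .s 8814592 (.pos 13 .mp ⟨4072708, 0, 0, 0, 0, 191950, 0, 0, 0, ⟨0, 0⟩, 0⟩ 0 0) (.cut .s 8929280 (.pos 13 .mp ⟨6533981, 0, 0, 0, 0, 0, 0, 0, 0, ⟨0, 0⟩, 0⟩ 0 0) (.pos 13 .mp ⟨8073976, 0, 0, 0, 0, 0, 0, 0, 0, ⟨0, 0⟩, 0⟩ 0 0)))) (.cut .d (-2097152) (.pos 14 .mp ⟨21689568, 0, 0, 0, 0, 0, 0, 0, 0, ⟨0, 0⟩, 0⟩ 0 0) (.pos 14 .mp ⟨10643463, 0, 0, 0, 0, 0, 0, 0, 0, ⟨0,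 0⟩, 0⟩ 0 0))) (.pos 12 .mp ⟨43764645, 0, 0, 0, 0, 0, 0, 0, 0, ⟨0, 0⟩, 0⟩ 0 0))) (.pos 10 .mp ⟨377153214, 0, 0, 0, 0, 0, 0, 0, 0, ⟨0, 0⟩, 0⟩ 0 0))) (.void 49 ⟨100000, 0, 0, 0, 0, 0, 0, 0, 0, ⟨0, 0⟩, 0⟩ 0 0))) (.cut .v 16777216 (.cut .v 8388608 (.cut .v 4194304 (.void 4 ⟨0, 0, 50000, 0, 50000, 0, 0, 0, 0, ⟨0, 0⟩, 0⟩ 0 0) (.pos 5 .pm ⟨0, 0, 0, 0, 926622, 0, 0, 0, 1855925, ⟨0, 0⟩, 9975792⟩ 0 0)) (.cut .d 8004398 (.cut .v 12582912 (.pos 6 .pm ⟨0, 0, 0, 0, 0, 0, 0, 0, 0, ⟨0, 0⟩, 0⟩ 0 0) (.cut .v 14680064 (.pos 35 .pm ⟨0, 0, 0, 0, 0, 0, 0, 0, 0, ⟨0, 0⟩, 0⟩ 0 0) (.pos 36 .pm ⟨0, 0, 0, 0, 0, 0, 0, 0, 0, ⟨0, 0⟩, 0⟩ 0 0))) (.pos 3 .pm ⟨0, 0, 0, 0, 0, 0, 0, 0, 747186,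 ⟨0, 0⟩, 14107901⟩ 0 0))) (.cut .v 67108864 (.cut .v 33554432 (.pos 9 .pp ⟨3891190, 0, 0, 0, 0, 0, 0, 0, 0, ⟨0, 0⟩, 0⟩ 0 0) (.pos 10 .pp ⟨22485518, 0, 0, 0, 0, 0, 0, 0, 0, ⟨0, 0⟩, 0⟩ 0 0)) (.void 49 ⟨38573, 61427, 0, 0, 0, 0, 0, 0, 0, ⟨0, 0⟩, 0⟩ 0 0)))),
    by decide +kernel⟩

def covers11 : cell.Covers table row11.1 :=
  ⟨(.cut .d 0 (.cut .v 16777216 (.cut .d (-8388608) (.void 1 ⟨0, 0, 0, 0, 0, 100000, 0, 0, 0, ⟨0, 0⟩, 0⟩ 0 0) (.cut .d (-4194304) (.void 1 ⟨0, 0, 0, 0, 0, 100000, 0, 0, 0, ⟨0, 0⟩, 0⟩ 0 0) (.cut .v 8388608 (.cut .v 4194304 (.void 4 ⟨0, 0, 100000, 0, 0, 0, 0, 0, 0, ⟨0, 0⟩, 0⟩ 0 0) (.pos 5 .mm ⟨0, 0, 0, 0, 0, 0, 0, 0, 0, ⟨0, 0⟩, 0⟩ 0 0)) (.cut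 .v 12582912 (.pos 6 .mm ⟨0, 0, 0, 0, 0, 3718435, 0, 0, 0, ⟨0, 0⟩, 0⟩ 0 0) (.cut .d (-2097152) (.cut .s 9306112 (.pos 7 .mm ⟨0, 0, 0, 0, 0, 12176211, 0, 0, 0, ⟨0, 0⟩, 0⟩ 0 0) (.pos 7 .mm ⟨0, 0, 0, 0, 0, 18786944, 0, 0, 0, ⟨0, 0⟩, 0⟩ 0 0)) (.cut .l 7801405 (.cut .d (-1048576) (.cut .v 14680064 (.pos 35 .mm ⟨0, 0, 0, 0, 0, 10767292, 0, 0, 0, ⟨0, 0⟩, 0⟩ 0 0) (.cut .s 9306112 (.cut .s 9175040 (.pos 36 .mm ⟨0, 0, 0, 0, 0, 9827464, 0, 0, 0, ⟨0, 0⟩, 0⟩ 0 0) (.pos 36 .mm ⟨0, 0, 0, 0, 0, 12687091, 0, 0, 0, ⟨0, 0⟩, 0⟩ 0 0)) (.pos 36 .mm ⟨0, 0, 0, 0, 0, 17708191, 0, 0, 0, ⟨0, 0⟩, 0⟩ 0 0))) (.cut .l 4991221 (.cut .v 14680064 (.cut .d (-524288) (.pos 35 .mm ⟨0, 0, 0, 0,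 0, 9457817, 0, 0, 0, ⟨0, 0⟩, 0⟩ 0 0) (.pos 35 .mm ⟨0, 0, 0, 0, 0, 4319246, 0, 0, 0, ⟨0, 0⟩, 0⟩ 0 0)) (.cut .s 9306112 (.cut .l 3586129 (.cut .d (-524288) (.pos 36 .mm ⟨0, 0, 0, 0, 0, 9854232, 0, 0, 0, ⟨0, 0⟩, 0⟩ 0 0) (.cut .v 15728640 (.pos 37 .mm ⟨0, 0, 0, 0, 0, 5197474, 0, 0, 0, ⟨0, 0⟩, 0⟩ 0 0) (.pos 38 .mm ⟨0, 0, 0, 0, 0, 7334022, 0, 0, 0, ⟨0, 0⟩, 0⟩ 0 0))) (.pos 36 .mm ⟨0, 0, 0, 0, 0, 5400559, 0, 0, 0, ⟨0, 0⟩, 0⟩ 0 0)) (.cut .l 3586129 (.cut .d (-524288) (.cut .s 9437184 (.pos 36 .mm ⟨0, 0, 0, 0, 0, 14509044, 0, 0, 0, ⟨0, 0⟩, 0⟩ 0 0) (.pos 36 .mm ⟨0, 0, 0, 0, 0, 17729392, 0, 0, 0, ⟨0, 0⟩, 0⟩ 0 0)) (.cut .d (-262144) (.cut .v 15728640 (.cut .d (-393216)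 (.pos 37 .mm ⟨0, 0, 0, 0, 0, 12605851, 0, 0, 0, ⟨0, 0⟩, 0⟩ 0 0) (.pos 37 .mm ⟨0, 0, 0, 0, 0, 6870431, 0, 0, 0, ⟨0, 0⟩, 0⟩ 0 0)) (.pos 38 .mm ⟨0, 0, 0, 0, 0, 12666275, 0, 0, 0, ⟨0, 0⟩, 0⟩ 0 0)) (.pos 36 .mm ⟨0, 0, 0, 0, 0, 0, 0, 0, 0, ⟨0, 0⟩, 0⟩ 0 0))) (.pos 36 .mm ⟨0, 0, 0, 0, 0, 10404650, 0, 0, 0, ⟨0, 0⟩, 0⟩ 0 0)))) (.pos 7 .mm ⟨0, 0, 0, 0, 0, 0, 0, 0, 0, ⟨0, 0⟩, 0⟩ 0 0))) (.pos 7 .mm ⟨0, 0, 0, 0, 0, 4228268, 0, 0, 0, ⟨0, 0⟩, 0⟩ 0 0))))))) (.cut .v 268435456 (.cut .v 67108864 (.cut .d (-8388608) (.void 8 ⟨0, 0, 0, 0, 0, 100000, 0, 0, 0, ⟨0, 0⟩, 0⟩ 0 0) (.cut .d (-4194304) (.void 8 ⟨0, 0, 0, 0, 0, 100000, 0, 0, 0, ⟨0, 0⟩, 0⟩ 0 0) (.cut .v 33554432 (.cut .v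 25165824 (.cut .d (-2097152) (.cut .v 20971520 (.cut .l 7801405 (.pos 13 .mp ⟨7133215, 0, 0, 0, 0, 33290084, 0, 0, 0, ⟨0, 0⟩, 0⟩ 0 0) (.cut .v 18874368 (.cut .s 9306112 (.cut .d (-3145728) (.cut .s 9175040 (.pos 15 .mp ⟨8526604, 0, 0, 0, 0, 6234037, 0, 0, 0, ⟨0, 0⟩, 0⟩ 0 0) (.pos 15 .mp ⟨11114789, 0, 0, 0, 0, 8485962, 0, 0, 0, ⟨0, 0⟩, 0⟩ 0 0)) (.cut .s 9175040 (.pos 15 .mp ⟨10511229, 0, 0, 0, 0, 0, 0, 0, 0, ⟨0, 0⟩, 0⟩ 0 0) (.pos 15 .mp ⟨13514551, 0, 0, 0, 0, 0, 0, 0, 0, ⟨0, 0⟩, 0⟩ 0 0))) (.cut .d (-3145728) (.cut .s 9437184 (.pos 15 .mp ⟨13277486, 0, 0, 0, 0, 11951557, 0, 0, 0, ⟨0, 0⟩, 0⟩ 0 0) (.cut .s 9502720 (.pos 15 .mp ⟨17914790, 0, 0, 0, 0, 10629970,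 0, 0, 0, ⟨0, 0⟩, 0⟩ 0 0) (.pos 15 .mp ⟨20379751, 0, 0, 0, 0, 10883687, 0, 0, 0, ⟨0, 0⟩, 0⟩ 0 0))) (.cut .v 17825792 (.cut .s 9437184 (.pos 17 .mp ⟨980540, 0, 0, 0, 0, 16871956, 0, 0, 0, ⟨0, 0⟩, 0⟩ 0 0) (.pos 17 .mp ⟨3520110, 0, 0, 0, 0, 18033474, 0, 0, 0, ⟨0, 0⟩, 0⟩ 0 0)) (.cut .s 9437184 (.pos 18 .mp ⟨18507769, 0, 0, 0, 0, 0, 0, 0, 0, ⟨0, 0⟩, 0⟩ 0 0) (.pos 18 .mp ⟨22318544, 0, 0, 0, 0, 0, 0, 0, 0, ⟨0, 0⟩, 0⟩ 0 0))))) (.cut .d (-3145728) (.cut .d (-3670016) (.pos 16 .mp ⟨38394197, 0, 0, 0, 0, 0, 0, 0, 0, ⟨0, 0⟩, 0⟩ 0 0) (.cut .s 9306112 (.pos 16 .mp ⟨20335351, 0, 0, 0, 0, 0, 0, 0, 0, ⟨0, 0⟩, 0⟩ 0 0) (.pos 16 .mp ⟨34331881, 0, 0, 0, 0, 0, 0, 0, 0, ⟨0, 0⟩, 0⟩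 0 0))) (.cut .s 9306112 (.pos 16 .mp ⟨16642393, 0, 0, 0, 0, 0, 0, 0, 0, ⟨0, 0⟩, 0⟩ 0 0) (.cut .s 9437184 (.pos 16 .mp ⟨22322844, 0, 0, 0, 0, 0, 0, 0, 0, ⟨0, 0⟩, 0⟩ 0 0) (.pos 16 .mp ⟨27118312, 0, 0, 0, 0, 0, 0, 0, 0, ⟨0, 0⟩, 0⟩ 0 0)))))) (.cut .d (-3145728) (.void 14 ⟨100000, 0, 0, 0, 0, 0, 0, 0, 0, ⟨0, 0⟩, 0⟩ 0 0) (.cut .s 9306112 (.pos 14 .mp ⟨25286373, 0, 0, 0, 0, 0, 0, 0, 0, ⟨0, 0⟩, 0⟩ 0 0) (.pos 14 .mp ⟨41139690, 0, 0, 0, 0, 0, 0, 0, 0, ⟨0, 0⟩, 0⟩ 0 0)))) (.cut .v 20971520 (.cut .s 9306112 (.cut .l 7801405 (.cut .d (-1048576) (.cut .s 9175040 (.pos 13 .mp ⟨4517584, 0, 0, 0, 0, 6995994, 0, 0, 0, ⟨0, 0⟩, 0⟩ 0 0) (.pos 13 .mp ⟨10506687, 0, 0, 0, 0, 3118026,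 0, 0, 0, ⟨0, 0⟩, 0⟩ 0 0)) (.pos 13 .mp ⟨3628038, 0, 0, 0, 0, 6855843, 0, 0, 0, ⟨0, 0⟩, 0⟩ 0 0)) (.pos 13 .mp ⟨7570520, 0, 0, 0, 0, 0, 0, 0, 0, ⟨0, 0⟩, 0⟩ 0 0)) (.cut .v 18874368 (.cut .l 7801405 (.cut .d (-1048576) (.cut .s 9437184 (.pos 15 .mp ⟨15723073, 0, 0, 0, 0, 0, 0, 0, 0, ⟨0, 0⟩, 0⟩ 0 0) (.cut .v 17825792 (.pos 17 .mp ⟨0, 0, 0, 0, 0, 21683459, 0, 0, 0, ⟨0, 0⟩, 0⟩ 0 0) (.pos 18 .mp ⟨21311653, 0, 0, 0, 0, 0, 0, 0, 0, ⟨0, 0⟩, 0⟩ 0 0))) (.cut .s 9437184 (.pos 15 .mp ⟨0, 0, 0, 0, 0, 15314197, 0, 0, 0, ⟨0, 0⟩, 0⟩ 0 0) (.cut .d (-524288) (.pos 15 .mp ⟨3859119, 0, 0, 0, 0, 14962244, 0, 0, 0, ⟨0, 0⟩, 0⟩ 0 0) (.pos 15 .mp ⟨0, 0, 0, 0, 0, 16410364, 0, 0, 0, ⟨0,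 0⟩, 0⟩ 0 0)))) (.pos 15 .mp ⟨12587761, 0, 0, 0, 0, 0, 0, 0, 0, ⟨0, 0⟩, 0⟩ 0 0)) (.pos 16 .mp ⟨21027965, 0, 0, 0, 0, 0, 0, 0, 0, ⟨0, 0⟩, 0⟩ 0 0))) (.cut .s 9306112 (.pos 14 .mp ⟨17703944, 0, 0, 0, 0, 0, 0, 0, 0, ⟨0, 0⟩, 0⟩ 0 0) (.pos 14 .mp ⟨28282754, 0, 0, 0, 0, 0, 0, 0, 0, ⟨0, 0⟩, 0⟩ 0 0)))) (.cut .d (-2097152) (.void 12 ⟨100000, 0, 0, 0, 0, 0, 0, 0, 0, ⟨0, 0⟩, 0⟩ 0 0) (.pos 12 .mp ⟨47927604, 0, 0, 0, 0, 0, 0, 0, 0, ⟨0, 0⟩, 0⟩ 0 0))) (.pos 10 .mp ⟨427011818, 0, 0, 0, 0, 0, 0, 0, 0, ⟨0, 0⟩, 0⟩ 0 0)))) (.void 49 ⟨100000, 0, 0, 0, 0, 0, 0, 0, 0, ⟨0, 0⟩, 0⟩ 0 0)) (.void 66 ⟨63682, 36318, 0, 0, 0, 0, 0, 0, 0, ⟨0, 0⟩, 0⟩ 0 0))) (.cut .v 16777216 (.cut .v 8388608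 (.cut .v 4194304 (.void 4 ⟨0, 0, 50000, 0, 50000, 0, 0, 0, 0, ⟨0, 0⟩, 0⟩ 0 0) (.pos 5 .pm ⟨0, 0, 0, 0, 0, 0, 0, 0, 2238934, ⟨0, 0⟩, 9975792⟩ 0 0)) (.cut .v 12582912 (.pos 6 .pm ⟨0, 0, 0, 0, 0, 0, 0, 0, 375937, ⟨0, 0⟩, 13128881⟩ 0 0) (.cut .v 14680064 (.pos 35 .pm ⟨0, 0, 0, 0, 0, 0, 0, 0, 0, ⟨0, 0⟩, 0⟩ 0 0) (.pos 36 .pm ⟨0, 0, 0, 0, 0, 0, 0, 0, 0, ⟨0, 0⟩, 0⟩ 0 0)))) (.cut .v 268435456 (.cut .v 67108864 (.cut .v 33554432 (.cut .v 25165824 (.pos 11 .pp ⟨0, 0, 0, 0, 0, 0, 0, 0, 0, ⟨0, 0⟩, 0⟩ 0 0) (.pos 12 .pp ⟨22247883, 0, 0, 0, 0, 0, 0, 0, 0, ⟨0, 0⟩, 0⟩ 0 0)) (.pos 10 .pp ⟨60412026, 0, 0, 0, 0, 0, 0, 0, 0, ⟨0, 0⟩, 0⟩ 0 0)) (.void 49 ⟨38048, 61952, 0, 0, 0, 0,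 0, 0, 0, ⟨0, 0⟩, 0⟩ 0 0)) (.void 66 ⟨0, 0, 0, 100000, 0, 0, 0, 0, 0, ⟨0, 0⟩, 0⟩ 0 0)))),
    by decide +kernel⟩

def covers12 : cell.Covers table row12.1 :=
  ⟨(.cut .d 0 (.cut .v 16777216 (.cut .d (-8388608) (.void 1 ⟨0, 0, 0, 0, 0, 100000, 0, 0, 0, ⟨0, 0⟩, 0⟩ 0 0) (.cut .d (-4194304) (.void 1 ⟨0, 0, 0, 0, 0, 100000, 0, 0, 0, ⟨0, 0⟩, 0⟩ 0 0) (.cut .v 8388608 (.cut .v 4194304 (.void 4 ⟨0, 0, 100000, 0, 0, 0, 0, 0, 0, ⟨0, 0⟩, 0⟩ 0 0) (.pos 5 .mm ⟨0, 0, 0, 0, 0, 1560649, 0, 0, 0, ⟨0, 0⟩, 0⟩ 0 0)) (.cut .v 12582912 (.pos 6 .mm ⟨0, 0, 0, 0, 0, 14195454, 0, 0, 0, ⟨0, 0⟩, 0⟩ 0 0) (.cut .d (-2097152) (.cut .s 9830400 (.pos 7 .mm ⟨0, 0, 0, 0, 0, 27147489, 0, 0, 0,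 ⟨0, 0⟩, 0⟩ 0 0) (.pos 7 .mm ⟨0, 0, 0, 0, 0, 38556416, 0, 0, 0, ⟨0, 0⟩, 0⟩ 0 0)) (.cut .l 7801405 (.cut .d (-1048576) (.cut .s 9830400 (.pos 7 .mm ⟨0, 0, 0, 0, 0, 25340526, 0, 0, 0, ⟨0, 0⟩, 0⟩ 0 0) (.pos 7 .mm ⟨0, 0, 0, 0, 0, 35802870, 0, 0, 0, ⟨0, 0⟩, 0⟩ 0 0)) (.cut .l 4991221 (.cut .d (-524288) (.cut .v 14680064 (.pos 35 .mm ⟨0, 0, 0, 0, 0, 20014577, 0, 0, 0, ⟨0, 0⟩, 0⟩ 0 0) (.cut .s 9830400 (.cut .s 9699328 (.pos 36 .mm ⟨0, 0, 0, 0, 0, 20867141, 0, 0, 0, ⟨0, 0⟩, 0⟩ 0 0) (.pos 36 .mm ⟨0, 0, 0, 0, 0, 25484236, 0, 0, 0, ⟨0, 0⟩, 0⟩ 0 0)) (.pos 36 .mm ⟨0, 0, 0, 0, 0, 33082748, 0, 0, 0, ⟨0, 0⟩, 0⟩ 0 0))) (.cut .d (-262144) (.cut .v 14680064 (.pos 35 .mm ⟨0, 0,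 0, 0, 0, 10377664, 0, 0, 0, ⟨0, 0⟩, 0⟩ 0 0) (.cut .l 3586129 (.cut .l 2883583 (.cut .s 9830400 (.cut .d (-393216) (.pos 36 .mm ⟨0, 0, 0, 0, 0, 20232477, 0, 0, 0, ⟨0, 0⟩, 0⟩ 0 0) (.pos 36 .mm ⟨0, 0, 0, 0, 0, 12550550, 0, 0, 0, ⟨0, 0⟩, 0⟩ 0 0)) (.cut .d (-393216) (.pos 36 .mm ⟨0, 0, 0, 0, 0, 32508622, 0, 0, 0, ⟨0, 0⟩, 0⟩ 0 0) (.pos 36 .mm ⟨0, 0, 0, 0, 0, 25153233, 0, 0, 0, ⟨0, 0⟩, 0⟩ 0 0))) (.pos 36 .mm ⟨0, 0, 0, 0, 0, 11067495, 0, 0, 0, ⟨0, 0⟩, 0⟩ 0 0)) (.pos 36 .mm ⟨0, 0, 0, 0, 0, 0, 0, 0, 0, ⟨0, 0⟩, 0⟩ 0 0))) (.pos 7 .mm ⟨0, 0, 0, 0, 0, 0, 0, 0, 0, ⟨0, 0⟩, 0⟩ 0 0))) (.pos 7 .mm ⟨0, 0, 0, 0, 0, 10691630, 0, 0, 0, ⟨0, 0⟩, 0⟩ 0 0))) (.cut .s 9830400 (.pos 7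 .mm ⟨0, 0, 0, 0, 0, 13739360, 0, 0, 0, ⟨0, 0⟩, 0⟩ 0 0) (.pos 7 .mm ⟨0, 0, 0, 0, 0, 22438824, 0, 0, 0, ⟨0, 0⟩, 0⟩ 0 0)))))))) (.cut .v 268435456 (.cut .v 67108864 (.cut .d (-8388608) (.void 8 ⟨0, 0, 0, 0, 0, 100000, 0, 0, 0, ⟨0, 0⟩, 0⟩ 0 0) (.cut .d (-4194304) (.void 8 ⟨0, 0, 0, 0, 0, 100000, 0, 0, 0, ⟨0, 0⟩, 0⟩ 0 0) (.cut .v 33554432 (.cut .v 25165824 (.cut .d (-2097152) (.cut .l 7801405 (.void 11 ⟨0, 0, 0, 0, 0, 100000, 0, 0, 0, ⟨0, 0⟩, 0⟩ 0 0) (.cut .v 20971520 (.cut .d (-3145728) (.cut .v 18874368 (.cut .s 9830400 (.cut .s 9699328 (.cut .s 9633792 (.pos 15 .mp ⟨22885626, 0, 0, 0, 0, 10647380, 0, 0, 0, ⟨0, 0⟩, 0⟩ 0 0) (.pos 15 .mp ⟨25473614, 0, 0, 0, 0,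 11420219, 0, 0, 0, ⟨0, 0⟩, 0⟩ 0 0)) (.pos 15 .mp ⟨28789887, 0, 0, 0, 0, 14945204, 0, 0, 0, ⟨0, 0⟩, 0⟩ 0 0)) (.pos 15 .mp ⟨34665706, 0, 0, 0, 0, 38819828, 0, 0, 0, ⟨0, 0⟩, 0⟩ 0 0)) (.void 16 ⟨100000, 0, 0, 0, 0, 0, 0, 0, 0, ⟨0, 0⟩, 0⟩ 0 0)) (.cut .s 9830400 (.cut .v 18874368 (.cut .v 17825792 (.cut .s 9699328 (.pos 17 .mp ⟨6161170, 0, 0, 0, 0, 19183653, 0, 0, 0, ⟨0, 0⟩, 0⟩ 0 0) (.pos 17 .mp ⟨9000201, 0, 0, 0, 0, 21357759, 0, 0, 0, ⟨0, 0⟩, 0⟩ 0 0)) (.cut .s 9699328 (.pos 18 .mp ⟨26245461, 0, 0, 0, 0, 0, 0, 0, 0, ⟨0, 0⟩, 0⟩ 0 0) (.pos 18 .mp ⟨31325293, 0, 0, 0, 0, 0, 0, 0, 0, ⟨0, 0⟩, 0⟩ 0 0))) (.cut .s 9699328 (.pos 16 .mp ⟨32114525, 0, 0, 0, 0, 0, 0, 0, 0, ⟨0,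 0⟩, 0⟩ 0 0) (.cut .d (-2621440) (.pos 16 .mp ⟨41811529, 0, 0, 0, 0, 0, 0, 0, 0, ⟨0, 0⟩, 0⟩ 0 0) (.pos 16 .mp ⟨34588255, 0, 0, 0, 0, 0, 0, 0, 0, ⟨0, 0⟩, 0⟩ 0 0)))) (.cut .v 18874368 (.cut .v 17825792 (.cut .s 9961472 (.pos 17 .mp ⟨12241041, 0, 0, 0, 0, 23635956, 0, 0, 0, ⟨0, 0⟩, 0⟩ 0 0) (.cut .d (-2621440) (.pos 17 .mp ⟨27275857, 0, 0, 0, 0, 17294247, 0, 0, 0, ⟨0, 0⟩, 0⟩ 0 0) (.pos 17 .mp ⟨16052851, 0, 0, 0, 0, 24344810, 0, 0, 0, ⟨0, 0⟩, 0⟩ 0 0))) (.cut .s 9961472 (.pos 18 .mp ⟨36923442, 0, 0, 0, 0, 0, 0, 0, 0, ⟨0, 0⟩, 0⟩ 0 0) (.cut .d (-2621440) (.pos 18 .mp ⟨47295187, 0, 0, 0, 0, 0, 0, 0, 0, ⟨0, 0⟩, 0⟩ 0 0) (.pos 18 .mp ⟨40339199, 0, 0, 0, 0, 0, 0, 0, 0,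 ⟨0, 0⟩, 0⟩ 0 0)))) (.cut .d (-2621440) (.pos 16 .mp ⟨58086107, 0, 0, 0, 0, 0, 0, 0, 0, ⟨0, 0⟩, 0⟩ 0 0) (.cut .s 9961472 (.pos 16 .mp ⟨40967186, 0, 0, 0, 0, 0, 0, 0, 0, ⟨0, 0⟩, 0⟩ 0 0) (.pos 16 .mp ⟨47915378, 0, 0, 0, 0, 0, 0, 0, 0, ⟨0, 0⟩, 0⟩ 0 0)))))) (.cut .d (-3145728) (.void 14 ⟨100000, 0, 0, 0, 0, 0, 0, 0, 0, ⟨0, 0⟩, 0⟩ 0 0) (.cut .s 9830400 (.pos 14 .mp ⟨58792119, 0, 0, 0, 0, 0, 0, 0, 0, ⟨0, 0⟩, 0⟩ 0 0) (.pos 14 .mp ⟨82991576, 0, 0, 0, 0, 0, 0, 0, 0, ⟨0, 0⟩, 0⟩ 0 0))))) (.cut .v 20971520 (.cut .d (-1048576) (.cut .l 7801405 (.cut .v 18874368 (.cut .l 4991221 (.pos 15 .mp ⟨4619451, 0, 0, 0, 0, 45599447, 0, 0, 0, ⟨0, 0⟩, 0⟩ 0 0) (.cut .s 9830400 (.cut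 .d (-1572864) (.pos 15 .mp ⟨7282121, 0, 0, 0, 0, 26671816, 0, 0, 0, ⟨0, 0⟩, 0⟩ 0 0) (.pos 15 .mp ⟨18789141, 0, 0, 0, 0, 2034781, 0, 0, 0, ⟨0, 0⟩, 0⟩ 0 0)) (.cut .d (-1572864) (.pos 15 .mp ⟨21021872, 0, 0, 0, 0, 23070876, 0, 0, 0, ⟨0, 0⟩, 0⟩ 0 0) (.pos 15 .mp ⟨29523624, 0, 0, 0, 0, 0, 0, 0, 0, ⟨0, 0⟩, 0⟩ 0 0)))) (.pos 16 .mp ⟨43848916, 0, 0, 0, 0, 0, 0, 0, 0, ⟨0, 0⟩, 0⟩ 0 0)) (.cut .d (-1572864) (.cut .s 9830400 (.cut .v 18874368 (.pos 15 .mp ⟨20800054, 0, 0, 0, 0, 0, 0, 0, 0, ⟨0, 0⟩, 0⟩ 0 0) (.pos 16 .mp ⟨27701342, 0, 0, 0, 0, 0, 0, 0, 0, ⟨0, 0⟩, 0⟩ 0 0)) (.cut .v 18874368 (.cut .s 9961472 (.pos 15 .mp ⟨28248955, 0, 0, 0, 0, 0, 0, 0, 0, ⟨0, 0⟩, 0⟩ 0 0) (.pos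 15 .mp ⟨33236482, 0, 0, 0, 0, 0, 0, 0, 0, ⟨0, 0⟩, 0⟩ 0 0)) (.pos 16 .mp ⟨39705985, 0, 0, 0, 0, 0, 0, 0, 0, ⟨0, 0⟩, 0⟩ 0 0))) (.pos 13 .mp ⟨20382055, 0, 0, 0, 0, 0, 0, 0, 0, ⟨0, 0⟩, 0⟩ 0 0))) (.cut .l 7801405 (.cut .v 18874368 (.cut .l 4991221 (.cut .s 9830400 (.cut .v 17825792 (.cut .d (-524288) (.cut .s 9699328 (.pos 17 .mp ⟨0, 0, 0, 0, 0, 23890590, 0, 0, 0, ⟨0, 0⟩, 0⟩ 0 0) (.pos 17 .mp ⟨0, 0, 0, 0, 0, 28812908, 0, 0, 0, ⟨0, 0⟩, 0⟩ 0 0)) (.cut .s 9699328 (.pos 17 .mp ⟨0, 0, 0, 0, 0, 18656489, 0, 0, 0, ⟨0, 0⟩, 0⟩ 0 0) (.pos 17 .mp ⟨1504562, 0, 0, 0, 0, 20528787, 0, 0, 0, ⟨0, 0⟩, 0⟩ 0 0))) (.pos 18 .mp ⟨23850036, 0, 0, 0, 0, 0, 0, 0, 0, ⟨0, 0⟩, 0⟩ 0 0)) (.cut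 .v 17825792 (.cut .d (-524288) (.cut .v 17301504 (.cut .s 9961472 (.pos 39 .mp ⟨0, 0, 0, 0, 0, 32565385, 0, 0, 0, ⟨0, 0⟩, 0⟩ 0 0) (.pos 39 .mp ⟨0, 0, 0, 0, 0, 38253689, 0, 0, 0, ⟨0, 0⟩, 0⟩ 0 0)) (.pos 40 .mp ⟨31981381, 0, 0, 0, 0, 0, 0, 0, 0, ⟨0, 0⟩, 0⟩ 0 0)) (.cut .d (-262144) (.cut .s 9961472 (.pos 17 .mp ⟨1380599, 0, 0, 0, 0, 29164271, 0, 0, 0, ⟨0, 0⟩, 0⟩ 0 0) (.cut .v 17301504 (.pos 39 .mp ⟨0, 0, 0, 0, 0, 35655725, 0, 0, 0, ⟨0, 0⟩, 0⟩ 0 0) (.pos 40 .mp ⟨30621269, 0, 0, 0, 0, 0, 0, 0, 0, ⟨0, 0⟩, 0⟩ 0 0))) (.pos 17 .mp ⟨1122138, 0, 0, 0, 0, 0, 0, 0, 0, ⟨0, 0⟩, 0⟩ 0 0))) (.pos 18 .mp ⟨31838940, 0, 0, 0, 0, 0, 0, 0, 0, ⟨0, 0⟩, 0⟩ 0 0))) (.pos 15 .mp ⟨14675580,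 0, 0, 0, 0, 0, 0, 0, 0, ⟨0, 0⟩, 0⟩ 0 0)) (.pos 16 .mp ⟨30715939, 0, 0, 0, 0, 0, 0, 0, 0, ⟨0, 0⟩, 0⟩ 0 0)) (.pos 13 .mp ⟨1487161, 0, 0, 0, 0, 0, 0, 0, 0, ⟨0, 0⟩, 0⟩ 0 0))) (.cut .s 9830400 (.pos 14 .mp ⟨39464919, 0, 0, 0, 0, 0, 0, 0, 0, ⟨0, 0⟩, 0⟩ 0 0) (.cut .v 23068672 (.pos 21 .mp ⟨49565814, 0, 0, 0, 0, 0, 0, 0, 0, ⟨0, 0⟩, 0⟩ 0 0) (.pos 22 .mp ⟨62081698, 0, 0, 0, 0, 0, 0, 0, 0, ⟨0, 0⟩, 0⟩ 0 0))))) (.cut .d (-2097152) (.void 12 ⟨100000, 0, 0, 0, 0, 0, 0, 0, 0, ⟨0, 0⟩, 0⟩ 0 0) (.cut .d (-1048576) (.pos 12 .mp ⟨110013236, 0, 0, 0, 0, 0, 0, 0, 0, ⟨0, 0⟩, 0⟩ 0 0) (.pos 12 .mp ⟨67861429, 0, 0, 0, 0, 0, 0, 0, 0, ⟨0, 0⟩, 0⟩ 0 0)))) (.cut .v 50331648 (.pos 23 .mp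 ⟨381857901, 0, 0, 0, 0, 0, 0, 0, 0, ⟨0, 0⟩, 0⟩ 0 0) (.void 24 ⟨100000, 0, 0, 0, 0, 0, 0, 0, 0, ⟨0, 0⟩, 0⟩ 0 0))))) (.void 49 ⟨100000, 0, 0, 0, 0, 0, 0, 0, 0, ⟨0, 0⟩, 0⟩ 0 0)) (.void 66 ⟨94815, 0, 0, 5185, 0, 0, 0, 0, 0, ⟨0, 0⟩, 0⟩ 0 0))) (.cut .v 16777216 (.cut .v 8388608 (.cut .v 4194304 (.void 4 ⟨0, 0, 50000, 0, 50000, 0, 0, 0, 0, ⟨0, 0⟩, 0⟩ 0 0) (.pos 5 .pm ⟨0, 0, 0, 0, 0, 0, 0, 0, 1498242, ⟨0, 0⟩, 9975792⟩ 0 0)) (.cut .v 12582912 (.pos 6 .pm ⟨0, 0, 0, 0, 0, 0, 0, 0, 140627, ⟨0, 0⟩, 13128881⟩ 0 0) (.pos 7 .pm ⟨0, 0, 0, 0, 0, 0, 0, 0, 0, ⟨0, 0⟩, 0⟩ 0 0))) (.cut .v 268435456 (.cut .v 67108864 (.cut .d 6320185 (.cut .d 3160092 (.cut .v 33554432 (.cut .v 25165824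 (.pos 11 .pp ⟨0, 0, 0, 0, 0, 0, 0, 0, 0, ⟨0, 0⟩, 0⟩ 0 0) (.pos 12 .pp ⟨41612785, 0, 0, 0, 0, 0, 0, 0, 0, ⟨0, 0⟩, 0⟩ 0 0)) (.cut .v 50331648 (.pos 23 .pp ⟨108020677, 0, 0, 0, 0, 0, 0, 0, 0, ⟨0, 0⟩, 0⟩ 0 0) (.pos 24 .pp ⟨355850715, 0, 0, 0, 0, 0, 0, 0, 0, ⟨0, 0⟩, 0⟩ 0 0))) (.pos 8 .pp ⟨0, 0, 0, 0, 0, 0, 0, 0, 0, ⟨0, 0⟩, 0⟩ 0 0)) (.pos 8 .pp ⟨0, 0, 0, 0, 0, 0, 0, 0, 0, ⟨0, 0⟩, 0⟩ 0 0)) (.pos 49 .pp ⟨1377606359, 1493866994, 0, 0, 0, 0, 0, 0, 0, ⟨0, 0⟩, 0⟩ 0 0)) (.void 66 ⟨0, 0, 0, 100000, 0, 0, 0, 0, 0, ⟨0, 0⟩, 0⟩ 0 0)))),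
    by decide +kernel⟩

def covers13 : cell.Covers table row13.1 :=
  ⟨(.cut .d 0 (.cut .v 16777216 (.cut .d (-8388608) (.void 1 ⟨0, 0, 0, 0, 0, 100000, 0, 0, 0, ⟨0, 0⟩, 0⟩ 0 0) (.cut .d (-4194304) (.void 1 ⟨0, 0, 0, 0, 0, 100000, 0, 0, 0, ⟨0, 0⟩, 0⟩ 0 0) (.cut .v 8388608 (.cut .v 4194304 (.void 4 ⟨0, 0, 100000, 0, 0, 0, 0, 0, 0, ⟨0, 0⟩, 0⟩ 0 0) (.pos 5 .mm ⟨0, 0, 0, 0, 0, 8897818, 0, 0, 0, ⟨0, 0⟩, 0⟩ 0 0)) (.cut .v 12582912 (.pos 6 .mm ⟨0, 0, 0, 0, 0, 28060068, 0, 0, 0, ⟨0, 0⟩, 0⟩ 0 0) (.cut .d (-2097152) (.cut .s 10289152 (.pos 7 .mm ⟨0, 0, 0, 0, 0, 49676720, 0, 0, 0, ⟨0, 0⟩, 0⟩ 0 0) (.pos 7 .mm ⟨0, 0, 0, 0, 0, 63981080, 0, 0, 0, ⟨0, 0⟩, 0⟩ 0 0)) (.cut .d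 (-1048576) (.cut .v 14680064 (.pos 35 .mm ⟨0, 0, 0, 0, 0, 39260694, 0, 0, 0, ⟨0, 0⟩, 0⟩ 0 0) (.cut .l 7801405 (.cut .s 10289152 (.pos 36 .mm ⟨0, 0, 0, 0, 0, 45840159, 0, 0, 0, ⟨0, 0⟩, 0⟩ 0 0) (.pos 36 .mm ⟨0, 0, 0, 0, 0, 57396303, 0, 0, 0, ⟨0, 0⟩, 0⟩ 0 0)) (.cut .s 10289152 (.pos 36 .mm ⟨0, 0, 0, 0, 0, 39767197, 0, 0, 0, ⟨0, 0⟩, 0⟩ 0 0) (.pos 36 .mm ⟨0, 0, 0, 0, 0, 50932255, 0, 0, 0, ⟨0, 0⟩, 0⟩ 0 0)))) (.cut .v 14680064 (.pos 35 .mm ⟨0, 0, 0, 0, 0, 29878328, 0, 0, 0, ⟨0, 0⟩, 0⟩ 0 0) (.cut .l 7801405 (.cut .l 4991221 (.cut .d (-524288) (.cut .s 10289152 (.pos 36 .mm ⟨0, 0, 0, 0, 0, 42956968, 0, 0, 0, ⟨0, 0⟩, 0⟩ 0 0) (.pos 36 .mm ⟨0, 0, 0, 0, 0, 53600604, 0,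 0, 0, ⟨0, 0⟩, 0⟩ 0 0)) (.cut .d (-262144) (.cut .s 10289152 (.pos 36 .mm ⟨0, 0, 0, 0, 0, 38106859, 0, 0, 0, ⟨0, 0⟩, 0⟩ 0 0) (.pos 36 .mm ⟨0, 0, 0, 0, 0, 48351398, 0, 0, 0, ⟨0, 0⟩, 0⟩ 0 0)) (.pos 36 .mm ⟨0, 0, 0, 0, 0, 0, 0, 0, 0, ⟨0, 0⟩, 0⟩ 0 0))) (.pos 36 .mm ⟨0, 0, 0, 0, 0, 31700000, 0, 0, 0, ⟨0, 0⟩, 0⟩ 0 0)) (.pos 36 .mm ⟨0, 0, 0, 0, 0, 0, 0, 0, 0, ⟨0, 0⟩, 0⟩ 0 0))))))))) (.cut .v 268435456 (.cut .v 67108864 (.cut .d (-8388608) (.void 8 ⟨0, 0, 0, 0, 0, 100000, 0, 0, 0, ⟨0, 0⟩, 0⟩ 0 0) (.cut .d (-4194304) (.void 8 ⟨0, 0, 0, 0, 0, 100000, 0, 0, 0, ⟨0, 0⟩, 0⟩ 0 0) (.cut .v 33554432 (.cut .v 25165824 (.cut .d (-2097152) (.cut .v 20971520 (.cut .d (-3145728)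 (.void 13 ⟨0, 0, 0, 0, 0, 100000, 0, 0, 0, ⟨0, 0⟩, 0⟩ 0 0) (.cut .l 7801405 (.void 13 ⟨0, 0, 0, 0, 0, 100000, 0, 0, 0, ⟨0, 0⟩, 0⟩ 0 0) (.cut .v 18874368 (.cut .s 10289152 (.cut .l 10611589 (.pos 15 .mp ⟨29727668, 0, 0, 0, 0, 36409583, 0, 0, 0, ⟨0, 0⟩, 0⟩ 0 0) (.cut .d (-2621440) (.cut .l 12016681 (.pos 15 .mp ⟨40114383, 0, 0, 0, 0, 40450865, 0, 0, 0, ⟨0, 0⟩, 0⟩ 0 0) (.cut .v 17825792 (.cut .s 10190848 (.pos 17 .mp ⟨33260933, 0, 0, 0, 0, 16819050, 0, 0, 0, ⟨0, 0⟩, 0⟩ 0 0) (.pos 17 .mp ⟨38136505, 0, 0, 0, 0, 19588544, 0, 0, 0, ⟨0, 0⟩, 0⟩ 0 0)) (.cut .s 10190848 (.pos 18 .mp ⟨53394522, 0, 0, 0, 0, 0, 0, 0, 0, ⟨0, 0⟩, 0⟩ 0 0) (.pos 18 .mp ⟨61010685, 0, 0, 0, 0,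 0, 0, 0, 0, ⟨0, 0⟩, 0⟩ 0 0)))) (.cut .v 17825792 (.pos 17 .mp ⟨41005323, 0, 0, 0, 0, 0, 0, 0, 0, ⟨0, 0⟩, 0⟩ 0 0) (.pos 18 .mp ⟨47626600, 0, 0, 0, 0, 0, 0, 0, 0, ⟨0, 0⟩, 0⟩ 0 0)))) (.cut .l 10611589 (.pos 15 .mp ⟨42574827, 0, 0, 0, 0, 39797235, 0, 0, 0, ⟨0, 0⟩, 0⟩ 0 0) (.cut .d (-2621440) (.cut .v 17825792 (.cut .s 10387456 (.pos 17 .mp ⟨43636380, 0, 0, 0, 0, 22211285, 0, 0, 0, ⟨0, 0⟩, 0⟩ 0 0) (.pos 17 .mp ⟨50035334, 0, 0, 0, 0, 24252009, 0, 0, 0, ⟨0, 0⟩, 0⟩ 0 0)) (.pos 18 .mp ⟨75979199, 0, 0, 0, 0, 0, 0, 0, 0, ⟨0, 0⟩, 0⟩ 0 0)) (.cut .v 17825792 (.cut .s 10387456 (.pos 17 .mp ⟨49495536, 0, 0, 0, 0, 0, 0, 0, 0, ⟨0, 0⟩, 0⟩ 0 0) (.pos 17 .mp ⟨55342500, 0, 0, 0,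 0, 0, 0, 0, 0, ⟨0, 0⟩, 0⟩ 0 0)) (.pos 18 .mp ⟨60667200, 0, 0, 0, 0, 0, 0, 0, 0, ⟨0, 0⟩, 0⟩ 0 0))))) (.cut .d (-2621440) (.pos 16 .mp ⟨90818860, 0, 0, 0, 0, 0, 0, 0, 0, ⟨0, 0⟩, 0⟩ 0 0) (.cut .s 10289152 (.pos 16 .mp ⟨58606333, 0, 0, 0, 0, 0, 0, 0, 0, ⟨0, 0⟩, 0⟩ 0 0) (.pos 16 .mp ⟨76340420, 0, 0, 0, 0, 0, 0, 0, 0, ⟨0, 0⟩, 0⟩ 0 0)))))) (.pos 14 .mp ⟨140742552, 0, 0, 0, 0, 0, 0, 0, 0, ⟨0, 0⟩, 0⟩ 0 0)) (.cut .v 20971520 (.cut .d (-1048576) (.cut .l 7801405 (.cut .v 18874368 (.cut .d (-1572864) (.pos 15 .mp ⟨26236866, 0, 0, 0, 0, 50133321, 0, 0, 0, ⟨0, 0⟩, 0⟩ 0 0) (.cut .l 4991221 (.void 15 ⟨0, 0, 0, 0, 0, 100000, 0, 0, 0, ⟨0, 0⟩, 0⟩ 0 0) (.cut .s 10289152 (.pos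 15 .mp ⟨38483174, 0, 0, 0, 0, 0, 0, 0, 0, ⟨0, 0⟩, 0⟩ 0 0) (.pos 15 .mp ⟨48625242, 0, 0, 0, 0, 0, 0, 0, 0, ⟨0, 0⟩, 0⟩ 0 0)))) (.pos 16 .mp ⟨68691334, 0, 0, 0, 0, 0, 0, 0, 0, ⟨0, 0⟩, 0⟩ 0 0)) (.cut .v 18874368 (.cut .d (-1572864) (.cut .l 10611589 (.cut .s 10289152 (.pos 15 .mp ⟨40977259, 0, 0, 0, 0, 0, 0, 0, 0, ⟨0, 0⟩, 0⟩ 0 0) (.cut .s 10387456 (.pos 15 .mp ⟨48669891, 0, 0, 0, 0, 0, 0, 0, 0, ⟨0, 0⟩, 0⟩ 0 0) (.pos 15 .mp ⟨54402811, 0, 0, 0, 0, 0, 0, 0, 0, ⟨0, 0⟩, 0⟩ 0 0))) (.pos 15 .mp ⟨39027518, 0, 0, 0, 0, 0, 0, 0, 0, ⟨0, 0⟩, 0⟩ 0 0)) (.pos 15 .mp ⟨35845321, 0, 0, 0, 0, 0, 0, 0, 0, ⟨0, 0⟩, 0⟩ 0 0)) (.cut .s 10289152 (.pos 16 .mp ⟨50003711, 0, 0, 0, 0, 0, 0,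 0, 0, ⟨0, 0⟩, 0⟩ 0 0) (.cut .s 10387456 (.pos 16 .mp ⟨58855539, 0, 0, 0, 0, 0, 0, 0, 0, ⟨0, 0⟩, 0⟩ 0 0) (.pos 16 .mp ⟨65223421, 0, 0, 0, 0, 0, 0, 0, 0, ⟨0, 0⟩, 0⟩ 0 0))))) (.cut .l 7801405 (.cut .v 18874368 (.cut .l 4991221 (.cut .d (-524288) (.cut .v 17825792 (.cut .s 10289152 (.cut .s 10190848 (.pos 17 .mp ⟨2021684, 0, 0, 0, 0, 42976487, 0, 0, 0, ⟨0, 0⟩, 0⟩ 0 0) (.pos 17 .mp ⟨3656194, 0, 0, 0, 0, 46394912, 0, 0, 0, ⟨0, 0⟩, 0⟩ 0 0)) (.cut .s 10387456 (.pos 17 .mp ⟨5475944, 0, 0, 0, 0, 49980545, 0, 0, 0, ⟨0, 0⟩, 0⟩ 0 0) (.pos 17 .mp ⟨7711907, 0, 0, 0, 0, 53418244, 0, 0, 0, ⟨0, 0⟩, 0⟩ 0 0))) (.pos 18 .mp ⟨48994185, 0, 0, 0, 0, 0, 0, 0, 0, ⟨0, 0⟩, 0⟩ 0 0)) (.cut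 .d (-262144) (.cut .v 17825792 (.cut .l 3586129 (.cut .s 10289152 (.cut .v 17301504 (.cut .s 10190848 (.pos 39 .mp ⟨1561722, 0, 0, 0, 0, 37747874, 0, 0, 0, ⟨0, 0⟩, 0⟩ 0 0) (.pos 39 .mp ⟨3509838, 0, 0, 0, 0, 40154067, 0, 0, 0, ⟨0, 0⟩, 0⟩ 0 0)) (.pos 40 .mp ⟨35954943, 0, 0, 0, 0, 0, 0, 0, 0, ⟨0, 0⟩, 0⟩ 0 0)) (.cut .v 17301504 (.cut .s 10387456 (.pos 39 .mp ⟨5633088, 0, 0, 0, 0, 42724544, 0, 0, 0, ⟨0, 0⟩, 0⟩ 0 0) (.pos 39 .mp ⟨7882494, 0, 0, 0, 0, 45501768, 0, 0, 0, ⟨0, 0⟩, 0⟩ 0 0)) (.pos 40 .mp ⟨44232729, 0, 0, 0, 0, 0, 0, 0, 0, ⟨0, 0⟩, 0⟩ 0 0))) (.pos 17 .mp ⟨9748983, 0, 0, 0, 0, 0, 0, 0, 0, ⟨0, 0⟩, 0⟩ 0 0)) (.pos 18 .mp ⟨42550206, 0, 0, 0, 0, 0, 0, 0, 0, ⟨0,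 0⟩, 0⟩ 0 0)) (.pos 15 .mp ⟨9625532, 0, 0, 0, 0, 0, 0, 0, 0, ⟨0, 0⟩, 0⟩ 0 0))) (.pos 15 .mp ⟨30477750, 0, 0, 0, 0, 0, 0, 0, 0, ⟨0, 0⟩, 0⟩ 0 0)) (.pos 16 .mp ⟨50369487, 0, 0, 0, 0, 0, 0, 0, 0, ⟨0, 0⟩, 0⟩ 0 0)) (.pos 13 .mp ⟨17948082, 0, 0, 0, 0, 0, 0, 0, 0, ⟨0, 0⟩, 0⟩ 0 0))) (.cut .d (-1048576) (.cut .s 10289152 (.pos 14 .mp ⟨70660480, 0, 0, 0, 0, 0, 0, 0, 0, ⟨0, 0⟩, 0⟩ 0 0) (.cut .v 23068672 (.pos 21 .mp ⟨78530730, 0, 0, 0, 0, 0, 0, 0, 0, ⟨0, 0⟩, 0⟩ 0 0) (.pos 22 .mp ⟨103495431, 0, 0, 0, 0, 0, 0, 0, 0, ⟨0, 0⟩, 0⟩ 0 0))) (.cut .l 7801405 (.pos 14 .mp ⟨68852468, 0, 0, 0, 0, 0, 0, 0, 0, ⟨0, 0⟩, 0⟩ 0 0) (.pos 14 .mp ⟨53334171, 0, 0, 0, 0, 0, 0, 0, 0, ⟨0, 0⟩, 0⟩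 0 0))))) (.cut .d (-2097152) (.void 12 ⟨100000, 0, 0, 0, 0, 0, 0, 0, 0, ⟨0, 0⟩, 0⟩ 0 0) (.cut .d (-1048576) (.pos 12 .mp ⟨172595341, 0, 0, 0, 0, 0, 0, 0, 0, ⟨0, 0⟩, 0⟩ 0 0) (.pos 12 .mp ⟨108653632, 0, 0, 0, 0, 0, 0, 0, 0, ⟨0, 0⟩, 0⟩ 0 0)))) (.cut .v 50331648 (.pos 23 .mp ⟨514858016, 0, 0, 0, 0, 0, 0, 0, 0, ⟨0, 0⟩, 0⟩ 0 0) (.void 24 ⟨100000, 0, 0, 0, 0, 0, 0, 0, 0, ⟨0, 0⟩, 0⟩ 0 0))))) (.void 49 ⟨100000, 0, 0, 0, 0, 0, 0, 0, 0, ⟨0, 0⟩, 0⟩ 0 0)) (.void 66 ⟨94624, 0, 0, 5376, 0, 0, 0, 0, 0, ⟨0, 0⟩, 0⟩ 0 0))) (.cut .v 16777216 (.cut .v 8388608 (.cut .v 4194304 (.pos 4 .pm ⟨0, 0, 40250631, 0, 36622306, 0, 0, 0, 8993397, ⟨0, 0⟩, 3966728⟩ 0 0) (.pos 5 .pm ⟨0, 0, 0,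 0, 0, 0, 0, 0, 4085557, ⟨0, 0⟩, 9975792⟩ 0 0)) (.cut .v 12582912 (.cut .d 5556092 (.pos 6 .pm ⟨0, 0, 0, 0, 0, 0, 0, 0, 0, ⟨0, 0⟩, 0⟩ 0 0) (.pos 6 .pm ⟨0, 4545001, 0, 0, 0, 0, 0, 0, 4288472, ⟨0, 0⟩, 13128881⟩ 0 0)) (.pos 7 .pm ⟨0, 0, 0, 0, 0, 0, 0, 0, 0, ⟨0, 0⟩, 0⟩ 0 0))) (.cut .v 268435456 (.cut .d 5556092 (.cut .v 67108864 (.cut .d 2778046 (.cut .v 33554432 (.cut .v 25165824 (.pos 11 .pp ⟨3887438, 0, 0, 0, 0, 0, 0, 0, 0, ⟨0, 0⟩, 0⟩ 0 0) (.pos 12 .pp ⟨67627200, 0, 0, 0, 0, 0, 0, 0, 0, ⟨0, 0⟩, 0⟩ 0 0)) (.cut .v 50331648 (.pos 23 .pp ⟨166458824, 0, 0, 0, 0, 0, 0, 0, 0, ⟨0, 0⟩, 0⟩ 0 0) (.pos 24 .pp ⟨486613995, 0, 0, 0, 0, 0, 0, 0, 0, ⟨0, 0⟩, 0⟩ 0 0))) (.pos 8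 .pp ⟨0, 0, 0, 0, 0, 0, 0, 0, 0, ⟨0, 0⟩, 0⟩ 0 0)) (.pos 49 .pp ⟨2098074329, 1964756346, 0, 0, 0, 0, 0, 0, 0, ⟨0, 0⟩, 0⟩ 0 0)) (.pos 48 .pp ⟨0, 2833288, 0, 0, 0, 0, 0, 0, 0, ⟨0, 0⟩, 0⟩ 0 0)) (.void 66 ⟨0, 0, 0, 100000, 0, 0, 0, 0, 0, ⟨0, 0⟩, 0⟩ 0 0)))),
    by decide +kernel⟩

def covers14 : cell.Covers table row14.1 :=
  ⟨(.cut .d 0 (.cut .v 16777216 (.cut .d (-8388608) (.void 1 ⟨0, 0, 0, 0, 0, 100000, 0, 0, 0, ⟨0, 0⟩, 0⟩ 0 0) (.cut .d (-4194304) (.void 1 ⟨0, 0, 0, 0, 0, 100000, 0, 0, 0, ⟨0, 0⟩, 0⟩ 0 0) (.cut .v 8388608 (.cut .v 4194304 (.void 4 ⟨0, 0, 100000, 0, 0, 0, 0, 0, 0, ⟨0, 0⟩, 0⟩ 0 0) (.pos 5 .mm ⟨0, 0, 0, 0, 0, 21091256, 0, 0, 0, ⟨0, 0⟩, 0⟩ 0 0))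 (.cut .d (-2097152) (.cut .s 10682368 (.pos 3 .mm ⟨0, 0, 0, 0, 0, 81836531, 0, 0, 0, ⟨0, 0⟩, 0⟩ 0 0) (.cut .s 10780672 (.pos 3 .mm ⟨0, 0, 0, 0, 0, 94767693, 0, 0, 0, ⟨0, 0⟩, 0⟩ 0 0) (.pos 3 .mm ⟨0, 0, 0, 0, 0, 106382897, 0, 0, 0, ⟨0, 0⟩, 0⟩ 0 0))) (.cut .v 12582912 (.pos 6 .mm ⟨0, 0, 0, 0, 0, 39492287, 0, 0, 0, ⟨0, 0⟩, 0⟩ 0 0) (.cut .d (-1048576) (.cut .v 14680064 (.pos 35 .mm ⟨0, 0, 0, 0, 0, 61483215, 0, 0, 0, ⟨0, 0⟩, 0⟩ 0 0) (.cut .s 10682368 (.cut .s 10584064 (.pos 36 .mm ⟨0, 0, 0, 0, 0, 63728735, 0, 0, 0, ⟨0, 0⟩, 0⟩ 0 0) (.pos 36 .mm ⟨0, 0, 0, 0, 0, 70902002, 0, 0, 0, ⟨0, 0⟩, 0⟩ 0 0)) (.cut .s 10780672 (.pos 36 .mm ⟨0, 0, 0, 0, 0, 78654929, 0, 0, 0, ⟨0,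 0⟩, 0⟩ 0 0) (.pos 36 .mm ⟨0, 0, 0, 0, 0, 86919176, 0, 0, 0, ⟨0, 0⟩, 0⟩ 0 0)))) (.cut .l 7801405 (.cut .v 14680064 (.pos 35 .mm ⟨0, 0, 0, 0, 0, 49071573, 0, 0, 0, ⟨0, 0⟩, 0⟩ 0 0) (.cut .l 4991221 (.cut .d (-524288) (.cut .s 10682368 (.pos 36 .mm ⟨0, 0, 0, 0, 0, 66051763, 0, 0, 0, ⟨0, 0⟩, 0⟩ 0 0) (.pos 36 .mm ⟨0, 0, 0, 0, 0, 81184727, 0, 0, 0, ⟨0, 0⟩, 0⟩ 0 0)) (.cut .s 10682368 (.pos 36 .mm ⟨0, 0, 0, 0, 0, 55443287, 0, 0, 0, ⟨0, 0⟩, 0⟩ 0 0) (.pos 36 .mm ⟨0, 0, 0, 0, 0, 68606848, 0, 0, 0, ⟨0, 0⟩, 0⟩ 0 0))) (.pos 36 .mm ⟨0, 0, 0, 0, 0, 54400690, 0, 0, 0, ⟨0, 0⟩, 0⟩ 0 0))) (.pos 7 .mm ⟨0, 0, 0, 0, 0, 0, 0, 0, 0, ⟨0, 0⟩, 0⟩ 0 0)))))))) (.cut .v 268435456 (.cut .v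 67108864 (.cut .d (-8388608) (.void 8 ⟨0, 0, 0, 0, 0, 100000, 0, 0, 0, ⟨0, 0⟩, 0⟩ 0 0) (.cut .d (-4194304) (.void 8 ⟨0, 0, 0, 0, 0, 100000, 0, 0, 0, ⟨0, 0⟩, 0⟩ 0 0) (.cut .v 33554432 (.cut .v 25165824 (.cut .d (-2097152) (.cut .v 20971520 (.cut .d (-3145728) (.void 13 ⟨0, 0, 0, 0, 0, 100000, 0, 0, 0, ⟨0, 0⟩, 0⟩ 0 0) (.cut .l 7801405 (.void 13 ⟨100000, 0, 0, 0, 0, 0, 0, 0, 0, ⟨0, 0⟩, 0⟩ 0 0) (.cut .l 10611589 (.void 13 ⟨0, 0, 0, 0, 0, 100000, 0, 0, 0, ⟨0, 0⟩, 0⟩ 0 0) (.cut .v 18874368 (.cut .d (-2621440) (.cut .v 17825792 (.pos 17 .mp ⟨56614370, 0, 0, 0, 0, 60432450, 0, 0, 0, ⟨0, 0⟩, 0⟩ 0 0) (.void 18 ⟨100000, 0, 0, 0, 0, 0, 0, 0, 0, ⟨0, 0⟩, 0⟩ 0 0)) (.cut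 .s 10682368 (.cut .v 17825792 (.cut .s 10584064 (.pos 17 .mp ⟨61228448, 0, 0, 0, 0, 0, 0, 0, 0, ⟨0, 0⟩, 0⟩ 0 0) (.pos 17 .mp ⟨68441935, 0, 0, 0, 0, 0, 0, 0, 0, ⟨0, 0⟩, 0⟩ 0 0)) (.cut .s 10584064 (.pos 18 .mp ⟨70934497, 0, 0, 0, 0, 0, 0, 0, 0, ⟨0, 0⟩, 0⟩ 0 0) (.pos 18 .mp ⟨80083715, 0, 0, 0, 0, 0, 0, 0, 0, ⟨0, 0⟩, 0⟩ 0 0))) (.cut .v 17825792 (.cut .l 12016681 (.pos 17 .mp ⟨55005963, 0, 0, 0, 0, 49524946, 0, 0, 0, ⟨0, 0⟩, 0⟩ 0 0) (.cut .d (-2359296) (.cut .v 17301504 (.pos 39 .mp ⟨57498364, 0, 0, 0, 0, 39574108, 0, 0, 0, ⟨0, 0⟩, 0⟩ 0 0) (.pos 40 .mp ⟨92412866, 0, 0, 0, 0, 0, 0, 0, 0, ⟨0, 0⟩, 0⟩ 0 0)) (.cut .s 10780672 (.pos 17 .mp ⟨71106963, 0, 0, 0, 0, 0, 0,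 0, 0, ⟨0, 0⟩, 0⟩ 0 0) (.pos 17 .mp ⟨79424752, 0, 0, 0, 0, 0, 0, 0, 0, ⟨0, 0⟩, 0⟩ 0 0)))) (.pos 18 .mp ⟨96732695, 0, 0, 0, 0, 0, 0, 0, 0, ⟨0, 0⟩, 0⟩ 0 0)))) (.cut .s 10682368 (.pos 16 .mp ⟨105583893, 0, 0, 0, 0, 0, 0, 0, 0, ⟨0, 0⟩, 0⟩ 0 0) (.pos 16 .mp ⟨130683975, 0, 0, 0, 0, 0, 0, 0, 0, ⟨0, 0⟩, 0⟩ 0 0)))))) (.void 14 ⟨100000, 0, 0, 0, 0, 0, 0, 0, 0, ⟨0, 0⟩, 0⟩ 0 0)) (.cut .v 20971520 (.cut .d (-1048576) (.cut .l 7801405 (.cut .v 18874368 (.cut .v 17825792 (.cut .d (-1572864) (.void 17 ⟨0, 0, 0, 0, 0, 100000, 0, 0, 0, ⟨0, 0⟩, 0⟩ 0 0) (.cut .s 10682368 (.pos 17 .mp ⟨19413472, 0, 0, 0, 0, 54439944, 0, 0, 0, ⟨0, 0⟩, 0⟩ 0 0) (.pos 17 .mp ⟨26856382, 0, 0, 0, 0,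 62760143, 0, 0, 0, ⟨0, 0⟩, 0⟩ 0 0))) (.pos 18 .mp ⟨85177709, 0, 0, 0, 0, 0, 0, 0, 0, ⟨0, 0⟩, 0⟩ 0 0)) (.pos 16 .mp ⟨102887483, 0, 0, 0, 0, 0, 0, 0, 0, ⟨0, 0⟩, 0⟩ 0 0)) (.cut .v 18874368 (.cut .s 10682368 (.cut .d (-1572864) (.cut .l 10611589 (.cut .s 10584064 (.pos 15 .mp ⟨60324140, 0, 0, 0, 0, 0, 0, 0, 0, ⟨0, 0⟩, 0⟩ 0 0) (.pos 15 .mp ⟨67291929, 0, 0, 0, 0, 0, 0, 0, 0, ⟨0, 0⟩, 0⟩ 0 0)) (.pos 15 .mp ⟨57533783, 0, 0, 0, 0, 0, 0, 0, 0, ⟨0, 0⟩, 0⟩ 0 0)) (.pos 15 .mp ⟨52493149, 0, 0, 0, 0, 0, 0, 0, 0, ⟨0, 0⟩, 0⟩ 0 0)) (.cut .d (-1572864) (.cut .v 17825792 (.cut .l 10611589 (.pos 17 .mp ⟨76456424, 0, 0, 0, 0, 0, 0, 0, 0, ⟨0, 0⟩, 0⟩ 0 0) (.pos 17 .mp ⟨69446914, 0,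 0, 0, 0, 0, 0, 0, 0, ⟨0, 0⟩, 0⟩ 0 0)) (.pos 18 .mp ⟨81924194, 0, 0, 0, 0, 0, 0, 0, 0, ⟨0, 0⟩, 0⟩ 0 0)) (.pos 15 .mp ⟨65523361, 0, 0, 0, 0, 0, 0, 0, 0, ⟨0, 0⟩, 0⟩ 0 0))) (.cut .s 10682368 (.cut .s 10584064 (.pos 16 .mp ⟨71870987, 0, 0, 0, 0, 0, 0, 0, 0, ⟨0, 0⟩, 0⟩ 0 0) (.pos 16 .mp ⟨79488679, 0, 0, 0, 0, 0, 0, 0, 0, ⟨0, 0⟩, 0⟩ 0 0)) (.cut .s 10780672 (.pos 16 .mp ⟨87663309, 0, 0, 0, 0, 0, 0, 0, 0, ⟨0, 0⟩, 0⟩ 0 0) (.pos 16 .mp ⟨96393593, 0, 0, 0, 0, 0, 0, 0, 0, ⟨0, 0⟩, 0⟩ 0 0))))) (.cut .l 7801405 (.cut .v 18874368 (.cut .d (-524288) (.cut .s 10682368 (.cut .l 4991221 (.cut .l 3586129 (.pos 15 .mp ⟨18583572, 0, 0, 0, 0, 65317250, 0, 0, 0, ⟨0, 0⟩, 0⟩ 0 0) (.cut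 .d (-786432) (.pos 15 .mp ⟨24693424, 0, 0, 0, 0, 56333158, 0, 0, 0, ⟨0, 0⟩, 0⟩ 0 0) (.pos 15 .mp ⟨37164094, 0, 0, 0, 0, 14109770, 0, 0, 0, ⟨0, 0⟩, 0⟩ 0 0))) (.pos 15 .mp ⟨43276590, 0, 0, 0, 0, 4689419, 0, 0, 0, ⟨0, 0⟩, 0⟩ 0 0)) (.cut .l 4991221 (.cut .l 3586129 (.pos 15 .mp ⟨27863928, 0, 0, 0, 0, 71998630, 0, 0, 0, ⟨0, 0⟩, 0⟩ 0 0) (.cut .d (-786432) (.pos 15 .mp ⟨36431496, 0, 0, 0, 0, 59568486, 0, 0, 0, ⟨0, 0⟩, 0⟩ 0 0) (.pos 15 .mp ⟨46570017, 0, 0, 0, 0, 20631674, 0, 0, 0, ⟨0, 0⟩, 0⟩ 0 0))) (.pos 15 .mp ⟨56131941, 0, 0, 0, 0, 3261790, 0, 0, 0, ⟨0, 0⟩, 0⟩ 0 0))) (.cut .v 17825792 (.cut .d (-262144) (.cut .l 4991221 (.cut .l 3586129 (.cut .s 10682368 (.cut .v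 17301504 (.cut .s 10584064 (.pos 39 .mp ⟨10277820, 0, 0, 0, 0, 48477794, 0, 0, 0, ⟨0, 0⟩, 0⟩ 0 0) (.pos 39 .mp ⟨12844319, 0, 0, 0, 0, 51959858, 0, 0, 0, ⟨0, 0⟩, 0⟩ 0 0)) (.pos 40 .mp ⟨53742354, 0, 0, 0, 0, 0, 0, 0, 0, ⟨0, 0⟩, 0⟩ 0 0)) (.cut .v 17301504 (.cut .s 10780672 (.pos 39 .mp ⟨15627894, 0, 0, 0, 0, 55679560, 0, 0, 0, ⟨0, 0⟩, 0⟩ 0 0) (.pos 39 .mp ⟨18637758, 0, 0, 0, 0, 59602854, 0, 0, 0, ⟨0, 0⟩, 0⟩ 0 0)) (.pos 40 .mp ⟨65039589, 0, 0, 0, 0, 0, 0, 0, 0, ⟨0, 0⟩, 0⟩ 0 0))) (.pos 17 .mp ⟨26853934, 0, 0, 0, 0, 0, 0, 0, 0, ⟨0, 0⟩, 0⟩ 0 0)) (.pos 17 .mp ⟨0, 0, 0, 0, 0, 0, 0, 0, 0, ⟨0, 0⟩, 0⟩ 0 0)) (.pos 17 .mp ⟨20993712, 0, 0, 0, 0, 0, 0, 0, 0, ⟨0, 0⟩, 0⟩ 0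 0)) (.pos 18 .mp ⟨58590104, 0, 0, 0, 0, 0, 0, 0, 0, ⟨0, 0⟩, 0⟩ 0 0))) (.cut .s 10682368 (.pos 16 .mp ⟨66675292, 0, 0, 0, 0, 0, 0, 0, 0, ⟨0, 0⟩, 0⟩ 0 0) (.pos 16 .mp ⟨80442572, 0, 0, 0, 0, 0, 0, 0, 0, ⟨0, 0⟩, 0⟩ 0 0))) (.pos 13 .mp ⟨40014888, 0, 0, 0, 0, 0, 0, 0, 0, ⟨0, 0⟩, 0⟩ 0 0))) (.cut .d (-1048576) (.cut .v 23068672 (.cut .s 10682368 (.pos 21 .mp ⟨95143874, 0, 0, 0, 0, 0, 0, 0, 0, ⟨0, 0⟩, 0⟩ 0 0) (.pos 21 .mp ⟨116907645, 0, 0, 0, 0, 0, 0, 0, 0, ⟨0, 0⟩, 0⟩ 0 0)) (.pos 22 .mp ⟨140335558, 0, 0, 0, 0, 0, 0, 0, 0, ⟨0, 0⟩, 0⟩ 0 0)) (.cut .l 7801405 (.pos 14 .mp ⟨101798090, 0, 0, 0, 0, 0, 0, 0, 0, ⟨0, 0⟩, 0⟩ 0 0) (.pos 14 .mp ⟨81507498, 0, 0, 0, 0, 0, 0, 0, 0,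 ⟨0, 0⟩, 0⟩ 0 0))))) (.cut .d (-2097152) (.void 12 ⟨100000, 0, 0, 0, 0, 0, 0, 0, 0, ⟨0, 0⟩, 0⟩ 0 0) (.cut .d (-1048576) (.pos 12 .mp ⟨250682544, 0, 0, 0, 0, 0, 0, 0, 0, ⟨0, 0⟩, 0⟩ 0 0) (.cut .v 29360128 (.pos 50 .mp ⟨134833719, 0, 0, 0, 0, 0, 0, 0, 0, ⟨0, 0⟩, 0⟩ 0 0) (.pos 51 .mp ⟨194863814, 0, 0, 0, 0, 0, 0, 0, 0, ⟨0, 0⟩, 0⟩ 0 0))))) (.cut .v 50331648 (.cut .v 41943040 (.pos 25 .mp ⟨492879818, 0, 0, 0, 0, 0, 0, 0, 0, ⟨0, 0⟩, 0⟩ 0 0) (.void 26 ⟨100000, 0, 0, 0, 0, 0, 0, 0, 0, ⟨0, 0⟩, 0⟩ 0 0)) (.void 24 ⟨100000, 0, 0, 0, 0, 0, 0, 0, 0, ⟨0, 0⟩, 0⟩ 0 0))))) (.void 49 ⟨100000, 0, 0, 0, 0, 0, 0, 0, 0, ⟨0, 0⟩, 0⟩ 0 0)) (.void 66 ⟨94433, 0, 0, 5567, 0, 0, 0, 0, 0,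 ⟨0, 0⟩, 0⟩ 0 0))) (.cut .v 16777216 (.cut .v 8388608 (.cut .v 4194304 (.cut .v 2097152 (.void 71 ⟨0, 0, 50000, 0, 50000, 0, 0, 0, 0, ⟨0, 0⟩, 0⟩ 0 0) (.pos 72 .pm ⟨0, 0, 2812476, 0, 0, 0, 0, 0, 7762343, ⟨0, 0⟩, 7053950⟩ 0 0)) (.cut .d 5033166 (.pos 5 .pm ⟨0, 0, 0, 0, 0, 0, 0, 0, 0, ⟨0, 0⟩, 0⟩ 0 0) (.cut .d 7549749 (.pos 5 .pm ⟨0, 0, 0, 0, 0, 0, 0, 0, 1158730, ⟨0, 0⟩, 9975792⟩ 0 0) (.pos 5 .pm ⟨0, 21651109, 0, 0, 0, 0, 0, 0, 3143660, ⟨0, 0⟩, 9975792⟩ 0 0)))) (.cut .d 5033166 (.pos 3 .pm ⟨0, 0, 0, 0, 0, 0, 0, 0, 0, ⟨0, 0⟩, 0⟩ 0 0) (.cut .d 7549749 (.pos 3 .pm ⟨0, 0, 0, 0, 0, 0, 0, 0, 0, ⟨0, 0⟩, 0⟩ 0 0) (.cut .v 12582912 (.cut .d 8808040 (.pos 6 .pm ⟨0, 18029235,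 0, 0, 0, 0, 0, 0, 0, ⟨0, 0⟩, 0⟩ 0 0) (.pos 6 .pm ⟨0, 48758086, 0, 0, 0, 0, 0, 0, 5368365, ⟨0, 0⟩, 13128881⟩ 0 0)) (.pos 7 .pm ⟨0, 18665168, 0, 0, 0, 0, 0, 0, 0, ⟨0, 0⟩, 0⟩ 0 0))))) (.cut .v 268435456 (.cut .d 5033166 (.cut .v 67108864 (.cut .d 2516583 (.cut .d 1258291 (.cut .v 33554432 (.cut .v 25165824 (.pos 11 .pp ⟨21754984, 0, 0, 0, 0, 0, 0, 0, 0, ⟨0, 0⟩, 0⟩ 0 0) (.pos 12 .pp ⟨104401434, 0, 0, 0, 0, 0, 0, 0, 0, ⟨0, 0⟩, 0⟩ 0 0)) (.cut .v 50331648 (.pos 23 .pp ⟨256951973, 0, 0, 0, 0, 0, 0, 0, 0, ⟨0, 0⟩, 0⟩ 0 0) (.pos 24 .pp ⟨773022478, 0, 0, 0, 0, 0, 0, 0, 0, ⟨0, 0⟩, 0⟩ 0 0))) (.pos 8 .pp ⟨22038125, 0, 0, 0, 0, 0, 0, 0, 0, ⟨0, 0⟩, 0⟩ 0 0)) (.pos 8 .pp ⟨0,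 0, 0, 0, 0, 0, 0, 0, 0, ⟨0, 0⟩, 0⟩ 0 0)) (.pos 49 .pp ⟨2668909210, 2611245178, 0, 0, 0, 0, 0, 0, 0, ⟨0, 0⟩, 0⟩ 0 0)) (.pos 48 .pp ⟨0, 0, 0, 0, 0, 0, 0, 0, 0, ⟨0, 0⟩, 0⟩ 0 0)) (.void 66 ⟨0, 0, 0, 100000, 0, 0, 0, 0, 0, ⟨0, 0⟩, 0⟩ 0 0)))),
    by decide +kernel⟩

def covers15 : cell.Covers table row15.1 :=
  ⟨(.cut .d 0 (.cut .v 16777216 (.cut .d (-8388608) (.void 1 ⟨0, 0, 0, 0, 0, 100000, 0, 0, 0, ⟨0, 0⟩, 0⟩ 0 0) (.cut .d (-4194304) (.void 1 ⟨0, 0, 0, 0, 0, 100000, 0, 0, 0, ⟨0, 0⟩, 0⟩ 0 0) (.cut .v 8388608 (.cut .v 4194304 (.void 4 ⟨0, 0, 100000, 0, 0, 0, 0, 0, 0, ⟨0, 0⟩, 0⟩ 0 0) (.pos 5 .mm ⟨0, 0, 1707740, 0, 0, 42069616, 0, 0, 0, ⟨0, 0⟩, 0⟩ 0 0)) (.cut .d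 (-2097152) (.cut .s 11108352 (.cut .s 10993664 (.pos 3 .mm ⟨0, 0, 0, 0, 0, 120709839, 0, 0, 0, ⟨0, 0⟩, 0⟩ 0 0) (.pos 3 .mm ⟨0, 0, 0, 0, 0, 137875038, 0, 0, 0, ⟨0, 0⟩, 0⟩ 0 0)) (.pos 3 .mm ⟨0, 0, 0, 0, 0, 176168726, 0, 0, 0, ⟨0, 0⟩, 0⟩ 0 0)) (.cut .v 12582912 (.cut .d (-1048576) (.pos 6 .mm ⟨0, 0, 0, 0, 0, 76473687, 0, 0, 0, ⟨0, 0⟩, 0⟩ 0 0) (.pos 6 .mm ⟨0, 0, 0, 0, 0, 54365460, 0, 0, 0, ⟨0, 0⟩, 0⟩ 0 0)) (.cut .d (-1048576) (.cut .s 11108352 (.cut .s 10993664 (.pos 7 .mm ⟨0, 0, 0, 0, 0, 96323111, 0, 0, 0, ⟨0, 0⟩, 0⟩ 0 0) (.pos 7 .mm ⟨0, 0, 0, 0, 0, 108372029, 0, 0, 0, ⟨0, 0⟩, 0⟩ 0 0)) (.cut .s 11223040 (.pos 7 .mm ⟨0, 0, 0, 0, 0, 121400920, 0, 0, 0, ⟨0, 0⟩,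 0⟩ 0 0) (.cut .s 11280384 (.pos 7 .mm ⟨0, 0, 0, 0, 0, 131006585, 0, 0, 0, ⟨0, 0⟩, 0⟩ 0 0) (.pos 7 .mm ⟨0, 0, 0, 0, 0, 139058763, 0, 0, 0, ⟨0, 0⟩, 0⟩ 0 0)))) (.cut .l 7801405 (.cut .d (-524288) (.cut .v 14680064 (.pos 35 .mm ⟨0, 0, 0, 0, 0, 88593455, 0, 0, 0, ⟨0, 0⟩, 0⟩ 0 0) (.cut .s 11108352 (.cut .s 10993664 (.pos 36 .mm ⟨0, 0, 0, 0, 0, 92300555, 0, 0, 0, ⟨0, 0⟩, 0⟩ 0 0) (.pos 36 .mm ⟨0, 0, 0, 0, 0, 103332800, 0, 0, 0, ⟨0, 0⟩, 0⟩ 0 0)) (.cut .s 11223040 (.pos 36 .mm ⟨0, 0, 0, 0, 0, 115331709, 0, 0, 0, ⟨0, 0⟩, 0⟩ 0 0) (.pos 36 .mm ⟨0, 0, 0, 0, 0, 128327603, 0, 0, 0, ⟨0, 0⟩, 0⟩ 0 0)))) (.cut .d (-262144) (.cut .l 4991221 (.cut .s 11108352 (.pos 7 .mm ⟨0, 0,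 0, 0, 0, 92095577, 0, 0, 0, ⟨0, 0⟩, 0⟩ 0 0) (.pos 7 .mm ⟨0, 0, 0, 0, 0, 115172746, 0, 0, 0, ⟨0, 0⟩, 0⟩ 0 0)) (.pos 7 .mm ⟨0, 0, 0, 0, 0, 0, 0, 0, 0, ⟨0, 0⟩, 0⟩ 0 0)) (.pos 7 .mm ⟨0, 0, 0, 0, 0, 73884861, 0, 0, 0, ⟨0, 0⟩, 0⟩ 0 0))) (.pos 7 .mm ⟨0, 0, 0, 0, 0, 0, 0, 0, 0, ⟨0, 0⟩, 0⟩ 0 0)))))))) (.cut .v 268435456 (.cut .v 67108864 (.cut .d (-8388608) (.void 8 ⟨0, 0, 0, 0, 0, 100000, 0, 0, 0, ⟨0, 0⟩, 0⟩ 0 0) (.cut .d (-4194304) (.void 8 ⟨100000, 0, 0, 0, 0, 0, 0, 0, 0, ⟨0, 0⟩, 0⟩ 0 0) (.cut .v 33554432 (.cut .d (-2097152) (.cut .v 25165824 (.cut .v 20971520 (.cut .v 18874368 (.cut .d (-3145728) (.void 15 ⟨0, 0, 0, 0, 0, 100000, 0, 0, 0, ⟨0, 0⟩, 0⟩ 0 0) (.cut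 .d (-2621440) (.void 15 ⟨0, 0, 0, 0, 0, 100000, 0, 0, 0, ⟨0, 0⟩, 0⟩ 0 0) (.cut .d (-2359296) (.void 15 ⟨0, 0, 0, 0, 0, 100000, 0, 0, 0, ⟨0, 0⟩, 0⟩ 0 0) (.cut .v 17825792 (.cut .l 7801405 (.void 17 ⟨100000, 0, 0, 0, 0, 0, 0, 0, 0, ⟨0, 0⟩, 0⟩ 0 0) (.cut .l 10611589 (.void 17 ⟨0, 0, 0, 0, 0, 100000, 0, 0, 0, ⟨0, 0⟩, 0⟩ 0 0) (.cut .l 12016681 (.pos 17 .mp ⟨70494031, 0, 0, 0, 0, 104106460, 0, 0, 0, ⟨0, 0⟩, 0⟩ 0 0) (.cut .s 11108352 (.cut .s 10993664 (.pos 17 .mp ⟨88547297, 0, 0, 0, 0, 0, 0, 0, 0, ⟨0, 0⟩, 0⟩ 0 0) (.pos 17 .mp ⟨101285863, 0, 0, 0, 0, 237762, 0, 0, 0, ⟨0, 0⟩, 0⟩ 0 0)) (.cut .s 11223040 (.pos 17 .mp ⟨115783307, 0, 0, 0, 0, 1240867, 0, 0, 0, ⟨0, 0⟩,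 0⟩ 0 0) (.pos 17 .mp ⟨99878262, 0, 0, 0, 0, 60683756, 0, 0, 0, ⟨0, 0⟩, 0⟩ 0 0)))))) (.pos 18 .mp ⟨138808366, 0, 0, 0, 0, 0, 0, 0, 0, ⟨0, 0⟩, 0⟩ 0 0))))) (.void 16 ⟨100000, 0, 0, 0, 0, 0, 0, 0, 0, ⟨0, 0⟩, 0⟩ 0 0)) (.void 14 ⟨100000, 0, 0, 0, 0, 0, 0, 0, 0, ⟨0, 0⟩, 0⟩ 0 0)) (.void 12 ⟨100000, 0, 0, 0, 0, 0, 0, 0, 0, ⟨0, 0⟩, 0⟩ 0 0)) (.cut .v 25165824 (.cut .v 20971520 (.cut .d (-1048576) (.cut .l 7801405 (.cut .v 18874368 (.cut .v 17825792 (.cut .s 11108352 (.cut .s 10993664 (.pos 17 .mp ⟨62675704, 0, 0, 0, 0, 33198396, 0, 0, 0, ⟨0, 0⟩, 0⟩ 0 0) (.pos 17 .mp ⟨81458359, 0, 0, 0, 0, 22281221, 0, 0, 0, ⟨0, 0⟩, 0⟩ 0 0)) (.pos 17 .mp ⟨110130444, 0, 0, 0, 0, 13025580,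 0, 0, 0, ⟨0, 0⟩, 0⟩ 0 0)) (.pos 18 .mp ⟨131111689, 0, 0, 0, 0, 0, 0, 0, 0, ⟨0, 0⟩, 0⟩ 0 0)) (.void 16 ⟨100000, 0, 0, 0, 0, 0, 0, 0, 0, ⟨0, 0⟩, 0⟩ 0 0)) (.cut .v 18874368 (.cut .s 11108352 (.cut .d (-1572864) (.cut .v 17825792 (.cut .s 10993664 (.pos 17 .mp ⟨84391613, 0, 0, 0, 0, 0, 0, 0, 0, ⟨0, 0⟩, 0⟩ 0 0) (.cut .s 11051008 (.pos 17 .mp ⟨91505263, 0, 0, 0, 0, 0, 0, 0, 0, ⟨0, 0⟩, 0⟩ 0 0) (.pos 17 .mp ⟨96645759, 0, 0, 0, 0, 0, 0, 0, 0, ⟨0, 0⟩, 0⟩ 0 0))) (.cut .s 10993664 (.pos 18 .mp ⟨94085820, 0, 0, 0, 0, 0, 0, 0, 0, ⟨0, 0⟩, 0⟩ 0 0) (.pos 18 .mp ⟨105283079, 0, 0, 0, 0, 0, 0, 0, 0, ⟨0, 0⟩, 0⟩ 0 0))) (.cut .s 10993664 (.pos 15 .mp ⟨77186809, 0, 0, 0, 0, 0, 0,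 0, 0, ⟨0, 0⟩, 0⟩ 0 0) (.pos 15 .mp ⟨86517288, 0, 0, 0, 0, 0, 0, 0, 0, ⟨0, 0⟩, 0⟩ 0 0))) (.cut .d (-1572864) (.cut .v 17825792 (.cut .l 10611589 (.pos 17 .mp ⟨120908878, 0, 0, 0, 0, 0, 0, 0, 0, ⟨0, 0⟩, 0⟩ 0 0) (.cut .s 11223040 (.pos 17 .mp ⟨103808441, 0, 0, 0, 0, 0, 0, 0, 0, ⟨0, 0⟩, 0⟩ 0 0) (.cut .s 11280384 (.pos 17 .mp ⟨107991037, 0, 0, 0, 0, 6407411, 0, 0, 0, ⟨0, 0⟩, 0⟩ 0 0) (.pos 17 .mp ⟨112170238, 0, 0, 0, 0, 9327900, 0, 0, 0, ⟨0, 0⟩, 0⟩ 0 0)))) (.pos 18 .mp ⟨126693777, 0, 0, 0, 0, 0, 0, 0, 0, ⟨0, 0⟩, 0⟩ 0 0)) (.cut .s 11223040 (.pos 15 .mp ⟨96633366, 0, 0, 0, 0, 0, 0, 0, 0, ⟨0, 0⟩, 0⟩ 0 0) (.pos 15 .mp ⟨107548810, 0, 0, 0, 0, 0, 0, 0, 0, ⟨0, 0⟩, 0⟩ 0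 0)))) (.cut .s 11108352 (.cut .d (-1572864) (.pos 16 .mp ⟨119341290, 0, 0, 0, 0, 0, 0, 0, 0, ⟨0, 0⟩, 0⟩ 0 0) (.pos 16 .mp ⟨102421869, 0, 0, 0, 0, 0, 0, 0, 0, ⟨0, 0⟩, 0⟩ 0 0)) (.cut .d (-1572864) (.pos 16 .mp ⟨150553908, 0, 0, 0, 0, 0, 0, 0, 0, ⟨0, 0⟩, 0⟩ 0 0) (.pos 16 .mp ⟨127867305, 0, 0, 0, 0, 0, 0, 0, 0, ⟨0, 0⟩, 0⟩ 0 0))))) (.cut .l 7801405 (.cut .d (-524288) (.cut .v 18874368 (.cut .s 11108352 (.cut .l 4991221 (.cut .d (-786432) (.pos 15 .mp ⟨40643719, 0, 0, 0, 0, 129627563, 0, 0, 0, ⟨0, 0⟩, 0⟩ 0 0) (.cut .l 3586129 (.pos 15 .mp ⟨33160647, 0, 0, 0, 0, 158130964, 0, 0, 0, ⟨0, 0⟩, 0⟩ 0 0) (.pos 15 .mp ⟨64727036, 0, 0, 0, 0, 13952016, 0, 0, 0, ⟨0, 0⟩, 0⟩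 0 0))) (.pos 15 .mp ⟨73281958, 0, 0, 0, 0, 0, 0, 0, 0, ⟨0, 0⟩, 0⟩ 0 0)) (.cut .l 4991221 (.cut .v 17825792 (.cut .s 11223040 (.pos 17 .mp ⟨31573516, 0, 0, 0, 0, 90209673, 0, 0, 0, ⟨0, 0⟩, 0⟩ 0 0) (.pos 17 .mp ⟨36908555, 0, 0, 0, 0, 97731891, 0, 0, 0, ⟨0, 0⟩, 0⟩ 0 0)) (.pos 18 .mp ⟨115505535, 0, 0, 0, 0, 0, 0, 0, 0, ⟨0, 0⟩, 0⟩ 0 0)) (.pos 15 .mp ⟨93310187, 0, 0, 0, 0, 0, 0, 0, 0, ⟨0, 0⟩, 0⟩ 0 0))) (.pos 16 .mp ⟨120512321, 0, 0, 0, 0, 0, 0, 0, 0, ⟨0, 0⟩, 0⟩ 0 0)) (.cut .v 18874368 (.cut .l 4991221 (.cut .l 3586129 (.cut .d (-262144) (.cut .v 17825792 (.cut .s 11108352 (.cut .v 17301504 (.cut .s 10993664 (.pos 39 .mp ⟨18945744, 0, 0, 0, 0, 69056257, 0, 0, 0,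 ⟨0, 0⟩, 0⟩ 0 0) (.pos 39 .mp ⟨23347627, 0, 0, 0, 0, 74243718, 0, 0, 0, ⟨0, 0⟩, 0⟩ 0 0)) (.pos 40 .mp ⟨79811989, 0, 0, 0, 0, 0, 0, 0, 0, ⟨0, 0⟩, 0⟩ 0 0)) (.cut .v 17301504 (.cut .s 11223040 (.pos 39 .mp ⟨28170719, 0, 0, 0, 0, 79753253, 0, 0, 0, ⟨0, 0⟩, 0⟩ 0 0) (.pos 39 .mp ⟨33014601, 0, 0, 0, 0, 86172909, 0, 0, 0, ⟨0, 0⟩, 0⟩ 0 0)) (.pos 40 .mp ⟨97868740, 0, 0, 0, 0, 0, 0, 0, 0, ⟨0, 0⟩, 0⟩ 0 0))) (.pos 18 .mp ⟨97408466, 0, 0, 0, 0, 0, 0, 0, 0, ⟨0, 0⟩, 0⟩ 0 0)) (.cut .v 17825792 (.cut .d (-131072) (.cut .d (-196608) (.cut .d (-229376) (.cut .v 17301504 (.cut .s 11108352 (.pos 39 .mp ⟨20155814, 0, 0, 0, 0, 63058027, 0, 0, 0, ⟨0, 0⟩, 0⟩ 0 0) (.cut .s 11223040 (.pos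 39 .mp ⟨28329950, 0, 0, 0, 0, 72416434, 0, 0, 0, ⟨0, 0⟩, 0⟩ 0 0) (.pos 39 .mp ⟨32971369, 0, 0, 0, 0, 80029316, 0, 0, 0, ⟨0, 0⟩, 0⟩ 0 0))) (.pos 40 .mp ⟨78512545, 0, 0, 0, 0, 0, 0, 0, 0, ⟨0, 0⟩, 0⟩ 0 0)) (.pos 17 .mp ⟨36741024, 0, 0, 0, 0, 0, 0, 0, 0, ⟨0, 0⟩, 0⟩ 0 0)) (.pos 17 .mp ⟨28705188, 0, 0, 0, 0, 0, 0, 0, 0, ⟨0, 0⟩, 0⟩ 0 0)) (.pos 17 .mp ⟨0, 0, 0, 0, 0, 0, 0, 0, 0, ⟨0, 0⟩, 0⟩ 0 0)) (.pos 18 .mp ⟨76165115, 0, 0, 0, 0, 0, 0, 0, 0, ⟨0, 0⟩, 0⟩ 0 0))) (.pos 15 .mp ⟨60108259, 0, 0, 0, 0, 485627, 0, 0, 0, ⟨0, 0⟩, 0⟩ 0 0)) (.pos 15 .mp ⟨32284306, 0, 0, 0, 0, 0, 0, 0, 0, ⟨0, 0⟩, 0⟩ 0 0)) (.pos 16 .mp ⟨96772522, 0, 0, 0, 0, 0, 0, 0, 0, ⟨0, 0⟩, 0⟩ 0 0))) (.pos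 13 .mp ⟨69165432, 0, 0, 0, 0, 0, 0, 0, 0, ⟨0, 0⟩, 0⟩ 0 0))) (.cut .d (-1048576) (.cut .v 23068672 (.cut .s 11108352 (.pos 21 .mp ⟨143128674, 0, 0, 0, 0, 0, 0, 0, 0, ⟨0, 0⟩, 0⟩ 0 0) (.pos 21 .mp ⟨178522405, 0, 0, 0, 0, 0, 0, 0, 0, ⟨0, 0⟩, 0⟩ 0 0)) (.pos 22 .mp ⟨210585224, 0, 0, 0, 0, 0, 0, 0, 0, ⟨0, 0⟩, 0⟩ 0 0)) (.cut .v 23068672 (.cut .s 11108352 (.pos 21 .mp ⟨114804400, 0, 0, 0, 0, 0, 0, 0, 0, ⟨0, 0⟩, 0⟩ 0 0) (.pos 21 .mp ⟨139956416, 0, 0, 0, 0, 0, 0, 0, 0, ⟨0, 0⟩, 0⟩ 0 0)) (.pos 22 .mp ⟨153318454, 0, 0, 0, 0, 0, 0, 0, 0, ⟨0, 0⟩, 0⟩ 0 0)))) (.cut .d (-1048576) (.pos 12 .mp ⟨369032213, 0, 0, 0, 0, 0, 0, 0, 0, ⟨0, 0⟩, 0⟩ 0 0) (.cut .v 29360128 (.cut .s 11108352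 (.pos 50 .mp ⟨172267227, 0, 0, 0, 0, 0, 0, 0, 0, ⟨0, 0⟩, 0⟩ 0 0) (.pos 50 .mp ⟨208877281, 0, 0, 0, 0, 0, 0, 0, 0, ⟨0, 0⟩, 0⟩ 0 0)) (.pos 51 .mp ⟨274249491, 0, 0, 0, 0, 0, 0, 0, 0, ⟨0, 0⟩, 0⟩ 0 0))))) (.cut .v 50331648 (.cut .v 41943040 (.pos 25 .mp ⟨675084605, 0, 0, 0, 0, 0, 0, 0, 0, ⟨0, 0⟩, 0⟩ 0 0) (.void 26 ⟨100000, 0, 0, 0, 0, 0, 0, 0, 0, ⟨0, 0⟩, 0⟩ 0 0)) (.void 24 ⟨100000, 0, 0, 0, 0, 0, 0, 0, 0, ⟨0, 0⟩, 0⟩ 0 0))))) (.void 49 ⟨100000, 0, 0, 0, 0, 0, 0, 0, 0, ⟨0, 0⟩, 0⟩ 0 0)) (.void 66 ⟨94212, 0, 0, 5788, 0, 0, 0, 0, 0, ⟨0, 0⟩, 0⟩ 0 0))) (.cut .v 16777216 (.cut .v 8388608 (.cut .v 4194304 (.cut .v 2097152 (.void 71 ⟨0, 0, 50000, 0, 50000, 0, 0, 0, 0, ⟨0,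 0⟩, 0⟩ 0 0) (.pos 72 .pm ⟨0, 636138, 0, 0, 0, 0, 0, 0, 9220825, ⟨0, 0⟩, 7053950⟩ 0 0)) (.cut .d 4548041 (.pos 5 .pm ⟨0, 0, 0, 0, 0, 0, 0, 0, 0, ⟨0, 0⟩, 0⟩ 0 0) (.cut .d 6822062 (.pos 5 .pm ⟨0, 0, 0, 0, 0, 0, 0, 0, 0, ⟨0, 0⟩, 0⟩ 0 0) (.cut .l 7801405 (.cut .l 4991221 (.cut .d 7959072 (.cut .v 6291456 (.pos 73 .pm ⟨0, 28336101, 0, 0, 0, 0, 0, 0, 2598157, ⟨0, 0⟩, 9283521⟩ 0 0) (.cut .l 3586129 (.cut .s 11108352 (.cut .v 7340032 (.pos 77 .pm ⟨0, 21972115, 0, 0, 0, 0, 0, 0, 0, ⟨0, 0⟩, 0⟩ 0 0) (.cut .d 7390567 (.pos 78 .pm ⟨0, 0, 0, 0, 0, 0, 0, 0, 0, ⟨0, 0⟩, 0⟩ 0 0) (.pos 78 .pm ⟨0, 25167806, 0, 0, 0, 0, 0, 0, 0, ⟨0, 0⟩, 0⟩ 0 0))) (.cut .l 2883583 (.cut .d 7390567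 (.cut .s 11223040 (.pos 74 .pm ⟨0, 0, 0, 0, 0, 0, 0, 0, 0, ⟨0, 0⟩, 0⟩ 0 0) (.cut .v 7340032 (.cut .v 6815744 (.pos 81 .pm ⟨0, 29297184, 0, 0, 0, 0, 0, 0, 0, ⟨0, 0⟩, 0⟩ 0 0) (.cut .v 7077888 (.pos 83 .pm ⟨0, 29798019, 0, 0, 0, 0, 0, 0, 0, ⟨0, 0⟩, 0⟩ 0 0) (.cut .s 11280384 (.pos 84 .pm ⟨0, 0, 0, 0, 0, 0, 0, 0, 0, ⟨0, 0⟩, 0⟩ 0 0) (.pos 84 .pm ⟨0, 31415886, 0, 0, 0, 0, 0, 0, 0, ⟨0, 0⟩, 0⟩ 0 0)))) (.pos 78 .pm ⟨0, 30252760, 0, 0, 0, 0, 0, 0, 0, ⟨0, 0⟩, 0⟩ 0 0))) (.cut .v 7340032 (.cut .s 11223040 (.pos 77 .pm ⟨0, 31566939, 0, 0, 0, 0, 0, 0, 0, ⟨0, 0⟩, 0⟩ 0 0) (.cut .s 11280384 (.pos 77 .pm ⟨0, 34480769, 0, 0, 0, 0, 0, 0, 0, ⟨0, 0⟩, 0⟩ 0 0) (.cut .v 6815744 (.pos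 81 .pm ⟨0, 36412058, 0, 0, 0, 0, 0, 0, 0, ⟨0, 0⟩, 0⟩ 0 0) (.pos 82 .pm ⟨0, 37487237, 0, 0, 0, 0, 0, 0, 0, ⟨0, 0⟩, 0⟩ 0 0)))) (.cut .d 7674819 (.cut .s 11223040 (.pos 78 .pm ⟨0, 30842654, 0, 0, 0, 0, 0, 0, 0, ⟨0, 0⟩, 0⟩ 0 0) (.pos 78 .pm ⟨0, 35854328, 0, 0, 0, 0, 0, 0, 0, ⟨0, 0⟩, 0⟩ 0 0)) (.pos 78 .pm ⟨0, 39089904, 0, 0, 0, 0, 0, 0, 0, ⟨0, 0⟩, 0⟩ 0 0)))) (.pos 74 .pm ⟨0, 30373531, 0, 0, 0, 0, 0, 0, 0, ⟨0, 0⟩, 0⟩ 0 0))) (.pos 74 .pm ⟨0, 25687568, 0, 0, 0, 0, 0, 0, 0, ⟨0, 0⟩, 0⟩ 0 0))) (.cut .s 11108352 (.cut .v 6291456 (.pos 73 .pm ⟨0, 52241248, 0, 0, 0, 0, 0, 0, 8017439, ⟨0, 0⟩, 9283521⟩ 0 0) (.pos 74 .pm ⟨0, 33067819, 0, 0, 0, 0, 0, 0, 150893, ⟨0, 0⟩, 11040029⟩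 0 0)) (.void 5 ⟨0, 95851, 0, 0, 0, 0, 0, 0, 4149, ⟨0, 0⟩, 9975792⟩ 0 0))) (.pos 5 .pm ⟨0, 31525103, 0, 0, 0, 0, 0, 0, 0, ⟨0, 0⟩, 0⟩ 0 0)) (.pos 5 .pm ⟨0, 28394019, 0, 0, 0, 0, 0, 0, 0, ⟨0, 0⟩, 0⟩ 0 0))))) (.cut .d 4548041 (.pos 3 .pm ⟨0, 0, 0, 0, 0, 0, 0, 0, 0, ⟨0, 0⟩, 0⟩ 0 0) (.cut .d 6822062 (.pos 3 .pm ⟨0, 0, 0, 0, 0, 0, 0, 0, 0, ⟨0, 0⟩, 0⟩ 0 0) (.cut .d 7959072 (.cut .s 11108352 (.pos 3 .pm ⟨0, 22416421, 0, 0, 0, 0, 0, 0, 0, ⟨0, 0⟩, 0⟩ 0 0) (.pos 3 .pm ⟨0, 32769658, 0, 0, 0, 0, 0, 0, 0, ⟨0, 0⟩, 0⟩ 0 0)) (.pos 3 .pm ⟨0, 44404009, 0, 0, 0, 0, 0, 0, 0, ⟨0, 0⟩, 0⟩ 0 0))))) (.cut .v 268435456 (.cut .d 4548041 (.cut .v 67108864 (.cut .d 2274020 (.cut .v 33554432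 (.cut .v 25165824 (.cut .v 20971520 (.pos 13 .pp ⟨19241116, 0, 0, 0, 0, 0, 0, 0, 0, ⟨0, 0⟩, 0⟩ 0 0) (.pos 14 .pp ⟨79562392, 0, 0, 0, 0, 0, 0, 0, 0, ⟨0, 0⟩, 0⟩ 0 0)) (.pos 12 .pp ⟨141093208, 0, 0, 0, 0, 0, 0, 0, 0, ⟨0, 0⟩, 0⟩ 0 0)) (.cut .d 1137010 (.cut .v 50331648 (.cut .v 41943040 (.pos 25 .pp ⟨288501673, 0, 0, 0, 0, 0, 0, 0, 0, ⟨0, 0⟩, 0⟩ 0 0) (.pos 26 .pp ⟨502575210, 0, 0, 0, 0, 0, 0, 0, 0, ⟨0, 0⟩, 0⟩ 0 0)) (.pos 24 .pp ⟨1041525350, 0, 0, 0, 0, 0, 0, 0, 0, ⟨0, 0⟩, 0⟩ 0 0)) (.pos 10 .pp ⟨258998637, 0, 0, 0, 0, 0, 0, 0, 0, ⟨0, 0⟩, 0⟩ 0 0))) (.pos 8 .pp ⟨0, 0, 0, 0, 0, 0, 0, 0, 0, ⟨0, 0⟩, 0⟩ 0 0)) (.cut .d 2274020 (.cut .d 1137010 (.void 49 ⟨100000, 0, 0,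 0, 0, 0, 0, 0, 0, ⟨0, 0⟩, 0⟩ 0 0) (.pos 49 .pp ⟨2609210835, 2058418402, 0, 0, 0, 0, 0, 0, 0, ⟨0, 0⟩, 0⟩ 0 0)) (.void 49 ⟨0, 100000, 0, 0, 0, 0, 0, 0, 0, ⟨0, 0⟩, 0⟩ 0 0))) (.pos 48 .pp ⟨0, 1989734, 0, 0, 0, 0, 0, 0, 0, ⟨0, 0⟩, 0⟩ 0 0)) (.void 66 ⟨0, 0, 0, 100000, 0, 0, 0, 0, 0, ⟨0, 0⟩, 0⟩ 0 0)))),
    by decide +kernel⟩

def covers16 : cell.Covers table row16.1 :=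
  ⟨(.cut .d 0 (.cut .v 16777216 (.cut .d (-8388608) (.void 1 ⟨0, 0, 0, 0, 0, 100000, 0, 0, 0, ⟨0, 0⟩, 0⟩ 0 0) (.cut .d (-4194304) (.void 1 ⟨0, 0, 0, 0, 0, 100000, 0, 0, 0, ⟨0, 0⟩, 0⟩ 0 0) (.cut .d (-2097152) (.void 1 ⟨0, 0, 0, 0, 0, 100000, 0, 0, 0, ⟨0, 0⟩, 0⟩ 0 0) (.cut .v 8388608 (.cut .v 4194304 (.void 4 ⟨0, 0, 100000, 0, 0, 0, 0, 0, 0, ⟨0, 0⟩, 0⟩ 0 0) (.pos 5 .mm ⟨0, 0, 1611899, 0, 0, 54560067, 0, 0, 0, ⟨0, 0⟩, 0⟩ 0 0)) (.cut .d (-1048576) (.cut .v 12582912 (.pos 6 .mm ⟨0, 0, 0, 0, 0, 117551497, 0, 0, 0, ⟨0, 0⟩, 0⟩ 0 0) (.cut .l 7801405 (.pos 7 .mm ⟨0, 0, 0, 0, 0, 206820149, 0, 0, 0, ⟨0, 0⟩, 0⟩ 0 0) (.cut .v 14680064 (.pos 35 .mm ⟨0, 0, 0, 0, 0, 142138974,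 0, 0, 0, ⟨0, 0⟩, 0⟩ 0 0) (.cut .s 11534336 (.cut .d (-1572864) (.cut .s 11436032 (.pos 36 .mm ⟨0, 0, 0, 0, 0, 155659487, 0, 0, 0, ⟨0, 0⟩, 0⟩ 0 0) (.cut .d (-1835008) (.pos 36 .mm ⟨69327482, 0, 0, 0, 0, 96317355, 0, 0, 0, ⟨0, 0⟩, 0⟩ 0 0) (.pos 36 .mm ⟨51073106, 0, 0, 0, 0, 99155773, 0, 0, 0, ⟨0, 0⟩, 0⟩ 0 0))) (.pos 36 .mm ⟨9898836, 0, 0, 0, 0, 135571285, 0, 0, 0, ⟨0, 0⟩, 0⟩ 0 0)) (.cut .v 15728640 (.pos 37 .mm ⟨0, 0, 0, 0, 0, 173103749, 0, 0, 0, ⟨0, 0⟩, 0⟩ 0 0) (.cut .d (-1572864) (.cut .v 16252928 (.pos 43 .mm ⟨0, 0, 0, 0, 0, 193146623, 0, 0, 0, ⟨0, 0⟩, 0⟩ 0 0) (.cut .l 10611589 (.void 44 ⟨0, 0, 0, 0, 0, 100000, 0, 0, 0, ⟨0, 0⟩, 0⟩ 0 0) (.cut .l 12016681 (.pos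 44 .mm ⟨80984383, 0, 0, 0, 0, 113159412, 0, 0, 0, ⟨0, 0⟩, 0⟩ 0 0) (.cut .d (-1835008) (.cut .s 11632640 (.pos 44 .mm ⟨93387089, 0, 0, 0, 0, 87556566, 0, 0, 0, ⟨0, 0⟩, 0⟩ 0 0) (.pos 44 .mm ⟨104999372, 0, 0, 0, 0, 95217426, 0, 0, 0, ⟨0, 0⟩, 0⟩ 0 0)) (.cut .s 11632640 (.pos 44 .mm ⟨82806726, 0, 0, 0, 0, 74168083, 0, 0, 0, ⟨0, 0⟩, 0⟩ 0 0) (.pos 44 .mm ⟨108225707, 0, 0, 0, 0, 56912389, 0, 0, 0, ⟨0, 0⟩, 0⟩ 0 0)))))) (.cut .s 11632640 (.pos 38 .mm ⟨20596057, 0, 0, 0, 0, 146147908, 0, 0, 0, ⟨0, 0⟩, 0⟩ 0 0) (.pos 38 .mm ⟨24607289, 0, 0, 0, 0, 157232744, 0, 0, 0, ⟨0, 0⟩, 0⟩ 0 0)))))))) (.cut .l 7801405 (.cut .v 12582912 (.pos 6 .mm ⟨0, 0, 0, 0, 0, 87308026, 0, 0, 0,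 ⟨0, 0⟩, 0⟩ 0 0) (.cut .d (-524288) (.cut .s 11534336 (.pos 7 .mm ⟨0, 0, 0, 0, 0, 148946534, 0, 0, 0, ⟨0, 0⟩, 0⟩ 0 0) (.pos 7 .mm ⟨0, 0, 0, 0, 0, 178499884, 0, 0, 0, ⟨0, 0⟩, 0⟩ 0 0)) (.cut .d (-262144) (.cut .l 4991221 (.cut .s 11534336 (.pos 7 .mm ⟨0, 0, 0, 0, 0, 140938162, 0, 0, 0, ⟨0, 0⟩, 0⟩ 0 0) (.pos 7 .mm ⟨0, 0, 0, 0, 0, 168639737, 0, 0, 0, ⟨0, 0⟩, 0⟩ 0 0)) (.pos 7 .mm ⟨0, 0, 0, 0, 0, 0, 0, 0, 0, ⟨0, 0⟩, 0⟩ 0 0)) (.pos 7 .mm ⟨0, 0, 0, 0, 0, 115329984, 0, 0, 0, ⟨0, 0⟩, 0⟩ 0 0)))) (.pos 3 .mm ⟨0, 0, 0, 0, 0, 81005373, 0, 0, 0, ⟨0, 0⟩, 0⟩ 0 0))))))) (.cut .v 268435456 (.cut .v 67108864 (.cut .d (-8388608) (.void 8 ⟨0, 0, 0, 0, 0, 100000, 0, 0, 0, ⟨0, 0⟩,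 0⟩ 0 0) (.cut .d (-4194304) (.void 8 ⟨100000, 0, 0, 0, 0, 0, 0, 0, 0, ⟨0, 0⟩, 0⟩ 0 0) (.cut .d (-2097152) (.void 8 ⟨0, 0, 0, 0, 0, 100000, 0, 0, 0, ⟨0, 0⟩, 0⟩ 0 0) (.cut .v 33554432 (.cut .v 25165824 (.cut .v 20971520 (.cut .d (-1048576) (.cut .l 7801405 (.cut .s 11534336 (.pos 13 .mp ⟨173760520, 0, 0, 0, 0, 0, 0, 0, 0, ⟨0, 0⟩, 0⟩ 0 0) (.pos 13 .mp ⟨208644319, 0, 0, 0, 0, 0, 0, 0, 0, ⟨0, 0⟩, 0⟩ 0 0)) (.cut .v 18874368 (.cut .d (-1572864) (.cut .l 10611589 (.pos 15 .mp ⟨184711382, 0, 0, 0, 0, 0, 0, 0, 0, ⟨0, 0⟩, 0⟩ 0 0) (.cut .s 11534336 (.cut .v 17825792 (.cut .s 11436032 (.pos 17 .mp ⟨128046935, 0, 0, 0, 0, 0, 0, 0, 0, ⟨0, 0⟩, 0⟩ 0 0) (.cut .d (-1835008)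 (.pos 17 .mp ⟨147006895, 0, 0, 0, 0, 0, 0, 0, 0, ⟨0, 0⟩, 0⟩ 0 0) (.pos 17 .mp ⟨131396076, 0, 0, 0, 0, 0, 0, 0, 0, ⟨0, 0⟩, 0⟩ 0 0))) (.pos 18 .mp ⟨154026970, 0, 0, 0, 0, 0, 0, 0, 0, ⟨0, 0⟩, 0⟩ 0 0)) (.cut .v 17825792 (.cut .d (-1835008) (.pos 17 .mp ⟨174007877, 0, 0, 0, 0, 0, 0, 0, 0, ⟨0, 0⟩, 0⟩ 0 0) (.cut .s 11632640 (.pos 17 .mp ⟨144562001, 0, 0, 0, 0, 0, 0, 0, 0, ⟨0, 0⟩, 0⟩ 0 0) (.pos 17 .mp ⟨160700511, 0, 0, 0, 0, 0, 0, 0, 0, ⟨0, 0⟩, 0⟩ 0 0))) (.pos 18 .mp ⟨189071096, 0, 0, 0, 0, 0, 0, 0, 0, ⟨0, 0⟩, 0⟩ 0 0)))) (.cut .s 11534336 (.cut .s 11436032 (.pos 15 .mp ⟨118459664, 0, 0, 0, 0, 0, 0, 0, 0, ⟨0, 0⟩, 0⟩ 0 0) (.pos 15 .mp ⟨129663196, 0, 0, 0, 0, 0, 0, 0,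 0, ⟨0, 0⟩, 0⟩ 0 0)) (.cut .s 11632640 (.pos 15 .mp ⟨141683107, 0, 0, 0, 0, 0, 0, 0, 0, ⟨0, 0⟩, 0⟩ 0 0) (.cut .l 10611589 (.pos 15 .mp ⟨158480240, 0, 0, 0, 0, 0, 0, 0, 0, ⟨0, 0⟩, 0⟩ 0 0) (.pos 15 .mp ⟨147517966, 0, 0, 0, 0, 0, 0, 0, 0, ⟨0, 0⟩, 0⟩ 0 0))))) (.cut .d (-1572864) (.pos 16 .mp ⟨213416175, 0, 0, 0, 0, 0, 0, 0, 0, ⟨0, 0⟩, 0⟩ 0 0) (.cut .s 11534336 (.pos 16 .mp ⟨154732109, 0, 0, 0, 0, 0, 0, 0, 0, ⟨0, 0⟩, 0⟩ 0 0) (.pos 16 .mp ⟨184603159, 0, 0, 0, 0, 0, 0, 0, 0, ⟨0, 0⟩, 0⟩ 0 0))))) (.cut .l 7801405 (.cut .d (-524288) (.cut .v 18874368 (.cut .s 11534336 (.cut .l 4991221 (.cut .s 11436032 (.pos 15 .mp ⟨117692663, 0, 0, 0, 0, 0, 0, 0, 0, ⟨0, 0⟩, 0⟩ 0 0)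 (.pos 15 .mp ⟨128446280, 0, 0, 0, 0, 0, 0, 0, 0, ⟨0, 0⟩, 0⟩ 0 0)) (.pos 15 .mp ⟨113679814, 0, 0, 0, 0, 0, 0, 0, 0, ⟨0, 0⟩, 0⟩ 0 0)) (.cut .l 4991221 (.cut .v 17825792 (.pos 17 .mp ⟨54166822, 0, 0, 0, 0, 134472435, 0, 0, 0, ⟨0, 0⟩, 0⟩ 0 0) (.pos 18 .mp ⟨162749740, 0, 0, 0, 0, 0, 0, 0, 0, ⟨0, 0⟩, 0⟩ 0 0)) (.pos 15 .mp ⟨135994093, 0, 0, 0, 0, 0, 0, 0, 0, ⟨0, 0⟩, 0⟩ 0 0))) (.pos 16 .mp ⟨172901734, 0, 0, 0, 0, 0, 0, 0, 0, ⟨0, 0⟩, 0⟩ 0 0)) (.cut .v 18874368 (.cut .l 4991221 (.cut .d (-262144) (.cut .v 17825792 (.cut .s 11534336 (.cut .v 17301504 (.cut .s 11436032 (.pos 39 .mp ⟨44486105, 0, 0, 0, 0, 82853549, 0, 0, 0, ⟨0, 0⟩, 0⟩ 0 0) (.pos 39 .mp ⟨49455019, 0, 0,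 0, 0, 89130890, 0, 0, 0, ⟨0, 0⟩, 0⟩ 0 0)) (.pos 40 .mp ⟨117638589, 0, 0, 0, 0, 0, 0, 0, 0, ⟨0, 0⟩, 0⟩ 0 0)) (.cut .v 17301504 (.cut .s 11632640 (.pos 39 .mp ⟨53161136, 0, 0, 0, 0, 98109380, 0, 0, 0, ⟨0, 0⟩, 0⟩ 0 0) (.pos 39 .mp ⟨56500451, 0, 0, 0, 0, 108575657, 0, 0, 0, ⟨0, 0⟩, 0⟩ 0 0)) (.pos 40 .mp ⟨138528802, 0, 0, 0, 0, 0, 0, 0, 0, ⟨0, 0⟩, 0⟩ 0 0))) (.pos 18 .mp ⟨134340421, 0, 0, 0, 0, 0, 0, 0, 0, ⟨0, 0⟩, 0⟩ 0 0)) (.cut .v 17825792 (.cut .d (-131072) (.cut .d (-196608) (.cut .v 17301504 (.cut .v 17039360 (.pos 67 .mp ⟨0, 0, 0, 0, 0, 141195359, 0, 0, 0, ⟨0, 0⟩, 0⟩ 0 0) (.cut .l 3586129 (.cut .l 2883583 (.cut .l 2532310 (.cut .s 11534336 (.cut .s 11436032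 (.pos 68 .mp ⟨36408987, 0, 0, 0, 0, 84367227, 0, 0, 0, ⟨0, 0⟩, 0⟩ 0 0) (.pos 68 .mp ⟨40969727, 0, 0, 0, 0, 91401046, 0, 0, 0, ⟨0, 0⟩, 0⟩ 0 0)) (.cut .s 11632640 (.pos 68 .mp ⟨45852178, 0, 0, 0, 0, 98835711, 0, 0, 0, ⟨0, 0⟩, 0⟩ 0 0) (.pos 68 .mp ⟨51073186, 0, 0, 0, 0, 106615546, 0, 0, 0, ⟨0, 0⟩, 0⟩ 0 0))) (.pos 68 .mp ⟨60673887, 0, 0, 0, 0, 24435723, 0, 0, 0, ⟨0, 0⟩, 0⟩ 0 0)) (.pos 68 .mp ⟨0, 0, 0, 0, 0, 0, 0, 0, 0, ⟨0, 0⟩, 0⟩ 0 0)) (.pos 68 .mp ⟨0, 0, 0, 0, 0, 0, 0, 0, 0, ⟨0, 0⟩, 0⟩ 0 0))) (.pos 40 .mp ⟨116747741, 0, 0, 0, 0, 0, 0, 0, 0, ⟨0, 0⟩, 0⟩ 0 0)) (.pos 17 .mp ⟨53975395, 0, 0, 0, 0, 0, 0, 0, 0, ⟨0, 0⟩, 0⟩ 0 0)) (.pos 17 .mp ⟨0, 0, 0, 0, 0, 0, 0, 0,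 0, ⟨0, 0⟩, 0⟩ 0 0)) (.pos 18 .mp ⟨111878753, 0, 0, 0, 0, 0, 0, 0, 0, ⟨0, 0⟩, 0⟩ 0 0))) (.pos 15 .mp ⟨65014373, 0, 0, 0, 0, 0, 0, 0, 0, ⟨0, 0⟩, 0⟩ 0 0)) (.pos 16 .mp ⟨140161476, 0, 0, 0, 0, 0, 0, 0, 0, ⟨0, 0⟩, 0⟩ 0 0))) (.cut .v 18874368 (.pos 15 .mp ⟨99175372, 0, 0, 0, 0, 0, 0, 0, 0, ⟨0, 0⟩, 0⟩ 0 0) (.pos 16 .mp ⟨133175959, 0, 0, 0, 0, 0, 0, 0, 0, ⟨0, 0⟩, 0⟩ 0 0)))) (.cut .d (-1048576) (.cut .s 11534336 (.pos 14 .mp ⟨239397216, 0, 0, 0, 0, 0, 0, 0, 0, ⟨0, 0⟩, 0⟩ 0 0) (.pos 14 .mp ⟨284950742, 0, 0, 0, 0, 0, 0, 0, 0, ⟨0, 0⟩, 0⟩ 0 0)) (.cut .v 23068672 (.cut .s 11534336 (.pos 21 .mp ⟨166736709, 0, 0, 0, 0, 0, 0, 0, 0, ⟨0, 0⟩, 0⟩ 0 0) (.pos 21 .mp ⟨195484233,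 0, 0, 0, 0, 0, 0, 0, 0, ⟨0, 0⟩, 0⟩ 0 0)) (.pos 22 .mp ⟨216030971, 0, 0, 0, 0, 0, 0, 0, 0, ⟨0, 0⟩, 0⟩ 0 0)))) (.cut .d (-1048576) (.void 12 ⟨100000, 0, 0, 0, 0, 0, 0, 0, 0, ⟨0, 0⟩, 0⟩ 0 0) (.cut .v 29360128 (.cut .d (-524288) (.pos 50 .mp ⟨289853529, 0, 0, 0, 0, 0, 0, 0, 0, ⟨0, 0⟩, 0⟩ 0 0) (.pos 50 .mp ⟨246047326, 0, 0, 0, 0, 0, 0, 0, 0, ⟨0, 0⟩, 0⟩ 0 0)) (.pos 51 .mp ⟨374390308, 0, 0, 0, 0, 0, 0, 0, 0, ⟨0, 0⟩, 0⟩ 0 0)))) (.cut .v 50331648 (.cut .v 41943040 (.pos 25 .mp ⟨726517694, 0, 0, 0, 0, 0, 0, 0, 0, ⟨0, 0⟩, 0⟩ 0 0) (.void 26 ⟨100000, 0, 0, 0, 0, 0, 0, 0, 0, ⟨0, 0⟩, 0⟩ 0 0)) (.void 24 ⟨100000, 0, 0, 0, 0, 0, 0, 0, 0, ⟨0, 0⟩, 0⟩ 0 0)))))) (.void 49 ⟨100000,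 0, 0, 0, 0, 0, 0, 0, 0, ⟨0, 0⟩, 0⟩ 0 0)) (.void 66 ⟨94023, 0, 0, 5977, 0, 0, 0, 0, 0, ⟨0, 0⟩, 0⟩ 0 0))) (.cut .v 16777216 (.cut .v 8388608 (.cut .v 4194304 (.cut .v 2097152 (.pos 71 .pm ⟨0, 0, 19337641, 0, 16451367, 0, 0, 0, 14377350, ⟨0, 0⟩, 2804900⟩ 0 0) (.pos 72 .pm ⟨0, 3308589, 0, 0, 0, 0, 0, 0, 10305286, ⟨0, 0⟩, 7053950⟩ 0 0)) (.cut .d 4024593 (.pos 5 .pm ⟨0, 0, 0, 0, 0, 0, 0, 0, 0, ⟨0, 0⟩, 0⟩ 0 0) (.cut .d 6036890 (.pos 5 .pm ⟨0, 0, 0, 0, 0, 0, 0, 0, 0, ⟨0, 0⟩, 0⟩ 0 0) (.cut .l 7801405 (.cut .d 7043038 (.cut .l 4991221 (.cut .v 6291456 (.cut .s 11534336 (.pos 73 .pm ⟨0, 28739850, 0, 0, 0, 0, 0, 0, 0, ⟨0, 0⟩, 0⟩ 0 0) (.cut .d 6539964 (.pos 73 .pm ⟨0,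 0, 0, 0, 0, 0, 0, 0, 0, ⟨0, 0⟩, 0⟩ 0 0) (.cut .s 11632640 (.pos 73 .pm ⟨0, 38656979, 0, 0, 0, 0, 0, 0, 0, ⟨0, 0⟩, 0⟩ 0 0) (.pos 73 .pm ⟨0, 44021938, 0, 0, 0, 0, 0, 0, 0, ⟨0, 0⟩, 0⟩ 0 0)))) (.cut .d 6539964 (.pos 74 .pm ⟨0, 0, 0, 0, 0, 0, 0, 0, 0, ⟨0, 0⟩, 0⟩ 0 0) (.cut .l 3586129 (.cut .l 2883583 (.cut .s 11534336 (.cut .v 7340032 (.cut .s 11436032 (.pos 77 .pm ⟨0, 0, 0, 0, 0, 0, 0, 0, 0, ⟨0, 0⟩, 0⟩ 0 0) (.cut .v 6815744 (.pos 81 .pm ⟨0, 34924458, 0, 0, 0, 0, 0, 0, 0, ⟨0, 0⟩, 0⟩ 0 0) (.cut .s 11485184 (.pos 82 .pm ⟨0, 0, 0, 0, 0, 0, 0, 0, 0, ⟨0, 0⟩, 0⟩ 0 0) (.pos 82 .pm ⟨0, 37236858, 0, 0, 0, 0, 0, 0, 0, ⟨0, 0⟩, 0⟩ 0 0)))) (.pos 78 .pm ⟨0, 32428801, 0, 0, 0,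 0, 0, 0, 0, ⟨0, 0⟩, 0⟩ 0 0)) (.cut .v 7340032 (.cut .l 2532310 (.cut .d 6791501 (.cut .s 11632640 (.pos 77 .pm ⟨0, 17878795, 0, 0, 0, 0, 0, 0, 0, ⟨0, 0⟩, 0⟩ 0 0) (.pos 77 .pm ⟨0, 41502484, 0, 0, 0, 0, 0, 0, 0, ⟨0, 0⟩, 0⟩ 0 0)) (.cut .s 11632640 (.cut .v 6815744 (.cut .s 11583488 (.pos 81 .pm ⟨0, 40377033, 0, 0, 0, 0, 0, 0, 0, ⟨0, 0⟩, 0⟩ 0 0) (.pos 81 .pm ⟨0, 43190661, 0, 0, 0, 0, 0, 0, 0, ⟨0, 0⟩, 0⟩ 0 0)) (.pos 82 .pm ⟨0, 41905254, 0, 0, 0, 0, 0, 0, 0, ⟨0, 0⟩, 0⟩ 0 0)) (.pos 77 .pm ⟨0, 47302802, 0, 0, 0, 0, 0, 0, 0, ⟨0, 0⟩, 0⟩ 0 0))) (.pos 77 .pm ⟨0, 41651765, 0, 0, 0, 0, 0, 0, 0, ⟨0, 0⟩, 0⟩ 0 0)) (.pos 78 .pm ⟨0, 43533806, 0, 0, 0, 0, 0, 0, 0, ⟨0, 0⟩, 0⟩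 0 0))) (.pos 74 .pm ⟨0, 35387306, 0, 0, 0, 0, 0, 0, 0, ⟨0, 0⟩, 0⟩ 0 0)) (.pos 74 .pm ⟨0, 33916243, 0, 0, 0, 0, 0, 0, 0, ⟨0, 0⟩, 0⟩ 0 0)))) (.pos 5 .pm ⟨0, 29189041, 0, 0, 0, 0, 0, 0, 0, ⟨0, 0⟩, 0⟩ 0 0)) (.cut .d 7546112 (.cut .l 4991221 (.cut .v 6291456 (.cut .s 11534336 (.pos 73 .pm ⟨0, 38720005, 0, 0, 0, 0, 0, 0, 0, ⟨0, 0⟩, 0⟩ 0 0) (.pos 73 .pm ⟨0, 96126073, 0, 0, 0, 0, 0, 0, 0, ⟨0, 0⟩, 0⟩ 0 0)) (.cut .s 11534336 (.cut .l 3586129 (.cut .l 2883583 (.cut .v 7340032 (.cut .l 2532310 (.cut .s 11436032 (.cut .l 2356674 (.cut .d 7294575 (.cut .v 6815744 (.pos 81 .pm ⟨0, 34998249, 0, 0, 0, 0, 0, 0, 0, ⟨0, 0⟩, 0⟩ 0 0) (.cut .s 11386880 (.pos 82 .pm ⟨0, 34081130,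 0, 0, 0, 0, 0, 0, 0, ⟨0, 0⟩, 0⟩ 0 0) (.cut .s 11411456 (.pos 82 .pm ⟨0, 36070938, 0, 0, 0, 0, 0, 0, 0, ⟨0, 0⟩, 0⟩ 0 0) (.pos 82 .pm ⟨0, 37416373, 0, 0, 0, 0, 0, 0, 0, ⟨0, 0⟩, 0⟩ 0 0)))) (.cut .v 6815744 (.pos 81 .pm ⟨0, 38907276, 0, 0, 0, 0, 0, 0, 0, ⟨0, 0⟩, 0⟩ 0 0) (.pos 82 .pm ⟨0, 39575833, 0, 0, 0, 0, 0, 0, 0, ⟨0, 0⟩, 0⟩ 0 0))) (.pos 77 .pm ⟨0, 36957269, 0, 0, 0, 0, 0, 0, 0, ⟨0, 0⟩, 0⟩ 0 0)) (.cut .d 7294575 (.cut .l 2356674 (.cut .l 2268856 (.cut .v 6815744 (.cut .s 11485184 (.pos 81 .pm ⟨0, 38971228, 0, 0, 0, 0, 0, 0, 0, ⟨0, 0⟩, 0⟩ 0 0) (.pos 81 .pm ⟨0, 41854573, 0, 0, 0, 0, 0, 0, 0, ⟨0, 0⟩, 0⟩ 0 0)) (.cut .s 11485184 (.cut .d 7168806 (.pos 82 .pm ⟨0,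 38480711, 0, 0, 0, 0, 0, 0, 0, ⟨0, 0⟩, 0⟩ 0 0) (.pos 82 .pm ⟨0, 53416549, 0, 0, 0, 0, 0, 0, 0, ⟨0, 0⟩, 0⟩ 0 0)) (.pos 82 .pm ⟨0, 42486774, 0, 0, 0, 0, 0, 0, 0, ⟨0, 0⟩, 0⟩ 0 0))) (.pos 77 .pm ⟨0, 41042829, 0, 0, 0, 0, 0, 0, 0, ⟨0, 0⟩, 0⟩ 0 0)) (.pos 77 .pm ⟨0, 40863492, 0, 0, 0, 0, 0, 0, 0, ⟨0, 0⟩, 0⟩ 0 0)) (.void 77 ⟨0, 100000, 0, 0, 0, 0, 0, 0, 0, ⟨0, 0⟩, 0⟩ 0 0))) (.pos 77 .pm ⟨0, 40068654, 0, 0, 0, 0, 0, 0, 0, ⟨0, 0⟩, 0⟩ 0 0)) (.cut .s 11436032 (.cut .d 7294575 (.pos 78 .pm ⟨0, 35715250, 0, 0, 0, 0, 0, 0, 0, ⟨0, 0⟩, 0⟩ 0 0) (.pos 78 .pm ⟨0, 39926633, 0, 0, 0, 0, 0, 0, 0, ⟨0, 0⟩, 0⟩ 0 0)) (.pos 78 .pm ⟨0, 44101380, 0, 0, 0, 0, 0, 0, 0, ⟨0, 0⟩, 0⟩ 0 0)))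 (.pos 74 .pm ⟨0, 39799913, 0, 0, 0, 0, 0, 0, 0, ⟨0, 0⟩, 0⟩ 0 0)) (.pos 74 .pm ⟨0, 38792002, 0, 0, 0, 0, 0, 0, 0, ⟨0, 0⟩, 0⟩ 0 0)) (.void 74 ⟨0, 100000, 0, 0, 0, 0, 0, 0, 0, ⟨0, 0⟩, 0⟩ 0 0))) (.pos 5 .pm ⟨0, 41056194, 0, 0, 0, 0, 0, 0, 0, ⟨0, 0⟩, 0⟩ 0 0)) (.pos 5 .pm ⟨0, 542778808, 0, 0, 0, 0, 0, 0, 7638974, ⟨0, 0⟩, 9975792⟩ 0 0))) (.pos 5 .pm ⟨0, 34936737, 0, 0, 0, 0, 0, 0, 0, ⟨0, 0⟩, 0⟩ 0 0))))) (.cut .d 4024593 (.pos 3 .pm ⟨0, 0, 0, 0, 0, 0, 0, 0, 0, ⟨0, 0⟩, 0⟩ 0 0) (.cut .d 6036890 (.pos 3 .pm ⟨0, 0, 0, 0, 0, 0, 0, 0, 0, ⟨0, 0⟩, 0⟩ 0 0) (.cut .d 7043038 (.pos 3 .pm ⟨0, 33905916, 0, 0, 0, 0, 0, 0, 0, ⟨0, 0⟩, 0⟩ 0 0) (.pos 3 .pm ⟨0, 56620169, 0, 0, 0, 0,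 0, 0, 0, ⟨0, 0⟩, 0⟩ 0 0))))) (.cut .v 268435456 (.cut .d 4024593 (.cut .v 67108864 (.cut .d 2012296 (.cut .v 33554432 (.cut .d 1006148 (.cut .v 25165824 (.cut .v 20971520 (.pos 13 .pp ⟨37745517, 0, 0, 0, 0, 0, 0, 0, 0, ⟨0, 0⟩, 0⟩ 0 0) (.pos 14 .pp ⟨126114470, 0, 0, 0, 0, 0, 0, 0, 0, ⟨0, 0⟩, 0⟩ 0 0)) (.pos 12 .pp ⟨217065852, 0, 0, 0, 0, 0, 0, 0, 0, ⟨0, 0⟩, 0⟩ 0 0)) (.pos 9 .pp ⟨0, 0, 0, 0, 0, 0, 0, 0, 0, ⟨0, 0⟩, 0⟩ 0 0)) (.cut .v 50331648 (.cut .v 41943040 (.cut .v 37748736 (.pos 45 .pp ⟨332595762, 0, 0, 0, 0, 0, 0, 0, 0, ⟨0, 0⟩, 0⟩ 0 0) (.pos 46 .pp ⟨423879524, 0, 0, 0, 0, 0, 0, 0, 0, ⟨0, 0⟩, 0⟩ 0 0)) (.pos 26 .pp ⟨573972067, 0, 0, 0, 0, 0, 0, 0, 0, ⟨0, 0⟩,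 0⟩ 0 0)) (.cut .d 1006148 (.pos 24 .pp ⟨1335648465, 0, 0, 0, 0, 0, 0, 0, 0, ⟨0, 0⟩, 0⟩ 0 0) (.pos 24 .pp ⟨712030027, 0, 0, 0, 0, 0, 0, 0, 0, ⟨0, 0⟩, 0⟩ 0 0)))) (.pos 8 .pp ⟨0, 0, 0, 0, 0, 0, 0, 0, 0, ⟨0, 0⟩, 0⟩ 0 0)) (.cut .v 134217728 (.cut .d 2012296 (.cut .d 1006148 (.void 87 ⟨100000, 0, 0, 0, 0, 0, 0, 0, 0, ⟨0, 0⟩, 0⟩ 0 0) (.pos 87 .pp ⟨1974261422, 864863144, 0, 0, 0, 0, 0, 0, 0, ⟨0, 0⟩, 0⟩ 0 0)) (.void 87 ⟨0, 100000, 0, 0, 0, 0, 0, 0, 0, ⟨0, 0⟩, 0⟩ 0 0)) (.void 88 ⟨0, 0, 0, 100000, 0, 0, 0, 0, 0, ⟨0, 0⟩, 0⟩ 0 0))) (.pos 48 .pp ⟨0, 9011643, 0, 0, 0, 0, 0, 0, 0, ⟨0, 0⟩, 0⟩ 0 0)) (.void 66 ⟨0, 0, 0, 100000, 0, 0, 0, 0, 0, ⟨0, 0⟩, 0⟩ 0 0)))),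
    by decide +kernel⟩

def covers17 : cell.Covers table row17.1 :=
  ⟨(.cut .d 0 (.cut .v 16777216 (.cut .d (-8388608) (.void 1 ⟨0, 0, 0, 0, 0, 100000, 0, 0, 0, ⟨0, 0⟩, 0⟩ 0 0) (.cut .d (-4194304) (.void 1 ⟨0, 0, 0, 0, 0, 100000, 0, 0, 0, ⟨0, 0⟩, 0⟩ 0 0) (.cut .d (-2097152) (.void 1 ⟨0, 0, 0, 0, 0, 100000, 0, 0, 0, ⟨0, 0⟩, 0⟩ 0 0) (.cut .v 8388608 (.cut .v 4194304 (.void 4 ⟨0, 0, 100000, 0, 0, 0, 0, 0, 0, ⟨0, 0⟩, 0⟩ 0 0) (.pos 5 .mm ⟨0, 0, 14018934, 0, 0, 88549939, 0, 0, 0, ⟨0, 0⟩, 0⟩ 0 0)) (.cut .d (-1048576) (.cut .v 12582912 (.pos 6 .mm ⟨0, 0, 3765054, 0, 0, 192842852, 0, 0, 0, ⟨0, 0⟩, 0⟩ 0 0) (.cut .l 7801405 (.void 7 ⟨0, 0, 0, 0, 0, 100000, 0, 0, 0,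 ⟨0, 0⟩, 0⟩ 0 0) (.cut .s 11993088 (.cut .v 14680064 (.pos 35 .mm ⟨0, 0, 0, 0, 0, 197157999, 0, 0, 0, ⟨0, 0⟩, 0⟩ 0 0) (.cut .d (-1572864) (.cut .d (-1835008) (.void 36 ⟨0, 0, 0, 0, 0, 100000, 0, 0, 0, ⟨0, 0⟩, 0⟩ 0 0) (.cut .v 15728640 (.pos 37 .mm ⟨0, 0, 0, 0, 0, 223200007, 0, 0, 0, ⟨0, 0⟩, 0⟩ 0 0) (.cut .v 16252928 (.pos 43 .mm ⟨0, 0, 0, 0, 0, 236272854, 0, 0, 0, ⟨0, 0⟩, 0⟩ 0 0) (.cut .l 10611589 (.void 44 ⟨0, 0, 0, 0, 0, 100000, 0, 0, 0, ⟨0, 0⟩, 0⟩ 0 0) (.cut .l 12016681 (.pos 44 .mm ⟨102347658, 0, 0, 0, 0, 140373853, 0, 0, 0, ⟨0, 0⟩, 0⟩ 0 0) (.cut .s 11862016 (.cut .s 11796480 (.pos 44 .mm ⟨127257137, 0, 0, 0, 0, 47985809, 0, 0, 0, ⟨0, 0⟩, 0⟩ 0 0) (.cut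 .d (-1703936) (.pos 44 .mm ⟨111605743, 0, 0, 0, 0, 103523706, 0, 0, 0, ⟨0, 0⟩, 0⟩ 0 0) (.pos 44 .mm ⟨114728541, 0, 0, 0, 0, 69852908, 0, 0, 0, ⟨0, 0⟩, 0⟩ 0 0))) (.cut .d (-1703936) (.pos 44 .mm ⟨120572447, 0, 0, 0, 0, 125419451, 0, 0, 0, ⟨0, 0⟩, 0⟩ 0 0) (.pos 44 .mm ⟨133354937, 0, 0, 0, 0, 69479215, 0, 0, 0, ⟨0, 0⟩, 0⟩ 0 0)))))))) (.cut .v 15728640 (.pos 37 .mm ⟨0, 0, 0, 0, 0, 203260159, 0, 0, 0, ⟨0, 0⟩, 0⟩ 0 0) (.cut .s 11862016 (.pos 38 .mm ⟨29189031, 0, 0, 0, 0, 171823543, 0, 0, 0, ⟨0, 0⟩, 0⟩ 0 0) (.cut .s 11927552 (.pos 38 .mm ⟨48625532, 0, 0, 0, 0, 164360545, 0, 0, 0, ⟨0, 0⟩, 0⟩ 0 0) (.pos 38 .mm ⟨55538643, 0, 0, 0, 0, 168581672, 0, 0, 0, ⟨0, 0⟩, 0⟩ 0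 0)))))) (.cut .v 14680064 (.pos 35 .mm ⟨0, 0, 0, 0, 0, 254397661, 0, 0, 0, ⟨0, 0⟩, 0⟩ 0 0) (.cut .d (-1572864) (.cut .d (-1835008) (.void 36 ⟨0, 0, 0, 0, 0, 100000, 0, 0, 0, ⟨0, 0⟩, 0⟩ 0 0) (.cut .d (-1703936) (.void 36 ⟨0, 0, 0, 0, 0, 100000, 0, 0, 0, ⟨0, 0⟩, 0⟩ 0 0) (.cut .v 15728640 (.pos 37 .mm ⟨0, 0, 0, 0, 0, 294347113, 0, 0, 0, ⟨0, 0⟩, 0⟩ 0 0) (.cut .v 16252928 (.pos 43 .mm ⟨0, 0, 0, 0, 0, 314793673, 0, 0, 0, ⟨0, 0⟩, 0⟩ 0 0) (.cut .l 10611589 (.void 44 ⟨100000, 0, 0, 0, 0, 0, 0, 0, 0, ⟨0, 0⟩, 0⟩ 0 0) (.cut .l 12016681 (.void 44 ⟨0, 0, 0, 0, 0, 100000, 0, 0, 0, ⟨0, 0⟩, 0⟩ 0 0) (.cut .l 12719227 (.pos 44 .mm ⟨130090801, 0, 0, 0, 0, 176589828, 0, 0, 0,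 ⟨0, 0⟩, 0⟩ 0 0) (.cut .s 12124160 (.cut .d (-1638400) (.pos 44 .mm ⟨131197892, 0, 0, 0, 0, 139767100, 0, 0, 0, ⟨0, 0⟩, 0⟩ 0 0) (.pos 44 .mm ⟨152182974, 0, 0, 0, 0, 70898458, 0, 0, 0, ⟨0, 0⟩, 0⟩ 0 0)) (.cut .s 12189696 (.pos 44 .mm ⟨142247166, 0, 0, 0, 0, 143234620, 0, 0, 0, ⟨0, 0⟩, 0⟩ 0 0) (.pos 44 .mm ⟨153555678, 0, 0, 0, 0, 149271800, 0, 0, 0, ⟨0, 0⟩, 0⟩ 0 0)))))))))) (.cut .v 15728640 (.pos 37 .mm ⟨0, 0, 0, 0, 0, 260954587, 0, 0, 0, ⟨0, 0⟩, 0⟩ 0 0) (.cut .s 12124160 (.cut .d (-1310720) (.cut .s 12058624 (.pos 38 .mm ⟨98282524, 0, 0, 0, 0, 126873921, 0, 0, 0, ⟨0, 0⟩, 0⟩ 0 0) (.pos 38 .mm ⟨111353035, 0, 0, 0, 0, 123389545, 0, 0, 0, ⟨0, 0⟩, 0⟩ 0 0)) (.pos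 38 .mm ⟨44185980, 0, 0, 0, 0, 199377141, 0, 0, 0, ⟨0, 0⟩, 0⟩ 0 0)) (.cut .d (-1310720) (.cut .v 16252928 (.pos 43 .mm ⟨0, 0, 0, 0, 0, 295513657, 0, 0, 0, ⟨0, 0⟩, 0⟩ 0 0) (.cut .s 12189696 (.pos 44 .mm ⟨153444428, 0, 0, 0, 0, 82968773, 0, 0, 0, ⟨0, 0⟩, 0⟩ 0 0) (.pos 44 .mm ⟨165624575, 0, 0, 0, 0, 86943461, 0, 0, 0, ⟨0, 0⟩, 0⟩ 0 0))) (.pos 38 .mm ⟨53751829, 0, 0, 0, 0, 217553943, 0, 0, 0, ⟨0, 0⟩, 0⟩ 0 0))))))))) (.cut .v 12582912 (.cut .d (-524288) (.pos 6 .mm ⟨0, 0, 0, 0, 0, 141114333, 0, 0, 0, ⟨0, 0⟩, 0⟩ 0 0) (.pos 6 .mm ⟨0, 0, 0, 0, 0, 106699776, 0, 0, 0, ⟨0, 0⟩, 0⟩ 0 0)) (.cut .l 7801405 (.cut .d (-524288) (.cut .l 4991221 (.pos 7 .mm ⟨0, 0, 0, 0, 0, 287038714,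 0, 0, 0, ⟨0, 0⟩, 0⟩ 0 0) (.cut .v 14680064 (.pos 35 .mm ⟨0, 0, 0, 0, 0, 197082516, 0, 0, 0, ⟨0, 0⟩, 0⟩ 0 0) (.cut .v 15728640 (.pos 37 .mm ⟨0, 0, 0, 0, 0, 221396652, 0, 0, 0, ⟨0, 0⟩, 0⟩ 0 0) (.cut .s 11993088 (.cut .s 11862016 (.pos 38 .mm ⟨0, 0, 0, 0, 0, 201243359, 0, 0, 0, ⟨0, 0⟩, 0⟩ 0 0) (.pos 38 .mm ⟨0, 0, 0, 0, 0, 226900960, 0, 0, 0, ⟨0, 0⟩, 0⟩ 0 0)) (.cut .s 12124160 (.pos 38 .mm ⟨36525018, 0, 0, 0, 0, 206349611, 0, 0, 0, ⟨0, 0⟩, 0⟩ 0 0) (.pos 38 .mm ⟨43108742, 0, 0, 0, 0, 228033175, 0, 0, 0, ⟨0, 0⟩, 0⟩ 0 0)))))) (.cut .l 4991221 (.cut .v 14680064 (.pos 35 .mm ⟨0, 0, 0, 0, 0, 165890340, 0, 0, 0, ⟨0, 0⟩, 0⟩ 0 0) (.cut .s 11993088 (.cut .d (-262144) (.pos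 36 .mm ⟨0, 0, 0, 0, 0, 207063106, 0, 0, 0, ⟨0, 0⟩, 0⟩ 0 0) (.pos 36 .mm ⟨0, 0, 0, 0, 0, 176365138, 0, 0, 0, ⟨0, 0⟩, 0⟩ 0 0)) (.cut .d (-262144) (.pos 36 .mm ⟨0, 0, 0, 0, 0, 260462984, 0, 0, 0, ⟨0, 0⟩, 0⟩ 0 0) (.pos 36 .mm ⟨0, 0, 0, 0, 0, 223833738, 0, 0, 0, ⟨0, 0⟩, 0⟩ 0 0)))) (.pos 7 .mm ⟨0, 0, 0, 0, 0, 152862736, 0, 0, 0, ⟨0, 0⟩, 0⟩ 0 0))) (.cut .s 11993088 (.pos 7 .mm ⟨0, 0, 0, 0, 0, 154870268, 0, 0, 0, ⟨0, 0⟩, 0⟩ 0 0) (.cut .d (-524288) (.cut .s 12124160 (.pos 7 .mm ⟨0, 0, 0, 0, 0, 220342599, 0, 0, 0, ⟨0, 0⟩, 0⟩ 0 0) (.pos 7 .mm ⟨0, 0, 0, 0, 0, 248881325, 0, 0, 0, ⟨0, 0⟩, 0⟩ 0 0)) (.pos 7 .mm ⟨0, 0, 0, 0, 0, 0, 0, 0, 0, ⟨0, 0⟩, 0⟩ 0 0)))))))))) (.cut .v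 268435456 (.cut .v 67108864 (.cut .d (-8388608) (.void 8 ⟨0, 0, 0, 0, 0, 100000, 0, 0, 0, ⟨0, 0⟩, 0⟩ 0 0) (.cut .d (-4194304) (.void 8 ⟨100000, 0, 0, 0, 0, 0, 0, 0, 0, ⟨0, 0⟩, 0⟩ 0 0) (.cut .d (-2097152) (.void 8 ⟨100000, 0, 0, 0, 0, 0, 0, 0, 0, ⟨0, 0⟩, 0⟩ 0 0) (.cut .v 33554432 (.cut .v 25165824 (.cut .d (-1048576) (.cut .v 20971520 (.cut .l 7801405 (.void 13 ⟨100000, 0, 0, 0, 0, 0, 0, 0, 0, ⟨0, 0⟩, 0⟩ 0 0) (.cut .d (-1572864) (.cut .v 18874368 (.cut .d (-1835008) (.void 15 ⟨100000, 0, 0, 0, 0, 0, 0, 0, 0, ⟨0, 0⟩, 0⟩ 0 0) (.cut .s 11993088 (.cut .s 11862016 (.cut .s 11796480 (.pos 15 .mp ⟨179459240, 0, 0, 0, 0, 0, 0, 0, 0, ⟨0, 0⟩, 0⟩ 0 0) (.pos 15 .mp ⟨190235520,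 0, 0, 0, 0, 0, 0, 0, 0, ⟨0, 0⟩, 0⟩ 0 0)) (.pos 15 .mp ⟨211835252, 0, 0, 0, 0, 0, 0, 0, 0, ⟨0, 0⟩, 0⟩ 0 0)) (.pos 15 .mp ⟨262795363, 0, 0, 0, 0, 0, 0, 0, 0, ⟨0, 0⟩, 0⟩ 0 0))) (.void 16 ⟨100000, 0, 0, 0, 0, 0, 0, 0, 0, ⟨0, 0⟩, 0⟩ 0 0)) (.cut .v 18874368 (.cut .s 11993088 (.cut .v 17825792 (.cut .s 11862016 (.pos 17 .mp ⟨166159067, 0, 0, 0, 0, 0, 0, 0, 0, ⟨0, 0⟩, 0⟩ 0 0) (.pos 17 .mp ⟨186247184, 0, 0, 0, 0, 0, 0, 0, 0, ⟨0, 0⟩, 0⟩ 0 0)) (.pos 18 .mp ⟨197021534, 0, 0, 0, 0, 0, 0, 0, 0, ⟨0, 0⟩, 0⟩ 0 0)) (.cut .v 17825792 (.cut .l 10611589 (.pos 17 .mp ⟨233886902, 0, 0, 0, 0, 0, 0, 0, 0, ⟨0, 0⟩, 0⟩ 0 0) (.cut .s 12124160 (.pos 17 .mp ⟨203465004, 0, 0, 0, 0, 0, 0,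 0, 0, ⟨0, 0⟩, 0⟩ 0 0) (.pos 17 .mp ⟨227942796, 0, 0, 0, 0, 0, 0, 0, 0, ⟨0, 0⟩, 0⟩ 0 0))) (.pos 18 .mp ⟨247124214, 0, 0, 0, 0, 0, 0, 0, 0, ⟨0, 0⟩, 0⟩ 0 0))) (.cut .s 11993088 (.pos 16 .mp ⟨227734037, 0, 0, 0, 0, 0, 0, 0, 0, ⟨0, 0⟩, 0⟩ 0 0) (.pos 16 .mp ⟨285240240, 0, 0, 0, 0, 0, 0, 0, 0, ⟨0, 0⟩, 0⟩ 0 0))))) (.pos 14 .mp ⟨417310628, 0, 0, 0, 0, 0, 0, 0, 0, ⟨0, 0⟩, 0⟩ 0 0)) (.cut .v 20971520 (.cut .l 7801405 (.cut .d (-524288) (.cut .v 18874368 (.cut .s 11993088 (.cut .d (-786432) (.pos 15 .mp ⟨187173420, 0, 0, 0, 0, 0, 0, 0, 0, ⟨0, 0⟩, 0⟩ 0 0) (.cut .s 11862016 (.pos 15 .mp ⟨158115903, 0, 0, 0, 0, 610783, 0, 0, 0, ⟨0, 0⟩, 0⟩ 0 0) (.pos 15 .mp ⟨176708914, 0,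 0, 0, 0, 0, 0, 0, 0, ⟨0, 0⟩, 0⟩ 0 0))) (.cut .l 4991221 (.pos 15 .mp ⟨104364626, 0, 0, 0, 0, 222046515, 0, 0, 0, ⟨0, 0⟩, 0⟩ 0 0) (.cut .d (-786432) (.pos 15 .mp ⟨222139892, 0, 0, 0, 0, 0, 0, 0, 0, ⟨0, 0⟩, 0⟩ 0 0) (.pos 15 .mp ⟨192974753, 0, 0, 0, 0, 0, 0, 0, 0, ⟨0, 0⟩, 0⟩ 0 0)))) (.pos 16 .mp ⟨261535776, 0, 0, 0, 0, 0, 0, 0, 0, ⟨0, 0⟩, 0⟩ 0 0)) (.cut .v 18874368 (.cut .l 4991221 (.cut .d (-262144) (.cut .v 17825792 (.cut .s 11993088 (.cut .l 3586129 (.cut .v 17301504 (.cut .s 11862016 (.pos 39 .mp ⟨47643986, 0, 0, 0, 0, 145346463, 0, 0, 0, ⟨0, 0⟩, 0⟩ 0 0) (.pos 39 .mp ⟨54863685, 0, 0, 0, 0, 160577669, 0, 0, 0, ⟨0, 0⟩, 0⟩ 0 0)) (.pos 40 .mp ⟨168345275, 0, 0,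 0, 0, 0, 0, 0, 0, ⟨0, 0⟩, 0⟩ 0 0)) (.pos 17 .mp ⟨108330208, 0, 0, 0, 0, 44612134, 0, 0, 0, ⟨0, 0⟩, 0⟩ 0 0)) (.cut .v 17301504 (.cut .s 12124160 (.cut .s 12058624 (.pos 39 .mp ⟨86536184, 0, 0, 0, 0, 130367840, 0, 0, 0, ⟨0, 0⟩, 0⟩ 0 0) (.pos 39 .mp ⟨91978903, 0, 0, 0, 0, 136308134, 0, 0, 0, ⟨0, 0⟩, 0⟩ 0 0)) (.pos 39 .mp ⟨51743325, 0, 0, 0, 0, 216749710, 0, 0, 0, ⟨0, 0⟩, 0⟩ 0 0)) (.pos 40 .mp ⟨203549932, 0, 0, 0, 0, 0, 0, 0, 0, ⟨0, 0⟩, 0⟩ 0 0))) (.pos 18 .mp ⟨198122956, 0, 0, 0, 0, 0, 0, 0, 0, ⟨0, 0⟩, 0⟩ 0 0)) (.cut .d (-131072) (.cut .v 17825792 (.cut .l 3586129 (.cut .l 2883583 (.cut .s 11993088 (.cut .l 2532310 (.cut .v 17301504 (.cut .v 17039360 (.pos 67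 .mp ⟨0, 0, 0, 0, 0, 195341708, 0, 0, 0, ⟨0, 0⟩, 0⟩ 0 0) (.cut .d (-196608) (.cut .s 11862016 (.pos 68 .mp ⟨56676327, 0, 0, 0, 0, 122171076, 0, 0, 0, ⟨0, 0⟩, 0⟩ 0 0) (.pos 68 .mp ⟨66173718, 0, 0, 0, 0, 134884454, 0, 0, 0, ⟨0, 0⟩, 0⟩ 0 0)) (.cut .s 11862016 (.pos 68 .mp ⟨64774548, 0, 0, 0, 0, 0, 0, 0, 0, ⟨0, 0⟩, 0⟩ 0 0) (.pos 68 .mp ⟨72773322, 0, 0, 0, 0, 91999515, 0, 0, 0, ⟨0, 0⟩, 0⟩ 0 0)))) (.cut .d (-196608) (.pos 40 .mp ⟨158453892, 0, 0, 0, 0, 0, 0, 0, 0, ⟨0, 0⟩, 0⟩ 0 0) (.pos 40 .mp ⟨133043004, 0, 0, 0, 0, 0, 0, 0, 0, ⟨0, 0⟩, 0⟩ 0 0))) (.pos 17 .mp ⟨81360130, 0, 0, 0, 0, 56673851, 0, 0, 0, ⟨0, 0⟩, 0⟩ 0 0)) (.cut .v 17301504 (.cut .v 17039360 (.pos 67 .mp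 ⟨0, 0, 0, 0, 0, 246608016, 0, 0, 0, ⟨0, 0⟩, 0⟩ 0 0) (.cut .l 2532310 (.cut .d (-196608) (.cut .s 12124160 (.pos 68 .mp ⟨77857338, 0, 0, 0, 0, 144318069, 0, 0, 0, ⟨0, 0⟩, 0⟩ 0 0) (.pos 68 .mp ⟨89927243, 0, 0, 0, 0, 155497006, 0, 0, 0, ⟨0, 0⟩, 0⟩ 0 0)) (.cut .d (-163840) (.cut .s 12124160 (.cut .s 12058624 (.pos 68 .mp ⟨78303410, 0, 0, 0, 0, 107470320, 0, 0, 0, ⟨0, 0⟩, 0⟩ 0 0) (.pos 68 .mp ⟨72948544, 0, 0, 0, 0, 138926983, 0, 0, 0, ⟨0, 0⟩, 0⟩ 0 0)) (.pos 68 .mp ⟨77512144, 0, 0, 0, 0, 153124830, 0, 0, 0, ⟨0, 0⟩, 0⟩ 0 0)) (.pos 68 .mp ⟨0, 0, 0, 0, 0, 0, 0, 0, 0, ⟨0, 0⟩, 0⟩ 0 0))) (.pos 68 .mp ⟨100841362, 0, 0, 0, 0, 86837472, 0, 0, 0, ⟨0, 0⟩, 0⟩ 0 0))) (.cut .d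 (-196608) (.pos 40 .mp ⟨196260495, 0, 0, 0, 0, 0, 0, 0, 0, ⟨0, 0⟩, 0⟩ 0 0) (.pos 40 .mp ⟨166866028, 0, 0, 0, 0, 0, 0, 0, 0, ⟨0, 0⟩, 0⟩ 0 0)))) (.pos 17 .mp ⟨93894950, 0, 0, 0, 0, 0, 0, 0, 0, ⟨0, 0⟩, 0⟩ 0 0)) (.pos 17 .mp ⟨0, 0, 0, 0, 0, 0, 0, 0, 0, ⟨0, 0⟩, 0⟩ 0 0)) (.pos 18 .mp ⟨173283848, 0, 0, 0, 0, 0, 0, 0, 0, ⟨0, 0⟩, 0⟩ 0 0)) (.pos 15 .mp ⟨78960439, 0, 0, 0, 0, 0, 0, 0, 0, ⟨0, 0⟩, 0⟩ 0 0))) (.pos 15 .mp ⟨124366008, 0, 0, 0, 0, 0, 0, 0, 0, ⟨0, 0⟩, 0⟩ 0 0)) (.cut .s 11993088 (.pos 16 .mp ⟨183463660, 0, 0, 0, 0, 0, 0, 0, 0, ⟨0, 0⟩, 0⟩ 0 0) (.pos 16 .mp ⟨225060751, 0, 0, 0, 0, 0, 0, 0, 0, ⟨0, 0⟩, 0⟩ 0 0)))) (.cut .d (-524288) (.cut .d (-786432) (.cut .v 18874368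 (.cut .s 11993088 (.pos 15 .mp ⟨153885484, 0, 0, 0, 0, 0, 0, 0, 0, ⟨0, 0⟩, 0⟩ 0 0) (.pos 15 .mp ⟨192879489, 0, 0, 0, 0, 0, 0, 0, 0, ⟨0, 0⟩, 0⟩ 0 0)) (.pos 16 .mp ⟨215214597, 0, 0, 0, 0, 0, 0, 0, 0, ⟨0, 0⟩, 0⟩ 0 0)) (.pos 13 .mp ⟨147252589, 0, 0, 0, 0, 0, 0, 0, 0, ⟨0, 0⟩, 0⟩ 0 0)) (.pos 13 .mp ⟨70044950, 0, 0, 0, 0, 0, 0, 0, 0, ⟨0, 0⟩, 0⟩ 0 0))) (.cut .d (-524288) (.cut .s 11993088 (.pos 14 .mp ⟨266476226, 0, 0, 0, 0, 0, 0, 0, 0, ⟨0, 0⟩, 0⟩ 0 0) (.pos 14 .mp ⟨328132343, 0, 0, 0, 0, 0, 0, 0, 0, ⟨0, 0⟩, 0⟩ 0 0)) (.cut .s 11993088 (.pos 14 .mp ⟨227202946, 0, 0, 0, 0, 0, 0, 0, 0, ⟨0, 0⟩, 0⟩ 0 0) (.pos 14 .mp ⟨278207366, 0, 0, 0, 0, 0, 0, 0, 0, ⟨0, 0⟩, 0⟩ 0 0)))))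 (.cut .d (-1048576) (.void 12 ⟨100000, 0, 0, 0, 0, 0, 0, 0, 0, ⟨0, 0⟩, 0⟩ 0 0) (.cut .v 29360128 (.cut .s 11993088 (.pos 50 .mp ⟨346303348, 0, 0, 0, 0, 0, 0, 0, 0, ⟨0, 0⟩, 0⟩ 0 0) (.pos 50 .mp ⟨420779594, 0, 0, 0, 0, 0, 0, 0, 0, ⟨0, 0⟩, 0⟩ 0 0)) (.pos 51 .mp ⟨528095357, 0, 0, 0, 0, 0, 0, 0, 0, ⟨0, 0⟩, 0⟩ 0 0)))) (.cut .v 50331648 (.cut .v 41943040 (.pos 25 .mp ⟨1010176004, 0, 0, 0, 0, 0, 0, 0, 0, ⟨0, 0⟩, 0⟩ 0 0) (.void 26 ⟨100000, 0, 0, 0, 0, 0, 0, 0, 0, ⟨0, 0⟩, 0⟩ 0 0)) (.void 24 ⟨100000, 0, 0, 0, 0, 0, 0, 0, 0, ⟨0, 0⟩, 0⟩ 0 0)))))) (.void 49 ⟨100000, 0, 0, 0, 0, 0, 0, 0, 0, ⟨0, 0⟩, 0⟩ 0 0)) (.void 66 ⟨93773, 0, 0, 6227, 0, 0, 0, 0, 0, ⟨0, 0⟩, 0⟩ 0 0))) (.cut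 .v 16777216 (.cut .v 8388608 (.cut .v 4194304 (.cut .v 2097152 (.cut .v 1048576 (.void 101 ⟨0, 0, 50000, 0, 50000, 0, 0, 0, 0, ⟨0, 0⟩, 0⟩ 0 0) (.pos 102 .pm ⟨0, 0, 644740, 0, 0, 0, 0, 0, 11349162, ⟨0, 0⟩, 4987896⟩ 0 0)) (.cut .d 3608508 (.pos 72 .pm ⟨0, 0, 3741184, 0, 0, 0, 0, 0, 0, ⟨0, 0⟩, 0⟩ 0 0) (.cut .d 5412762 (.pos 72 .pm ⟨0, 0, 0, 0, 0, 0, 0, 0, 0, ⟨0, 0⟩, 0⟩ 0 0) (.pos 72 .pm ⟨0, 44078779, 0, 0, 0, 0, 0, 0, 0, ⟨0, 0⟩, 0⟩ 0 0)))) (.cut .d 3608508 (.pos 5 .pm ⟨0, 0, 0, 0, 0, 0, 0, 0, 0, ⟨0, 0⟩, 0⟩ 0 0) (.cut .d 5412762 (.pos 5 .pm ⟨0, 0, 0, 0, 0, 0, 0, 0, 0, ⟨0, 0⟩, 0⟩ 0 0) (.cut .l 7801405 (.cut .d 6314889 (.cut .l 4991221 (.cut .v 6291456 (.cut .s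 11993088 (.pos 73 .pm ⟨0, 35893387, 0, 0, 0, 0, 0, 0, 0, ⟨0, 0⟩, 0⟩ 0 0) (.pos 73 .pm ⟨0, 50693528, 0, 0, 0, 0, 0, 0, 0, ⟨0, 0⟩, 0⟩ 0 0)) (.cut .s 11993088 (.pos 74 .pm ⟨0, 35921805, 0, 0, 0, 0, 0, 0, 0, ⟨0, 0⟩, 0⟩ 0 0) (.pos 74 .pm ⟨0, 54193165, 0, 0, 0, 0, 0, 0, 0, ⟨0, 0⟩, 0⟩ 0 0))) (.pos 5 .pm ⟨0, 37840020, 0, 0, 0, 0, 0, 0, 0, ⟨0, 0⟩, 0⟩ 0 0)) (.cut .s 11993088 (.cut .d 6765953 (.cut .l 4991221 (.cut .v 6291456 (.cut .s 11862016 (.pos 73 .pm ⟨0, 45729082, 0, 0, 0, 0, 0, 0, 0, ⟨0, 0⟩, 0⟩ 0 0) (.pos 73 .pm ⟨0, 54086595, 0, 0, 0, 0, 0, 0, 0, ⟨0, 0⟩, 0⟩ 0 0)) (.cut .d 6540421 (.pos 74 .pm ⟨0, 45046648, 0, 0, 0, 0, 0, 0, 0, ⟨0, 0⟩, 0⟩ 0 0) (.cut .v 7340032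 (.pos 77 .pm ⟨0, 52767229, 0, 0, 0, 0, 0, 0, 0, ⟨0, 0⟩, 0⟩ 0 0) (.pos 78 .pm ⟨0, 53379156, 0, 0, 0, 0, 0, 0, 0, ⟨0, 0⟩, 0⟩ 0 0)))) (.pos 5 .pm ⟨0, 44462307, 0, 0, 0, 0, 0, 0, 0, ⟨0, 0⟩, 0⟩ 0 0)) (.pos 5 .pm ⟨0, 385769459, 0, 0, 0, 0, 0, 0, 0, ⟨0, 0⟩, 0⟩ 0 0)) (.pos 5 .pm ⟨0, 366567604, 0, 0, 0, 0, 0, 0, 0, ⟨0, 0⟩, 0⟩ 0 0))) (.pos 5 .pm ⟨0, 49783646, 0, 0, 0, 0, 0, 0, 0, ⟨0, 0⟩, 0⟩ 0 0))))) (.cut .d 3608508 (.pos 3 .pm ⟨0, 0, 0, 0, 0, 0, 0, 0, 0, ⟨0, 0⟩, 0⟩ 0 0) (.cut .d 5412762 (.pos 3 .pm ⟨0, 0, 0, 0, 0, 0, 0, 0, 0, ⟨0, 0⟩, 0⟩ 0 0) (.cut .d 6314889 (.pos 3 .pm ⟨0, 39945710, 0, 0, 0, 0, 0, 0, 0, ⟨0, 0⟩, 0⟩ 0 0) (.pos 3 .pm ⟨0, 78228799, 0, 0, 0, 0, 0, 0, 0,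 ⟨0, 0⟩, 0⟩ 0 0))))) (.cut .v 268435456 (.cut .d 3608508 (.cut .v 67108864 (.cut .d 1804254 (.cut .v 33554432 (.cut .d 902127 (.cut .d 451063 (.cut .l 7801405 (.cut .v 25165824 (.cut .v 20971520 (.pos 13 .pp ⟨59381729, 0, 0, 0, 0, 0, 0, 0, 0, ⟨0, 0⟩, 0⟩ 0 0) (.pos 14 .pp ⟨192459929, 0, 0, 0, 0, 0, 0, 0, 0, ⟨0, 0⟩, 0⟩ 0 0)) (.pos 12 .pp ⟨351119281, 0, 0, 0, 0, 0, 0, 0, 0, ⟨0, 0⟩, 0⟩ 0 0)) (.pos 9 .pp ⟨103262172, 0, 0, 0, 0, 0, 0, 0, 0, ⟨0, 0⟩, 0⟩ 0 0)) (.pos 9 .pp ⟨79056692, 0, 0, 0, 0, 0, 0, 0, 0, ⟨0, 0⟩, 0⟩ 0 0)) (.pos 9 .pp ⟨0, 0, 0, 0, 0, 0, 0, 0, 0, ⟨0, 0⟩, 0⟩ 0 0)) (.cut .v 50331648 (.cut .d 902127 (.cut .v 41943040 (.cut .v 37748736 (.pos 45 .pp ⟨487569168,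 0, 0, 0, 0, 0, 0, 0, 0, ⟨0, 0⟩, 0⟩ 0 0) (.pos 46 .pp ⟨618402187, 0, 0, 0, 0, 0, 0, 0, 0, ⟨0, 0⟩, 0⟩ 0 0)) (.pos 26 .pp ⟨861623231, 0, 0, 0, 0, 0, 0, 0, 0, ⟨0, 0⟩, 0⟩ 0 0)) (.pos 23 .pp ⟨377752224, 0, 0, 0, 0, 0, 0, 0, 0, ⟨0, 0⟩, 0⟩ 0 0)) (.cut .d 902127 (.cut .v 58720256 (.pos 95 .pp ⟨1413196583, 0, 0, 0, 0, 0, 0, 0, 0, ⟨0, 0⟩, 0⟩ 0 0) (.pos 96 .pp ⟨2047821683, 0, 0, 0, 0, 0, 0, 0, 0, ⟨0, 0⟩, 0⟩ 0 0)) (.pos 24 .pp ⟨981277967, 0, 0, 0, 0, 0, 0, 0, 0, ⟨0, 0⟩, 0⟩ 0 0)))) (.pos 8 .pp ⟨0, 0, 0, 0, 0, 0, 0, 0, 0, ⟨0, 0⟩, 0⟩ 0 0)) (.cut .v 134217728 (.cut .d 1804254 (.cut .d 902127 (.pos 87 .pp ⟨8045984456, 0, 0, 0, 0, 0, 0, 0, 0, ⟨0, 0⟩, 0⟩ 0 0) (.pos 87 .pp ⟨2607182644,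 1379526685, 0, 0, 0, 0, 0, 0, 0, ⟨0, 0⟩, 0⟩ 0 0)) (.void 87 ⟨0, 100000, 0, 0, 0, 0, 0, 0, 0, ⟨0, 0⟩, 0⟩ 0 0)) (.void 88 ⟨0, 0, 0, 100000, 0, 0, 0, 0, 0, ⟨0, 0⟩, 0⟩ 0 0))) (.pos 48 .pp ⟨0, 17972585, 0, 0, 0, 0, 0, 0, 0, ⟨0, 0⟩, 0⟩ 0 0)) (.void 66 ⟨0, 0, 0, 100000, 0, 0, 0, 0, 0, ⟨0, 0⟩, 0⟩ 0 0)))),
    by decide +kernel⟩

def covers18 : cell.Covers table row18.1 :=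
  ⟨(.cut .d 0 (.cut .v 16777216 (.cut .v 8388608 (.pos 2 .mm ⟨0, 0, 529496238, 0, 0, 0, 0, 0, 0, ⟨0, 0⟩, 0⟩ 0 0) (.cut .d (-8388608) (.void 3 ⟨0, 0, 0, 0, 0, 100000, 0, 0, 0, ⟨0, 0⟩, 0⟩ 0 0) (.cut .d (-4194304) (.void 3 ⟨0, 0, 0, 0, 0, 100000, 0, 0, 0, ⟨0, 0⟩, 0⟩ 0 0) (.cut .d (-2097152) (.void 3 ⟨0, 0, 0, 0, 0, 100000, 0, 0, 0, ⟨0, 0⟩, 0⟩ 0 0) (.cut .d (-1048576) (.cut .d (-1572864) (.void 3 ⟨0, 0, 0, 0, 0, 100000, 0, 0, 0, ⟨0, 0⟩, 0⟩ 0 0) (.cut .v 12582912 (.pos 6 .mm ⟨0, 0, 4519292, 0, 0, 289011563, 0, 0, 0, ⟨0, 0⟩, 0⟩ 0 0) (.cut .l 7801405 (.void 7 ⟨0, 0, 0, 0, 0, 100000, 0, 0, 0, ⟨0, 0⟩, 0⟩ 0 0) (.cut .v 14680064 (.pos 35 .mm ⟨0, 0, 0, 0, 0, 343367993,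 0, 0, 0, ⟨0, 0⟩, 0⟩ 0 0) (.cut .s 12484608 (.cut .v 15728640 (.pos 37 .mm ⟨0, 0, 0, 0, 0, 327818215, 0, 0, 0, ⟨0, 0⟩, 0⟩ 0 0) (.cut .l 10611589 (.pos 38 .mm ⟨102385384, 0, 0, 0, 0, 251530132, 0, 0, 0, ⟨0, 0⟩, 0⟩ 0 0) (.cut .d (-1310720) (.cut .l 12016681 (.pos 38 .mm ⟨129176214, 0, 0, 0, 0, 233143456, 0, 0, 0, ⟨0, 0⟩, 0⟩ 0 0) (.cut .v 16252928 (.cut .d (-1441792) (.pos 43 .mm ⟨0, 0, 0, 0, 0, 385526636, 0, 0, 0, ⟨0, 0⟩, 0⟩ 0 0) (.pos 43 .mm ⟨0, 0, 0, 0, 0, 342026632, 0, 0, 0, ⟨0, 0⟩, 0⟩ 0 0)) (.cut .s 12369920 (.cut .s 12312576 (.pos 44 .mm ⟨177097697, 0, 0, 0, 0, 92154015, 0, 0, 0, ⟨0, 0⟩, 0⟩ 0 0) (.cut .d (-1441792) (.pos 44 .mm ⟨189354790, 0, 0, 0, 0, 102557692,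 0, 0, 0, ⟨0, 0⟩, 0⟩ 0 0) (.pos 44 .mm ⟨184245188, 0, 0, 0, 0, 71948672, 0, 0, 0, ⟨0, 0⟩, 0⟩ 0 0))) (.cut .d (-1441792) (.cut .s 12427264 (.pos 44 .mm ⟨202425802, 0, 0, 0, 0, 105587604, 0, 0, 0, ⟨0, 0⟩, 0⟩ 0 0) (.pos 44 .mm ⟨174386890, 0, 0, 0, 0, 188456343, 0, 0, 0, ⟨0, 0⟩, 0⟩ 0 0)) (.pos 44 .mm ⟨188813433, 0, 0, 0, 0, 105120154, 0, 0, 0, ⟨0, 0⟩, 0⟩ 0 0))))) (.cut .s 12369920 (.pos 38 .mm ⟨169817664, 0, 0, 0, 0, 63429512, 0, 0, 0, ⟨0, 0⟩, 0⟩ 0 0) (.pos 38 .mm ⟨193149492, 0, 0, 0, 0, 62050426, 0, 0, 0, ⟨0, 0⟩, 0⟩ 0 0))))) (.cut .v 15728640 (.pos 37 .mm ⟨0, 0, 0, 0, 0, 407094701, 0, 0, 0, ⟨0, 0⟩, 0⟩ 0 0) (.cut .l 10611589 (.pos 38 .mm ⟨134124309, 0, 0, 0, 0,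 299868113, 0, 0, 0, ⟨0, 0⟩, 0⟩ 0 0) (.cut .d (-1310720) (.cut .d (-1441792) (.void 38 ⟨0, 0, 0, 0, 0, 100000, 0, 0, 0, ⟨0, 0⟩, 0⟩ 0 0) (.cut .l 12016681 (.void 38 ⟨0, 0, 0, 0, 0, 100000, 0, 0, 0, ⟨0, 0⟩, 0⟩ 0 0) (.cut .l 12719227 (.pos 38 .mm ⟨157527046, 0, 0, 0, 0, 270736907, 0, 0, 0, ⟨0, 0⟩, 0⟩ 0 0) (.cut .s 12599296 (.cut .v 16252928 (.pos 43 .mm ⟨0, 0, 0, 0, 0, 417164359, 0, 0, 0, ⟨0, 0⟩, 0⟩ 0 0) (.cut .s 12541952 (.pos 44 .mm ⟨198607104, 0, 0, 0, 0, 128420326, 0, 0, 0, ⟨0, 0⟩, 0⟩ 0 0) (.pos 44 .mm ⟨212325600, 0, 0, 0, 0, 131232055, 0, 0, 0, ⟨0, 0⟩, 0⟩ 0 0))) (.cut .v 16252928 (.pos 43 .mm ⟨0, 0, 0, 0, 0, 468196477, 0, 0, 0, ⟨0, 0⟩, 0⟩ 0 0) (.pos 44 .mm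 ⟨242267489, 0, 0, 0, 0, 122589025, 0, 0, 0, ⟨0, 0⟩, 0⟩ 0 0)))))) (.cut .v 16252928 (.cut .s 12599296 (.pos 43 .mm ⟨0, 0, 0, 0, 0, 375269397, 0, 0, 0, ⟨0, 0⟩, 0⟩ 0 0) (.pos 43 .mm ⟨102305489, 0, 0, 0, 0, 274844770, 0, 0, 0, ⟨0, 0⟩, 0⟩ 0 0)) (.cut .s 12599296 (.pos 44 .mm ⟨231214524, 0, 0, 0, 0, 60894199, 0, 0, 0, ⟨0, 0⟩, 0⟩ 0 0) (.pos 44 .mm ⟨261892143, 0, 0, 0, 0, 55787269, 0, 0, 0, ⟨0, 0⟩, 0⟩ 0 0))))))))))) (.cut .v 12582912 (.cut .d (-524288) (.cut .l 7801405 (.pos 6 .mm ⟨0, 0, 0, 0, 0, 262651579, 0, 0, 0, ⟨0, 0⟩, 0⟩ 0 0) (.pos 6 .mm ⟨0, 0, 0, 0, 0, 178945411, 0, 0, 0, ⟨0, 0⟩, 0⟩ 0 0)) (.pos 6 .mm ⟨0, 0, 0, 0, 0, 166450943, 0, 0, 0, ⟨0, 0⟩, 0⟩ 0 0)) (.cut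 .d (-524288) (.cut .l 7801405 (.cut .d (-786432) (.pos 7 .mm ⟨62000626, 0, 0, 0, 0, 341352437, 0, 0, 0, ⟨0, 0⟩, 0⟩ 0 0) (.cut .s 12484608 (.pos 7 .mm ⟨25334065, 0, 0, 0, 0, 300841465, 0, 0, 0, ⟨0, 0⟩, 0⟩ 0 0) (.pos 7 .mm ⟨34985268, 0, 0, 0, 0, 357989025, 0, 0, 0, ⟨0, 0⟩, 0⟩ 0 0))) (.cut .d (-786432) (.cut .l 10611589 (.cut .s 12484608 (.pos 7 .mm ⟨28775060, 0, 0, 0, 0, 290416386, 0, 0, 0, ⟨0, 0⟩, 0⟩ 0 0) (.cut .s 12599296 (.pos 7 .mm ⟨41648068, 0, 0, 0, 0, 327217018, 0, 0, 0, ⟨0, 0⟩, 0⟩ 0 0) (.pos 7 .mm ⟨49508312, 0, 0, 0, 0, 355550453, 0, 0, 0, ⟨0, 0⟩, 0⟩ 0 0))) (.pos 7 .mm ⟨97650326, 0, 0, 0, 0, 61028721, 0, 0, 0, ⟨0, 0⟩, 0⟩ 0 0)) (.pos 7 .mm ⟨0, 0, 0, 0,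 0, 274653536, 0, 0, 0, ⟨0, 0⟩, 0⟩ 0 0))) (.cut .l 7801405 (.cut .l 4991221 (.cut .v 14680064 (.pos 35 .mm ⟨0, 0, 0, 0, 0, 262523410, 0, 0, 0, ⟨0, 0⟩, 0⟩ 0 0) (.cut .d (-262144) (.cut .s 12484608 (.pos 36 .mm ⟨0, 0, 0, 0, 0, 322374479, 0, 0, 0, ⟨0, 0⟩, 0⟩ 0 0) (.pos 36 .mm ⟨0, 0, 0, 0, 0, 390115604, 0, 0, 0, ⟨0, 0⟩, 0⟩ 0 0)) (.cut .s 12484608 (.pos 36 .mm ⟨0, 0, 0, 0, 0, 282652923, 0, 0, 0, ⟨0, 0⟩, 0⟩ 0 0) (.pos 36 .mm ⟨0, 0, 0, 0, 0, 342971092, 0, 0, 0, ⟨0, 0⟩, 0⟩ 0 0)))) (.pos 7 .mm ⟨0, 0, 0, 0, 0, 254657109, 0, 0, 0, ⟨0, 0⟩, 0⟩ 0 0)) (.pos 7 .mm ⟨0, 0, 0, 0, 0, 0, 0, 0, 0, ⟨0, 0⟩, 0⟩ 0 0))))))))) (.cut .v 268435456 (.cut .v 67108864 (.cut .d (-8388608) (.void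 8 ⟨100000, 0, 0, 0, 0, 0, 0, 0, 0, ⟨0, 0⟩, 0⟩ 0 0) (.cut .d (-4194304) (.void 8 ⟨100000, 0, 0, 0, 0, 0, 0, 0, 0, ⟨0, 0⟩, 0⟩ 0 0) (.cut .d (-2097152) (.void 8 ⟨100000, 0, 0, 0, 0, 0, 0, 0, 0, ⟨0, 0⟩, 0⟩ 0 0) (.cut .v 33554432 (.cut .v 25165824 (.cut .d (-1048576) (.cut .v 20971520 (.cut .d (-1572864) (.void 13 ⟨100000, 0, 0, 0, 0, 0, 0, 0, 0, ⟨0, 0⟩, 0⟩ 0 0) (.cut .v 18874368 (.cut .l 7801405 (.void 15 ⟨100000, 0, 0, 0, 0, 0, 0, 0, 0, ⟨0, 0⟩, 0⟩ 0 0) (.cut .s 12484608 (.cut .v 17825792 (.cut .s 12369920 (.pos 17 .mp ⟨257148417, 0, 0, 0, 0, 0, 0, 0, 0, ⟨0, 0⟩, 0⟩ 0 0) (.pos 17 .mp ⟨282685525, 0, 0, 0, 0, 0, 0, 0, 0, ⟨0, 0⟩, 0⟩ 0 0)) (.pos 18 .mp ⟨303348844,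 0, 0, 0, 0, 0, 0, 0, 0, ⟨0, 0⟩, 0⟩ 0 0)) (.cut .d (-1310720) (.pos 15 .mp ⟨359256853, 0, 0, 0, 0, 0, 0, 0, 0, ⟨0, 0⟩, 0⟩ 0 0) (.cut .s 12599296 (.pos 15 .mp ⟨303370078, 0, 0, 0, 0, 0, 0, 0, 0, ⟨0, 0⟩, 0⟩ 0 0) (.pos 15 .mp ⟨333228350, 0, 0, 0, 0, 0, 0, 0, 0, ⟨0, 0⟩, 0⟩ 0 0))))) (.pos 16 .mp ⟨408784663, 0, 0, 0, 0, 0, 0, 0, 0, ⟨0, 0⟩, 0⟩ 0 0))) (.void 14 ⟨100000, 0, 0, 0, 0, 0, 0, 0, 0, ⟨0, 0⟩, 0⟩ 0 0)) (.cut .v 20971520 (.cut .d (-524288) (.cut .l 7801405 (.cut .v 18874368 (.cut .d (-786432) (.pos 15 .mp ⟨332714328, 0, 0, 0, 0, 0, 0, 0, 0, ⟨0, 0⟩, 0⟩ 0 0) (.cut .l 4991221 (.void 15 ⟨0, 0, 0, 0, 0, 100000, 0, 0, 0, ⟨0, 0⟩, 0⟩ 0 0) (.cut .s 12484608 (.pos 15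 .mp ⟨237693454, 0, 0, 0, 0, 0, 0, 0, 0, ⟨0, 0⟩, 0⟩ 0 0) (.pos 15 .mp ⟨285924682, 0, 0, 0, 0, 0, 0, 0, 0, ⟨0, 0⟩, 0⟩ 0 0)))) (.pos 16 .mp ⟨381985936, 0, 0, 0, 0, 0, 0, 0, 0, ⟨0, 0⟩, 0⟩ 0 0)) (.cut .v 18874368 (.cut .s 12484608 (.pos 15 .mp ⟨234154682, 0, 0, 0, 0, 0, 0, 0, 0, ⟨0, 0⟩, 0⟩ 0 0) (.cut .s 12599296 (.pos 15 .mp ⟨271852059, 0, 0, 0, 0, 0, 0, 0, 0, ⟨0, 0⟩, 0⟩ 0 0) (.pos 15 .mp ⟨297833872, 0, 0, 0, 0, 0, 0, 0, 0, ⟨0, 0⟩, 0⟩ 0 0))) (.cut .s 12484608 (.pos 16 .mp ⟨289310008, 0, 0, 0, 0, 0, 0, 0, 0, ⟨0, 0⟩, 0⟩ 0 0) (.pos 16 .mp ⟨347132309, 0, 0, 0, 0, 0, 0, 0, 0, ⟨0, 0⟩, 0⟩ 0 0)))) (.cut .l 7801405 (.cut .v 18874368 (.cut .l 4991221 (.cut .d (-262144) (.cut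 .v 17825792 (.cut .s 12484608 (.cut .l 3586129 (.cut .s 12369920 (.pos 17 .mp ⟨98356086, 0, 0, 0, 0, 197956964, 0, 0, 0, ⟨0, 0⟩, 0⟩ 0 0) (.pos 17 .mp ⟨109007581, 0, 0, 0, 0, 215251905, 0, 0, 0, ⟨0, 0⟩, 0⟩ 0 0)) (.pos 17 .mp ⟨172980919, 0, 0, 0, 0, 67085391, 0, 0, 0, ⟨0, 0⟩, 0⟩ 0 0)) (.cut .l 3586129 (.pos 17 .mp ⟨107109763, 0, 0, 0, 0, 291158389, 0, 0, 0, ⟨0, 0⟩, 0⟩ 0 0) (.pos 17 .mp ⟨211820341, 0, 0, 0, 0, 76551642, 0, 0, 0, ⟨0, 0⟩, 0⟩ 0 0))) (.pos 18 .mp ⟨292049584, 0, 0, 0, 0, 0, 0, 0, 0, ⟨0, 0⟩, 0⟩ 0 0)) (.cut .d (-131072) (.cut .v 17825792 (.cut .l 3586129 (.cut .s 12484608 (.cut .v 17301504 (.cut .l 2883583 (.cut .v 17039360 (.pos 67 .mp ⟨0, 0, 0, 0,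 0, 310040364, 0, 0, 0, ⟨0, 0⟩, 0⟩ 0 0) (.cut .d (-196608) (.pos 68 .mp ⟨128417881, 0, 0, 0, 0, 146725219, 0, 0, 0, ⟨0, 0⟩, 0⟩ 0 0) (.cut .d (-163840) (.cut .s 12369920 (.pos 68 .mp ⟨88410127, 0, 0, 0, 0, 178959036, 0, 0, 0, ⟨0, 0⟩, 0⟩ 0 0) (.pos 68 .mp ⟨99673566, 0, 0, 0, 0, 191887118, 0, 0, 0, ⟨0, 0⟩, 0⟩ 0 0)) (.pos 68 .mp ⟨106629146, 0, 0, 0, 0, 118211076, 0, 0, 0, ⟨0, 0⟩, 0⟩ 0 0)))) (.pos 39 .mp ⟨113563364, 0, 0, 0, 0, 105444007, 0, 0, 0, ⟨0, 0⟩, 0⟩ 0 0)) (.pos 40 .mp ⟨222812133, 0, 0, 0, 0, 0, 0, 0, 0, ⟨0, 0⟩, 0⟩ 0 0)) (.cut .v 17301504 (.cut .l 2883583 (.cut .d (-196608) (.pos 39 .mp ⟨97808459, 0, 0, 0, 0, 267068762, 0, 0, 0, ⟨0, 0⟩, 0⟩ 0 0) (.cut .v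 17039360 (.pos 67 .mp ⟨0, 0, 0, 0, 0, 363042117, 0, 0, 0, ⟨0, 0⟩, 0⟩ 0 0) (.cut .l 2532310 (.cut .d (-163840) (.cut .s 12599296 (.pos 68 .mp ⟨109802394, 0, 0, 0, 0, 216751846, 0, 0, 0, ⟨0, 0⟩, 0⟩ 0 0) (.pos 68 .mp ⟨121513840, 0, 0, 0, 0, 234448261, 0, 0, 0, ⟨0, 0⟩, 0⟩ 0 0)) (.cut .s 12599296 (.pos 68 .mp ⟨117372165, 0, 0, 0, 0, 155805312, 0, 0, 0, ⟨0, 0⟩, 0⟩ 0 0) (.cut .s 12656640 (.pos 68 .mp ⟨123027970, 0, 0, 0, 0, 177273600, 0, 0, 0, ⟨0, 0⟩, 0⟩ 0 0) (.pos 68 .mp ⟨128883688, 0, 0, 0, 0, 185016632, 0, 0, 0, ⟨0, 0⟩, 0⟩ 0 0)))) (.pos 68 .mp ⟨130816326, 0, 0, 0, 0, 136225277, 0, 0, 0, ⟨0, 0⟩, 0⟩ 0 0)))) (.pos 39 .mp ⟨138523877, 0, 0, 0, 0, 126899928, 0, 0, 0,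 ⟨0, 0⟩, 0⟩ 0 0)) (.pos 40 .mp ⟨264575876, 0, 0, 0, 0, 0, 0, 0, 0, ⟨0, 0⟩, 0⟩ 0 0))) (.pos 17 .mp ⟨119039216, 0, 0, 0, 0, 0, 0, 0, 0, ⟨0, 0⟩, 0⟩ 0 0)) (.pos 18 .mp ⟨258943282, 0, 0, 0, 0, 0, 0, 0, 0, ⟨0, 0⟩, 0⟩ 0 0)) (.pos 15 .mp ⟨130256372, 0, 0, 0, 0, 0, 0, 0, 0, ⟨0, 0⟩, 0⟩ 0 0))) (.pos 15 .mp ⟨198677915, 0, 0, 0, 0, 0, 0, 0, 0, ⟨0, 0⟩, 0⟩ 0 0)) (.cut .s 12484608 (.pos 16 .mp ⟨271775114, 0, 0, 0, 0, 0, 0, 0, 0, ⟨0, 0⟩, 0⟩ 0 0) (.pos 16 .mp ⟨321877400, 0, 0, 0, 0, 0, 0, 0, 0, ⟨0, 0⟩, 0⟩ 0 0))) (.pos 13 .mp ⟨140773510, 0, 0, 0, 0, 0, 0, 0, 0, ⟨0, 0⟩, 0⟩ 0 0))) (.cut .d (-524288) (.cut .s 12484608 (.pos 14 .mp ⟨395531247, 0, 0, 0, 0, 0, 0, 0, 0, ⟨0, 0⟩, 0⟩ 0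 0) (.pos 14 .mp ⟨470809071, 0, 0, 0, 0, 0, 0, 0, 0, ⟨0, 0⟩, 0⟩ 0 0)) (.cut .s 12484608 (.pos 14 .mp ⟨335257757, 0, 0, 0, 0, 0, 0, 0, 0, ⟨0, 0⟩, 0⟩ 0 0) (.pos 14 .mp ⟨396382458, 0, 0, 0, 0, 0, 0, 0, 0, ⟨0, 0⟩, 0⟩ 0 0))))) (.cut .d (-1048576) (.void 12 ⟨100000, 0, 0, 0, 0, 0, 0, 0, 0, ⟨0, 0⟩, 0⟩ 0 0) (.cut .v 29360128 (.cut .s 12484608 (.pos 50 .mp ⟨501064447, 0, 0, 0, 0, 0, 0, 0, 0, ⟨0, 0⟩, 0⟩ 0 0) (.pos 50 .mp ⟨589768434, 0, 0, 0, 0, 0, 0, 0, 0, ⟨0, 0⟩, 0⟩ 0 0)) (.pos 51 .mp ⟨735682126, 0, 0, 0, 0, 0, 0, 0, 0, ⟨0, 0⟩, 0⟩ 0 0)))) (.cut .v 50331648 (.cut .v 41943040 (.pos 25 .mp ⟨1353574110, 0, 0, 0, 0, 0, 0, 0, 0, ⟨0, 0⟩, 0⟩ 0 0) (.void 26 ⟨100000, 0, 0, 0,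 0, 0, 0, 0, 0, ⟨0, 0⟩, 0⟩ 0 0)) (.void 24 ⟨100000, 0, 0, 0, 0, 0, 0, 0, 0, ⟨0, 0⟩, 0⟩ 0 0)))))) (.void 49 ⟨100000, 0, 0, 0, 0, 0, 0, 0, 0, ⟨0, 0⟩, 0⟩ 0 0)) (.void 66 ⟨93555, 0, 0, 6445, 0, 0, 0, 0, 0, ⟨0, 0⟩, 0⟩ 0 0))) (.cut .v 16777216 (.cut .v 8388608 (.cut .v 4194304 (.cut .v 2097152 (.cut .v 1048576 (.pos 101 .pm ⟨0, 0, 11664531, 0, 3740552, 0, 0, 0, 16398556, ⟨0, 0⟩, 1983364⟩ 0 0) (.pos 102 .pm ⟨0, 8525805, 0, 0, 0, 0, 0, 0, 0, ⟨0, 0⟩, 0⟩ 0 0)) (.cut .d 3095263 (.pos 72 .pm ⟨0, 0, 10691990, 0, 0, 0, 0, 0, 0, ⟨0, 0⟩, 0⟩ 0 0) (.cut .d 4642894 (.pos 72 .pm ⟨0, 0, 0, 0, 0, 0, 0, 0, 0, ⟨0, 0⟩, 0⟩ 0 0) (.pos 72 .pm ⟨0, 55731023, 0, 0, 0, 0, 0, 0, 0, ⟨0, 0⟩,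 0⟩ 0 0)))) (.cut .d 3095263 (.pos 5 .pm ⟨0, 0, 2337049, 0, 0, 0, 0, 0, 0, ⟨0, 0⟩, 0⟩ 0 0) (.cut .d 4642894 (.pos 5 .pm ⟨0, 0, 0, 0, 0, 0, 0, 0, 0, ⟨0, 0⟩, 0⟩ 0 0) (.cut .d 5416710 (.pos 5 .pm ⟨0, 46825368, 0, 0, 0, 0, 0, 0, 0, ⟨0, 0⟩, 0⟩ 0 0) (.cut .v 6291456 (.pos 73 .pm ⟨0, 76375287, 0, 0, 0, 0, 0, 0, 0, ⟨0, 0⟩, 0⟩ 0 0) (.pos 74 .pm ⟨0, 83173257, 0, 0, 0, 0, 0, 0, 0, ⟨0, 0⟩, 0⟩ 0 0)))))) (.cut .d 3095263 (.pos 3 .pm ⟨0, 0, 0, 0, 0, 0, 0, 0, 0, ⟨0, 0⟩, 0⟩ 0 0) (.pos 3 .pm ⟨0, 63829324, 0, 0, 0, 0, 0, 0, 0, ⟨0, 0⟩, 0⟩ 0 0))) (.cut .v 268435456 (.cut .d 3095263 (.cut .v 67108864 (.cut .d 1547631 (.cut .v 33554432 (.cut .d 773815 (.cut .d 386907 (.cut .v 25165824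 (.cut .v 20971520 (.pos 13 .pp ⟨93595200, 0, 0, 0, 0, 0, 0, 0, 0, ⟨0, 0⟩, 0⟩ 0 0) (.pos 14 .pp ⟨273952981, 0, 0, 0, 0, 0, 0, 0, 0, ⟨0, 0⟩, 0⟩ 0 0)) (.pos 12 .pp ⟨458290218, 0, 0, 0, 0, 0, 0, 0, 0, ⟨0, 0⟩, 0⟩ 0 0)) (.pos 9 .pp ⟨141321448, 0, 0, 0, 0, 0, 0, 0, 0, ⟨0, 0⟩, 0⟩ 0 0)) (.pos 9 .pp ⟨0, 0, 0, 0, 0, 0, 0, 0, 0, ⟨0, 0⟩, 0⟩ 0 0)) (.cut .v 50331648 (.cut .d 773815 (.cut .v 41943040 (.cut .v 37748736 (.pos 45 .pp ⟨676095875, 0, 0, 0, 0, 0, 0, 0, 0, ⟨0, 0⟩, 0⟩ 0 0) (.pos 46 .pp ⟨846538537, 0, 0, 0, 0, 0, 0, 0, 0, ⟨0, 0⟩, 0⟩ 0 0)) (.pos 26 .pp ⟨1164763112, 0, 0, 0, 0, 0, 0, 0, 0, ⟨0, 0⟩, 0⟩ 0 0)) (.pos 23 .pp ⟨562173623, 0, 0, 0, 0, 0, 0, 0, 0, ⟨0, 0⟩, 0⟩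 0 0)) (.cut .d 773815 (.cut .v 58720256 (.pos 95 .pp ⟨1813369956, 0, 0, 0, 0, 0, 0, 0, 0, ⟨0, 0⟩, 0⟩ 0 0) (.pos 96 .pp ⟨2608140035, 0, 0, 0, 0, 0, 0, 0, 0, ⟨0, 0⟩, 0⟩ 0 0)) (.cut .v 58720256 (.pos 95 .pp ⟨1178564062, 0, 0, 0, 0, 0, 0, 0, 0, ⟨0, 0⟩, 0⟩ 0 0) (.pos 96 .pp ⟨1627208562, 0, 0, 0, 0, 0, 0, 0, 0, ⟨0, 0⟩, 0⟩ 0 0))))) (.pos 8 .pp ⟨0, 0, 0, 0, 0, 0, 0, 0, 0, ⟨0, 0⟩, 0⟩ 0 0)) (.cut .v 134217728 (.cut .d 1547631 (.cut .v 100663296 (.cut .d 773815 (.pos 97 .pp ⟨6020606801, 0, 0, 0, 0, 0, 0, 0, 0, ⟨0, 0⟩, 0⟩ 0 0) (.cut .v 83886080 (.pos 107 .pp ⟨2476070197, 638112787, 0, 0, 0, 0, 0, 0, 0, ⟨0, 0⟩, 0⟩ 0 0) (.void 108 ⟨0, 100000, 0, 0, 0, 0, 0, 0, 0, ⟨0, 0⟩,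 0⟩ 0 0))) (.void 98 ⟨38677, 61323, 0, 0, 0, 0, 0, 0, 0, ⟨0, 0⟩, 0⟩ 0 0)) (.void 87 ⟨0, 100000, 0, 0, 0, 0, 0, 0, 0, ⟨0, 0⟩, 0⟩ 0 0)) (.void 88 ⟨0, 0, 0, 100000, 0, 0, 0, 0, 0, ⟨0, 0⟩, 0⟩ 0 0))) (.pos 48 .pp ⟨0, 26244997, 0, 0, 0, 0, 0, 0, 0, ⟨0, 0⟩, 0⟩ 0 0)) (.void 66 ⟨0, 0, 0, 100000, 0, 0, 0, 0, 0, ⟨0, 0⟩, 0⟩ 0 0)))),
    by decide +kernel⟩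

def covers19 : cell.Covers table row19.1 :=
  ⟨(.cut .d 0 (.cut .v 16777216 (.cut .v 8388608 (.pos 2 .mm ⟨0, 0, 913291977, 0, 0, 0, 0, 0, 0, ⟨0, 0⟩, 0⟩ 0 0) (.cut .d (-8388608) (.void 3 ⟨0, 0, 0, 0, 0, 100000, 0, 0, 0, ⟨0, 0⟩, 0⟩ 0 0) (.cut .d (-4194304) (.void 3 ⟨0, 0, 0, 0, 0, 100000, 0, 0, 0, ⟨0, 0⟩, 0⟩ 0 0) (.cut .d (-2097152) (.void 3 ⟨0, 0, 0, 0, 0, 100000, 0, 0, 0, ⟨0, 0⟩, 0⟩ 0 0) (.cut .d (-1048576) (.cut .d (-1572864) (.void 3 ⟨0, 0, 0, 0, 0, 100000, 0, 0, 0, ⟨0, 0⟩, 0⟩ 0 0) (.cut .v 12582912 (.pos 6 .mm ⟨0, 0, 1642049, 0, 0, 463184279, 0, 0, 0, ⟨0, 0⟩, 0⟩ 0 0) (.cut .v 14680064 (.pos 35 .mm ⟨0, 0, 0, 0, 0, 562980106, 0, 0, 0, ⟨0, 0⟩, 0⟩ 0 0) (.cut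 .l 7801405 (.void 36 ⟨0, 0, 0, 0, 0, 100000, 0, 0, 0, ⟨0, 0⟩, 0⟩ 0 0) (.cut .l 10611589 (.void 36 ⟨0, 0, 0, 0, 0, 100000, 0, 0, 0, ⟨0, 0⟩, 0⟩ 0 0) (.cut .d (-1310720) (.cut .v 15728640 (.pos 37 .mm ⟨0, 0, 0, 0, 0, 718371657, 0, 0, 0, ⟨0, 0⟩, 0⟩ 0 0) (.pos 38 .mm ⟨192616014, 0, 0, 0, 0, 508665094, 0, 0, 0, ⟨0, 0⟩, 0⟩ 0 0)) (.cut .s 12976128 (.cut .v 15728640 (.pos 37 .mm ⟨0, 0, 0, 0, 0, 488149489, 0, 0, 0, ⟨0, 0⟩, 0⟩ 0 0) (.cut .s 12845056 (.cut .v 16252928 (.cut .d (-1179648) (.cut .s 12779520 (.pos 43 .mm ⟨146119244, 0, 0, 0, 0, 275911766, 0, 0, 0, ⟨0, 0⟩, 0⟩ 0 0) (.pos 43 .mm ⟨159076489, 0, 0, 0, 0, 288662436, 0, 0, 0, ⟨0, 0⟩, 0⟩ 0 0)) (.pos 43 .mm ⟨115452763,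 0, 0, 0, 0, 293163709, 0, 0, 0, ⟨0, 0⟩, 0⟩ 0 0)) (.pos 44 .mm ⟨338109783, 0, 0, 0, 0, 0, 0, 0, 0, ⟨0, 0⟩, 0⟩ 0 0)) (.cut .l 12016681 (.pos 38 .mm ⟨172821880, 0, 0, 0, 0, 350441423, 0, 0, 0, ⟨0, 0⟩, 0⟩ 0 0) (.cut .d (-1179648) (.cut .v 16252928 (.cut .d (-1245184) (.pos 43 .mm ⟨193133307, 0, 0, 0, 0, 315473769, 0, 0, 0, ⟨0, 0⟩, 0⟩ 0 0) (.cut .s 12910592 (.pos 43 .mm ⟨173054767, 0, 0, 0, 0, 290381094, 0, 0, 0, ⟨0, 0⟩, 0⟩ 0 0) (.pos 43 .mm ⟨188102026, 0, 0, 0, 0, 304023325, 0, 0, 0, ⟨0, 0⟩, 0⟩ 0 0))) (.pos 44 .mm ⟨393461221, 0, 0, 0, 0, 0, 0, 0, 0, ⟨0, 0⟩, 0⟩ 0 0)) (.cut .v 16252928 (.pos 43 .mm ⟨145754220, 0, 0, 0, 0, 303036001, 0, 0, 0, ⟨0, 0⟩, 0⟩ 0 0) (.pos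 44 .mm ⟨361108261, 0, 0, 0, 0, 0, 0, 0, 0, ⟨0, 0⟩, 0⟩ 0 0)))))) (.cut .v 15728640 (.pos 37 .mm ⟨0, 0, 0, 0, 0, 633037188, 0, 0, 0, ⟨0, 0⟩, 0⟩ 0 0) (.cut .l 12016681 (.pos 38 .mm ⟨202564518, 0, 0, 0, 0, 442319441, 0, 0, 0, ⟨0, 0⟩, 0⟩ 0 0) (.cut .d (-1179648) (.cut .v 16252928 (.cut .s 13107200 (.pos 43 .mm ⟨204269559, 0, 0, 0, 0, 351836689, 0, 0, 0, ⟨0, 0⟩, 0⟩ 0 0) (.void 43 ⟨0, 0, 0, 0, 0, 100000, 0, 0, 0, ⟨0, 0⟩, 0⟩ 0 0)) (.pos 44 .mm ⟨472399850, 0, 0, 0, 0, 0, 0, 0, 0, ⟨0, 0⟩, 0⟩ 0 0)) (.cut .v 16252928 (.cut .s 13107200 (.cut .s 13041664 (.pos 43 .mm ⟨218452791, 0, 0, 0, 0, 233255010, 0, 0, 0, ⟨0, 0⟩, 0⟩ 0 0) (.pos 43 .mm ⟨240189110, 0, 0, 0, 0, 232448428,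 0, 0, 0, ⟨0, 0⟩, 0⟩ 0 0)) (.cut .d (-1114112) (.pos 43 .mm ⟨214044920, 0, 0, 0, 0, 362546626, 0, 0, 0, ⟨0, 0⟩, 0⟩ 0 0) (.pos 43 .mm ⟨198684588, 0, 0, 0, 0, 336728306, 0, 0, 0, ⟨0, 0⟩, 0⟩ 0 0))) (.cut .s 13107200 (.pos 44 .mm ⟨402110785, 0, 0, 0, 0, 0, 0, 0, 0, ⟨0, 0⟩, 0⟩ 0 0) (.pos 44 .mm ⟨447874911, 0, 0, 0, 0, 0, 0, 0, 0, ⟨0, 0⟩, 0⟩ 0 0))))))))))))) (.cut .v 12582912 (.cut .d (-524288) (.cut .l 7801405 (.pos 6 .mm ⟨0, 0, 3282328, 0, 0, 424808929, 0, 0, 0, ⟨0, 0⟩, 0⟩ 0 0) (.pos 6 .mm ⟨0, 0, 0, 0, 0, 301272783, 0, 0, 0, ⟨0, 0⟩, 0⟩ 0 0)) (.cut .v 10485760 (.pos 62 .mm ⟨0, 0, 0, 0, 0, 225723489, 0, 0, 0, ⟨0, 0⟩, 0⟩ 0 0) (.pos 63 .mm ⟨0, 0, 0, 0, 0, 290161706,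 0, 0, 0, ⟨0, 0⟩, 0⟩ 0 0))) (.cut .d (-524288) (.cut .l 7801405 (.cut .d (-786432) (.void 7 ⟨0, 0, 0, 0, 0, 100000, 0, 0, 0, ⟨0, 0⟩, 0⟩ 0 0) (.cut .s 12976128 (.cut .s 12845056 (.pos 7 .mm ⟨47219672, 0, 0, 0, 0, 398188683, 0, 0, 0, ⟨0, 0⟩, 0⟩ 0 0) (.pos 7 .mm ⟨56296831, 0, 0, 0, 0, 436301252, 0, 0, 0, ⟨0, 0⟩, 0⟩ 0 0)) (.pos 7 .mm ⟨66620459, 0, 0, 0, 0, 527931835, 0, 0, 0, ⟨0, 0⟩, 0⟩ 0 0))) (.cut .s 12976128 (.cut .v 14680064 (.pos 35 .mm ⟨0, 0, 0, 0, 0, 379848274, 0, 0, 0, ⟨0, 0⟩, 0⟩ 0 0) (.cut .v 15728640 (.pos 37 .mm ⟨0, 0, 0, 0, 0, 430379178, 0, 0, 0, ⟨0, 0⟩, 0⟩ 0 0) (.cut .d (-786432) (.cut .l 10611589 (.cut .s 12845056 (.pos 38 .mm ⟨104888454, 0, 0, 0,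 0, 328114082, 0, 0, 0, ⟨0, 0⟩, 0⟩ 0 0) (.pos 38 .mm ⟨141432755, 0, 0, 0, 0, 326484204, 0, 0, 0, ⟨0, 0⟩, 0⟩ 0 0)) (.cut .s 12845056 (.pos 38 .mm ⟨202957896, 0, 0, 0, 0, 130567285, 0, 0, 0, ⟨0, 0⟩, 0⟩ 0 0) (.pos 38 .mm ⟨235821964, 0, 0, 0, 0, 130819546, 0, 0, 0, ⟨0, 0⟩, 0⟩ 0 0))) (.pos 38 .mm ⟨202825391, 0, 0, 0, 0, 124464953, 0, 0, 0, ⟨0, 0⟩, 0⟩ 0 0)))) (.cut .v 14680064 (.pos 35 .mm ⟨0, 0, 0, 0, 0, 479119848, 0, 0, 0, ⟨0, 0⟩, 0⟩ 0 0) (.cut .d (-786432) (.cut .v 15728640 (.pos 37 .mm ⟨0, 0, 0, 0, 0, 558784211, 0, 0, 0, ⟨0, 0⟩, 0⟩ 0 0) (.cut .l 10611589 (.cut .s 13107200 (.pos 38 .mm ⟨142039053, 0, 0, 0, 0, 401417818, 0, 0, 0, ⟨0, 0⟩, 0⟩ 0 0) (.pos 38 .mm ⟨165983852,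 0, 0, 0, 0, 437070924, 0, 0, 0, ⟨0, 0⟩, 0⟩ 0 0)) (.cut .s 13107200 (.pos 38 .mm ⟨273377336, 0, 0, 0, 0, 128906348, 0, 0, 0, ⟨0, 0⟩, 0⟩ 0 0) (.cut .s 13172736 (.pos 38 .mm ⟨274102770, 0, 0, 0, 0, 181932626, 0, 0, 0, ⟨0, 0⟩, 0⟩ 0 0) (.pos 38 .mm ⟨293536609, 0, 0, 0, 0, 184415582, 0, 0, 0, ⟨0, 0⟩, 0⟩ 0 0))))) (.cut .s 13107200 (.pos 36 .mm ⟨0, 0, 0, 0, 0, 530164858, 0, 0, 0, ⟨0, 0⟩, 0⟩ 0 0) (.cut .v 15728640 (.pos 37 .mm ⟨0, 0, 0, 0, 0, 547073859, 0, 0, 0, ⟨0, 0⟩, 0⟩ 0 0) (.pos 38 .mm ⟨274411478, 0, 0, 0, 0, 157472836, 0, 0, 0, ⟨0, 0⟩, 0⟩ 0 0))))))) (.cut .l 7801405 (.cut .d (-262144) (.cut .v 14680064 (.pos 35 .mm ⟨0, 0, 0, 0, 0, 423198111, 0, 0, 0, ⟨0, 0⟩,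 0⟩ 0 0) (.cut .s 12976128 (.cut .s 12845056 (.pos 36 .mm ⟨0, 0, 0, 0, 0, 440318168, 0, 0, 0, ⟨0, 0⟩, 0⟩ 0 0) (.pos 36 .mm ⟨0, 0, 0, 0, 0, 487880085, 0, 0, 0, ⟨0, 0⟩, 0⟩ 0 0)) (.cut .s 13107200 (.pos 36 .mm ⟨14253960, 0, 0, 0, 0, 520777265, 0, 0, 0, ⟨0, 0⟩, 0⟩ 0 0) (.pos 36 .mm ⟨17873401, 0, 0, 0, 0, 574389082, 0, 0, 0, ⟨0, 0⟩, 0⟩ 0 0)))) (.cut .l 4991221 (.cut .d (-131072) (.cut .s 12976128 (.pos 7 .mm ⟨0, 0, 0, 0, 0, 438544807, 0, 0, 0, ⟨0, 0⟩, 0⟩ 0 0) (.pos 7 .mm ⟨0, 0, 0, 0, 0, 538222442, 0, 0, 0, ⟨0, 0⟩, 0⟩ 0 0)) (.pos 7 .mm ⟨0, 0, 0, 0, 0, 333635356, 0, 0, 0, ⟨0, 0⟩, 0⟩ 0 0)) (.pos 7 .mm ⟨0, 0, 0, 0, 0, 0, 0, 0, 0, ⟨0, 0⟩, 0⟩ 0 0))) (.pos 7 .mm ⟨0, 0,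 0, 0, 0, 0, 0, 0, 0, ⟨0, 0⟩, 0⟩ 0 0))))))))) (.cut .v 268435456 (.cut .v 67108864 (.cut .d (-8388608) (.void 8 ⟨100000, 0, 0, 0, 0, 0, 0, 0, 0, ⟨0, 0⟩, 0⟩ 0 0) (.cut .d (-4194304) (.void 8 ⟨100000, 0, 0, 0, 0, 0, 0, 0, 0, ⟨0, 0⟩, 0⟩ 0 0) (.cut .d (-2097152) (.void 8 ⟨100000, 0, 0, 0, 0, 0, 0, 0, 0, ⟨0, 0⟩, 0⟩ 0 0) (.cut .v 33554432 (.cut .v 25165824 (.cut .d (-1048576) (.cut .v 20971520 (.cut .d (-1572864) (.void 13 ⟨100000, 0, 0, 0, 0, 0, 0, 0, 0, ⟨0, 0⟩, 0⟩ 0 0) (.cut .v 18874368 (.cut .s 12976128 (.cut .s 12845056 (.cut .s 12779520 (.pos 15 .mp ⟨380196117, 0, 0, 0, 0, 0, 0, 0, 0, ⟨0, 0⟩, 0⟩ 0 0) (.pos 15 .mp ⟨399868273, 0, 0, 0, 0, 0, 0, 0, 0, ⟨0, 0⟩, 0⟩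 0 0)) (.pos 15 .mp ⟨440035183, 0, 0, 0, 0, 0, 0, 0, 0, ⟨0, 0⟩, 0⟩ 0 0)) (.pos 15 .mp ⟨535374411, 0, 0, 0, 0, 0, 0, 0, 0, ⟨0, 0⟩, 0⟩ 0 0)) (.pos 16 .mp ⟨634195725, 0, 0, 0, 0, 0, 0, 0, 0, ⟨0, 0⟩, 0⟩ 0 0))) (.void 14 ⟨100000, 0, 0, 0, 0, 0, 0, 0, 0, ⟨0, 0⟩, 0⟩ 0 0)) (.cut .v 20971520 (.cut .d (-524288) (.cut .l 7801405 (.cut .v 18874368 (.cut .s 12976128 (.cut .s 12845056 (.pos 15 .mp ⟨363591465, 0, 0, 0, 0, 0, 0, 0, 0, ⟨0, 0⟩, 0⟩ 0 0) (.pos 15 .mp ⟨401951589, 0, 0, 0, 0, 0, 0, 0, 0, ⟨0, 0⟩, 0⟩ 0 0)) (.pos 15 .mp ⟨483270030, 0, 0, 0, 0, 0, 0, 0, 0, ⟨0, 0⟩, 0⟩ 0 0)) (.pos 16 .mp ⟨570010443, 0, 0, 0, 0, 0, 0, 0, 0, ⟨0, 0⟩, 0⟩ 0 0)) (.cut .v 18874368 (.cut .s 12976128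 (.cut .s 12845056 (.pos 15 .mp ⟨329335035, 0, 0, 0, 0, 0, 0, 0, 0, ⟨0, 0⟩, 0⟩ 0 0) (.pos 15 .mp ⟨364890179, 0, 0, 0, 0, 0, 0, 0, 0, ⟨0, 0⟩, 0⟩ 0 0)) (.cut .s 13107200 (.pos 15 .mp ⟨404287439, 0, 0, 0, 0, 0, 0, 0, 0, ⟨0, 0⟩, 0⟩ 0 0) (.pos 15 .mp ⟨447619652, 0, 0, 0, 0, 0, 0, 0, 0, ⟨0, 0⟩, 0⟩ 0 0))) (.cut .s 12976128 (.pos 16 .mp ⟨424397921, 0, 0, 0, 0, 0, 0, 0, 0, ⟨0, 0⟩, 0⟩ 0 0) (.pos 16 .mp ⟨518851663, 0, 0, 0, 0, 0, 0, 0, 0, ⟨0, 0⟩, 0⟩ 0 0)))) (.cut .l 7801405 (.cut .v 18874368 (.cut .s 12976128 (.cut .v 17825792 (.cut .l 4991221 (.cut .d (-262144) (.cut .s 12845056 (.pos 17 .mp ⟨237464428, 0, 0, 0, 0, 120119362, 0, 0, 0, ⟨0, 0⟩, 0⟩ 0 0) (.pos 17 .mp ⟨268764348,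 0, 0, 0, 0, 121441617, 0, 0, 0, ⟨0, 0⟩, 0⟩ 0 0)) (.cut .d (-131072) (.cut .v 17301504 (.cut .l 3586129 (.cut .s 12845056 (.cut .d (-196608) (.pos 39 .mp ⟨150089140, 0, 0, 0, 0, 232767424, 0, 0, 0, ⟨0, 0⟩, 0⟩ 0 0) (.cut .s 12779520 (.cut .s 12746752 (.pos 39 .mp ⟨115154326, 0, 0, 0, 0, 242195755, 0, 0, 0, ⟨0, 0⟩, 0⟩ 0 0) (.pos 39 .mp ⟨118238368, 0, 0, 0, 0, 248133604, 0, 0, 0, ⟨0, 0⟩, 0⟩ 0 0)) (.pos 39 .mp ⟨121373261, 0, 0, 0, 0, 263441933, 0, 0, 0, ⟨0, 0⟩, 0⟩ 0 0))) (.cut .s 12910592 (.pos 39 .mp ⟨127800684, 0, 0, 0, 0, 283315980, 0, 0, 0, ⟨0, 0⟩, 0⟩ 0 0) (.pos 39 .mp ⟨134447188, 0, 0, 0, 0, 297982028, 0, 0, 0, ⟨0, 0⟩, 0⟩ 0 0))) (.pos 39 .mp ⟨153998466, 0,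 0, 0, 0, 0, 0, 0, 0, ⟨0, 0⟩, 0⟩ 0 0)) (.pos 40 .mp ⟨323748037, 0, 0, 0, 0, 0, 0, 0, 0, ⟨0, 0⟩, 0⟩ 0 0)) (.pos 17 .mp ⟨150745683, 0, 0, 0, 0, 0, 0, 0, 0, ⟨0, 0⟩, 0⟩ 0 0))) (.pos 17 .mp ⟨230824652, 0, 0, 0, 0, 71653187, 0, 0, 0, ⟨0, 0⟩, 0⟩ 0 0)) (.pos 18 .mp ⟨344462637, 0, 0, 0, 0, 0, 0, 0, 0, ⟨0, 0⟩, 0⟩ 0 0)) (.cut .v 17825792 (.cut .d (-262144) (.cut .s 13107200 (.pos 17 .mp ⟨315379940, 0, 0, 0, 0, 98684152, 0, 0, 0, ⟨0, 0⟩, 0⟩ 0 0) (.pos 17 .mp ⟨352167480, 0, 0, 0, 0, 101131886, 0, 0, 0, ⟨0, 0⟩, 0⟩ 0 0)) (.cut .l 4991221 (.cut .l 3586129 (.cut .d (-131072) (.cut .v 17301504 (.cut .s 13107200 (.cut .s 13041664 (.pos 39 .mp ⟨141324096, 0, 0, 0, 0, 313431494,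 0, 0, 0, ⟨0, 0⟩, 0⟩ 0 0) (.pos 39 .mp ⟨148443526, 0, 0, 0, 0, 329622340, 0, 0, 0, ⟨0, 0⟩, 0⟩ 0 0)) (.pos 39 .mp ⟨114901581, 0, 0, 0, 0, 435982927, 0, 0, 0, ⟨0, 0⟩, 0⟩ 0 0)) (.pos 40 .mp ⟨396981358, 0, 0, 0, 0, 0, 0, 0, 0, ⟨0, 0⟩, 0⟩ 0 0)) (.cut .v 17301504 (.pos 39 .mp ⟨142508876, 0, 0, 0, 0, 245185425, 0, 0, 0, ⟨0, 0⟩, 0⟩ 0 0) (.pos 40 .mp ⟨316701560, 0, 0, 0, 0, 0, 0, 0, 0, ⟨0, 0⟩, 0⟩ 0 0))) (.pos 17 .mp ⟨203329348, 0, 0, 0, 0, 125709730, 0, 0, 0, ⟨0, 0⟩, 0⟩ 0 0)) (.pos 17 .mp ⟨0, 0, 0, 0, 0, 0, 0, 0, 0, ⟨0, 0⟩, 0⟩ 0 0))) (.pos 18 .mp ⟨414930550, 0, 0, 0, 0, 0, 0, 0, 0, ⟨0, 0⟩, 0⟩ 0 0))) (.cut .s 12976128 (.pos 16 .mp ⟨386129286, 0, 0, 0, 0, 0, 0, 0, 0,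 ⟨0, 0⟩, 0⟩ 0 0) (.pos 16 .mp ⟨464825237, 0, 0, 0, 0, 0, 0, 0, 0, ⟨0, 0⟩, 0⟩ 0 0))) (.pos 13 .mp ⟨256493623, 0, 0, 0, 0, 0, 0, 0, 0, ⟨0, 0⟩, 0⟩ 0 0))) (.cut .d (-524288) (.cut .s 12976128 (.pos 14 .mp ⟨570770953, 0, 0, 0, 0, 0, 0, 0, 0, ⟨0, 0⟩, 0⟩ 0 0) (.pos 14 .mp ⟨692652243, 0, 0, 0, 0, 0, 0, 0, 0, ⟨0, 0⟩, 0⟩ 0 0)) (.cut .s 12976128 (.pos 14 .mp ⟨473902866, 0, 0, 0, 0, 0, 0, 0, 0, ⟨0, 0⟩, 0⟩ 0 0) (.pos 14 .mp ⟨569070197, 0, 0, 0, 0, 0, 0, 0, 0, ⟨0, 0⟩, 0⟩ 0 0))))) (.cut .d (-1048576) (.void 12 ⟨100000, 0, 0, 0, 0, 0, 0, 0, 0, ⟨0, 0⟩, 0⟩ 0 0) (.cut .v 29360128 (.cut .s 12976128 (.pos 50 .mp ⟨705278626, 0, 0, 0, 0, 0, 0, 0, 0, ⟨0, 0⟩, 0⟩ 0 0) (.pos 50 .mp ⟨844513701,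 0, 0, 0, 0, 0, 0, 0, 0, ⟨0, 0⟩, 0⟩ 0 0)) (.pos 51 .mp ⟨1042356984, 0, 0, 0, 0, 0, 0, 0, 0, ⟨0, 0⟩, 0⟩ 0 0)))) (.cut .v 50331648 (.cut .v 41943040 (.pos 25 .mp ⟨1872906855, 0, 0, 0, 0, 0, 0, 0, 0, ⟨0, 0⟩, 0⟩ 0 0) (.void 26 ⟨100000, 0, 0, 0, 0, 0, 0, 0, 0, ⟨0, 0⟩, 0⟩ 0 0)) (.void 24 ⟨100000, 0, 0, 0, 0, 0, 0, 0, 0, ⟨0, 0⟩, 0⟩ 0 0)))))) (.void 49 ⟨100000, 0, 0, 0, 0, 0, 0, 0, 0, ⟨0, 0⟩, 0⟩ 0 0)) (.void 66 ⟨93307, 0, 0, 6693, 0, 0, 0, 0, 0, ⟨0, 0⟩, 0⟩ 0 0))) (.cut .v 16777216 (.cut .v 8388608 (.cut .v 4194304 (.cut .v 2097152 (.cut .v 1048576 (.pos 101 .pm ⟨0, 0, 5810254, 0, 0, 0, 0, 0, 14651589, ⟨0, 0⟩, 1983364⟩ 0 0) (.pos 102 .pm ⟨0, 11727779, 0, 0, 0, 0, 0,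 0, 0, ⟨0, 0⟩, 0⟩ 0 0)) (.cut .d 2680896 (.pos 72 .pm ⟨0, 0, 23135124, 0, 0, 0, 0, 0, 0, ⟨0, 0⟩, 0⟩ 0 0) (.cut .d 4021344 (.pos 72 .pm ⟨0, 0, 0, 0, 0, 0, 0, 0, 0, ⟨0, 0⟩, 0⟩ 0 0) (.pos 72 .pm ⟨0, 68445612, 0, 0, 0, 0, 0, 0, 0, ⟨0, 0⟩, 0⟩ 0 0)))) (.cut .d 2680896 (.pos 5 .pm ⟨0, 0, 7463868, 0, 0, 0, 0, 0, 0, ⟨0, 0⟩, 0⟩ 0 0) (.cut .d 4021344 (.pos 5 .pm ⟨0, 0, 0, 0, 0, 0, 0, 0, 0, ⟨0, 0⟩, 0⟩ 0 0) (.cut .d 4691568 (.pos 5 .pm ⟨0, 45842012, 0, 0, 0, 0, 0, 0, 0, ⟨0, 0⟩, 0⟩ 0 0) (.pos 5 .pm ⟨0, 98522198, 0, 0, 0, 0, 0, 0, 0, ⟨0, 0⟩, 0⟩ 0 0))))) (.cut .d 2680896 (.pos 3 .pm ⟨0, 0, 0, 0, 0, 0, 0, 0, 0, ⟨0, 0⟩, 0⟩ 0 0) (.pos 3 .pm ⟨0, 78841229, 0, 0, 0, 0, 0, 0, 0,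 ⟨0, 0⟩, 0⟩ 0 0))) (.cut .v 268435456 (.cut .d 2680896 (.cut .v 67108864 (.cut .d 1340448 (.cut .v 33554432 (.cut .d 670224 (.cut .d 335112 (.cut .v 25165824 (.cut .v 20971520 (.pos 13 .pp ⟨131883061, 0, 0, 0, 0, 0, 0, 0, 0, ⟨0, 0⟩, 0⟩ 0 0) (.pos 14 .pp ⟨376239032, 0, 0, 0, 0, 0, 0, 0, 0, ⟨0, 0⟩, 0⟩ 0 0)) (.pos 12 .pp ⟨634581895, 0, 0, 0, 0, 0, 0, 0, 0, ⟨0, 0⟩, 0⟩ 0 0)) (.pos 9 .pp ⟨208206308, 0, 0, 0, 0, 0, 0, 0, 0, ⟨0, 0⟩, 0⟩ 0 0)) (.pos 9 .pp ⟨11100839, 0, 0, 0, 0, 0, 0, 0, 0, ⟨0, 0⟩, 0⟩ 0 0)) (.cut .v 50331648 (.cut .d 670224 (.cut .v 41943040 (.cut .v 37748736 (.pos 45 .pp ⟨923078497, 0, 0, 0, 0, 0, 0, 0, 0, ⟨0, 0⟩, 0⟩ 0 0) (.pos 46 .pp ⟨1152124294, 0,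 0, 0, 0, 0, 0, 0, 0, ⟨0, 0⟩, 0⟩ 0 0)) (.pos 26 .pp ⟨1582265573, 0, 0, 0, 0, 0, 0, 0, 0, ⟨0, 0⟩, 0⟩ 0 0)) (.pos 23 .pp ⟨783938497, 0, 0, 0, 0, 0, 0, 0, 0, ⟨0, 0⟩, 0⟩ 0 0)) (.cut .d 670224 (.cut .v 58720256 (.pos 95 .pp ⟨2334179803, 0, 0, 0, 0, 0, 0, 0, 0, ⟨0, 0⟩, 0⟩ 0 0) (.pos 96 .pp ⟨3358816665, 0, 0, 0, 0, 0, 0, 0, 0, ⟨0, 0⟩, 0⟩ 0 0)) (.cut .v 58720256 (.pos 95 .pp ⟨1581046327, 0, 0, 0, 0, 0, 0, 0, 0, ⟨0, 0⟩, 0⟩ 0 0) (.pos 96 .pp ⟨2178112632, 0, 0, 0, 0, 0, 0, 0, 0, ⟨0, 0⟩, 0⟩ 0 0))))) (.pos 8 .pp ⟨0, 0, 0, 0, 0, 0, 0, 0, 0, ⟨0, 0⟩, 0⟩ 0 0)) (.cut .v 134217728 (.cut .d 1340448 (.cut .v 100663296 (.cut .v 83886080 (.cut .d 670224 (.pos 107 .pp ⟨5869320881,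 0, 0, 0, 0, 0, 0, 0, 0, ⟨0, 0⟩, 0⟩ 0 0) (.cut .v 75497472 (.pos 109 .pp ⟨2960796654, 607983112, 0, 0, 0, 0, 0, 0, 0, ⟨0, 0⟩, 0⟩ 0 0) (.void 110 ⟨16054, 83946, 0, 0, 0, 0, 0, 0, 0, ⟨0, 0⟩, 0⟩ 0 0))) (.void 108 ⟨37862, 62138, 0, 0, 0, 0, 0, 0, 0, ⟨0, 0⟩, 0⟩ 0 0)) (.void 98 ⟨87017, 0, 0, 12983, 0, 0, 0, 0, 0, ⟨0, 0⟩, 0⟩ 0 0)) (.void 87 ⟨0, 100000, 0, 0, 0, 0, 0, 0, 0, ⟨0, 0⟩, 0⟩ 0 0)) (.void 88 ⟨0, 0, 0, 100000, 0, 0, 0, 0, 0, ⟨0, 0⟩, 0⟩ 0 0))) (.pos 48 .pp ⟨0, 30293646, 0, 0, 0, 0, 0, 0, 0, ⟨0, 0⟩, 0⟩ 0 0)) (.void 66 ⟨0, 0, 0, 100000, 0, 0, 0, 0, 0, ⟨0, 0⟩, 0⟩ 0 0)))),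
    by decide +kernel⟩

def covers20 : cell.Covers table row20.1 :=
  ⟨(.cut .d 0 (.cut .v 16777216 (.cut .v 8388608 (.void 2 ⟨0, 0, 100000, 0, 0, 0, 0, 0, 0, ⟨0, 0⟩, 0⟩ 0 0) (.cut .d (-8388608) (.void 3 ⟨0, 0, 0, 0, 0, 100000, 0, 0, 0, ⟨0, 0⟩, 0⟩ 0 0) (.cut .d (-4194304) (.void 3 ⟨0, 0, 0, 0, 0, 100000, 0, 0, 0, ⟨0, 0⟩, 0⟩ 0 0) (.cut .d (-2097152) (.void 3 ⟨0, 0, 0, 0, 0, 100000, 0, 0, 0, ⟨0, 0⟩, 0⟩ 0 0) (.cut .d (-1048576) (.cut .s 13500416 (.cut .v 12582912 (.pos 6 .mm ⟨0, 0, 0, 0, 0, 705606570, 0, 0, 0, ⟨0, 0⟩, 0⟩ 0 0) (.cut .v 14680064 (.pos 35 .mm ⟨0, 0, 0, 0, 0, 862729107, 0, 0, 0, ⟨0, 0⟩, 0⟩ 0 0) (.cut .s 13369344 (.cut .v 15728640 (.pos 37 .mm ⟨0,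 0, 0, 0, 0, 848975169, 0, 0, 0, ⟨0, 0⟩, 0⟩ 0 0) (.cut .d (-1572864) (.void 38 ⟨100000, 0, 0, 0, 0, 0, 0, 0, 0, ⟨0, 0⟩, 0⟩ 0 0) (.cut .v 16252928 (.pos 43 .mm ⟨221817161, 0, 0, 0, 0, 511438234, 0, 0, 0, ⟨0, 0⟩, 0⟩ 0 0) (.pos 44 .mm ⟨569802179, 0, 0, 0, 0, 0, 0, 0, 0, ⟨0, 0⟩, 0⟩ 0 0)))) (.void 36 ⟨0, 0, 0, 0, 0, 100000, 0, 0, 0, ⟨0, 0⟩, 0⟩ 0 0)))) (.void 3 ⟨0, 0, 0, 0, 0, 100000, 0, 0, 0, ⟨0, 0⟩, 0⟩ 0 0)) (.cut .d (-524288) (.cut .l 7801405 (.cut .s 13500416 (.pos 3 .mm ⟨35221427, 0, 0, 0, 0, 788683123, 0, 0, 0, ⟨0, 0⟩, 0⟩ 0 0) (.pos 3 .mm ⟨56631136, 0, 0, 0, 0, 958213746, 0, 0, 0, ⟨0, 0⟩, 0⟩ 0 0)) (.cut .v 12582912 (.cut .d (-786432) (.pos 6 .mm ⟨0, 0, 13123826,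 0, 0, 626374664, 0, 0, 0, ⟨0, 0⟩, 0⟩ 0 0) (.pos 6 .mm ⟨0, 0, 0, 0, 0, 452136412, 0, 0, 0, ⟨0, 0⟩, 0⟩ 0 0)) (.cut .s 13500416 (.cut .v 14680064 (.pos 35 .mm ⟨0, 0, 0, 0, 0, 614927134, 0, 0, 0, ⟨0, 0⟩, 0⟩ 0 0) (.cut .d (-786432) (.cut .l 10611589 (.pos 36 .mm ⟨167748807, 0, 0, 0, 0, 619345748, 0, 0, 0, ⟨0, 0⟩, 0⟩ 0 0) (.cut .v 15728640 (.cut .s 13369344 (.pos 37 .mm ⟨0, 0, 0, 0, 0, 678053979, 0, 0, 0, ⟨0, 0⟩, 0⟩ 0 0) (.pos 37 .mm ⟨0, 0, 0, 0, 0, 761953503, 0, 0, 0, ⟨0, 0⟩, 0⟩ 0 0)) (.cut .s 13369344 (.cut .s 13303808 (.pos 38 .mm ⟨324899222, 0, 0, 0, 0, 176495288, 0, 0, 0, ⟨0, 0⟩, 0⟩ 0 0) (.cut .v 16252928 (.pos 43 .mm ⟨264334308, 0, 0, 0, 0, 304542167, 0, 0,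 0, ⟨0, 0⟩, 0⟩ 0 0) (.pos 44 .mm ⟨489473145, 0, 0, 0, 0, 0, 0, 0, 0, ⟨0, 0⟩, 0⟩ 0 0))) (.cut .d (-917504) (.cut .v 16252928 (.cut .d (-983040) (.cut .s 13434880 (.pos 43 .mm ⟨289083675, 0, 0, 0, 0, 343227058, 0, 0, 0, ⟨0, 0⟩, 0⟩ 0 0) (.pos 43 .mm ⟨252953793, 0, 0, 0, 0, 488923803, 0, 0, 0, ⟨0, 0⟩, 0⟩ 0 0)) (.pos 43 .mm ⟨254214701, 0, 0, 0, 0, 383566825, 0, 0, 0, ⟨0, 0⟩, 0⟩ 0 0)) (.pos 44 .mm ⟨543742876, 0, 0, 0, 0, 0, 0, 0, 0, ⟨0, 0⟩, 0⟩ 0 0)) (.pos 38 .mm ⟨348067585, 0, 0, 0, 0, 202281610, 0, 0, 0, ⟨0, 0⟩, 0⟩ 0 0))))) (.cut .l 10611589 (.cut .s 13369344 (.pos 36 .mm ⟨57375366, 0, 0, 0, 0, 606062590, 0, 0, 0, ⟨0, 0⟩, 0⟩ 0 0) (.cut .d (-655360) (.pos 36 .mm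 ⟨138903919, 0, 0, 0, 0, 571260950, 0, 0, 0, ⟨0, 0⟩, 0⟩ 0 0) (.pos 36 .mm ⟨73053740, 0, 0, 0, 0, 631707572, 0, 0, 0, ⟨0, 0⟩, 0⟩ 0 0))) (.pos 36 .mm ⟨235745571, 0, 0, 0, 0, 205897275, 0, 0, 0, ⟨0, 0⟩, 0⟩ 0 0)))) (.cut .v 14680064 (.cut .d (-786432) (.pos 35 .mm ⟨0, 0, 0, 0, 0, 818017293, 0, 0, 0, ⟨0, 0⟩, 0⟩ 0 0) (.pos 35 .mm ⟨0, 0, 0, 0, 0, 715140437, 0, 0, 0, ⟨0, 0⟩, 0⟩ 0 0)) (.cut .d (-786432) (.cut .l 10611589 (.void 36 ⟨0, 0, 0, 0, 0, 100000, 0, 0, 0, ⟨0, 0⟩, 0⟩ 0 0) (.cut .v 15728640 (.cut .d (-917504) (.pos 37 .mm ⟨0, 0, 0, 0, 0, 953294871, 0, 0, 0, ⟨0, 0⟩, 0⟩ 0 0) (.pos 37 .mm ⟨0, 0, 0, 0, 0, 847896141, 0, 0, 0, ⟨0, 0⟩, 0⟩ 0 0)) (.cut .s 13631488 (.cut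 .v 16252928 (.cut .l 12016681 (.pos 43 .mm ⟨206388193, 0, 0, 0, 0, 603970682, 0, 0, 0, ⟨0, 0⟩, 0⟩ 0 0) (.cut .d (-917504) (.cut .d (-983040) (.void 43 ⟨0, 0, 0, 0, 0, 100000, 0, 0, 0, ⟨0, 0⟩, 0⟩ 0 0) (.cut .s 13565952 (.cut .s 13533184 (.pos 43 .mm ⟨288341990, 0, 0, 0, 0, 388491380, 0, 0, 0, ⟨0, 0⟩, 0⟩ 0 0) (.pos 43 .mm ⟨300974581, 0, 0, 0, 0, 391826604, 0, 0, 0, ⟨0, 0⟩, 0⟩ 0 0)) (.pos 43 .mm ⟨327569462, 0, 0, 0, 0, 380264300, 0, 0, 0, ⟨0, 0⟩, 0⟩ 0 0))) (.pos 43 .mm ⟨333192781, 0, 0, 0, 0, 294328504, 0, 0, 0, ⟨0, 0⟩, 0⟩ 0 0))) (.pos 44 .mm ⟨581311221, 0, 0, 0, 0, 0, 0, 0, 0, ⟨0, 0⟩, 0⟩ 0 0)) (.cut .d (-917504) (.pos 38 .mm ⟨301731708, 0, 0, 0, 0, 622832615,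 0, 0, 0, ⟨0, 0⟩, 0⟩ 0 0) (.cut .s 13697024 (.pos 38 .mm ⟨387631923, 0, 0, 0, 0, 297585637, 0, 0, 0, ⟨0, 0⟩, 0⟩ 0 0) (.pos 38 .mm ⟨417257312, 0, 0, 0, 0, 298737574, 0, 0, 0, ⟨0, 0⟩, 0⟩ 0 0)))))) (.cut .v 15728640 (.cut .s 13631488 (.pos 37 .mm ⟨0, 0, 0, 0, 0, 762822429, 0, 0, 0, ⟨0, 0⟩, 0⟩ 0 0) (.pos 37 .mm ⟨0, 0, 0, 0, 0, 848975599, 0, 0, 0, ⟨0, 0⟩, 0⟩ 0 0)) (.cut .l 10611589 (.cut .d (-655360) (.pos 38 .mm ⟨189828484, 0, 0, 0, 0, 648246794, 0, 0, 0, ⟨0, 0⟩, 0⟩ 0 0) (.cut .s 13631488 (.pos 38 .mm ⟨328146328, 0, 0, 0, 0, 265932140, 0, 0, 0, ⟨0, 0⟩, 0⟩ 0 0) (.pos 38 .mm ⟨377083394, 0, 0, 0, 0, 270322272, 0, 0, 0, ⟨0, 0⟩, 0⟩ 0 0))) (.pos 38 .mm ⟨364773568, 0,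 0, 0, 0, 216746840, 0, 0, 0, ⟨0, 0⟩, 0⟩ 0 0)))))))) (.cut .l 7801405 (.cut .v 12582912 (.cut .d (-262144) (.pos 6 .mm ⟨0, 0, 0, 0, 0, 506306679, 0, 0, 0, ⟨0, 0⟩, 0⟩ 0 0) (.pos 6 .mm ⟨0, 0, 0, 0, 0, 360111195, 0, 0, 0, ⟨0, 0⟩, 0⟩ 0 0)) (.cut .d (-262144) (.cut .v 14680064 (.pos 35 .mm ⟨0, 0, 0, 0, 0, 672122703, 0, 0, 0, ⟨0, 0⟩, 0⟩ 0 0) (.cut .s 13500416 (.cut .s 13369344 (.pos 36 .mm ⟨21720197, 0, 0, 0, 0, 637590835, 0, 0, 0, ⟨0, 0⟩, 0⟩ 0 0) (.pos 36 .mm ⟨28646481, 0, 0, 0, 0, 696529486, 0, 0, 0, ⟨0, 0⟩, 0⟩ 0 0)) (.cut .s 13631488 (.pos 36 .mm ⟨35774463, 0, 0, 0, 0, 763965869, 0, 0, 0, ⟨0, 0⟩, 0⟩ 0 0) (.pos 36 .mm ⟨43134101, 0, 0, 0, 0, 840436874, 0, 0, 0,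 ⟨0, 0⟩, 0⟩ 0 0)))) (.cut .l 4991221 (.cut .d (-131072) (.cut .s 13500416 (.pos 7 .mm ⟨0, 0, 0, 0, 0, 674374639, 0, 0, 0, ⟨0, 0⟩, 0⟩ 0 0) (.cut .s 13631488 (.pos 7 .mm ⟨0, 0, 0, 0, 0, 784603766, 0, 0, 0, ⟨0, 0⟩, 0⟩ 0 0) (.pos 7 .mm ⟨0, 0, 0, 0, 0, 867234934, 0, 0, 0, ⟨0, 0⟩, 0⟩ 0 0))) (.pos 7 .mm ⟨0, 0, 0, 0, 0, 589769430, 0, 0, 0, ⟨0, 0⟩, 0⟩ 0 0)) (.pos 7 .mm ⟨0, 0, 0, 0, 0, 0, 0, 0, 0, ⟨0, 0⟩, 0⟩ 0 0)))) (.cut .v 12582912 (.pos 6 .mm ⟨0, 0, 0, 0, 0, 264153573, 0, 0, 0, ⟨0, 0⟩, 0⟩ 0 0) (.pos 7 .mm ⟨161864063, 0, 0, 0, 0, 145627267, 0, 0, 0, ⟨0, 0⟩, 0⟩ 0 0))))))))) (.cut .v 268435456 (.cut .v 67108864 (.cut .d (-8388608) (.void 8 ⟨100000, 0, 0, 0, 0, 0, 0,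 0, 0, ⟨0, 0⟩, 0⟩ 0 0) (.cut .d (-4194304) (.void 8 ⟨100000, 0, 0, 0, 0, 0, 0, 0, 0, ⟨0, 0⟩, 0⟩ 0 0) (.cut .d (-2097152) (.void 8 ⟨100000, 0, 0, 0, 0, 0, 0, 0, 0, ⟨0, 0⟩, 0⟩ 0 0) (.cut .d (-1048576) (.void 8 ⟨100000, 0, 0, 0, 0, 0, 0, 0, 0, ⟨0, 0⟩, 0⟩ 0 0) (.cut .v 33554432 (.cut .v 25165824 (.cut .v 20971520 (.cut .d (-524288) (.cut .l 7801405 (.pos 13 .mp ⟨783575011, 0, 0, 0, 0, 0, 0, 0, 0, ⟨0, 0⟩, 0⟩ 0 0) (.cut .v 18874368 (.cut .s 13500416 (.cut .d (-786432) (.pos 15 .mp ⟨558454189, 0, 0, 0, 0, 0, 0, 0, 0, ⟨0, 0⟩, 0⟩ 0 0) (.pos 15 .mp ⟨486415145, 0, 0, 0, 0, 0, 0, 0, 0, ⟨0, 0⟩, 0⟩ 0 0)) (.cut .d (-786432) (.pos 15 .mp ⟨686656913, 0, 0, 0, 0, 0, 0, 0, 0,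 ⟨0, 0⟩, 0⟩ 0 0) (.pos 15 .mp ⟨593342894, 0, 0, 0, 0, 0, 0, 0, 0, ⟨0, 0⟩, 0⟩ 0 0))) (.cut .s 13500416 (.pos 16 .mp ⟨644132033, 0, 0, 0, 0, 0, 0, 0, 0, ⟨0, 0⟩, 0⟩ 0 0) (.pos 16 .mp ⟨783586476, 0, 0, 0, 0, 0, 0, 0, 0, ⟨0, 0⟩, 0⟩ 0 0)))) (.cut .l 7801405 (.cut .d (-262144) (.cut .v 18874368 (.cut .s 13500416 (.cut .s 13369344 (.pos 15 .mp ⟨438731770, 0, 0, 0, 0, 45270511, 0, 0, 0, ⟨0, 0⟩, 0⟩ 0 0) (.pos 15 .mp ⟨496923078, 0, 0, 0, 0, 23019965, 0, 0, 0, ⟨0, 0⟩, 0⟩ 0 0)) (.cut .s 13631488 (.pos 15 .mp ⟨559378887, 0, 0, 0, 0, 2387835, 0, 0, 0, ⟨0, 0⟩, 0⟩ 0 0) (.pos 15 .mp ⟨616945426, 0, 0, 0, 0, 0, 0, 0, 0, ⟨0, 0⟩, 0⟩ 0 0))) (.pos 16 .mp ⟨691383183, 0, 0, 0, 0, 0,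 0, 0, 0, ⟨0, 0⟩, 0⟩ 0 0)) (.cut .v 18874368 (.cut .l 4991221 (.cut .d (-131072) (.cut .v 17825792 (.cut .s 13500416 (.cut .l 3586129 (.cut .d (-196608) (.pos 17 .mp ⟨292732845, 0, 0, 0, 0, 298897039, 0, 0, 0, ⟨0, 0⟩, 0⟩ 0 0) (.cut .s 13369344 (.pos 17 .mp ⟨220681314, 0, 0, 0, 0, 334389434, 0, 0, 0, ⟨0, 0⟩, 0⟩ 0 0) (.cut .s 13434880 (.pos 17 .mp ⟨217882763, 0, 0, 0, 0, 395039076, 0, 0, 0, ⟨0, 0⟩, 0⟩ 0 0) (.pos 17 .mp ⟨229908265, 0, 0, 0, 0, 410754163, 0, 0, 0, ⟨0, 0⟩, 0⟩ 0 0)))) (.pos 17 .mp ⟨254003015, 0, 0, 0, 0, 237176517, 0, 0, 0, ⟨0, 0⟩, 0⟩ 0 0)) (.cut .l 3586129 (.cut .d (-196608) (.pos 17 .mp ⟨210453776, 0, 0, 0, 0, 655443551, 0, 0, 0, ⟨0, 0⟩, 0⟩ 0 0)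 (.cut .s 13631488 (.cut .s 13565952 (.pos 17 .mp ⟨242059705, 0, 0, 0, 0, 428447255, 0, 0, 0, ⟨0, 0⟩, 0⟩ 0 0) (.pos 17 .mp ⟨254240969, 0, 0, 0, 0, 448392888, 0, 0, 0, ⟨0, 0⟩, 0⟩ 0 0)) (.pos 17 .mp ⟨303880166, 0, 0, 0, 0, 418593277, 0, 0, 0, ⟨0, 0⟩, 0⟩ 0 0))) (.pos 17 .mp ⟨314377393, 0, 0, 0, 0, 275393860, 0, 0, 0, ⟨0, 0⟩, 0⟩ 0 0))) (.pos 18 .mp ⟨556777929, 0, 0, 0, 0, 0, 0, 0, 0, ⟨0, 0⟩, 0⟩ 0 0)) (.cut .v 17825792 (.cut .d (-65536) (.cut .d (-98304) (.cut .v 17301504 (.cut .l 3586129 (.cut .l 2883583 (.cut .l 2532310 (.cut .s 13500416 (.cut .s 13369344 (.pos 39 .mp ⟨155215905, 0, 0, 0, 0, 414264172, 0, 0, 0, ⟨0, 0⟩, 0⟩ 0 0) (.pos 39 .mp ⟨170943091, 0, 0, 0,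 0, 451815483, 0, 0, 0, ⟨0, 0⟩, 0⟩ 0 0)) (.cut .s 13631488 (.pos 39 .mp ⟨187470225, 0, 0, 0, 0, 493894744, 0, 0, 0, ⟨0, 0⟩, 0⟩ 0 0) (.pos 39 .mp ⟨204903475, 0, 0, 0, 0, 540150953, 0, 0, 0, ⟨0, 0⟩, 0⟩ 0 0))) (.pos 39 .mp ⟨234540761, 0, 0, 0, 0, 201649487, 0, 0, 0, ⟨0, 0⟩, 0⟩ 0 0)) (.pos 39 .mp ⟨0, 0, 0, 0, 0, 0, 0, 0, 0, ⟨0, 0⟩, 0⟩ 0 0)) (.pos 39 .mp ⟨0, 0, 0, 0, 0, 0, 0, 0, 0, ⟨0, 0⟩, 0⟩ 0 0)) (.pos 40 .mp ⟨482561942, 0, 0, 0, 0, 0, 0, 0, 0, ⟨0, 0⟩, 0⟩ 0 0)) (.pos 17 .mp ⟨238818089, 0, 0, 0, 0, 0, 0, 0, 0, ⟨0, 0⟩, 0⟩ 0 0)) (.pos 17 .mp ⟨164061062, 0, 0, 0, 0, 0, 0, 0, 0, ⟨0, 0⟩, 0⟩ 0 0)) (.pos 18 .mp ⟨462407594, 0, 0, 0, 0, 0, 0, 0, 0, ⟨0, 0⟩, 0⟩ 0 0))) (.pos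 15 .mp ⟨281912361, 0, 0, 0, 0, 0, 0, 0, 0, ⟨0, 0⟩, 0⟩ 0 0)) (.pos 16 .mp ⟨567204905, 0, 0, 0, 0, 0, 0, 0, 0, ⟨0, 0⟩, 0⟩ 0 0))) (.pos 13 .mp ⟨425790778, 0, 0, 0, 0, 0, 0, 0, 0, ⟨0, 0⟩, 0⟩ 0 0))) (.cut .d (-524288) (.pos 14 .mp ⟨988949003, 0, 0, 0, 0, 0, 0, 0, 0, ⟨0, 0⟩, 0⟩ 0 0) (.cut .s 13500416 (.pos 14 .mp ⟨687420427, 0, 0, 0, 0, 0, 0, 0, 0, ⟨0, 0⟩, 0⟩ 0 0) (.pos 14 .mp ⟨820464428, 0, 0, 0, 0, 0, 0, 0, 0, ⟨0, 0⟩, 0⟩ 0 0)))) (.cut .v 29360128 (.cut .s 13500416 (.pos 50 .mp ⟨1015114255, 0, 0, 0, 0, 0, 0, 0, 0, ⟨0, 0⟩, 0⟩ 0 0) (.pos 50 .mp ⟨1211250743, 0, 0, 0, 0, 0, 0, 0, 0, ⟨0, 0⟩, 0⟩ 0 0)) (.pos 51 .mp ⟨1484960777, 0, 0, 0, 0, 0, 0, 0, 0, ⟨0, 0⟩, 0⟩ 0 0)))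 (.cut .v 50331648 (.pos 23 .mp ⟨2949800152, 0, 0, 0, 0, 0, 0, 0, 0, ⟨0, 0⟩, 0⟩ 0 0) (.void 24 ⟨100000, 0, 0, 0, 0, 0, 0, 0, 0, ⟨0, 0⟩, 0⟩ 0 0))))))) (.void 49 ⟨100000, 0, 0, 0, 0, 0, 0, 0, 0, ⟨0, 0⟩, 0⟩ 0 0)) (.void 66 ⟨93060, 0, 0, 6940, 0, 0, 0, 0, 0, ⟨0, 0⟩, 0⟩ 0 0))) (.cut .v 16777216 (.cut .v 8388608 (.cut .v 4194304 (.cut .v 2097152 (.cut .v 1048576 (.pos 101 .pm ⟨0, 0, 1457277, 0, 0, 0, 0, 0, 0, ⟨0, 0⟩, 0⟩ 0 0) (.pos 102 .pm ⟨0, 12032421, 0, 0, 0, 0, 0, 0, 0, ⟨0, 0⟩, 0⟩ 0 0)) (.cut .d 2242500 (.pos 72 .pm ⟨0, 0, 92247986, 0, 0, 0, 0, 0, 0, ⟨0, 0⟩, 0⟩ 0 0) (.pos 72 .pm ⟨0, 52855921, 0, 0, 0, 0, 0, 0, 0, ⟨0, 0⟩, 0⟩ 0 0))) (.cut .d 2242500 (.pos 5 .pm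 ⟨0, 0, 109326428, 0, 0, 0, 0, 0, 0, ⟨0, 0⟩, 0⟩ 0 0) (.pos 5 .pm ⟨0, 68424632, 0, 0, 0, 0, 0, 0, 0, ⟨0, 0⟩, 0⟩ 0 0))) (.pos 3 .pm ⟨0, 3582987, 0, 0, 0, 0, 0, 0, 0, ⟨0, 0⟩, 0⟩ 0 0)) (.cut .v 268435456 (.cut .d 2242500 (.cut .v 67108864 (.cut .d 1121250 (.cut .v 33554432 (.cut .d 560625 (.cut .d 280312 (.cut .v 25165824 (.cut .v 20971520 (.pos 13 .pp ⟨189411286, 0, 0, 0, 0, 0, 0, 0, 0, ⟨0, 0⟩, 0⟩ 0 0) (.pos 14 .pp ⟨525603942, 0, 0, 0, 0, 0, 0, 0, 0, ⟨0, 0⟩, 0⟩ 0 0)) (.pos 12 .pp ⟨891283254, 0, 0, 0, 0, 0, 0, 0, 0, ⟨0, 0⟩, 0⟩ 0 0)) (.pos 9 .pp ⟨301293362, 0, 0, 0, 0, 0, 0, 0, 0, ⟨0, 0⟩, 0⟩ 0 0)) (.pos 9 .pp ⟨41443305, 0, 0, 0, 0, 0, 0, 0, 0, ⟨0, 0⟩, 0⟩ 0 0)) (.cut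 .v 50331648 (.cut .d 560625 (.cut .v 41943040 (.cut .v 37748736 (.pos 45 .pp ⟨1281361523, 0, 0, 0, 0, 0, 0, 0, 0, ⟨0, 0⟩, 0⟩ 0 0) (.pos 46 .pp ⟨1588472123, 0, 0, 0, 0, 0, 0, 0, 0, ⟨0, 0⟩, 0⟩ 0 0)) (.pos 26 .pp ⟨2162020755, 0, 0, 0, 0, 0, 0, 0, 0, ⟨0, 0⟩, 0⟩ 0 0)) (.pos 23 .pp ⟨1116480282, 0, 0, 0, 0, 0, 0, 0, 0, ⟨0, 0⟩, 0⟩ 0 0)) (.cut .d 560625 (.cut .v 58720256 (.pos 95 .pp ⟨3037307393, 0, 0, 0, 0, 0, 0, 0, 0, ⟨0, 0⟩, 0⟩ 0 0) (.pos 96 .pp ⟨4333030230, 0, 0, 0, 0, 0, 0, 0, 0, ⟨0, 0⟩, 0⟩ 0 0)) (.cut .v 58720256 (.pos 95 .pp ⟨2167548408, 0, 0, 0, 0, 0, 0, 0, 0, ⟨0, 0⟩, 0⟩ 0 0) (.cut .l 7801405 (.pos 96 .pp ⟨3285935027, 0, 0, 0, 0, 0, 0, 0, 0, ⟨0, 0⟩, 0⟩ 0 0)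 (.pos 96 .pp ⟨2792432789, 0, 0, 0, 0, 0, 0, 0, 0, ⟨0, 0⟩, 0⟩ 0 0)))))) (.pos 8 .pp ⟨0, 22758980, 0, 0, 0, 0, 0, 0, 0, ⟨0, 0⟩, 0⟩ 0 0)) (.cut .v 134217728 (.cut .v 100663296 (.cut .d 1121250 (.cut .v 83886080 (.cut .v 75497472 (.cut .d 560625 (.pos 109 .pp ⟨5882929864, 309631059, 0, 0, 0, 0, 0, 0, 0, ⟨0, 0⟩, 0⟩ 0 0) (.cut .d 840937 (.cut .v 71303168 (.pos 113 .pp ⟨3968914992, 0, 0, 0, 0, 0, 0, 0, 0, ⟨0, 0⟩, 0⟩ 0 0) (.cut .s 13500416 (.pos 114 .pp ⟨4512555499, 935813343, 0, 0, 0, 0, 0, 0, 0, ⟨0, 0⟩, 0⟩ 0 0) (.pos 114 .pp ⟨4789087727, 950948328, 0, 0, 0, 0, 0, 0, 0, ⟨0, 0⟩, 0⟩ 0 0))) (.pos 109 .pp ⟨2690091594, 1395909353, 0, 0, 0, 0, 0, 0, 0, ⟨0, 0⟩, 0⟩ 0 0)))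 (.void 110 ⟨37100, 62900, 0, 0, 0, 0, 0, 0, 0, ⟨0, 0⟩, 0⟩ 0 0)) (.void 108 ⟨37100, 62900, 0, 0, 0, 0, 0, 0, 0, ⟨0, 0⟩, 0⟩ 0 0)) (.void 97 ⟨0, 100000, 0, 0, 0, 0, 0, 0, 0, ⟨0, 0⟩, 0⟩ 0 0)) (.void 98 ⟨86273, 0, 0, 13727, 0, 0, 0, 0, 0, ⟨0, 0⟩, 0⟩ 0 0)) (.void 88 ⟨0, 0, 0, 100000, 0, 0, 0, 0, 0, ⟨0, 0⟩, 0⟩ 0 0))) (.pos 48 .pp ⟨0, 22219362, 0, 0, 0, 0, 0, 0, 0, ⟨0, 0⟩, 0⟩ 0 0)) (.void 66 ⟨0, 0, 0, 100000, 0, 0, 0, 0, 0, ⟨0, 0⟩, 0⟩ 0 0)))),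
    by decide +kernel⟩

def covers21 : cell.Covers table row21.1 :=
  ⟨(.cut .d 0 (.cut .v 16777216 (.cut .v 8388608 (.void 2 ⟨0, 0, 100000, 0, 0, 0, 0, 0, 0, ⟨0, 0⟩, 0⟩ 0 0) (.cut .d (-8388608) (.void 3 ⟨72910, 0, 27090, 0, 0, 0, 0, 0, 0, ⟨0, 0⟩, 0⟩ 0 0) (.cut .d (-4194304) (.void 3 ⟨72910, 0, 27090, 0, 0, 0, 0, 0, 0, ⟨0, 0⟩, 0⟩ 0 0) (.cut .d (-2097152) (.void 3 ⟨0, 0, 0, 0, 0, 100000, 0, 0, 0, ⟨0, 0⟩, 0⟩ 0 0) (.cut .d (-1048576) (.void 3 ⟨0, 0, 0, 0, 0, 100000, 0, 0, 0, ⟨0, 0⟩, 0⟩ 0 0) (.cut .d (-524288) (.cut .l 7801405 (.void 3 ⟨0, 0, 0, 0, 0, 100000, 0, 0, 0, ⟨0, 0⟩, 0⟩ 0 0) (.cut .v 12582912 (.cut .s 13959168 (.pos 6 .mm ⟨0, 0, 40870151, 0, 0, 772675376,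 0, 0, 0, ⟨0, 0⟩, 0⟩ 0 0) (.pos 6 .mm ⟨0, 0, 39350370, 0, 0, 913486442, 0, 0, 0, ⟨0, 0⟩, 0⟩ 0 0)) (.cut .d (-786432) (.cut .v 14680064 (.pos 35 .mm ⟨0, 0, 0, 0, 0, 1210635910, 0, 0, 0, ⟨0, 0⟩, 0⟩ 0 0) (.cut .d (-917504) (.void 36 ⟨0, 0, 0, 0, 0, 100000, 0, 0, 0, ⟨0, 0⟩, 0⟩ 0 0) (.cut .l 10611589 (.void 36 ⟨0, 0, 0, 0, 0, 100000, 0, 0, 0, ⟨0, 0⟩, 0⟩ 0 0) (.cut .l 12016681 (.void 36 ⟨0, 0, 0, 0, 0, 100000, 0, 0, 0, ⟨0, 0⟩, 0⟩ 0 0) (.cut .s 13959168 (.cut .v 15728640 (.pos 37 .mm ⟨0, 0, 0, 0, 0, 1139132657, 0, 0, 0, ⟨0, 0⟩, 0⟩ 0 0) (.cut .s 13860864 (.pos 38 .mm ⟨409175841, 0, 0, 0, 0, 421969095, 0, 0, 0, ⟨0, 0⟩, 0⟩ 0 0) (.cut .d (-851968) (.void 38 ⟨0, 0, 0,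 0, 0, 100000, 0, 0, 0, ⟨0, 0⟩, 0⟩ 0 0) (.pos 38 .mm ⟨404087699, 0, 0, 0, 0, 496226658, 0, 0, 0, ⟨0, 0⟩, 0⟩ 0 0)))) (.cut .v 15728640 (.pos 37 .mm ⟨0, 0, 0, 0, 0, 1338487182, 0, 0, 0, ⟨0, 0⟩, 0⟩ 0 0) (.cut .s 14057472 (.cut .d (-851968) (.void 38 ⟨100000, 0, 0, 0, 0, 0, 0, 0, 0, ⟨0, 0⟩, 0⟩ 0 0) (.cut .s 14008320 (.pos 38 .mm ⟨432437018, 0, 0, 0, 0, 511131386, 0, 0, 0, ⟨0, 0⟩, 0⟩ 0 0) (.pos 38 .mm ⟨365469609, 0, 0, 0, 0, 785887487, 0, 0, 0, ⟨0, 0⟩, 0⟩ 0 0))) (.void 38 ⟨100000, 0, 0, 0, 0, 0, 0, 0, 0, ⟨0, 0⟩, 0⟩ 0 0)))))))) (.cut .v 14680064 (.cut .s 13959168 (.pos 35 .mm ⟨0, 0, 0, 0, 0, 895161596, 0, 0, 0, ⟨0, 0⟩, 0⟩ 0 0) (.pos 35 .mm ⟨0, 0, 0, 0, 0, 1055111416,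 0, 0, 0, ⟨0, 0⟩, 0⟩ 0 0)) (.cut .s 13959168 (.cut .v 15728640 (.pos 37 .mm ⟨0, 0, 0, 0, 0, 988926970, 0, 0, 0, ⟨0, 0⟩, 0⟩ 0 0) (.cut .v 16252928 (.cut .s 13860864 (.pos 43 .mm ⟨109243294, 0, 0, 0, 0, 811962920, 0, 0, 0, ⟨0, 0⟩, 0⟩ 0 0) (.cut .v 15990784 (.pos 105 .mm ⟨166407898, 0, 0, 0, 0, 780447816, 0, 0, 0, ⟨0, 0⟩, 0⟩ 0 0) (.pos 106 .mm ⟨592315015, 0, 0, 0, 0, 139446544, 0, 0, 0, ⟨0, 0⟩, 0⟩ 0 0))) (.pos 44 .mm ⟨679780145, 0, 0, 0, 0, 0, 0, 0, 0, ⟨0, 0⟩, 0⟩ 0 0))) (.cut .v 15728640 (.cut .s 14057472 (.pos 37 .mm ⟨0, 0, 0, 0, 0, 1119257894, 0, 0, 0, ⟨0, 0⟩, 0⟩ 0 0) (.pos 37 .mm ⟨0, 0, 0, 0, 0, 1212144805, 0, 0, 0, ⟨0, 0⟩, 0⟩ 0 0)) (.cut .s 14057472 (.cut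 .d (-655360) (.cut .s 14008320 (.pos 38 .mm ⟨616947803, 0, 0, 0, 0, 147350651, 0, 0, 0, ⟨0, 0⟩, 0⟩ 0 0) (.pos 38 .mm ⟨640560807, 0, 0, 0, 0, 152810764, 0, 0, 0, ⟨0, 0⟩, 0⟩ 0 0)) (.pos 38 .mm ⟨528567790, 0, 0, 0, 0, 266135873, 0, 0, 0, ⟨0, 0⟩, 0⟩ 0 0)) (.cut .d (-655360) (.cut .s 14106624 (.pos 38 .mm ⟨668116914, 0, 0, 0, 0, 153879308, 0, 0, 0, ⟨0, 0⟩, 0⟩ 0 0) (.pos 38 .mm ⟨703835840, 0, 0, 0, 0, 143364227, 0, 0, 0, ⟨0, 0⟩, 0⟩ 0 0)) (.pos 38 .mm ⟨590068839, 0, 0, 0, 0, 251209345, 0, 0, 0, ⟨0, 0⟩, 0⟩ 0 0))))))))) (.cut .v 12582912 (.cut .d (-262144) (.cut .l 7801405 (.pos 6 .mm ⟨0, 0, 0, 0, 0, 757547717, 0, 0, 0, ⟨0, 0⟩, 0⟩ 0 0) (.pos 6 .mm ⟨0, 0, 0, 0, 0, 523881412,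 0, 0, 0, ⟨0, 0⟩, 0⟩ 0 0)) (.pos 6 .mm ⟨0, 0, 0, 0, 0, 515599392, 0, 0, 0, ⟨0, 0⟩, 0⟩ 0 0)) (.cut .l 7801405 (.cut .d (-262144) (.cut .l 4991221 (.pos 7 .mm ⟨109402245, 0, 0, 0, 0, 1081649830, 0, 0, 0, ⟨0, 0⟩, 0⟩ 0 0) (.cut .v 14680064 (.pos 35 .mm ⟨0, 0, 0, 0, 0, 951683221, 0, 0, 0, ⟨0, 0⟩, 0⟩ 0 0) (.cut .v 15728640 (.pos 37 .mm ⟨0, 0, 0, 0, 0, 1048074992, 0, 0, 0, ⟨0, 0⟩, 0⟩ 0 0) (.cut .s 13959168 (.cut .d (-393216) (.pos 38 .mm ⟨171506870, 0, 0, 0, 0, 812544582, 0, 0, 0, ⟨0, 0⟩, 0⟩ 0 0) (.pos 38 .mm ⟨73246939, 0, 0, 0, 0, 886240791, 0, 0, 0, ⟨0, 0⟩, 0⟩ 0 0)) (.cut .s 14057472 (.pos 38 .mm ⟨97251582, 0, 0, 0, 0, 995813846, 0, 0, 0, ⟨0, 0⟩, 0⟩ 0 0) (.pos 38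 .mm ⟨109781352, 0, 0, 0, 0, 1066085848, 0, 0, 0, ⟨0, 0⟩, 0⟩ 0 0)))))) (.cut .l 4991221 (.cut .v 14680064 (.pos 35 .mm ⟨0, 0, 0, 0, 0, 823485424, 0, 0, 0, ⟨0, 0⟩, 0⟩ 0 0) (.cut .d (-131072) (.cut .s 13959168 (.pos 36 .mm ⟨0, 0, 0, 0, 0, 996514225, 0, 0, 0, ⟨0, 0⟩, 0⟩ 0 0) (.cut .s 14057472 (.pos 36 .mm ⟨0, 0, 0, 0, 0, 1103070569, 0, 0, 0, ⟨0, 0⟩, 0⟩ 0 0) (.pos 36 .mm ⟨0, 0, 0, 0, 0, 1188044488, 0, 0, 0, ⟨0, 0⟩, 0⟩ 0 0))) (.cut .s 13959168 (.pos 36 .mm ⟨0, 0, 0, 0, 0, 905402106, 0, 0, 0, ⟨0, 0⟩, 0⟩ 0 0) (.pos 36 .mm ⟨0, 0, 0, 0, 0, 1039765882, 0, 0, 0, ⟨0, 0⟩, 0⟩ 0 0)))) (.pos 7 .mm ⟨0, 0, 0, 0, 0, 776454546, 0, 0, 0, ⟨0, 0⟩, 0⟩ 0 0))) (.cut .v 14680064 (.pos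 35 .mm ⟨0, 0, 0, 0, 0, 734509925, 0, 0, 0, ⟨0, 0⟩, 0⟩ 0 0) (.cut .d (-262144) (.cut .v 15728640 (.pos 37 .mm ⟨0, 0, 0, 0, 0, 904576751, 0, 0, 0, ⟨0, 0⟩, 0⟩ 0 0) (.cut .s 13959168 (.pos 38 .mm ⟨343745501, 0, 0, 0, 0, 364262835, 0, 0, 0, ⟨0, 0⟩, 0⟩ 0 0) (.pos 38 .mm ⟨429018256, 0, 0, 0, 0, 369162753, 0, 0, 0, ⟨0, 0⟩, 0⟩ 0 0))) (.pos 36 .mm ⟨0, 0, 0, 0, 0, 0, 0, 0, 0, ⟨0, 0⟩, 0⟩ 0 0))))))))))) (.cut .v 268435456 (.cut .v 67108864 (.cut .d (-8388608) (.void 8 ⟨100000, 0, 0, 0, 0, 0, 0, 0, 0, ⟨0, 0⟩, 0⟩ 0 0) (.cut .d (-4194304) (.void 8 ⟨100000, 0, 0, 0, 0, 0, 0, 0, 0, ⟨0, 0⟩, 0⟩ 0 0) (.cut .d (-2097152) (.void 8 ⟨100000, 0, 0, 0, 0, 0, 0, 0, 0, ⟨0, 0⟩, 0⟩ 0 0)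 (.cut .d (-1048576) (.void 8 ⟨100000, 0, 0, 0, 0, 0, 0, 0, 0, ⟨0, 0⟩, 0⟩ 0 0) (.cut .v 33554432 (.cut .v 25165824 (.cut .d (-524288) (.cut .v 20971520 (.cut .v 18874368 (.cut .d (-786432) (.pos 15 .mp ⟨960444737, 0, 0, 0, 0, 0, 0, 0, 0, ⟨0, 0⟩, 0⟩ 0 0) (.cut .l 7801405 (.void 15 ⟨100000, 0, 0, 0, 0, 0, 0, 0, 0, ⟨0, 0⟩, 0⟩ 0 0) (.cut .s 13959168 (.pos 15 .mp ⟨722168005, 0, 0, 0, 0, 0, 0, 0, 0, ⟨0, 0⟩, 0⟩ 0 0) (.pos 15 .mp ⟨837204303, 0, 0, 0, 0, 0, 0, 0, 0, ⟨0, 0⟩, 0⟩ 0 0)))) (.pos 16 .mp ⟨1068252291, 0, 0, 0, 0, 0, 0, 0, 0, ⟨0, 0⟩, 0⟩ 0 0)) (.pos 14 .mp ⟨1361441174, 0, 0, 0, 0, 0, 0, 0, 0, ⟨0, 0⟩, 0⟩ 0 0)) (.cut .v 20971520 (.cut .d (-262144) (.cut .l 7801405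 (.cut .l 4991221 (.pos 13 .mp ⟨884320149, 0, 0, 0, 0, 0, 0, 0, 0, ⟨0, 0⟩, 0⟩ 0 0) (.cut .d (-393216) (.pos 13 .mp ⟨824384042, 0, 0, 0, 0, 0, 0, 0, 0, ⟨0, 0⟩, 0⟩ 0 0) (.pos 13 .mp ⟨697930206, 0, 0, 0, 0, 0, 0, 0, 0, ⟨0, 0⟩, 0⟩ 0 0))) (.pos 13 .mp ⟨675562926, 0, 0, 0, 0, 0, 0, 0, 0, ⟨0, 0⟩, 0⟩ 0 0)) (.cut .v 18874368 (.cut .v 17825792 (.cut .l 7801405 (.cut .l 4991221 (.cut .d (-131072) (.cut .v 17301504 (.cut .s 13959168 (.cut .s 13860864 (.pos 39 .mp ⟨270099198, 0, 0, 0, 0, 564898188, 0, 0, 0, ⟨0, 0⟩, 0⟩ 0 0) (.pos 39 .mp ⟨308320120, 0, 0, 0, 0, 572073185, 0, 0, 0, ⟨0, 0⟩, 0⟩ 0 0)) (.cut .s 14057472 (.pos 39 .mp ⟨344034378, 0, 0, 0, 0, 590342540, 0, 0, 0,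 ⟨0, 0⟩, 0⟩ 0 0) (.pos 39 .mp ⟨375115981, 0, 0, 0, 0, 623757105, 0, 0, 0, ⟨0, 0⟩, 0⟩ 0 0))) (.pos 40 .mp ⟨738376637, 0, 0, 0, 0, 0, 0, 0, 0, ⟨0, 0⟩, 0⟩ 0 0)) (.cut .d (-65536) (.cut .v 17301504 (.cut .l 3586129 (.cut .l 2883583 (.cut .s 13959168 (.cut .v 17039360 (.pos 67 .mp ⟨0, 0, 0, 0, 0, 970549847, 0, 0, 0, ⟨0, 0⟩, 0⟩ 0 0) (.cut .d (-98304) (.pos 68 .mp ⟨285849028, 0, 0, 0, 0, 568040605, 0, 0, 0, ⟨0, 0⟩, 0⟩ 0 0) (.cut .d (-81920) (.pos 68 .mp ⟨264451061, 0, 0, 0, 0, 544056052, 0, 0, 0, ⟨0, 0⟩, 0⟩ 0 0) (.pos 68 .mp ⟨0, 0, 0, 0, 0, 0, 0, 0, 0, ⟨0, 0⟩, 0⟩ 0 0)))) (.cut .d (-98304) (.cut .s 14057472 (.pos 39 .mp ⟨267872277, 0, 0, 0, 0, 690838397, 0, 0, 0, ⟨0,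 0⟩, 0⟩ 0 0) (.pos 39 .mp ⟨275624520, 0, 0, 0, 0, 762623502, 0, 0, 0, ⟨0, 0⟩, 0⟩ 0 0)) (.cut .d (-81920) (.cut .s 14057472 (.cut .s 14008320 (.pos 39 .mp ⟨238951879, 0, 0, 0, 0, 677227228, 0, 0, 0, ⟨0, 0⟩, 0⟩ 0 0) (.pos 39 .mp ⟨246515456, 0, 0, 0, 0, 700192174, 0, 0, 0, ⟨0, 0⟩, 0⟩ 0 0)) (.pos 39 .mp ⟨254184054, 0, 0, 0, 0, 742669892, 0, 0, 0, ⟨0, 0⟩, 0⟩ 0 0)) (.pos 39 .mp ⟨269863276, 0, 0, 0, 0, 0, 0, 0, 0, ⟨0, 0⟩, 0⟩ 0 0)))) (.pos 39 .mp ⟨289956443, 0, 0, 0, 0, 412932894, 0, 0, 0, ⟨0, 0⟩, 0⟩ 0 0)) (.pos 39 .mp ⟨0, 0, 0, 0, 0, 0, 0, 0, 0, ⟨0, 0⟩, 0⟩ 0 0)) (.pos 40 .mp ⟨670934563, 0, 0, 0, 0, 0, 0, 0, 0, ⟨0, 0⟩, 0⟩ 0 0)) (.pos 17 .mp ⟨267957461, 0, 0, 0, 0,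 0, 0, 0, 0, ⟨0, 0⟩, 0⟩ 0 0))) (.pos 17 .mp ⟨550675282, 0, 0, 0, 0, 0, 0, 0, 0, ⟨0, 0⟩, 0⟩ 0 0)) (.pos 17 .mp ⟨0, 0, 0, 0, 0, 0, 0, 0, 0, ⟨0, 0⟩, 0⟩ 0 0)) (.pos 18 .mp ⟨713570372, 0, 0, 0, 0, 0, 0, 0, 0, ⟨0, 0⟩, 0⟩ 0 0)) (.pos 16 .mp ⟨778649415, 0, 0, 0, 0, 0, 0, 0, 0, ⟨0, 0⟩, 0⟩ 0 0))) (.cut .d (-262144) (.pos 14 .mp ⟨1117072813, 0, 0, 0, 0, 0, 0, 0, 0, ⟨0, 0⟩, 0⟩ 0 0) (.pos 14 .mp ⟨954372704, 0, 0, 0, 0, 0, 0, 0, 0, ⟨0, 0⟩, 0⟩ 0 0)))) (.cut .v 29360128 (.cut .d (-524288) (.void 50 ⟨100000, 0, 0, 0, 0, 0, 0, 0, 0, ⟨0, 0⟩, 0⟩ 0 0) (.pos 50 .mp ⟨1388079050, 0, 0, 0, 0, 0, 0, 0, 0, ⟨0, 0⟩, 0⟩ 0 0)) (.pos 51 .mp ⟨1964481912, 0, 0, 0, 0, 0, 0, 0, 0, ⟨0, 0⟩, 0⟩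 0 0))) (.cut .v 50331648 (.pos 23 .mp ⟨3760296056, 0, 0, 0, 0, 0, 0, 0, 0, ⟨0, 0⟩, 0⟩ 0 0) (.void 24 ⟨100000, 0, 0, 0, 0, 0, 0, 0, 0, ⟨0, 0⟩, 0⟩ 0 0))))))) (.void 49 ⟨100000, 0, 0, 0, 0, 0, 0, 0, 0, ⟨0, 0⟩, 0⟩ 0 0)) (.void 66 ⟨92876, 0, 0, 7124, 0, 0, 0, 0, 0, ⟨0, 0⟩, 0⟩ 0 0))) (.cut .v 16777216 (.cut .v 8388608 (.cut .v 4194304 (.cut .v 2097152 (.cut .v 1048576 (.cut .v 524288 (.pos 117 .pm ⟨0, 0, 6320314, 0, 0, 0, 0, 0, 0, ⟨0, 0⟩, 0⟩ 0 0) (.pos 118 .pm ⟨0, 0, 1003619, 0, 0, 0, 0, 0, 0, ⟨0, 0⟩, 0⟩ 0 0)) (.pos 102 .pm ⟨0, 4091886, 0, 0, 0, 0, 0, 0, 0, ⟨0, 0⟩, 0⟩ 0 0)) (.pos 72 .pm ⟨0, 6307541, 0, 0, 0, 0, 0, 0, 0, ⟨0, 0⟩, 0⟩ 0 0)) (.pos 5 .pm ⟨0, 3650759,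 0, 0, 0, 0, 0, 0, 0, ⟨0, 0⟩, 0⟩ 0 0)) (.pos 3 .pm ⟨0, 0, 330523, 0, 0, 0, 0, 0, 0, ⟨0, 0⟩, 0⟩ 0 0)) (.cut .v 268435456 (.cut .d 1837506 (.cut .v 67108864 (.cut .d 918753 (.cut .v 33554432 (.cut .v 25165824 (.pos 11 .pp ⟨420134642, 0, 0, 0, 0, 0, 0, 0, 0, ⟨0, 0⟩, 0⟩ 0 0) (.cut .v 29360128 (.pos 50 .pp ⟨876421415, 0, 0, 0, 0, 0, 0, 0, 0, ⟨0, 0⟩, 0⟩ 0 0) (.pos 51 .pp ⟨1193530234, 0, 0, 0, 0, 0, 0, 0, 0, ⟨0, 0⟩, 0⟩ 0 0))) (.cut .v 50331648 (.cut .d 459376 (.cut .v 41943040 (.pos 25 .pp ⟨1890755715, 0, 0, 0, 0, 0, 0, 0, 0, ⟨0, 0⟩, 0⟩ 0 0) (.pos 26 .pp ⟨2806378297, 0, 0, 0, 0, 0, 0, 0, 0, ⟨0, 0⟩, 0⟩ 0 0)) (.pos 23 .pp ⟨1553890158, 0, 0, 0, 0, 0, 0, 0, 0, ⟨0, 0⟩,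 0⟩ 0 0)) (.cut .d 459376 (.cut .v 58720256 (.pos 95 .pp ⟨3876846219, 0, 0, 0, 0, 0, 0, 0, 0, ⟨0, 0⟩, 0⟩ 0 0) (.pos 96 .pp ⟨5380847730, 0, 0, 0, 0, 0, 0, 0, 0, ⟨0, 0⟩, 0⟩ 0 0)) (.cut .v 58720256 (.pos 95 .pp ⟨2921229664, 0, 0, 0, 0, 0, 0, 0, 0, ⟨0, 0⟩, 0⟩ 0 0) (.cut .l 7801405 (.pos 96 .pp ⟨4240565177, 0, 0, 0, 0, 0, 0, 0, 0, ⟨0, 0⟩, 0⟩ 0 0) (.pos 96 .pp ⟨3713492100, 0, 0, 0, 0, 0, 0, 0, 0, ⟨0, 0⟩, 0⟩ 0 0)))))) (.pos 8 .pp ⟨0, 156538324, 0, 0, 0, 0, 0, 0, 0, ⟨0, 0⟩, 0⟩ 0 0)) (.cut .v 134217728 (.cut .v 100663296 (.cut .d 918753 (.cut .v 83886080 (.cut .v 75497472 (.cut .d 459376 (.pos 109 .pp ⟨8720395669, 0, 0, 0, 0, 0, 0, 0, 0, ⟨0, 0⟩, 0⟩ 0 0) (.cut .d 689064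 (.cut .v 71303168 (.pos 113 .pp ⟨5037148527, 0, 0, 0, 0, 0, 0, 0, 0, ⟨0, 0⟩, 0⟩ 0 0) (.cut .d 574220 (.cut .l 7801405 (.void 114 ⟨100000, 0, 0, 0, 0, 0, 0, 0, 0, ⟨0, 0⟩, 0⟩ 0 0) (.cut .l 10611589 (.pos 114 .pp ⟨6802129778, 1093687421, 0, 0, 0, 0, 0, 0, 0, ⟨0, 0⟩, 0⟩ 0 0) (.cut .l 12016681 (.pos 114 .pp ⟨6363048438, 701595333, 0, 0, 0, 0, 0, 0, 0, ⟨0, 0⟩, 0⟩ 0 0) (.cut .s 13959168 (.cut .l 12719227 (.pos 114 .pp ⟨6228803426, 621798434, 0, 0, 0, 0, 0, 0, 0, ⟨0, 0⟩, 0⟩ 0 0) (.cut .v 73400320 (.cut .d 516798 (.pos 115 .pp ⟨5606430585, 0, 0, 0, 0, 0, 0, 0, 0, ⟨0, 0⟩, 0⟩ 0 0) (.pos 115 .pp ⟨5628250571, 575530465, 0, 0, 0, 0, 0, 0, 0, ⟨0, 0⟩, 0⟩ 0 0)) (.cut .d 516798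 (.pos 116 .pp ⟨6383393752, 1330529088, 0, 0, 0, 0, 0, 0, 0, ⟨0, 0⟩, 0⟩ 0 0) (.pos 116 .pp ⟨6063439691, 1317956000, 0, 0, 0, 0, 0, 0, 0, ⟨0, 0⟩, 0⟩ 0 0)))) (.cut .d 516798 (.cut .l 12719227 (.pos 114 .pp ⟨6728388395, 860510317, 0, 0, 0, 0, 0, 0, 0, ⟨0, 0⟩, 0⟩ 0 0) (.cut .l 13070500 (.pos 114 .pp ⟨6646681156, 843099781, 0, 0, 0, 0, 0, 0, 0, ⟨0, 0⟩, 0⟩ 0 0) (.cut .v 73400320 (.cut .s 14057472 (.pos 115 .pp ⟨5728505736, 0, 0, 0, 0, 0, 0, 0, 0, ⟨0, 0⟩, 0⟩ 0 0) (.pos 115 .pp ⟨5857359292, 0, 0, 0, 0, 0, 0, 0, 0, ⟨0, 0⟩, 0⟩ 0 0)) (.cut .v 74448896 (.cut .s 14057472 (.cut .s 14008320 (.pos 121 .pp ⟨6464761961, 1273873601, 0, 0, 0, 0, 0, 0, 0, ⟨0, 0⟩, 0⟩ 0 0) (.pos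 121 .pp ⟨6559345395, 1291551911, 0, 0, 0, 0, 0, 0, 0, ⟨0, 0⟩, 0⟩ 0 0)) (.pos 121 .pp ⟨6664933713, 1304254028, 0, 0, 0, 0, 0, 0, 0, ⟨0, 0⟩, 0⟩ 0 0)) (.void 122 ⟨36542, 63458, 0, 0, 0, 0, 0, 0, 0, ⟨0, 0⟩, 0⟩ 0 0))))) (.pos 114 .pp ⟨4692790530, 1511533498, 0, 0, 0, 0, 0, 0, 0, ⟨0, 0⟩, 0⟩ 0 0)))))) (.pos 114 .pp ⟨4881028778, 1381685618, 0, 0, 0, 0, 0, 0, 0, ⟨0, 0⟩, 0⟩ 0 0))) (.pos 109 .pp ⟨3733592915, 2027766144, 0, 0, 0, 0, 0, 0, 0, ⟨0, 0⟩, 0⟩ 0 0))) (.void 110 ⟨36580, 63420, 0, 0, 0, 0, 0, 0, 0, ⟨0, 0⟩, 0⟩ 0 0)) (.void 108 ⟨36580, 63420, 0, 0, 0, 0, 0, 0, 0, ⟨0, 0⟩, 0⟩ 0 0)) (.void 97 ⟨0, 100000, 0, 0, 0, 0, 0, 0, 0, ⟨0, 0⟩, 0⟩ 0 0)) (.void 98 ⟨86073, 0, 0,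 13927, 0, 0, 0, 0, 0, ⟨0, 0⟩, 0⟩ 0 0)) (.void 88 ⟨0, 0, 0, 100000, 0, 0, 0, 0, 0, ⟨0, 0⟩, 0⟩ 0 0))) (.pos 48 .pp ⟨0, 0, 0, 0, 0, 0, 0, 0, 0, ⟨0, 0⟩, 0⟩ 0 0)) (.void 66 ⟨0, 0, 0, 100000, 0, 0, 0, 0, 0, ⟨0, 0⟩, 0⟩ 0 0)))),
    by decide +kernel⟩

def covers22 : cell.Covers table row22.1 :=
  ⟨(.cut .d 0 (.cut .v 16777216 (.cut .d (-8388608) (.void 1 ⟨0, 0, 0, 0, 0, 100000, 0, 0, 0, ⟨0, 0⟩, 0⟩ 0 0) (.cut .v 8388608 (.void 2 ⟨0, 0, 100000, 0, 0, 0, 0, 0, 0, ⟨0, 0⟩, 0⟩ 0 0) (.cut .d (-4194304) (.void 3 ⟨72461, 0, 27539, 0, 0, 0, 0, 0, 0, ⟨0, 0⟩, 0⟩ 0 0) (.cut .d (-2097152) (.void 3 ⟨72461, 0, 27539, 0, 0, 0, 0, 0, 0, ⟨0, 0⟩, 0⟩ 0 0) (.cut .d (-1048576) (.void 3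 ⟨0, 0, 0, 0, 0, 100000, 0, 0, 0, ⟨0, 0⟩, 0⟩ 0 0) (.cut .d (-524288) (.cut .d (-786432) (.void 3 ⟨0, 0, 0, 0, 0, 100000, 0, 0, 0, ⟨0, 0⟩, 0⟩ 0 0) (.cut .v 12582912 (.pos 6 .mm ⟨0, 0, 37248337, 0, 0, 1147067910, 0, 0, 0, ⟨0, 0⟩, 0⟩ 0 0) (.cut .l 7801405 (.void 7 ⟨0, 0, 0, 0, 0, 100000, 0, 0, 0, ⟨0, 0⟩, 0⟩ 0 0) (.cut .v 14680064 (.cut .s 14319616 (.pos 35 .mm ⟨0, 0, 0, 0, 0, 1268557063, 0, 0, 0, ⟨0, 0⟩, 0⟩ 0 0) (.pos 35 .mm ⟨0, 0, 0, 0, 0, 1448920151, 0, 0, 0, ⟨0, 0⟩, 0⟩ 0 0)) (.cut .l 10611589 (.cut .s 14319616 (.pos 36 .mm ⟨240334967, 0, 0, 0, 0, 1199619004, 0, 0, 0, ⟨0, 0⟩, 0⟩ 0 0) (.pos 36 .mm ⟨308621883, 0, 0, 0, 0, 1304530482, 0, 0, 0, ⟨0, 0⟩, 0⟩ 0 0))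 (.cut .v 15728640 (.cut .d (-655360) (.cut .s 14319616 (.cut .s 14237696 (.pos 37 .mm ⟨211645802, 0, 0, 0, 0, 1052575929, 0, 0, 0, ⟨0, 0⟩, 0⟩ 0 0) (.cut .s 14278656 (.pos 37 .mm ⟨247491961, 0, 0, 0, 0, 1054320656, 0, 0, 0, ⟨0, 0⟩, 0⟩ 0 0) (.pos 37 .mm ⟨266589007, 0, 0, 0, 0, 1071839883, 0, 0, 0, ⟨0, 0⟩, 0⟩ 0 0))) (.pos 37 .mm ⟨286519829, 0, 0, 0, 0, 1187367868, 0, 0, 0, ⟨0, 0⟩, 0⟩ 0 0)) (.cut .s 14319616 (.pos 37 .mm ⟨0, 0, 0, 0, 0, 1299445658, 0, 0, 0, ⟨0, 0⟩, 0⟩ 0 0) (.pos 37 .mm ⟨0, 0, 0, 0, 0, 1475861313, 0, 0, 0, ⟨0, 0⟩, 0⟩ 0 0))) (.cut .s 14319616 (.cut .v 16252928 (.cut .d (-655360) (.cut .s 14237696 (.pos 43 .mm ⟨855697355, 0, 0, 0, 0, 0, 0, 0, 0,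 ⟨0, 0⟩, 0⟩ 0 0) (.pos 43 .mm ⟨908743048, 0, 0, 0, 0, 0, 0, 0, 0, ⟨0, 0⟩, 0⟩ 0 0)) (.cut .s 14237696 (.pos 43 .mm ⟨460629832, 0, 0, 0, 0, 537602721, 0, 0, 0, ⟨0, 0⟩, 0⟩ 0 0) (.pos 43 .mm ⟨514454040, 0, 0, 0, 0, 529953256, 0, 0, 0, ⟨0, 0⟩, 0⟩ 0 0))) (.pos 44 .mm ⟨895778905, 0, 0, 0, 0, 0, 0, 0, 0, ⟨0, 0⟩, 0⟩ 0 0)) (.cut .d (-655360) (.pos 38 .mm ⟨996450650, 0, 0, 0, 0, 0, 0, 0, 0, ⟨0, 0⟩, 0⟩ 0 0) (.cut .s 14401536 (.pos 38 .mm ⟨604304325, 0, 0, 0, 0, 472160757, 0, 0, 0, ⟨0, 0⟩, 0⟩ 0 0) (.pos 38 .mm ⟨671117843, 0, 0, 0, 0, 457364140, 0, 0, 0, ⟨0, 0⟩, 0⟩ 0 0)))))))))) (.cut .v 12582912 (.cut .l 7801405 (.cut .d (-262144) (.pos 6 .mm ⟨0, 0, 31171273, 0, 0, 1090894730,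 0, 0, 0, ⟨0, 0⟩, 0⟩ 0 0) (.cut .v 10485760 (.pos 62 .mm ⟨0, 0, 0, 0, 0, 666932738, 0, 0, 0, ⟨0, 0⟩, 0⟩ 0 0) (.pos 63 .mm ⟨0, 0, 0, 0, 0, 854726359, 0, 0, 0, ⟨0, 0⟩, 0⟩ 0 0))) (.cut .v 10485760 (.pos 62 .mm ⟨0, 0, 101114666, 0, 0, 639355923, 0, 0, 0, ⟨0, 0⟩, 0⟩ 0 0) (.pos 63 .mm ⟨0, 0, 0, 0, 0, 814108197, 0, 0, 0, ⟨0, 0⟩, 0⟩ 0 0))) (.cut .d (-262144) (.cut .l 7801405 (.cut .d (-393216) (.pos 7 .mm ⟨165589356, 0, 0, 0, 0, 1388897886, 0, 0, 0, ⟨0, 0⟩, 0⟩ 0 0) (.cut .l 4991221 (.void 7 ⟨0, 0, 0, 0, 0, 100000, 0, 0, 0, ⟨0, 0⟩, 0⟩ 0 0) (.cut .s 14319616 (.pos 7 .mm ⟨40482457, 0, 0, 0, 0, 1288320971, 0, 0, 0, ⟨0, 0⟩, 0⟩ 0 0) (.pos 7 .mm ⟨59629656, 0, 0, 0, 0, 1435561469,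 0, 0, 0, ⟨0, 0⟩, 0⟩ 0 0)))) (.cut .v 14680064 (.pos 35 .mm ⟨0, 0, 0, 0, 0, 1100035438, 0, 0, 0, ⟨0, 0⟩, 0⟩ 0 0) (.cut .l 10611589 (.cut .d (-393216) (.cut .v 15728640 (.pos 37 .mm ⟨0, 0, 0, 0, 0, 1367192442, 0, 0, 0, ⟨0, 0⟩, 0⟩ 0 0) (.cut .s 14319616 (.pos 38 .mm ⟨522224110, 0, 0, 0, 0, 448577965, 0, 0, 0, ⟨0, 0⟩, 0⟩ 0 0) (.pos 38 .mm ⟨632684189, 0, 0, 0, 0, 431000903, 0, 0, 0, ⟨0, 0⟩, 0⟩ 0 0))) (.pos 36 .mm ⟨310221933, 0, 0, 0, 0, 625017499, 0, 0, 0, ⟨0, 0⟩, 0⟩ 0 0)) (.pos 36 .mm ⟨388628649, 0, 0, 0, 0, 468824075, 0, 0, 0, ⟨0, 0⟩, 0⟩ 0 0)))) (.cut .l 7801405 (.cut .v 14680064 (.cut .s 14319616 (.pos 35 .mm ⟨0, 0, 0, 0, 0, 1004787797, 0, 0, 0, ⟨0, 0⟩, 0⟩ 0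 0) (.pos 35 .mm ⟨0, 0, 0, 0, 0, 1136876691, 0, 0, 0, ⟨0, 0⟩, 0⟩ 0 0)) (.cut .l 4991221 (.cut .d (-131072) (.cut .s 14319616 (.pos 36 .mm ⟨0, 0, 0, 0, 0, 1331262781, 0, 0, 0, ⟨0, 0⟩, 0⟩ 0 0) (.pos 36 .mm ⟨0, 0, 0, 0, 0, 1505654471, 0, 0, 0, ⟨0, 0⟩, 0⟩ 0 0)) (.cut .s 14319616 (.pos 36 .mm ⟨0, 0, 0, 0, 0, 1205838893, 0, 0, 0, ⟨0, 0⟩, 0⟩ 0 0) (.cut .d (-65536) (.pos 36 .mm ⟨0, 0, 0, 0, 0, 1417965664, 0, 0, 0, ⟨0, 0⟩, 0⟩ 0 0) (.pos 36 .mm ⟨0, 0, 0, 0, 0, 0, 0, 0, 0, ⟨0, 0⟩, 0⟩ 0 0)))) (.cut .s 14319616 (.pos 36 .mm ⟨0, 0, 0, 0, 0, 1147042967, 0, 0, 0, ⟨0, 0⟩, 0⟩ 0 0) (.pos 36 .mm ⟨0, 0, 0, 0, 0, 1294162971, 0, 0, 0, ⟨0, 0⟩, 0⟩ 0 0)))) (.pos 7 .mm ⟨0, 0, 0, 0, 0,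 0, 0, 0, 0, ⟨0, 0⟩, 0⟩ 0 0)))))))))) (.cut .v 268435456 (.cut .v 67108864 (.cut .d (-8388608) (.void 8 ⟨100000, 0, 0, 0, 0, 0, 0, 0, 0, ⟨0, 0⟩, 0⟩ 0 0) (.cut .d (-4194304) (.void 8 ⟨100000, 0, 0, 0, 0, 0, 0, 0, 0, ⟨0, 0⟩, 0⟩ 0 0) (.cut .d (-2097152) (.void 8 ⟨100000, 0, 0, 0, 0, 0, 0, 0, 0, ⟨0, 0⟩, 0⟩ 0 0) (.cut .d (-1048576) (.void 8 ⟨100000, 0, 0, 0, 0, 0, 0, 0, 0, ⟨0, 0⟩, 0⟩ 0 0) (.cut .v 33554432 (.cut .v 25165824 (.cut .d (-524288) (.cut .v 20971520 (.cut .s 14319616 (.cut .v 18874368 (.pos 15 .mp ⟨1064738185, 0, 0, 0, 0, 0, 0, 0, 0, ⟨0, 0⟩, 0⟩ 0 0) (.pos 16 .mp ⟨1248014462, 0, 0, 0, 0, 0, 0, 0, 0, ⟨0, 0⟩, 0⟩ 0 0)) (.pos 13 .mp ⟨1327544444, 0, 0, 0, 0,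 0, 0, 0, 0, ⟨0, 0⟩, 0⟩ 0 0)) (.void 14 ⟨100000, 0, 0, 0, 0, 0, 0, 0, 0, ⟨0, 0⟩, 0⟩ 0 0)) (.cut .v 20971520 (.cut .d (-262144) (.cut .v 18874368 (.cut .l 7801405 (.cut .s 14319616 (.pos 15 .mp ⟨928899554, 0, 0, 0, 0, 0, 0, 0, 0, ⟨0, 0⟩, 0⟩ 0 0) (.pos 15 .mp ⟨1048439906, 0, 0, 0, 0, 0, 0, 0, 0, ⟨0, 0⟩, 0⟩ 0 0)) (.pos 15 .mp ⟨882561013, 0, 0, 0, 0, 0, 0, 0, 0, ⟨0, 0⟩, 0⟩ 0 0)) (.pos 16 .mp ⟨1156212372, 0, 0, 0, 0, 0, 0, 0, 0, ⟨0, 0⟩, 0⟩ 0 0)) (.cut .v 18874368 (.cut .v 17825792 (.cut .l 7801405 (.cut .l 4991221 (.cut .d (-131072) (.cut .d (-196608) (.pos 17 .mp ⟨974644086, 0, 0, 0, 0, 0, 0, 0, 0, ⟨0, 0⟩, 0⟩ 0 0) (.cut .s 14319616 (.cut .s 14237696 (.pos 17 .mp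 ⟨398464117, 0, 0, 0, 0, 686564706, 0, 0, 0, ⟨0, 0⟩, 0⟩ 0 0) (.pos 17 .mp ⟨429174249, 0, 0, 0, 0, 712559476, 0, 0, 0, ⟨0, 0⟩, 0⟩ 0 0)) (.pos 17 .mp ⟨540232997, 0, 0, 0, 0, 649975448, 0, 0, 0, ⟨0, 0⟩, 0⟩ 0 0))) (.cut .d (-65536) (.cut .l 3586129 (.cut .v 17301504 (.cut .s 14319616 (.cut .l 2883583 (.cut .d (-98304) (.pos 39 .mp ⟨248634997, 0, 0, 0, 0, 1004356280, 0, 0, 0, ⟨0, 0⟩, 0⟩ 0 0) (.cut .v 17039360 (.pos 67 .mp ⟨0, 0, 0, 0, 0, 1281063413, 0, 0, 0, ⟨0, 0⟩, 0⟩ 0 0) (.cut .d (-81920) (.pos 68 .mp ⟨323815550, 0, 0, 0, 0, 808581994, 0, 0, 0, ⟨0, 0⟩, 0⟩ 0 0) (.cut .d (-73728) (.cut .d (-77824) (.pos 68 .mp ⟨308696532, 0, 0, 0, 0, 818387042, 0, 0, 0, ⟨0, 0⟩,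 0⟩ 0 0) (.pos 68 .mp ⟨303738521, 0, 0, 0, 0, 768962367, 0, 0, 0, ⟨0, 0⟩, 0⟩ 0 0)) (.pos 68 .mp ⟨297479043, 0, 0, 0, 0, 0, 0, 0, 0, ⟨0, 0⟩, 0⟩ 0 0))))) (.pos 39 .mp ⟨326992827, 0, 0, 0, 0, 660866724, 0, 0, 0, ⟨0, 0⟩, 0⟩ 0 0)) (.cut .l 2883583 (.cut .d (-98304) (.pos 39 .mp ⟨277520026, 0, 0, 0, 0, 1108023981, 0, 0, 0, ⟨0, 0⟩, 0⟩ 0 0) (.cut .v 17039360 (.pos 67 .mp ⟨0, 0, 0, 0, 0, 1431338531, 0, 0, 0, ⟨0, 0⟩, 0⟩ 0 0) (.cut .d (-81920) (.pos 68 .mp ⟨358249641, 0, 0, 0, 0, 897898879, 0, 0, 0, ⟨0, 0⟩, 0⟩ 0 0) (.cut .d (-73728) (.cut .d (-77824) (.pos 68 .mp ⟨303738521, 0, 0, 0, 0, 977547515, 0, 0, 0, ⟨0, 0⟩, 0⟩ 0 0) (.cut .d (-75776) (.pos 68 .mp ⟨300607832, 0,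 0, 0, 0, 892517743, 0, 0, 0, ⟨0, 0⟩, 0⟩ 0 0) (.pos 68 .mp ⟨307427758, 0, 0, 0, 0, 814761797, 0, 0, 0, ⟨0, 0⟩, 0⟩ 0 0))) (.pos 68 .mp ⟨320294823, 0, 0, 0, 0, 687867327, 0, 0, 0, ⟨0, 0⟩, 0⟩ 0 0))))) (.pos 39 .mp ⟨366708872, 0, 0, 0, 0, 731403016, 0, 0, 0, ⟨0, 0⟩, 0⟩ 0 0))) (.pos 40 .mp ⟨875061831, 0, 0, 0, 0, 0, 0, 0, 0, ⟨0, 0⟩, 0⟩ 0 0)) (.pos 17 .mp ⟨338114730, 0, 0, 0, 0, 0, 0, 0, 0, ⟨0, 0⟩, 0⟩ 0 0)) (.pos 17 .mp ⟨322969918, 0, 0, 0, 0, 0, 0, 0, 0, ⟨0, 0⟩, 0⟩ 0 0))) (.pos 17 .mp ⟨739714812, 0, 0, 0, 0, 0, 0, 0, 0, ⟨0, 0⟩, 0⟩ 0 0)) (.pos 17 .mp ⟨0, 0, 0, 0, 0, 0, 0, 0, 0, ⟨0, 0⟩, 0⟩ 0 0)) (.pos 18 .mp ⟨918553823, 0, 0, 0, 0, 0, 0, 0, 0, ⟨0, 0⟩, 0⟩ 0 0)) (.pos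 16 .mp ⟨1003726587, 0, 0, 0, 0, 0, 0, 0, 0, ⟨0, 0⟩, 0⟩ 0 0))) (.cut .d (-262144) (.pos 14 .mp ⟨1441475672, 0, 0, 0, 0, 0, 0, 0, 0, ⟨0, 0⟩, 0⟩ 0 0) (.pos 14 .mp ⟨1221257736, 0, 0, 0, 0, 0, 0, 0, 0, ⟨0, 0⟩, 0⟩ 0 0)))) (.cut .v 29360128 (.pos 50 .mp ⟨1985444153, 0, 0, 0, 0, 0, 0, 0, 0, ⟨0, 0⟩, 0⟩ 0 0) (.pos 51 .mp ⟨2472040497, 0, 0, 0, 0, 0, 0, 0, 0, ⟨0, 0⟩, 0⟩ 0 0))) (.cut .v 50331648 (.pos 23 .mp ⟨4595335455, 0, 0, 0, 0, 0, 0, 0, 0, ⟨0, 0⟩, 0⟩ 0 0) (.void 24 ⟨100000, 0, 0, 0, 0, 0, 0, 0, 0, ⟨0, 0⟩, 0⟩ 0 0))))))) (.void 49 ⟨100000, 0, 0, 0, 0, 0, 0, 0, 0, ⟨0, 0⟩, 0⟩ 0 0)) (.void 66 ⟨92723, 0, 0, 7277, 0, 0, 0, 0, 0, ⟨0, 0⟩, 0⟩ 0 0))) (.cut .v 16777216 (.cut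 .v 8388608 (.cut .v 4194304 (.cut .v 2097152 (.cut .v 1048576 (.cut .v 524288 (.pos 117 .pm ⟨0, 0, 7495586, 0, 0, 0, 0, 0, 0, ⟨0, 0⟩, 0⟩ 0 0) (.pos 118 .pm ⟨0, 0, 5870350, 0, 0, 0, 0, 0, 0, ⟨0, 0⟩, 0⟩ 0 0)) (.pos 102 .pm ⟨0, 0, 6729742, 0, 0, 0, 0, 0, 0, ⟨0, 0⟩, 0⟩ 0 0)) (.pos 72 .pm ⟨0, 0, 8655386, 0, 0, 0, 0, 0, 0, ⟨0, 0⟩, 0⟩ 0 0)) (.pos 5 .pm ⟨0, 0, 21150894, 0, 0, 0, 0, 0, 0, ⟨0, 0⟩, 0⟩ 0 0)) (.pos 3 .pm ⟨0, 0, 4306981, 0, 0, 0, 0, 0, 0, ⟨0, 0⟩, 0⟩ 0 0)) (.cut .v 268435456 (.cut .d 1553447 (.cut .v 67108864 (.cut .d 776723 (.cut .v 33554432 (.cut .v 25165824 (.pos 11 .pp ⟨512677936, 0, 0, 0, 0, 0, 0, 0, 0, ⟨0, 0⟩, 0⟩ 0 0) (.cut .v 29360128 (.pos 50 .pp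 ⟨1104579733, 0, 0, 0, 0, 0, 0, 0, 0, ⟨0, 0⟩, 0⟩ 0 0) (.pos 51 .pp ⟨1484576071, 0, 0, 0, 0, 0, 0, 0, 0, ⟨0, 0⟩, 0⟩ 0 0))) (.cut .v 50331648 (.cut .d 388361 (.cut .v 41943040 (.pos 25 .pp ⟨2351400884, 0, 0, 0, 0, 0, 0, 0, 0, ⟨0, 0⟩, 0⟩ 0 0) (.pos 26 .pp ⟨3453845565, 0, 0, 0, 0, 0, 0, 0, 0, ⟨0, 0⟩, 0⟩ 0 0)) (.pos 23 .pp ⟨1965844060, 0, 0, 0, 0, 0, 0, 0, 0, ⟨0, 0⟩, 0⟩ 0 0)) (.cut .d 388361 (.cut .v 58720256 (.pos 95 .pp ⟨4728671769, 0, 0, 0, 0, 0, 0, 0, 0, ⟨0, 0⟩, 0⟩ 0 0) (.pos 96 .pp ⟨6331731162, 0, 0, 0, 0, 0, 0, 0, 0, ⟨0, 0⟩, 0⟩ 0 0)) (.cut .v 58720256 (.pos 95 .pp ⟨3658083058, 0, 0, 0, 0, 0, 0, 0, 0, ⟨0, 0⟩, 0⟩ 0 0) (.cut .d 582542 (.pos 96 .pp ⟨5192729638,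 0, 0, 0, 0, 0, 0, 0, 0, ⟨0, 0⟩, 0⟩ 0 0) (.pos 96 .pp ⟨4464867914, 0, 0, 0, 0, 0, 0, 0, 0, ⟨0, 0⟩, 0⟩ 0 0)))))) (.pos 8 .pp ⟨0, 283826949, 0, 0, 0, 0, 0, 0, 0, ⟨0, 0⟩, 0⟩ 0 0)) (.cut .v 134217728 (.cut .v 100663296 (.cut .d 776723 (.cut .v 83886080 (.cut .v 75497472 (.cut .d 388361 (.pos 109 .pp ⟨10750321439, 0, 0, 0, 0, 0, 0, 0, 0, ⟨0, 0⟩, 0⟩ 0 0) (.cut .d 582542 (.cut .v 71303168 (.pos 113 .pp ⟨6020132710, 0, 0, 0, 0, 0, 0, 0, 0, ⟨0, 0⟩, 0⟩ 0 0) (.cut .d 485451 (.cut .l 7801405 (.void 114 ⟨100000, 0, 0, 0, 0, 0, 0, 0, 0, ⟨0, 0⟩, 0⟩ 0 0) (.cut .l 10611589 (.pos 114 .pp ⟨8515496125, 1028146489, 0, 0, 0, 0, 0, 0, 0, ⟨0, 0⟩, 0⟩ 0 0) (.cut .l 12016681 (.pos 114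 .pp ⟨7604403269, 1088704377, 0, 0, 0, 0, 0, 0, 0, ⟨0, 0⟩, 0⟩ 0 0) (.cut .s 14319616 (.cut .v 73400320 (.pos 115 .pp ⟨6418724087, 0, 0, 0, 0, 0, 0, 0, 0, ⟨0, 0⟩, 0⟩ 0 0) (.cut .d 436906 (.pos 116 .pp ⟨7962791317, 1277233839, 0, 0, 0, 0, 0, 0, 0, ⟨0, 0⟩, 0⟩ 0 0) (.cut .v 74448896 (.cut .d 461178 (.cut .s 14237696 (.pos 121 .pp ⟨7252801447, 1184962474, 0, 0, 0, 0, 0, 0, 0, ⟨0, 0⟩, 0⟩ 0 0) (.cut .s 14278656 (.cut .v 73924608 (.pos 123 .pp ⟨6528373694, 0, 0, 0, 0, 0, 0, 0, 0, ⟨0, 0⟩, 0⟩ 0 0) (.pos 124 .pp ⟨7357045920, 1410674865, 0, 0, 0, 0, 0, 0, 0, ⟨0, 0⟩, 0⟩ 0 0)) (.pos 121 .pp ⟨7324872179, 1397458889, 0, 0, 0, 0, 0, 0, 0, ⟨0, 0⟩, 0⟩ 0 0))) (.pos 121 .pp ⟨6188767162,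 1637975195, 0, 0, 0, 0, 0, 0, 0, ⟨0, 0⟩, 0⟩ 0 0)) (.void 122 ⟨26879, 73121, 0, 0, 0, 0, 0, 0, 0, ⟨0, 0⟩, 0⟩ 0 0)))) (.cut .v 73400320 (.pos 115 .pp ⟨6667111658, 0, 0, 0, 0, 0, 0, 0, 0, ⟨0, 0⟩, 0⟩ 0 0) (.cut .d 436906 (.cut .v 74448896 (.pos 121 .pp ⟨7823128132, 1232882476, 0, 0, 0, 0, 0, 0, 0, ⟨0, 0⟩, 0⟩ 0 0) (.void 122 ⟨36114, 63886, 0, 0, 0, 0, 0, 0, 0, ⟨0, 0⟩, 0⟩ 0 0)) (.pos 116 .pp ⟨5999978614, 2091063769, 0, 0, 0, 0, 0, 0, 0, ⟨0, 0⟩, 0⟩ 0 0))))))) (.pos 114 .pp ⟨6280128683, 1283748646, 0, 0, 0, 0, 0, 0, 0, ⟨0, 0⟩, 0⟩ 0 0))) (.pos 109 .pp ⟨4774572701, 2673153684, 0, 0, 0, 0, 0, 0, 0, ⟨0, 0⟩, 0⟩ 0 0))) (.void 110 ⟨36146, 63854, 0, 0, 0, 0, 0, 0, 0, ⟨0,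 0⟩, 0⟩ 0 0)) (.void 108 ⟨36146, 63854, 0, 0, 0, 0, 0, 0, 0, ⟨0, 0⟩, 0⟩ 0 0)) (.void 97 ⟨0, 100000, 0, 0, 0, 0, 0, 0, 0, ⟨0, 0⟩, 0⟩ 0 0)) (.void 98 ⟨85894, 0, 0, 14106, 0, 0, 0, 0, 0, ⟨0, 0⟩, 0⟩ 0 0)) (.void 88 ⟨0, 0, 0, 100000, 0, 0, 0, 0, 0, ⟨0, 0⟩, 0⟩ 0 0))) (.pos 48 .pp ⟨0, 478051687, 0, 0, 0, 0, 0, 0, 0, ⟨0, 0⟩, 0⟩ 0 0)) (.void 66 ⟨0, 0, 0, 100000, 0, 0, 0, 0, 0, ⟨0, 0⟩, 0⟩ 0 0)))),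
    by decide +kernel⟩

def covers23 : cell.Covers table row23.1 :=
  ⟨(.cut .d 0 (.cut .v 16777216 (.cut .d (-8388608) (.void 1 ⟨0, 0, 0, 0, 0, 100000, 0, 0, 0, ⟨0, 0⟩, 0⟩ 0 0) (.cut .v 8388608 (.void 2 ⟨0, 0, 100000, 0, 0, 0, 0, 0, 0, ⟨0, 0⟩, 0⟩ 0 0) (.cut .d (-4194304) (.void 3 ⟨100000, 0, 0, 0, 0, 0, 0, 0, 0, ⟨0, 0⟩, 0⟩ 0 0) (.cut .d (-2097152) (.void 3 ⟨72089, 0, 27911, 0, 0, 0, 0, 0, 0, ⟨0, 0⟩, 0⟩ 0 0) (.cut .d (-1048576) (.void 3 ⟨0, 0, 0, 0, 0, 100000, 0, 0, 0, ⟨0, 0⟩, 0⟩ 0 0) (.cut .d (-524288) (.cut .d (-786432) (.void 3 ⟨0, 0, 0, 0, 0, 100000, 0, 0, 0, ⟨0, 0⟩, 0⟩ 0 0) (.cut .d (-655360) (.void 3 ⟨0, 0, 0, 0, 0, 100000, 0, 0, 0, ⟨0, 0⟩, 0⟩ 0 0) (.cut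 .v 12582912 (.pos 6 .mm ⟨0, 0, 24226139, 0, 0, 1523384923, 0, 0, 0, ⟨0, 0⟩, 0⟩ 0 0) (.cut .v 14680064 (.pos 35 .mm ⟨0, 0, 0, 0, 0, 1857652319, 0, 0, 0, ⟨0, 0⟩, 0⟩ 0 0) (.cut .l 7801405 (.void 36 ⟨0, 0, 0, 0, 0, 100000, 0, 0, 0, ⟨0, 0⟩, 0⟩ 0 0) (.cut .l 10611589 (.void 36 ⟨0, 0, 0, 0, 0, 100000, 0, 0, 0, ⟨0, 0⟩, 0⟩ 0 0) (.cut .v 15728640 (.cut .l 12016681 (.pos 37 .mm ⟨0, 0, 0, 0, 0, 2141489234, 0, 0, 0, ⟨0, 0⟩, 0⟩ 0 0) (.cut .d (-589824) (.cut .s 14647296 (.pos 37 .mm ⟨276091954, 0, 0, 0, 0, 1537891787, 0, 0, 0, ⟨0, 0⟩, 0⟩ 0 0) (.void 37 ⟨0, 0, 0, 0, 0, 100000, 0, 0, 0, ⟨0, 0⟩, 0⟩ 0 0)) (.cut .s 14647296 (.cut .d (-557056) (.cut .s 14565376 (.pos 37 .mm ⟨329612822,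 0, 0, 0, 0, 1077460920, 0, 0, 0, ⟨0, 0⟩, 0⟩ 0 0) (.cut .d (-573440) (.pos 37 .mm ⟨302622569, 0, 0, 0, 0, 1454209437, 0, 0, 0, ⟨0, 0⟩, 0⟩ 0 0) (.cut .v 15204352 (.pos 58 .mm ⟨0, 0, 0, 0, 0, 1820562350, 0, 0, 0, ⟨0, 0⟩, 0⟩ 0 0) (.pos 59 .mm ⟨385546522, 0, 0, 0, 0, 1152144923, 0, 0, 0, ⟨0, 0⟩, 0⟩ 0 0)))) (.pos 37 .mm ⟨241064485, 0, 0, 0, 0, 1301665764, 0, 0, 0, ⟨0, 0⟩, 0⟩ 0 0)) (.cut .v 15204352 (.pos 58 .mm ⟨0, 0, 0, 0, 0, 1944244390, 0, 0, 0, ⟨0, 0⟩, 0⟩ 0 0) (.cut .l 12719227 (.pos 59 .mm ⟨338204755, 0, 0, 0, 0, 1504005386, 0, 0, 0, ⟨0, 0⟩, 0⟩ 0 0) (.cut .s 14729216 (.cut .v 15466496 (.pos 125 .mm ⟨0, 0, 0, 0, 0, 1925443114, 0, 0, 0, ⟨0, 0⟩, 0⟩ 0 0) (.cut .l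 13070500 (.pos 126 .mm ⟨328663254, 0, 0, 0, 0, 1422815609, 0, 0, 0, ⟨0, 0⟩, 0⟩ 0 0) (.cut .d (-557056) (.cut .s 14688256 (.cut .s 14667776 (.pos 126 .mm ⟨368224680, 0, 0, 0, 0, 1314904512, 0, 0, 0, ⟨0, 0⟩, 0⟩ 0 0) (.pos 126 .mm ⟨382989374, 0, 0, 0, 0, 1320400958, 0, 0, 0, ⟨0, 0⟩, 0⟩ 0 0)) (.pos 126 .mm ⟨398071999, 0, 0, 0, 0, 1346922332, 0, 0, 0, ⟨0, 0⟩, 0⟩ 0 0)) (.cut .s 14688256 (.pos 126 .mm ⟨398071999, 0, 0, 0, 0, 1113874821, 0, 0, 0, ⟨0, 0⟩, 0⟩ 0 0) (.pos 126 .mm ⟨429228964, 0, 0, 0, 0, 1182906093, 0, 0, 0, ⟨0, 0⟩, 0⟩ 0 0))))) (.cut .d (-557056) (.void 59 ⟨0, 0, 0, 0, 0, 100000, 0, 0, 0, ⟨0, 0⟩, 0⟩ 0 0) (.pos 59 .mm ⟨346353448, 0, 0, 0, 0, 1429853315,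 0, 0, 0, ⟨0, 0⟩, 0⟩ 0 0)))))))) (.cut .s 14647296 (.pos 38 .mm ⟨1099770505, 0, 0, 0, 0, 0, 0, 0, 0, ⟨0, 0⟩, 0⟩ 0 0) (.pos 38 .mm ⟨1230712020, 0, 0, 0, 0, 0, 0, 0, 0, ⟨0, 0⟩, 0⟩ 0 0))))))))) (.cut .v 12582912 (.cut .d (-262144) (.cut .v 10485760 (.pos 62 .mm ⟨0, 0, 128750739, 0, 0, 1092691740, 0, 0, 0, ⟨0, 0⟩, 0⟩ 0 0) (.cut .l 7801405 (.pos 63 .mm ⟨0, 0, 0, 0, 0, 1467773089, 0, 0, 0, ⟨0, 0⟩, 0⟩ 0 0) (.pos 63 .mm ⟨0, 0, 0, 0, 0, 1232284417, 0, 0, 0, ⟨0, 0⟩, 0⟩ 0 0))) (.cut .l 7801405 (.cut .v 10485760 (.pos 62 .mm ⟨0, 0, 0, 0, 0, 887713554, 0, 0, 0, ⟨0, 0⟩, 0⟩ 0 0) (.cut .d (-131072) (.pos 63 .mm ⟨0, 0, 0, 0, 0, 1228225031, 0, 0, 0, ⟨0, 0⟩, 0⟩ 0 0) (.pos 63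 .mm ⟨0, 0, 0, 0, 0, 1037651588, 0, 0, 0, ⟨0, 0⟩, 0⟩ 0 0))) (.pos 6 .mm ⟨0, 0, 22399468, 0, 0, 0, 0, 0, 0, ⟨0, 0⟩, 0⟩ 0 0))) (.cut .d (-262144) (.cut .l 7801405 (.cut .d (-393216) (.void 7 ⟨0, 0, 0, 0, 0, 100000, 0, 0, 0, ⟨0, 0⟩, 0⟩ 0 0) (.cut .s 14647296 (.pos 7 .mm ⟨79623248, 0, 0, 0, 0, 1668041635, 0, 0, 0, ⟨0, 0⟩, 0⟩ 0 0) (.pos 7 .mm ⟨116130902, 0, 0, 0, 0, 1840761880, 0, 0, 0, ⟨0, 0⟩, 0⟩ 0 0))) (.cut .v 14680064 (.cut .d (-393216) (.cut .s 14647296 (.pos 35 .mm ⟨0, 0, 0, 0, 0, 1488606330, 0, 0, 0, ⟨0, 0⟩, 0⟩ 0 0) (.pos 35 .mm ⟨0, 0, 0, 0, 0, 1704258131, 0, 0, 0, ⟨0, 0⟩, 0⟩ 0 0)) (.pos 35 .mm ⟨0, 0, 0, 0, 0, 1393737692, 0, 0, 0, ⟨0, 0⟩, 0⟩ 0 0)) (.cut .d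 (-393216) (.cut .v 15728640 (.cut .s 14647296 (.pos 37 .mm ⟨0, 0, 0, 0, 0, 1647708203, 0, 0, 0, ⟨0, 0⟩, 0⟩ 0 0) (.cut .s 14729216 (.pos 37 .mm ⟨89324377, 0, 0, 0, 0, 1637626278, 0, 0, 0, ⟨0, 0⟩, 0⟩ 0 0) (.pos 37 .mm ⟨128445720, 0, 0, 0, 0, 1692727270, 0, 0, 0, ⟨0, 0⟩, 0⟩ 0 0))) (.cut .s 14647296 (.cut .l 10611589 (.pos 38 .mm ⟨783770148, 0, 0, 0, 0, 446407506, 0, 0, 0, ⟨0, 0⟩, 0⟩ 0 0) (.pos 38 .mm ⟨571161980, 0, 0, 0, 0, 719822041, 0, 0, 0, ⟨0, 0⟩, 0⟩ 0 0)) (.cut .s 14729216 (.cut .s 14688256 (.pos 38 .mm ⟨826222393, 0, 0, 0, 0, 445505953, 0, 0, 0, ⟨0, 0⟩, 0⟩ 0 0) (.pos 38 .mm ⟨870786903, 0, 0, 0, 0, 428368239, 0, 0, 0, ⟨0, 0⟩, 0⟩ 0 0)) (.pos 38 .mm ⟨966774073,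 0, 0, 0, 0, 362375151, 0, 0, 0, ⟨0, 0⟩, 0⟩ 0 0)))) (.cut .l 10611589 (.cut .v 15728640 (.pos 37 .mm ⟨0, 0, 0, 0, 0, 1657425753, 0, 0, 0, ⟨0, 0⟩, 0⟩ 0 0) (.cut .s 14647296 (.pos 38 .mm ⟨505136597, 0, 0, 0, 0, 764906883, 0, 0, 0, ⟨0, 0⟩, 0⟩ 0 0) (.cut .s 14729216 (.pos 38 .mm ⟨561707866, 0, 0, 0, 0, 824089394, 0, 0, 0, ⟨0, 0⟩, 0⟩ 0 0) (.pos 38 .mm ⟨623274555, 0, 0, 0, 0, 831848348, 0, 0, 0, ⟨0, 0⟩, 0⟩ 0 0)))) (.pos 36 .mm ⟨335508734, 0, 0, 0, 0, 0, 0, 0, 0, ⟨0, 0⟩, 0⟩ 0 0))))) (.cut .l 7801405 (.cut .d (-131072) (.cut .l 4991221 (.cut .s 14647296 (.pos 7 .mm ⟨57766302, 0, 0, 0, 0, 1640599781, 0, 0, 0, ⟨0, 0⟩, 0⟩ 0 0) (.pos 7 .mm ⟨72282981, 0, 0, 0, 0, 1841240666,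 0, 0, 0, ⟨0, 0⟩, 0⟩ 0 0)) (.cut .d (-196608) (.cut .s 14647296 (.pos 7 .mm ⟨0, 0, 0, 0, 0, 1663735841, 0, 0, 0, ⟨0, 0⟩, 0⟩ 0 0) (.pos 7 .mm ⟨7880542, 0, 0, 0, 0, 1867015241, 0, 0, 0, ⟨0, 0⟩, 0⟩ 0 0)) (.pos 7 .mm ⟨0, 0, 0, 0, 0, 1479397330, 0, 0, 0, ⟨0, 0⟩, 0⟩ 0 0))) (.cut .v 14680064 (.pos 35 .mm ⟨0, 0, 0, 0, 0, 1279943402, 0, 0, 0, ⟨0, 0⟩, 0⟩ 0 0) (.cut .l 4991221 (.cut .d (-65536) (.cut .s 14647296 (.pos 36 .mm ⟨0, 0, 0, 0, 0, 1632678880, 0, 0, 0, ⟨0, 0⟩, 0⟩ 0 0) (.pos 36 .mm ⟨0, 0, 0, 0, 0, 1828191467, 0, 0, 0, ⟨0, 0⟩, 0⟩ 0 0)) (.pos 36 .mm ⟨0, 0, 0, 0, 0, 1493852862, 0, 0, 0, ⟨0, 0⟩, 0⟩ 0 0)) (.pos 36 .mm ⟨0, 0, 0, 0, 0, 0, 0, 0, 0, ⟨0, 0⟩, 0⟩ 0 0))))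 (.pos 7 .mm ⟨0, 0, 0, 0, 0, 0, 0, 0, 0, ⟨0, 0⟩, 0⟩ 0 0)))))))))) (.cut .v 268435456 (.cut .v 67108864 (.cut .d (-8388608) (.void 8 ⟨100000, 0, 0, 0, 0, 0, 0, 0, 0, ⟨0, 0⟩, 0⟩ 0 0) (.cut .d (-4194304) (.void 8 ⟨100000, 0, 0, 0, 0, 0, 0, 0, 0, ⟨0, 0⟩, 0⟩ 0 0) (.cut .d (-2097152) (.void 8 ⟨100000, 0, 0, 0, 0, 0, 0, 0, 0, ⟨0, 0⟩, 0⟩ 0 0) (.cut .d (-1048576) (.void 8 ⟨100000, 0, 0, 0, 0, 0, 0, 0, 0, ⟨0, 0⟩, 0⟩ 0 0) (.cut .v 33554432 (.cut .v 25165824 (.cut .d (-524288) (.pos 11 .mp ⟨2080440285, 0, 0, 0, 0, 0, 0, 0, 0, ⟨0, 0⟩, 0⟩ 0 0) (.cut .v 20971520 (.cut .d (-262144) (.cut .l 7801405 (.pos 13 .mp ⟨1431465905, 0, 0, 0, 0, 0, 0, 0, 0, ⟨0, 0⟩, 0⟩ 0 0) (.cut .d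 (-393216) (.pos 13 .mp ⟨1272750638, 0, 0, 0, 0, 0, 0, 0, 0, ⟨0, 0⟩, 0⟩ 0 0) (.pos 13 .mp ⟨1105730458, 0, 0, 0, 0, 0, 0, 0, 0, ⟨0, 0⟩, 0⟩ 0 0))) (.cut .v 18874368 (.cut .v 17825792 (.cut .l 7801405 (.cut .d (-131072) (.cut .l 4991221 (.cut .s 14647296 (.pos 17 .mp ⟨686037691, 0, 0, 0, 0, 655150828, 0, 0, 0, ⟨0, 0⟩, 0⟩ 0 0) (.pos 17 .mp ⟨848472852, 0, 0, 0, 0, 591638617, 0, 0, 0, ⟨0, 0⟩, 0⟩ 0 0)) (.pos 17 .mp ⟨1054073633, 0, 0, 0, 0, 0, 0, 0, 0, ⟨0, 0⟩, 0⟩ 0 0)) (.cut .l 4991221 (.cut .l 3586129 (.cut .d (-65536) (.cut .v 17301504 (.cut .s 14647296 (.cut .s 14565376 (.pos 39 .mp ⟨313589812, 0, 0, 0, 0, 1123342482, 0, 0, 0, ⟨0, 0⟩, 0⟩ 0 0) (.cut .v 17039360 (.pos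 67 .mp ⟨125801443, 0, 0, 0, 0, 1519377054, 0, 0, 0, ⟨0, 0⟩, 0⟩ 0 0) (.pos 68 .mp ⟨329191959, 0, 0, 0, 0, 1202483985, 0, 0, 0, ⟨0, 0⟩, 0⟩ 0 0))) (.cut .s 14729216 (.cut .v 17039360 (.pos 67 .mp ⟨159558083, 0, 0, 0, 0, 1568312702, 0, 0, 0, ⟨0, 0⟩, 0⟩ 0 0) (.pos 68 .mp ⟨342120949, 0, 0, 0, 0, 1296612130, 0, 0, 0, ⟨0, 0⟩, 0⟩ 0 0)) (.pos 39 .mp ⟨379259910, 0, 0, 0, 0, 1322837497, 0, 0, 0, ⟨0, 0⟩, 0⟩ 0 0))) (.pos 40 .mp ⟨1127563138, 0, 0, 0, 0, 0, 0, 0, 0, ⟨0, 0⟩, 0⟩ 0 0)) (.cut .v 17301504 (.cut .v 17039360 (.pos 67 .mp ⟨0, 0, 0, 0, 0, 1522126515, 0, 0, 0, ⟨0, 0⟩, 0⟩ 0 0) (.cut .s 14647296 (.cut .s 14565376 (.pos 68 .mp ⟨326935938, 0, 0, 0, 0, 0, 0, 0, 0, ⟨0, 0⟩,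 0⟩ 0 0) (.pos 68 .mp ⟨342120949, 0, 0, 0, 0, 996185642, 0, 0, 0, ⟨0, 0⟩, 0⟩ 0 0)) (.pos 68 .mp ⟨353599268, 0, 0, 0, 0, 1071829498, 0, 0, 0, ⟨0, 0⟩, 0⟩ 0 0))) (.pos 40 .mp ⟨905418404, 0, 0, 0, 0, 0, 0, 0, 0, ⟨0, 0⟩, 0⟩ 0 0))) (.pos 17 .mp ⟨433167851, 0, 0, 0, 0, 779183471, 0, 0, 0, ⟨0, 0⟩, 0⟩ 0 0)) (.pos 17 .mp ⟨0, 0, 0, 0, 0, 0, 0, 0, 0, ⟨0, 0⟩, 0⟩ 0 0))) (.pos 17 .mp ⟨408413906, 0, 0, 0, 0, 0, 0, 0, 0, ⟨0, 0⟩, 0⟩ 0 0)) (.pos 18 .mp ⟨1162813806, 0, 0, 0, 0, 0, 0, 0, 0, ⟨0, 0⟩, 0⟩ 0 0)) (.pos 16 .mp ⟨1270026992, 0, 0, 0, 0, 0, 0, 0, 0, ⟨0, 0⟩, 0⟩ 0 0))) (.cut .d (-262144) (.pos 14 .mp ⟨1856922884, 0, 0, 0, 0, 0, 0, 0, 0, ⟨0, 0⟩, 0⟩ 0 0) (.pos 14 .mp ⟨1540877193,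 0, 0, 0, 0, 0, 0, 0, 0, ⟨0, 0⟩, 0⟩ 0 0)))) (.cut .v 29360128 (.pos 50 .mp ⟨2526541699, 0, 0, 0, 0, 0, 0, 0, 0, ⟨0, 0⟩, 0⟩ 0 0) (.pos 51 .mp ⟨3121906010, 0, 0, 0, 0, 0, 0, 0, 0, ⟨0, 0⟩, 0⟩ 0 0))) (.cut .v 50331648 (.pos 23 .mp ⟨5675397212, 0, 0, 0, 0, 0, 0, 0, 0, ⟨0, 0⟩, 0⟩ 0 0) (.void 24 ⟨100000, 0, 0, 0, 0, 0, 0, 0, 0, ⟨0, 0⟩, 0⟩ 0 0))))))) (.void 49 ⟨100000, 0, 0, 0, 0, 0, 0, 0, 0, ⟨0, 0⟩, 0⟩ 0 0)) (.void 66 ⟨92571, 0, 0, 7429, 0, 0, 0, 0, 0, ⟨0, 0⟩, 0⟩ 0 0))) (.cut .v 16777216 (.cut .v 8388608 (.cut .v 4194304 (.cut .v 2097152 (.cut .v 1048576 (.cut .v 524288 (.pos 117 .pm ⟨0, 0, 9306227, 0, 0, 0, 0, 0, 0, ⟨0, 0⟩, 0⟩ 0 0) (.pos 118 .pm ⟨0, 0, 12400641,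 0, 0, 0, 0, 0, 0, ⟨0, 0⟩, 0⟩ 0 0)) (.pos 102 .pm ⟨0, 0, 17617614, 0, 0, 0, 0, 0, 0, ⟨0, 0⟩, 0⟩ 0 0)) (.pos 72 .pm ⟨0, 0, 25183941, 0, 0, 0, 0, 0, 0, ⟨0, 0⟩, 0⟩ 0 0)) (.pos 5 .pm ⟨0, 0, 55511425, 0, 0, 0, 0, 0, 0, ⟨0, 0⟩, 0⟩ 0 0)) (.pos 3 .pm ⟨0, 0, 12036590, 0, 0, 0, 0, 0, 0, ⟨0, 0⟩, 0⟩ 0 0)) (.cut .v 268435456 (.cut .v 67108864 (.cut .d 1328514 (.cut .d 664257 (.cut .v 33554432 (.cut .v 25165824 (.pos 11 .pp ⟨583627564, 0, 0, 0, 0, 0, 0, 0, 0, ⟨0, 0⟩, 0⟩ 0 0) (.pos 12 .pp ⟨1493506866, 0, 0, 0, 0, 0, 0, 0, 0, ⟨0, 0⟩, 0⟩ 0 0)) (.cut .v 50331648 (.cut .v 41943040 (.pos 25 .pp ⟨2567490295, 0, 0, 0, 0, 0, 0, 0, 0, ⟨0, 0⟩, 0⟩ 0 0) (.cut .d 332128 (.pos 26 .pp ⟨4214849942,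 0, 0, 0, 0, 0, 0, 0, 0, ⟨0, 0⟩, 0⟩ 0 0) (.pos 26 .pp ⟨3172810568, 0, 0, 0, 0, 0, 0, 0, 0, ⟨0, 0⟩, 0⟩ 0 0))) (.cut .d 332128 (.pos 24 .pp ⟨7104375249, 0, 0, 0, 0, 0, 0, 0, 0, ⟨0, 0⟩, 0⟩ 0 0) (.cut .v 58720256 (.pos 95 .pp ⟨4463064694, 0, 0, 0, 0, 0, 0, 0, 0, ⟨0, 0⟩, 0⟩ 0 0) (.cut .d 498192 (.pos 96 .pp ⟨6369215261, 0, 0, 0, 0, 0, 0, 0, 0, ⟨0, 0⟩, 0⟩ 0 0) (.pos 96 .pp ⟨5524477056, 0, 0, 0, 0, 0, 0, 0, 0, ⟨0, 0⟩, 0⟩ 0 0)))))) (.pos 8 .pp ⟨443685803, 11804341, 0, 0, 0, 0, 0, 0, 0, ⟨0, 0⟩, 0⟩ 0 0)) (.pos 8 .pp ⟨0, 0, 0, 0, 0, 0, 0, 0, 0, ⟨0, 0⟩, 0⟩ 0 0)) (.cut .v 134217728 (.cut .v 100663296 (.cut .d 1328514 (.cut .v 83886080 (.cut .d 664257 (.cut .v 75497472 (.cut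 .d 332128 (.pos 109 .pp ⟨13026461886, 0, 0, 0, 0, 0, 0, 0, 0, ⟨0, 0⟩, 0⟩ 0 0) (.cut .d 498192 (.cut .v 71303168 (.pos 113 .pp ⟨7383259247, 0, 0, 0, 0, 0, 0, 0, 0, ⟨0, 0⟩, 0⟩ 0 0) (.cut .d 415160 (.cut .v 73400320 (.pos 115 .pp ⟨7833426041, 0, 0, 0, 0, 0, 0, 0, 0, ⟨0, 0⟩, 0⟩ 0 0) (.cut .l 7801405 (.void 116 ⟨100000, 0, 0, 0, 0, 0, 0, 0, 0, ⟨0, 0⟩, 0⟩ 0 0) (.cut .l 10611589 (.void 116 ⟨35651, 64349, 0, 0, 0, 0, 0, 0, 0, ⟨0, 0⟩, 0⟩ 0 0) (.cut .l 12016681 (.pos 116 .pp ⟨9311764195, 2638475144, 0, 0, 0, 0, 0, 0, 0, ⟨0, 0⟩, 0⟩ 0 0) (.cut .s 14647296 (.cut .v 74448896 (.pos 121 .pp ⟨7762607999, 0, 0, 0, 0, 0, 0, 0, 0, ⟨0, 0⟩, 0⟩ 0 0) (.cut .s 14565376 (.pos 122 .pp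 ⟨9087500183, 2334175372, 0, 0, 0, 0, 0, 0, 0, ⟨0, 0⟩, 0⟩ 0 0) (.pos 122 .pp ⟨9295433923, 2408657926, 0, 0, 0, 0, 0, 0, 0, ⟨0, 0⟩, 0⟩ 0 0))) (.cut .d 373644 (.pos 116 .pp ⟨9602686038, 1738317960, 0, 0, 0, 0, 0, 0, 0, ⟨0, 0⟩, 0⟩ 0 0) (.pos 116 .pp ⟨7483877861, 2531827678, 0, 0, 0, 0, 0, 0, 0, ⟨0, 0⟩, 0⟩ 0 0))))))) (.pos 114 .pp ⟨7752850400, 1733797833, 0, 0, 0, 0, 0, 0, 0, ⟨0, 0⟩, 0⟩ 0 0))) (.pos 109 .pp ⟨6782561384, 1643318446, 0, 0, 0, 0, 0, 0, 0, ⟨0, 0⟩, 0⟩ 0 0))) (.void 110 ⟨35707, 64293, 0, 0, 0, 0, 0, 0, 0, ⟨0, 0⟩, 0⟩ 0 0)) (.void 107 ⟨0, 100000, 0, 0, 0, 0, 0, 0, 0, ⟨0, 0⟩, 0⟩ 0 0)) (.void 108 ⟨35267, 64733, 0, 0, 0, 0, 0, 0, 0, ⟨0, 0⟩, 0⟩ 0 0)) (.void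 97 ⟨0, 0, 0, 100000, 0, 0, 0, 0, 0, ⟨0, 0⟩, 0⟩ 0 0)) (.void 98 ⟨85235, 0, 0, 14765, 0, 0, 0, 0, 0, ⟨0, 0⟩, 0⟩ 0 0)) (.void 88 ⟨0, 0, 0, 100000, 0, 0, 0, 0, 0, ⟨0, 0⟩, 0⟩ 0 0))) (.void 66 ⟨0, 0, 0, 100000, 0, 0, 0, 0, 0, ⟨0, 0⟩, 0⟩ 0 0)))),
    by decide +kernel⟩

def covers24 : cell.Covers table row24.1 :=
  ⟨(.cut .d 0 (.cut .v 16777216 (.cut .d (-8388608) (.void 1 ⟨0, 0, 0, 0, 0, 100000, 0, 0, 0, ⟨0, 0⟩, 0⟩ 0 0) (.cut .v 8388608 (.void 2 ⟨0, 0, 100000, 0, 0, 0, 0, 0, 0, ⟨0, 0⟩, 0⟩ 0 0) (.cut .d (-4194304) (.void 3 ⟨100000, 0, 0, 0, 0, 0, 0, 0, 0, ⟨0, 0⟩, 0⟩ 0 0) (.cut .d (-2097152) (.void 3 ⟨71721, 0, 28279, 0, 0, 0, 0, 0, 0, ⟨0, 0⟩, 0⟩ 0 0) (.cut .d (-1048576)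 (.void 3 ⟨0, 0, 0, 0, 0, 100000, 0, 0, 0, ⟨0, 0⟩, 0⟩ 0 0) (.cut .d (-524288) (.void 3 ⟨0, 0, 0, 0, 0, 100000, 0, 0, 0, ⟨0, 0⟩, 0⟩ 0 0) (.cut .d (-262144) (.cut .l 7801405 (.cut .s 14942208 (.pos 3 .mm ⟨31126262, 0, 0, 0, 0, 2400876143, 0, 0, 0, ⟨0, 0⟩, 0⟩ 0 0) (.pos 3 .mm ⟨61741338, 0, 0, 0, 0, 2626957693, 0, 0, 0, ⟨0, 0⟩, 0⟩ 0 0)) (.cut .v 12582912 (.cut .d (-393216) (.pos 6 .mm ⟨0, 0, 61231050, 0, 0, 1794964652, 0, 0, 0, ⟨0, 0⟩, 0⟩ 0 0) (.cut .v 10485760 (.pos 62 .mm ⟨0, 0, 146202083, 0, 0, 1309798283, 0, 0, 0, ⟨0, 0⟩, 0⟩ 0 0) (.pos 63 .mm ⟨0, 0, 0, 0, 0, 1516905563, 0, 0, 0, ⟨0, 0⟩, 0⟩ 0 0))) (.cut .d (-393216) (.cut .l 10611589 (.pos 7 .mm ⟨233870319,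 0, 0, 0, 0, 2369575143, 0, 0, 0, ⟨0, 0⟩, 0⟩ 0 0) (.cut .v 14680064 (.cut .s 14942208 (.pos 35 .mm ⟨0, 0, 0, 0, 0, 2021502748, 0, 0, 0, ⟨0, 0⟩, 0⟩ 0 0) (.pos 35 .mm ⟨0, 0, 0, 0, 0, 2251775166, 0, 0, 0, ⟨0, 0⟩, 0⟩ 0 0)) (.cut .v 15728640 (.cut .s 14942208 (.cut .d (-458752) (.cut .v 15204352 (.pos 58 .mm ⟨0, 0, 0, 0, 0, 2216606877, 0, 0, 0, ⟨0, 0⟩, 0⟩ 0 0) (.cut .l 12016681 (.pos 59 .mm ⟨355433968, 0, 0, 0, 0, 1863180561, 0, 0, 0, ⟨0, 0⟩, 0⟩ 0 0) (.cut .l 12719227 (.pos 59 .mm ⟨304643518, 0, 0, 0, 0, 1831374990, 0, 0, 0, ⟨0, 0⟩, 0⟩ 0 0) (.cut .d (-491520) (.cut .s 14876672 (.pos 59 .mm ⟨375620024, 0, 0, 0, 0, 1615440573, 0, 0, 0, ⟨0, 0⟩, 0⟩ 0 0) (.pos 59 .mm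 ⟨383766165, 0, 0, 0, 0, 1740395869, 0, 0, 0, ⟨0, 0⟩, 0⟩ 0 0)) (.cut .v 15466496 (.pos 125 .mm ⟨0, 0, 0, 0, 0, 2221426255, 0, 0, 0, ⟨0, 0⟩, 0⟩ 0 0) (.cut .d (-475136) (.cut .d (-483328) (.pos 126 .mm ⟨458807820, 0, 0, 0, 0, 1488301635, 0, 0, 0, ⟨0, 0⟩, 0⟩ 0 0) (.pos 126 .mm ⟨436290539, 0, 0, 0, 0, 1485582784, 0, 0, 0, ⟨0, 0⟩, 0⟩ 0 0)) (.pos 126 .mm ⟨413836998, 0, 0, 0, 0, 1451449777, 0, 0, 0, ⟨0, 0⟩, 0⟩ 0 0))))))) (.pos 37 .mm ⟨92660403, 0, 0, 0, 0, 1946011969, 0, 0, 0, ⟨0, 0⟩, 0⟩ 0 0)) (.cut .l 12016681 (.pos 37 .mm ⟨261541285, 0, 0, 0, 0, 2064007215, 0, 0, 0, ⟨0, 0⟩, 0⟩ 0 0) (.cut .d (-458752) (.cut .d (-491520) (.void 37 ⟨0, 0, 0, 0, 0, 100000, 0, 0, 0,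 ⟨0, 0⟩, 0⟩ 0 0) (.cut .s 15007744 (.cut .v 15204352 (.pos 58 .mm ⟨0, 0, 0, 0, 0, 2313464541, 0, 0, 0, ⟨0, 0⟩, 0⟩ 0 0) (.cut .d (-475136) (.pos 59 .mm ⟨398225842, 0, 0, 0, 0, 1728085991, 0, 0, 0, ⟨0, 0⟩, 0⟩ 0 0) (.cut .v 15466496 (.pos 125 .mm ⟨0, 0, 0, 0, 0, 2311601767, 0, 0, 0, ⟨0, 0⟩, 0⟩ 0 0) (.pos 126 .mm ⟨448568584, 0, 0, 0, 0, 1530042376, 0, 0, 0, ⟨0, 0⟩, 0⟩ 0 0)))) (.void 37 ⟨0, 0, 0, 0, 0, 100000, 0, 0, 0, ⟨0, 0⟩, 0⟩ 0 0))) (.cut .s 15007744 (.cut .s 14974976 (.pos 37 .mm ⟨264336782, 0, 0, 0, 0, 1737958551, 0, 0, 0, ⟨0, 0⟩, 0⟩ 0 0) (.pos 37 .mm ⟨286616525, 0, 0, 0, 0, 1759988812, 0, 0, 0, ⟨0, 0⟩, 0⟩ 0 0)) (.pos 37 .mm ⟨279767710, 0, 0, 0, 0, 1870536480,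 0, 0, 0, ⟨0, 0⟩, 0⟩ 0 0))))) (.cut .s 14942208 (.cut .s 14876672 (.pos 38 .mm ⟨1268535639, 0, 0, 0, 0, 0, 0, 0, 0, ⟨0, 0⟩, 0⟩ 0 0) (.pos 38 .mm ⟨1329054882, 0, 0, 0, 0, 0, 0, 0, 0, ⟨0, 0⟩, 0⟩ 0 0)) (.pos 38 .mm ⟨1435049213, 0, 0, 0, 0, 0, 0, 0, 0, ⟨0, 0⟩, 0⟩ 0 0))))) (.cut .v 14680064 (.cut .l 10611589 (.pos 35 .mm ⟨0, 0, 0, 0, 0, 1988704485, 0, 0, 0, ⟨0, 0⟩, 0⟩ 0 0) (.pos 35 .mm ⟨0, 0, 0, 0, 0, 1750134873, 0, 0, 0, ⟨0, 0⟩, 0⟩ 0 0)) (.cut .l 10611589 (.cut .v 15728640 (.cut .s 14942208 (.pos 37 .mm ⟨0, 0, 0, 0, 0, 2071169793, 0, 0, 0, ⟨0, 0⟩, 0⟩ 0 0) (.pos 37 .mm ⟨0, 0, 0, 0, 0, 2295636072, 0, 0, 0, ⟨0, 0⟩, 0⟩ 0 0)) (.cut .v 16252928 (.cut .s 14942208 (.pos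 43 .mm ⟨54983678, 0, 0, 0, 0, 2058608895, 0, 0, 0, ⟨0, 0⟩, 0⟩ 0 0) (.cut .d (-327680) (.pos 43 .mm ⟨278087657, 0, 0, 0, 0, 1960472343, 0, 0, 0, ⟨0, 0⟩, 0⟩ 0 0) (.pos 43 .mm ⟨626160384, 0, 0, 0, 0, 1180670538, 0, 0, 0, ⟨0, 0⟩, 0⟩ 0 0))) (.pos 44 .mm ⟨1366887508, 0, 0, 0, 0, 0, 0, 0, 0, ⟨0, 0⟩, 0⟩ 0 0))) (.cut .s 14942208 (.pos 36 .mm ⟨431466295, 0, 0, 0, 0, 1118747669, 0, 0, 0, ⟨0, 0⟩, 0⟩ 0 0) (.cut .v 15728640 (.pos 37 .mm ⟨0, 0, 0, 0, 0, 2150522834, 0, 0, 0, ⟨0, 0⟩, 0⟩ 0 0) (.pos 38 .mm ⟨802977095, 0, 0, 0, 0, 852234291, 0, 0, 0, ⟨0, 0⟩, 0⟩ 0 0)))))))) (.cut .l 7801405 (.cut .v 12582912 (.cut .d (-131072) (.cut .v 10485760 (.pos 62 .mm ⟨0, 0, 84765037, 0,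 0, 1341417043, 0, 0, 0, ⟨0, 0⟩, 0⟩ 0 0) (.pos 63 .mm ⟨0, 0, 0, 0, 0, 1590790079, 0, 0, 0, ⟨0, 0⟩, 0⟩ 0 0)) (.cut .v 10485760 (.pos 62 .mm ⟨0, 0, 0, 0, 0, 1049079573, 0, 0, 0, ⟨0, 0⟩, 0⟩ 0 0) (.pos 63 .mm ⟨0, 0, 0, 0, 0, 1336801442, 0, 0, 0, ⟨0, 0⟩, 0⟩ 0 0))) (.cut .d (-131072) (.cut .l 4991221 (.cut .s 14942208 (.pos 7 .mm ⟨84485063, 0, 0, 0, 0, 2080794787, 0, 0, 0, ⟨0, 0⟩, 0⟩ 0 0) (.pos 7 .mm ⟨102124238, 0, 0, 0, 0, 2297680417, 0, 0, 0, ⟨0, 0⟩, 0⟩ 0 0)) (.cut .v 14680064 (.pos 35 .mm ⟨0, 0, 0, 0, 0, 1839112055, 0, 0, 0, ⟨0, 0⟩, 0⟩ 0 0) (.cut .v 15728640 (.pos 37 .mm ⟨0, 0, 0, 0, 0, 2061037356, 0, 0, 0, ⟨0, 0⟩, 0⟩ 0 0) (.cut .s 14942208 (.cut .d (-196608)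 (.pos 38 .mm ⟨135605455, 0, 0, 0, 0, 1955763380, 0, 0, 0, ⟨0, 0⟩, 0⟩ 0 0) (.pos 38 .mm ⟨399937340, 0, 0, 0, 0, 1285110828, 0, 0, 0, ⟨0, 0⟩, 0⟩ 0 0)) (.cut .d (-196608) (.pos 38 .mm ⟨172153433, 0, 0, 0, 0, 2120652348, 0, 0, 0, ⟨0, 0⟩, 0⟩ 0 0) (.pos 38 .mm ⟨0, 0, 0, 0, 0, 2276017028, 0, 0, 0, ⟨0, 0⟩, 0⟩ 0 0)))))) (.cut .v 14680064 (.pos 35 .mm ⟨0, 0, 0, 0, 0, 1641148791, 0, 0, 0, ⟨0, 0⟩, 0⟩ 0 0) (.cut .l 4991221 (.cut .d (-65536) (.cut .s 14942208 (.pos 36 .mm ⟨0, 0, 0, 0, 0, 2092354403, 0, 0, 0, ⟨0, 0⟩, 0⟩ 0 0) (.cut .s 15007744 (.pos 36 .mm ⟨0, 0, 0, 0, 0, 2254341857, 0, 0, 0, ⟨0, 0⟩, 0⟩ 0 0) (.pos 36 .mm ⟨0, 0, 0, 0, 0, 2379377119, 0, 0, 0, ⟨0, 0⟩, 0⟩ 0 0)))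 (.cut .s 14942208 (.pos 36 .mm ⟨0, 0, 0, 0, 0, 1896338410, 0, 0, 0, ⟨0, 0⟩, 0⟩ 0 0) (.pos 36 .mm ⟨0, 0, 0, 0, 0, 2074848300, 0, 0, 0, ⟨0, 0⟩, 0⟩ 0 0))) (.pos 36 .mm ⟨0, 0, 0, 0, 0, 0, 0, 0, 0, ⟨0, 0⟩, 0⟩ 0 0))))) (.cut .v 12582912 (.pos 6 .mm ⟨0, 0, 5089267, 0, 0, 910195983, 0, 0, 0, ⟨0, 0⟩, 0⟩ 0 0) (.pos 7 .mm ⟨257676545, 0, 0, 0, 0, 946351689, 0, 0, 0, ⟨0, 0⟩, 0⟩ 0 0)))))))))) (.cut .v 268435456 (.cut .v 67108864 (.cut .d (-8388608) (.void 8 ⟨100000, 0, 0, 0, 0, 0, 0, 0, 0, ⟨0, 0⟩, 0⟩ 0 0) (.cut .d (-4194304) (.void 8 ⟨100000, 0, 0, 0, 0, 0, 0, 0, 0, ⟨0, 0⟩, 0⟩ 0 0) (.cut .d (-2097152) (.void 8 ⟨100000, 0, 0, 0, 0, 0, 0, 0, 0, ⟨0, 0⟩, 0⟩ 0 0) (.cut .d (-1048576)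 (.void 8 ⟨100000, 0, 0, 0, 0, 0, 0, 0, 0, ⟨0, 0⟩, 0⟩ 0 0) (.cut .v 33554432 (.cut .d (-524288) (.void 9 ⟨100000, 0, 0, 0, 0, 0, 0, 0, 0, ⟨0, 0⟩, 0⟩ 0 0) (.cut .v 25165824 (.cut .v 20971520 (.cut .d (-262144) (.cut .l 7801405 (.pos 13 .mp ⟨1809299265, 0, 0, 0, 0, 0, 0, 0, 0, ⟨0, 0⟩, 0⟩ 0 0) (.cut .d (-393216) (.pos 13 .mp ⟨1658034077, 0, 0, 0, 0, 0, 0, 0, 0, ⟨0, 0⟩, 0⟩ 0 0) (.pos 13 .mp ⟨1410771952, 0, 0, 0, 0, 0, 0, 0, 0, ⟨0, 0⟩, 0⟩ 0 0))) (.cut .v 18874368 (.cut .v 17825792 (.cut .l 7801405 (.cut .d (-131072) (.cut .s 14942208 (.pos 17 .mp ⟨1378959862, 0, 0, 0, 0, 0, 0, 0, 0, ⟨0, 0⟩, 0⟩ 0 0) (.pos 17 .mp ⟨1507533757, 0, 0, 0, 0, 0, 0, 0, 0, ⟨0, 0⟩, 0⟩ 0 0))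 (.cut .l 4991221 (.cut .d (-65536) (.cut .l 3586129 (.cut .d (-98304) (.pos 17 .mp ⟨663048335, 0, 0, 0, 0, 1299387550, 0, 0, 0, ⟨0, 0⟩, 0⟩ 0 0) (.cut .l 2883583 (.cut .v 17301504 (.cut .s 14942208 (.pos 39 .mp ⟨371707528, 0, 0, 0, 0, 1566603565, 0, 0, 0, ⟨0, 0⟩, 0⟩ 0 0) (.pos 39 .mp ⟨315716864, 0, 0, 0, 0, 1902236961, 0, 0, 0, ⟨0, 0⟩, 0⟩ 0 0)) (.pos 40 .mp ⟨1470993997, 0, 0, 0, 0, 0, 0, 0, 0, ⟨0, 0⟩, 0⟩ 0 0)) (.pos 17 .mp ⟨491318895, 0, 0, 0, 0, 1295598523, 0, 0, 0, ⟨0, 0⟩, 0⟩ 0 0))) (.pos 17 .mp ⟨537756523, 0, 0, 0, 0, 1179791042, 0, 0, 0, ⟨0, 0⟩, 0⟩ 0 0)) (.cut .d (-32768) (.cut .d (-49152) (.cut .v 17301504 (.cut .l 3586129 (.cut .l 2883583 (.cut .l 2532310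 (.cut .s 14942208 (.cut .v 17039360 (.pos 67 .mp ⟨0, 0, 0, 0, 0, 2114609992, 0, 0, 0, ⟨0, 0⟩, 0⟩ 0 0) (.cut .d (-57344) (.pos 68 .mp ⟨375009542, 0, 0, 0, 0, 1575172802, 0, 0, 0, ⟨0, 0⟩, 0⟩ 0 0) (.pos 68 .mp ⟨375009542, 0, 0, 0, 0, 1456796285, 0, 0, 0, ⟨0, 0⟩, 0⟩ 0 0))) (.cut .d (-57344) (.pos 39 .mp ⟨325185636, 0, 0, 0, 0, 1830936466, 0, 0, 0, ⟨0, 0⟩, 0⟩ 0 0) (.cut .v 17039360 (.pos 67 .mp ⟨0, 0, 0, 0, 0, 2236022142, 0, 0, 0, ⟨0, 0⟩, 0⟩ 0 0) (.cut .d (-53248) (.pos 68 .mp ⟨361954417, 0, 0, 0, 0, 1665121633, 0, 0, 0, ⟨0, 0⟩, 0⟩ 0 0) (.pos 68 .mp ⟨373423341, 0, 0, 0, 0, 1511991817, 0, 0, 0, ⟨0, 0⟩, 0⟩ 0 0))))) (.pos 39 .mp ⟨369983154, 0, 0, 0, 0, 1341034304,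 0, 0, 0, ⟨0, 0⟩, 0⟩ 0 0)) (.pos 39 .mp ⟨334942948, 0, 0, 0, 0, 0, 0, 0, 0, ⟨0, 0⟩, 0⟩ 0 0)) (.pos 39 .mp ⟨0, 0, 0, 0, 0, 0, 0, 0, 0, ⟨0, 0⟩, 0⟩ 0 0)) (.pos 40 .mp ⟨1393846798, 0, 0, 0, 0, 0, 0, 0, 0, ⟨0, 0⟩, 0⟩ 0 0)) (.pos 17 .mp ⟨382697506, 0, 0, 0, 0, 0, 0, 0, 0, ⟨0, 0⟩, 0⟩ 0 0)) (.pos 17 .mp ⟨320172547, 0, 0, 0, 0, 0, 0, 0, 0, ⟨0, 0⟩, 0⟩ 0 0))) (.pos 17 .mp ⟨380150195, 0, 0, 0, 0, 0, 0, 0, 0, ⟨0, 0⟩, 0⟩ 0 0))) (.pos 17 .mp ⟨1154658642, 0, 0, 0, 0, 0, 0, 0, 0, ⟨0, 0⟩, 0⟩ 0 0)) (.pos 18 .mp ⟨1442661659, 0, 0, 0, 0, 0, 0, 0, 0, ⟨0, 0⟩, 0⟩ 0 0)) (.pos 16 .mp ⟨1577284858, 0, 0, 0, 0, 0, 0, 0, 0, ⟨0, 0⟩, 0⟩ 0 0))) (.cut .d (-262144) (.pos 14 .mp ⟨2319400059,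 0, 0, 0, 0, 0, 0, 0, 0, ⟨0, 0⟩, 0⟩ 0 0) (.pos 14 .mp ⟨1903569478, 0, 0, 0, 0, 0, 0, 0, 0, ⟨0, 0⟩, 0⟩ 0 0))) (.pos 12 .mp ⟨3095340700, 0, 0, 0, 0, 0, 0, 0, 0, ⟨0, 0⟩, 0⟩ 0 0))) (.pos 10 .mp ⟨10575624531, 0, 0, 0, 0, 0, 0, 0, 0, ⟨0, 0⟩, 0⟩ 0 0)))))) (.void 49 ⟨100000, 0, 0, 0, 0, 0, 0, 0, 0, ⟨0, 0⟩, 0⟩ 0 0)) (.void 66 ⟨92449, 0, 0, 7551, 0, 0, 0, 0, 0, ⟨0, 0⟩, 0⟩ 0 0))) (.cut .v 16777216 (.cut .v 8388608 (.cut .v 4194304 (.cut .v 2097152 (.cut .v 1048576 (.cut .v 524288 (.pos 117 .pm ⟨0, 0, 12907535, 0, 0, 0, 0, 0, 0, ⟨0, 0⟩, 0⟩ 0 0) (.pos 118 .pm ⟨0, 0, 24041570, 0, 0, 0, 0, 0, 0, ⟨0, 0⟩, 0⟩ 0 0)) (.pos 102 .pm ⟨0, 0, 35694936, 0, 0, 0, 0, 0, 0, ⟨0, 0⟩, 0⟩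 0 0)) (.pos 72 .pm ⟨0, 0, 52772533, 0, 0, 0, 0, 0, 0, ⟨0, 0⟩, 0⟩ 0 0)) (.pos 5 .pm ⟨0, 0, 123842834, 0, 0, 0, 0, 0, 0, ⟨0, 0⟩, 0⟩ 0 0)) (.pos 3 .pm ⟨0, 0, 24833721, 0, 0, 0, 0, 0, 0, ⟨0, 0⟩, 0⟩ 0 0)) (.cut .v 268435456 (.cut .v 67108864 (.cut .d 1113533 (.cut .d 556766 (.cut .v 33554432 (.cut .v 25165824 (.pos 11 .pp ⟨649238863, 0, 0, 0, 0, 0, 0, 0, 0, ⟨0, 0⟩, 0⟩ 0 0) (.pos 12 .pp ⟨1811013256, 0, 0, 0, 0, 0, 0, 0, 0, ⟨0, 0⟩, 0⟩ 0 0)) (.cut .v 50331648 (.cut .v 41943040 (.pos 25 .pp ⟨3103703737, 0, 0, 0, 0, 0, 0, 0, 0, ⟨0, 0⟩, 0⟩ 0 0) (.pos 26 .pp ⟨4479951144, 0, 0, 0, 0, 0, 0, 0, 0, ⟨0, 0⟩, 0⟩ 0 0)) (.cut .d 278383 (.pos 24 .pp ⟨8407836917, 0, 0, 0, 0, 0,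 0, 0, 0, ⟨0, 0⟩, 0⟩ 0 0) (.cut .v 58720256 (.pos 95 .pp ⟨5435137360, 0, 0, 0, 0, 0, 0, 0, 0, ⟨0, 0⟩, 0⟩ 0 0) (.pos 96 .pp ⟨7144898946, 0, 0, 0, 0, 0, 0, 0, 0, ⟨0, 0⟩, 0⟩ 0 0))))) (.pos 8 .pp ⟨585937769, 6494168, 0, 0, 0, 0, 0, 0, 0, ⟨0, 0⟩, 0⟩ 0 0)) (.pos 8 .pp ⟨0, 0, 0, 0, 0, 0, 0, 0, 0, ⟨0, 0⟩, 0⟩ 0 0)) (.cut .v 134217728 (.cut .v 100663296 (.cut .d 1113533 (.cut .v 83886080 (.cut .d 556766 (.cut .d 278383 (.pos 107 .pp ⟨19156012544, 0, 0, 0, 0, 0, 0, 0, 0, ⟨0, 0⟩, 0⟩ 0 0) (.cut .v 75497472 (.cut .d 417574 (.cut .s 14942208 (.pos 109 .pp ⟨9419680393, 419481460, 0, 0, 0, 0, 0, 0, 0, ⟨0, 0⟩, 0⟩ 0 0) (.pos 109 .pp ⟨9898350457, 159463977, 0, 0, 0, 0, 0, 0, 0,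 ⟨0, 0⟩, 0⟩ 0 0)) (.pos 109 .pp ⟨8256854226, 2297815839, 0, 0, 0, 0, 0, 0, 0, ⟨0, 0⟩, 0⟩ 0 0)) (.void 110 ⟨35191, 64809, 0, 0, 0, 0, 0, 0, 0, ⟨0, 0⟩, 0⟩ 0 0))) (.void 107 ⟨0, 100000, 0, 0, 0, 0, 0, 0, 0, ⟨0, 0⟩, 0⟩ 0 0)) (.void 108 ⟨35008, 64992, 0, 0, 0, 0, 0, 0, 0, ⟨0, 0⟩, 0⟩ 0 0)) (.void 97 ⟨0, 0, 0, 100000, 0, 0, 0, 0, 0, ⟨0, 0⟩, 0⟩ 0 0)) (.void 98 ⟨47006, 0, 0, 52994, 0, 0, 0, 0, 0, ⟨0, 0⟩, 0⟩ 0 0)) (.void 88 ⟨0, 0, 0, 100000, 0, 0, 0, 0, 0, ⟨0, 0⟩, 0⟩ 0 0))) (.void 66 ⟨0, 0, 0, 100000, 0, 0, 0, 0, 0, ⟨0, 0⟩, 0⟩ 0 0)))),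
    by decide +kernel⟩

def covers25 : cell.Covers table row25.1 :=
  ⟨(.cut .d 0 (.cut .v 16777216 (.cut .d (-8388608) (.void 1 ⟨0, 0, 0, 0, 0, 100000, 0, 0, 0, ⟨0, 0⟩, 0⟩ 0 0) (.cut .v 8388608 (.void 2 ⟨0, 0, 100000, 0, 0, 0, 0, 0, 0, ⟨0, 0⟩, 0⟩ 0 0) (.cut .d (-4194304) (.void 3 ⟨100000, 0, 0, 0, 0, 0, 0, 0, 0, ⟨0, 0⟩, 0⟩ 0 0) (.cut .d (-2097152) (.void 3 ⟨71429, 0, 28571, 0, 0, 0, 0, 0, 0, ⟨0, 0⟩, 0⟩ 0 0) (.cut .d (-1048576) (.void 3 ⟨71429, 0, 28571, 0, 0, 0, 0, 0, 0, ⟨0, 0⟩, 0⟩ 0 0) (.cut .d (-524288) (.void 3 ⟨0, 0, 0, 0, 0, 100000, 0, 0, 0, ⟨0, 0⟩, 0⟩ 0 0) (.cut .d (-262144) (.cut .l 7801405 (.void 3 ⟨0, 0, 0, 0, 0, 100000, 0, 0, 0, ⟨0, 0⟩, 0⟩ 0 0)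 (.cut .v 12582912 (.cut .v 10485760 (.pos 62 .mm ⟨0, 0, 304521523, 0, 0, 1604800309, 0, 0, 0, ⟨0, 0⟩, 0⟩ 0 0) (.cut .d (-393216) (.pos 63 .mm ⟨0, 0, 16943186, 0, 0, 2362699365, 0, 0, 0, ⟨0, 0⟩, 0⟩ 0 0) (.pos 63 .mm ⟨0, 0, 0, 0, 0, 1941304133, 0, 0, 0, ⟨0, 0⟩, 0⟩ 0 0))) (.cut .d (-393216) (.cut .v 14680064 (.pos 35 .mm ⟨0, 0, 0, 0, 0, 2821399243, 0, 0, 0, ⟨0, 0⟩, 0⟩ 0 0) (.cut .v 15728640 (.cut .d (-458752) (.void 37 ⟨0, 0, 0, 0, 0, 100000, 0, 0, 0, ⟨0, 0⟩, 0⟩ 0 0) (.cut .d (-425984) (.pos 37 .mm ⟨331483945, 0, 0, 0, 0, 2499225493, 0, 0, 0, ⟨0, 0⟩, 0⟩ 0 0) (.cut .v 15204352 (.pos 58 .mm ⟨0, 0, 0, 0, 0, 2787011840, 0, 0, 0, ⟨0, 0⟩, 0⟩ 0 0) (.cut .s 15171584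 (.pos 59 .mm ⟨472801850, 0, 0, 0, 0, 1841012529, 0, 0, 0, ⟨0, 0⟩, 0⟩ 0 0) (.cut .v 15466496 (.pos 125 .mm ⟨336898288, 0, 0, 0, 0, 2290282971, 0, 0, 0, ⟨0, 0⟩, 0⟩ 0 0) (.pos 126 .mm ⟨712216761, 0, 0, 0, 0, 1616539447, 0, 0, 0, ⟨0, 0⟩, 0⟩ 0 0)))))) (.pos 38 .mm ⟨1744103878, 0, 0, 0, 0, 0, 0, 0, 0, ⟨0, 0⟩, 0⟩ 0 0))) (.cut .v 14680064 (.cut .d (-327680) (.pos 35 .mm ⟨0, 0, 0, 0, 0, 2470806596, 0, 0, 0, ⟨0, 0⟩, 0⟩ 0 0) (.cut .l 10611589 (.pos 35 .mm ⟨0, 0, 0, 0, 0, 2459195233, 0, 0, 0, ⟨0, 0⟩, 0⟩ 0 0) (.pos 35 .mm ⟨0, 0, 0, 0, 0, 2144236048, 0, 0, 0, ⟨0, 0⟩, 0⟩ 0 0))) (.cut .v 15728640 (.cut .s 15171584 (.cut .d (-327680) (.pos 37 .mm ⟨108935055, 0, 0, 0, 0, 2346346437,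 0, 0, 0, ⟨0, 0⟩, 0⟩ 0 0) (.pos 37 .mm ⟨0, 0, 0, 0, 0, 2429006437, 0, 0, 0, ⟨0, 0⟩, 0⟩ 0 0)) (.cut .d (-327680) (.cut .d (-360448) (.cut .s 15220736 (.pos 37 .mm ⟨277948124, 0, 0, 0, 0, 2187158939, 0, 0, 0, ⟨0, 0⟩, 0⟩ 0 0) (.pos 37 .mm ⟨303399272, 0, 0, 0, 0, 2263440742, 0, 0, 0, ⟨0, 0⟩, 0⟩ 0 0)) (.pos 37 .mm ⟨100772597, 0, 0, 0, 0, 2540741960, 0, 0, 0, ⟨0, 0⟩, 0⟩ 0 0)) (.pos 37 .mm ⟨0, 0, 0, 0, 0, 2629819043, 0, 0, 0, ⟨0, 0⟩, 0⟩ 0 0))) (.cut .v 16252928 (.cut .s 15171584 (.cut .d (-327680) (.pos 43 .mm ⟨1514104166, 0, 0, 0, 0, 77626239, 0, 0, 0, ⟨0, 0⟩, 0⟩ 0 0) (.pos 43 .mm ⟨735606725, 0, 0, 0, 0, 1271735964, 0, 0, 0, ⟨0, 0⟩, 0⟩ 0 0)) (.cut .s 15220736 (.pos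 43 .mm ⟨1082422010, 0, 0, 0, 0, 870537769, 0, 0, 0, ⟨0, 0⟩, 0⟩ 0 0) (.pos 43 .mm ⟨1586305932, 0, 0, 0, 0, 141879299, 0, 0, 0, ⟨0, 0⟩, 0⟩ 0 0))) (.pos 44 .mm ⟨1657597858, 0, 0, 0, 0, 0, 0, 0, 0, ⟨0, 0⟩, 0⟩ 0 0))))))) (.cut .v 12582912 (.cut .l 7801405 (.cut .d (-131072) (.cut .v 10485760 (.pos 62 .mm ⟨0, 0, 116959107, 0, 0, 1697149666, 0, 0, 0, ⟨0, 0⟩, 0⟩ 0 0) (.pos 63 .mm ⟨0, 0, 0, 0, 0, 1955313601, 0, 0, 0, ⟨0, 0⟩, 0⟩ 0 0)) (.cut .d (-65536) (.cut .v 10485760 (.cut .v 9437184 (.pos 133 .mm ⟨0, 0, 62691126, 0, 0, 1366455621, 0, 0, 0, ⟨0, 0⟩, 0⟩ 0 0) (.pos 134 .mm ⟨0, 0, 0, 0, 0, 1502098910, 0, 0, 0, ⟨0, 0⟩, 0⟩ 0 0)) (.pos 63 .mm ⟨0, 0, 0, 0, 0, 1724335986,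 0, 0, 0, ⟨0, 0⟩, 0⟩ 0 0)) (.pos 6 .mm ⟨0, 0, 17181855, 0, 0, 1179156576, 0, 0, 0, ⟨0, 0⟩, 0⟩ 0 0))) (.pos 6 .mm ⟨0, 0, 0, 0, 0, 1222998281, 0, 0, 0, ⟨0, 0⟩, 0⟩ 0 0)) (.cut .l 7801405 (.cut .d (-131072) (.cut .l 4991221 (.pos 7 .mm ⟨117832261, 0, 0, 0, 0, 2738303593, 0, 0, 0, ⟨0, 0⟩, 0⟩ 0 0) (.cut .d (-196608) (.pos 7 .mm ⟨68035846, 0, 0, 0, 0, 2761737928, 0, 0, 0, ⟨0, 0⟩, 0⟩ 0 0) (.cut .l 6396313 (.pos 7 .mm ⟨0, 0, 0, 0, 0, 2727335208, 0, 0, 0, ⟨0, 0⟩, 0⟩ 0 0) (.cut .d (-163840) (.pos 7 .mm ⟨0, 0, 0, 0, 0, 2567602211, 0, 0, 0, ⟨0, 0⟩, 0⟩ 0 0) (.pos 7 .mm ⟨142934192, 0, 0, 0, 0, 0, 0, 0, 0, ⟨0, 0⟩, 0⟩ 0 0))))) (.cut .l 4991221 (.cut .d (-65536) (.cut .l 3586129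 (.pos 7 .mm ⟨0, 0, 0, 0, 0, 2754150738, 0, 0, 0, ⟨0, 0⟩, 0⟩ 0 0) (.cut .d (-98304) (.pos 7 .mm ⟨24018345, 0, 0, 0, 0, 2634217870, 0, 0, 0, ⟨0, 0⟩, 0⟩ 0 0) (.pos 7 .mm ⟨0, 0, 0, 0, 0, 2318130707, 0, 0, 0, ⟨0, 0⟩, 0⟩ 0 0))) (.cut .v 14680064 (.pos 35 .mm ⟨0, 0, 0, 0, 0, 1927735393, 0, 0, 0, ⟨0, 0⟩, 0⟩ 0 0) (.cut .s 15171584 (.pos 36 .mm ⟨0, 0, 0, 0, 0, 2308787249, 0, 0, 0, ⟨0, 0⟩, 0⟩ 0 0) (.pos 36 .mm ⟨0, 0, 0, 0, 0, 2473322220, 0, 0, 0, ⟨0, 0⟩, 0⟩ 0 0)))) (.pos 7 .mm ⟨157227568, 0, 0, 0, 0, 1416436550, 0, 0, 0, ⟨0, 0⟩, 0⟩ 0 0))) (.cut .v 14680064 (.pos 35 .mm ⟨0, 0, 0, 0, 0, 1910450413, 0, 0, 0, ⟨0, 0⟩, 0⟩ 0 0) (.cut .v 15728640 (.pos 37 .mm ⟨0, 0, 0, 0, 0,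 2228937608, 0, 0, 0, ⟨0, 0⟩, 0⟩ 0 0) (.cut .s 15171584 (.pos 38 .mm ⟨511621752, 0, 0, 0, 0, 1390022290, 0, 0, 0, ⟨0, 0⟩, 0⟩ 0 0) (.pos 38 .mm ⟨597883057, 0, 0, 0, 0, 1420120653, 0, 0, 0, ⟨0, 0⟩, 0⟩ 0 0))))))))))))) (.cut .v 268435456 (.cut .v 67108864 (.cut .d (-8388608) (.void 8 ⟨100000, 0, 0, 0, 0, 0, 0, 0, 0, ⟨0, 0⟩, 0⟩ 0 0) (.cut .d (-4194304) (.void 8 ⟨100000, 0, 0, 0, 0, 0, 0, 0, 0, ⟨0, 0⟩, 0⟩ 0 0) (.cut .d (-2097152) (.void 8 ⟨100000, 0, 0, 0, 0, 0, 0, 0, 0, ⟨0, 0⟩, 0⟩ 0 0) (.cut .v 33554432 (.cut .d (-1048576) (.void 9 ⟨100000, 0, 0, 0, 0, 0, 0, 0, 0, ⟨0, 0⟩, 0⟩ 0 0) (.cut .d (-524288) (.void 9 ⟨100000, 0, 0, 0, 0, 0, 0, 0, 0, ⟨0, 0⟩, 0⟩ 0 0) (.cut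 .v 25165824 (.cut .v 20971520 (.cut .d (-262144) (.cut .s 15171584 (.pos 13 .mp ⟨1917464928, 0, 0, 0, 0, 0, 0, 0, 0, ⟨0, 0⟩, 0⟩ 0 0) (.pos 13 .mp ⟨2087588258, 0, 0, 0, 0, 0, 0, 0, 0, ⟨0, 0⟩, 0⟩ 0 0)) (.cut .v 18874368 (.cut .d (-131072) (.pos 15 .mp ⟨1678809563, 0, 0, 0, 0, 0, 0, 0, 0, ⟨0, 0⟩, 0⟩ 0 0) (.cut .v 17825792 (.cut .l 7801405 (.cut .l 4991221 (.cut .d (-65536) (.cut .l 3586129 (.cut .s 15171584 (.cut .l 2883583 (.pos 17 .mp ⟨411768427, 0, 0, 0, 0, 2081925565, 0, 0, 0, ⟨0, 0⟩, 0⟩ 0 0) (.pos 17 .mp ⟨587603574, 0, 0, 0, 0, 1599732573, 0, 0, 0, ⟨0, 0⟩, 0⟩ 0 0)) (.pos 17 .mp ⟨731707110, 0, 0, 0, 0, 1592626690, 0, 0, 0, ⟨0, 0⟩, 0⟩ 0 0)) (.pos 17 .mp ⟨642926353,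 0, 0, 0, 0, 1498093920, 0, 0, 0, ⟨0, 0⟩, 0⟩ 0 0)) (.cut .d (-32768) (.cut .v 17301504 (.cut .l 3586129 (.cut .l 2883583 (.cut .l 2532310 (.cut .d (-49152) (.cut .s 15171584 (.pos 39 .mp ⟨332986687, 0, 0, 0, 0, 2050900571, 0, 0, 0, ⟨0, 0⟩, 0⟩ 0 0) (.pos 39 .mp ⟨344535630, 0, 0, 0, 0, 2199435645, 0, 0, 0, ⟨0, 0⟩, 0⟩ 0 0)) (.cut .s 15171584 (.pos 39 .mp ⟨366110581, 0, 0, 0, 0, 1719225400, 0, 0, 0, ⟨0, 0⟩, 0⟩ 0 0) (.pos 39 .mp ⟨370024649, 0, 0, 0, 0, 1865124830, 0, 0, 0, ⟨0, 0⟩, 0⟩ 0 0))) (.pos 39 .mp ⟨412694105, 0, 0, 0, 0, 1695127712, 0, 0, 0, ⟨0, 0⟩, 0⟩ 0 0)) (.pos 39 .mp ⟨367545095, 0, 0, 0, 0, 1483815825, 0, 0, 0, ⟨0, 0⟩, 0⟩ 0 0)) (.pos 39 .mp ⟨0, 0, 0, 0,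 0, 0, 0, 0, 0, ⟨0, 0⟩, 0⟩ 0 0)) (.pos 40 .mp ⟨1480220247, 0, 0, 0, 0, 0, 0, 0, 0, ⟨0, 0⟩, 0⟩ 0 0)) (.pos 17 .mp ⟨328858684, 0, 0, 0, 0, 0, 0, 0, 0, ⟨0, 0⟩, 0⟩ 0 0))) (.pos 17 .mp ⟨1334808117, 0, 0, 0, 0, 0, 0, 0, 0, ⟨0, 0⟩, 0⟩ 0 0)) (.pos 17 .mp ⟨0, 0, 0, 0, 0, 0, 0, 0, 0, ⟨0, 0⟩, 0⟩ 0 0)) (.pos 18 .mp ⟨1592429049, 0, 0, 0, 0, 0, 0, 0, 0, ⟨0, 0⟩, 0⟩ 0 0))) (.pos 16 .mp ⟨1889773926, 0, 0, 0, 0, 0, 0, 0, 0, ⟨0, 0⟩, 0⟩ 0 0))) (.pos 14 .mp ⟨2509766786, 0, 0, 0, 0, 0, 0, 0, 0, ⟨0, 0⟩, 0⟩ 0 0)) (.pos 12 .mp ⟨3649278688, 0, 0, 0, 0, 0, 0, 0, 0, ⟨0, 0⟩, 0⟩ 0 0)))) (.pos 10 .mp ⟨14544371578, 0, 0, 0, 0, 0, 0, 0, 0, ⟨0, 0⟩, 0⟩ 0 0))))) (.void 49 ⟨100000, 0, 0, 0, 0,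 0, 0, 0, 0, ⟨0, 0⟩, 0⟩ 0 0)) (.void 66 ⟨92358, 0, 0, 7642, 0, 0, 0, 0, 0, ⟨0, 0⟩, 0⟩ 0 0))) (.cut .v 16777216 (.cut .v 8388608 (.cut .v 4194304 (.cut .v 2097152 (.cut .v 1048576 (.cut .v 524288 (.pos 117 .pm ⟨0, 0, 17497295, 0, 0, 0, 0, 0, 0, ⟨0, 0⟩, 0⟩ 0 0) (.pos 118 .pm ⟨0, 0, 35740839, 0, 0, 0, 0, 0, 0, ⟨0, 0⟩, 0⟩ 0 0)) (.pos 102 .pm ⟨0, 0, 55274427, 0, 0, 0, 0, 0, 0, ⟨0, 0⟩, 0⟩ 0 0)) (.pos 72 .pm ⟨0, 0, 90647209, 0, 0, 0, 0, 0, 0, ⟨0, 0⟩, 0⟩ 0 0)) (.pos 5 .pm ⟨0, 0, 219362306, 0, 0, 0, 0, 0, 0, ⟨0, 0⟩, 0⟩ 0 0)) (.pos 3 .pm ⟨0, 0, 38620750, 0, 0, 0, 0, 0, 0, ⟨0, 0⟩, 0⟩ 0 0)) (.cut .v 268435456 (.cut .v 67108864 (.cut .d 948278 (.cut .d 474139 (.cut .v 33554432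 (.cut .v 25165824 (.pos 11 .pp ⟨680408841, 0, 0, 0, 0, 0, 0, 0, 0, ⟨0, 0⟩, 0⟩ 0 0) (.pos 12 .pp ⟨2119971406, 0, 0, 0, 0, 0, 0, 0, 0, ⟨0, 0⟩, 0⟩ 0 0)) (.cut .v 50331648 (.cut .v 41943040 (.pos 25 .pp ⟨3590734626, 0, 0, 0, 0, 0, 0, 0, 0, ⟨0, 0⟩, 0⟩ 0 0) (.pos 26 .pp ⟨5237908158, 0, 0, 0, 0, 0, 0, 0, 0, ⟨0, 0⟩, 0⟩ 0 0)) (.cut .v 58720256 (.pos 95 .pp ⟨7013845188, 0, 0, 0, 0, 0, 0, 0, 0, ⟨0, 0⟩, 0⟩ 0 0) (.cut .d 237069 (.pos 96 .pp ⟨10034514100, 0, 0, 0, 0, 0, 0, 0, 0, ⟨0, 0⟩, 0⟩ 0 0) (.pos 96 .pp ⟨8409746874, 0, 0, 0, 0, 0, 0, 0, 0, ⟨0, 0⟩, 0⟩ 0 0))))) (.pos 8 .pp ⟨710437959, 0, 0, 0, 0, 0, 0, 0, 0, ⟨0, 0⟩, 0⟩ 0 0)) (.pos 8 .pp ⟨0, 0, 0, 0, 0, 0, 0, 0, 0, ⟨0,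 0⟩, 0⟩ 0 0)) (.cut .v 134217728 (.cut .v 100663296 (.cut .d 948278 (.cut .v 83886080 (.cut .d 474139 (.cut .d 237069 (.pos 107 .pp ⟨22413002605, 0, 0, 0, 0, 0, 0, 0, 0, ⟨0, 0⟩, 0⟩ 0 0) (.cut .v 75497472 (.cut .d 355604 (.pos 109 .pp ⟨11390984892, 461591877, 0, 0, 0, 0, 0, 0, 0, ⟨0, 0⟩, 0⟩ 0 0) (.pos 109 .pp ⟨9794357311, 3093373452, 0, 0, 0, 0, 0, 0, 0, ⟨0, 0⟩, 0⟩ 0 0)) (.pos 110 .pp ⟨13277272381, 5374056838, 0, 0, 0, 0, 0, 0, 0, ⟨0, 0⟩, 0⟩ 0 0))) (.void 107 ⟨0, 100000, 0, 0, 0, 0, 0, 0, 0, ⟨0, 0⟩, 0⟩ 0 0)) (.void 108 ⟨34822, 65178, 0, 0, 0, 0, 0, 0, 0, ⟨0, 0⟩, 0⟩ 0 0)) (.void 97 ⟨0, 0, 0, 100000, 0, 0, 0, 0, 0, ⟨0, 0⟩, 0⟩ 0 0)) (.void 98 ⟨0, 0, 0, 100000,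 0, 0, 0, 0, 0, ⟨0, 0⟩, 0⟩ 0 0)) (.void 88 ⟨0, 0, 0, 100000, 0, 0, 0, 0, 0, ⟨0, 0⟩, 0⟩ 0 0))) (.void 66 ⟨0, 0, 0, 100000, 0, 0, 0, 0, 0, ⟨0, 0⟩, 0⟩ 0 0)))),
    by decide +kernel⟩

def covers26 : cell.Covers table row26.1 :=
  ⟨(.cut .d 0 (.cut .v 16777216 (.cut .d (-8388608) (.void 1 ⟨0, 0, 0, 0, 0, 100000, 0, 0, 0, ⟨0, 0⟩, 0⟩ 0 0) (.cut .v 8388608 (.void 2 ⟨0, 0, 100000, 0, 0, 0, 0, 0, 0, ⟨0, 0⟩, 0⟩ 0 0) (.cut .d (-4194304) (.void 3 ⟨100000, 0, 0, 0, 0, 0, 0, 0, 0, ⟨0, 0⟩, 0⟩ 0 0) (.cut .d (-2097152) (.void 3 ⟨100000, 0, 0, 0, 0, 0, 0, 0, 0, ⟨0, 0⟩, 0⟩ 0 0) (.cut .d (-1048576) (.void 3 ⟨71211, 0, 28789, 0, 0, 0, 0, 0, 0, ⟨0, 0⟩, 0⟩ 0 0) (.cut .d (-524288)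 (.void 3 ⟨0, 0, 0, 0, 0, 100000, 0, 0, 0, ⟨0, 0⟩, 0⟩ 0 0) (.cut .d (-262144) (.cut .d (-393216) (.void 3 ⟨0, 0, 0, 0, 0, 100000, 0, 0, 0, ⟨0, 0⟩, 0⟩ 0 0) (.cut .l 7801405 (.void 3 ⟨0, 0, 0, 0, 0, 100000, 0, 0, 0, ⟨0, 0⟩, 0⟩ 0 0) (.cut .v 12582912 (.cut .v 10485760 (.pos 62 .mm ⟨0, 0, 750563109, 0, 0, 1826601591, 0, 0, 0, ⟨0, 0⟩, 0⟩ 0 0) (.cut .d (-327680) (.pos 63 .mm ⟨0, 0, 46171218, 0, 0, 2701184439, 0, 0, 0, ⟨0, 0⟩, 0⟩ 0 0) (.cut .s 15400960 (.pos 63 .mm ⟨0, 0, 0, 0, 0, 2193297456, 0, 0, 0, ⟨0, 0⟩, 0⟩ 0 0) (.pos 63 .mm ⟨0, 0, 0, 0, 0, 2494551602, 0, 0, 0, ⟨0, 0⟩, 0⟩ 0 0)))) (.cut .l 10611589 (.cut .s 15400960 (.cut .v 14680064 (.pos 35 .mm ⟨0, 0, 0, 0,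 0, 3028766370, 0, 0, 0, ⟨0, 0⟩, 0⟩ 0 0) (.cut .v 15728640 (.pos 37 .mm ⟨0, 0, 0, 0, 0, 3272944490, 0, 0, 0, ⟨0, 0⟩, 0⟩ 0 0) (.pos 38 .mm ⟨1516949561, 0, 0, 0, 0, 565681430, 0, 0, 0, ⟨0, 0⟩, 0⟩ 0 0))) (.pos 7 .mm ⟨200311404, 0, 0, 0, 0, 3578519575, 0, 0, 0, ⟨0, 0⟩, 0⟩ 0 0)) (.cut .d (-327680) (.cut .v 14680064 (.cut .s 15400960 (.pos 35 .mm ⟨0, 0, 0, 0, 0, 3007888565, 0, 0, 0, ⟨0, 0⟩, 0⟩ 0 0) (.pos 35 .mm ⟨0, 0, 0, 0, 0, 3292242627, 0, 0, 0, ⟨0, 0⟩, 0⟩ 0 0)) (.cut .v 15728640 (.cut .l 12016681 (.pos 37 .mm ⟨292056501, 0, 0, 0, 0, 3064088660, 0, 0, 0, ⟨0, 0⟩, 0⟩ 0 0) (.cut .s 15400960 (.cut .d (-360448) (.cut .d (-376832) (.pos 37 .mm ⟨355374872, 0, 0, 0, 0,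 2808267777, 0, 0, 0, ⟨0, 0⟩, 0⟩ 0 0) (.cut .v 15204352 (.pos 58 .mm ⟨0, 0, 0, 0, 0, 3204724575, 0, 0, 0, ⟨0, 0⟩, 0⟩ 0 0) (.cut .s 15335424 (.pos 59 .mm ⟨467068409, 0, 0, 0, 0, 2282628152, 0, 0, 0, ⟨0, 0⟩, 0⟩ 0 0) (.pos 59 .mm ⟨399392588, 0, 0, 0, 0, 2630610970, 0, 0, 0, ⟨0, 0⟩, 0⟩ 0 0)))) (.cut .v 15204352 (.pos 58 .mm ⟨0, 0, 0, 0, 0, 3026781772, 0, 0, 0, ⟨0, 0⟩, 0⟩ 0 0) (.cut .s 15335424 (.pos 59 .mm ⟨399392588, 0, 0, 0, 0, 2239240168, 0, 0, 0, ⟨0, 0⟩, 0⟩ 0 0) (.cut .s 15368192 (.pos 59 .mm ⟨440886346, 0, 0, 0, 0, 2289533288, 0, 0, 0, ⟨0, 0⟩, 0⟩ 0 0) (.pos 59 .mm ⟨472554373, 0, 0, 0, 0, 2317733914, 0, 0, 0, ⟨0, 0⟩, 0⟩ 0 0))))) (.cut .d (-360448) (.void 37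 ⟨0, 0, 0, 0, 0, 100000, 0, 0, 0, ⟨0, 0⟩, 0⟩ 0 0) (.pos 37 .mm ⟨282749230, 0, 0, 0, 0, 2897924390, 0, 0, 0, ⟨0, 0⟩, 0⟩ 0 0)))) (.pos 38 .mm ⟨1964005824, 0, 0, 0, 0, 0, 0, 0, 0, ⟨0, 0⟩, 0⟩ 0 0))) (.cut .v 14680064 (.cut .s 15400960 (.pos 35 .mm ⟨0, 0, 0, 0, 0, 2602193103, 0, 0, 0, ⟨0, 0⟩, 0⟩ 0 0) (.pos 35 .mm ⟨0, 0, 0, 0, 0, 2934360586, 0, 0, 0, ⟨0, 0⟩, 0⟩ 0 0)) (.cut .v 15728640 (.cut .s 15400960 (.cut .s 15335424 (.pos 37 .mm ⟨0, 0, 0, 0, 0, 2858099733, 0, 0, 0, ⟨0, 0⟩, 0⟩ 0 0) (.pos 37 .mm ⟨52513558, 0, 0, 0, 0, 2913093673, 0, 0, 0, ⟨0, 0⟩, 0⟩ 0 0)) (.cut .l 12016681 (.pos 37 .mm ⟨108654784, 0, 0, 0, 0, 3153950096, 0, 0, 0, ⟨0, 0⟩, 0⟩ 0 0) (.pos 37 .mm ⟨161447821,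 0, 0, 0, 0, 2865390254, 0, 0, 0, ⟨0, 0⟩, 0⟩ 0 0))) (.pos 38 .mm ⟨1787659904, 0, 0, 0, 0, 0, 0, 0, 0, ⟨0, 0⟩, 0⟩ 0 0)))))))) (.cut .v 12582912 (.cut .v 10485760 (.cut .d (-131072) (.cut .l 7801405 (.pos 62 .mm ⟨0, 0, 127260246, 0, 0, 2069133896, 0, 0, 0, ⟨0, 0⟩, 0⟩ 0 0) (.pos 62 .mm ⟨0, 0, 248494420, 0, 0, 1740182442, 0, 0, 0, ⟨0, 0⟩, 0⟩ 0 0)) (.cut .l 7801405 (.cut .l 4991221 (.cut .d (-65536) (.cut .v 9437184 (.pos 133 .mm ⟨0, 0, 114696035, 0, 0, 1795999929, 0, 0, 0, ⟨0, 0⟩, 0⟩ 0 0) (.pos 134 .mm ⟨0, 0, 0, 0, 0, 1899757377, 0, 0, 0, ⟨0, 0⟩, 0⟩ 0 0)) (.cut .d (-32768) (.cut .v 9437184 (.cut .s 15400960 (.pos 133 .mm ⟨0, 0, 79030410, 0, 0, 1493747934, 0, 0,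 0, ⟨0, 0⟩, 0⟩ 0 0) (.pos 133 .mm ⟨0, 0, 108905629, 0, 0, 1689705215, 0, 0, 0, ⟨0, 0⟩, 0⟩ 0 0)) (.pos 134 .mm ⟨0, 0, 0, 0, 0, 1713274387, 0, 0, 0, ⟨0, 0⟩, 0⟩ 0 0)) (.pos 62 .mm ⟨0, 0, 93535271, 0, 0, 0, 0, 0, 0, ⟨0, 0⟩, 0⟩ 0 0))) (.pos 62 .mm ⟨0, 0, 48887573, 0, 0, 1341058113, 0, 0, 0, ⟨0, 0⟩, 0⟩ 0 0)) (.pos 62 .mm ⟨0, 0, 149280446, 0, 0, 0, 0, 0, 0, ⟨0, 0⟩, 0⟩ 0 0))) (.cut .d (-131072) (.cut .l 7801405 (.cut .s 15400960 (.pos 63 .mm ⟨0, 0, 0, 0, 0, 2228705446, 0, 0, 0, ⟨0, 0⟩, 0⟩ 0 0) (.pos 63 .mm ⟨0, 0, 0, 0, 0, 2532947676, 0, 0, 0, ⟨0, 0⟩, 0⟩ 0 0)) (.cut .s 15400960 (.pos 63 .mm ⟨0, 0, 0, 0, 0, 1924641013, 0, 0, 0, ⟨0, 0⟩, 0⟩ 0 0) (.pos 63 .mm ⟨0, 0, 0,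 0, 0, 2167262422, 0, 0, 0, ⟨0, 0⟩, 0⟩ 0 0))) (.cut .d (-65536) (.cut .s 15400960 (.pos 63 .mm ⟨0, 0, 0, 0, 0, 1905332033, 0, 0, 0, ⟨0, 0⟩, 0⟩ 0 0) (.cut .v 11534336 (.pos 129 .mm ⟨0, 0, 0, 0, 0, 2082368667, 0, 0, 0, ⟨0, 0⟩, 0⟩ 0 0) (.pos 130 .mm ⟨0, 0, 0, 0, 0, 2295068631, 0, 0, 0, ⟨0, 0⟩, 0⟩ 0 0))) (.pos 63 .mm ⟨0, 0, 0, 0, 0, 1771136871, 0, 0, 0, ⟨0, 0⟩, 0⟩ 0 0)))) (.cut .d (-131072) (.cut .l 7801405 (.cut .d (-196608) (.pos 7 .mm ⟨131613694, 0, 0, 0, 0, 3386527633, 0, 0, 0, ⟨0, 0⟩, 0⟩ 0 0) (.cut .l 4991221 (.void 7 ⟨0, 0, 0, 0, 0, 100000, 0, 0, 0, ⟨0, 0⟩, 0⟩ 0 0) (.cut .l 6396313 (.pos 7 .mm ⟨19050821, 0, 0, 0, 0, 3253033088, 0, 0, 0, ⟨0, 0⟩, 0⟩ 0 0) (.cut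 .d (-163840) (.pos 7 .mm ⟨7701487, 0, 0, 0, 0, 3108677881, 0, 0, 0, ⟨0, 0⟩, 0⟩ 0 0) (.pos 7 .mm ⟨0, 0, 0, 0, 0, 2605744108, 0, 0, 0, ⟨0, 0⟩, 0⟩ 0 0))))) (.cut .l 10611589 (.cut .d (-196608) (.cut .v 14680064 (.pos 35 .mm ⟨0, 0, 0, 0, 0, 2703713354, 0, 0, 0, ⟨0, 0⟩, 0⟩ 0 0) (.cut .s 15400960 (.cut .v 15728640 (.pos 37 .mm ⟨0, 0, 0, 0, 0, 2879793475, 0, 0, 0, ⟨0, 0⟩, 0⟩ 0 0) (.pos 38 .mm ⟨745429509, 0, 0, 0, 0, 1641491035, 0, 0, 0, ⟨0, 0⟩, 0⟩ 0 0)) (.pos 36 .mm ⟨0, 0, 0, 0, 0, 3447242517, 0, 0, 0, ⟨0, 0⟩, 0⟩ 0 0))) (.pos 7 .mm ⟨0, 0, 0, 0, 0, 2435318435, 0, 0, 0, ⟨0, 0⟩, 0⟩ 0 0)) (.pos 7 .mm ⟨293840132, 0, 0, 0, 0, 1612001333, 0, 0, 0, ⟨0, 0⟩, 0⟩ 0 0))) (.cut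 .l 7801405 (.cut .l 4991221 (.cut .d (-65536) (.cut .v 14680064 (.pos 35 .mm ⟨0, 0, 0, 0, 0, 2664637307, 0, 0, 0, ⟨0, 0⟩, 0⟩ 0 0) (.cut .s 15400960 (.pos 36 .mm ⟨0, 0, 0, 0, 0, 3005946036, 0, 0, 0, ⟨0, 0⟩, 0⟩ 0 0) (.pos 36 .mm ⟨0, 0, 0, 0, 0, 3350973140, 0, 0, 0, ⟨0, 0⟩, 0⟩ 0 0))) (.cut .v 14680064 (.pos 35 .mm ⟨0, 0, 0, 0, 0, 2153937322, 0, 0, 0, ⟨0, 0⟩, 0⟩ 0 0) (.pos 36 .mm ⟨0, 0, 0, 0, 0, 2650490396, 0, 0, 0, ⟨0, 0⟩, 0⟩ 0 0))) (.pos 7 .mm ⟨0, 0, 0, 0, 0, 2251056370, 0, 0, 0, ⟨0, 0⟩, 0⟩ 0 0)) (.pos 7 .mm ⟨0, 0, 0, 0, 0, 0, 0, 0, 0, ⟨0, 0⟩, 0⟩ 0 0))))))))))) (.cut .v 268435456 (.cut .v 67108864 (.cut .d (-8388608) (.void 8 ⟨100000, 0, 0, 0, 0, 0, 0, 0, 0,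 ⟨0, 0⟩, 0⟩ 0 0) (.cut .d (-4194304) (.void 8 ⟨100000, 0, 0, 0, 0, 0, 0, 0, 0, ⟨0, 0⟩, 0⟩ 0 0) (.cut .d (-2097152) (.void 8 ⟨100000, 0, 0, 0, 0, 0, 0, 0, 0, ⟨0, 0⟩, 0⟩ 0 0) (.cut .d (-1048576) (.void 8 ⟨100000, 0, 0, 0, 0, 0, 0, 0, 0, ⟨0, 0⟩, 0⟩ 0 0) (.cut .v 33554432 (.cut .d (-524288) (.void 9 ⟨100000, 0, 0, 0, 0, 0, 0, 0, 0, ⟨0, 0⟩, 0⟩ 0 0) (.cut .v 25165824 (.cut .d (-262144) (.cut .v 20971520 (.cut .s 15400960 (.pos 13 .mp ⟨2342972688, 0, 0, 0, 0, 0, 0, 0, 0, ⟨0, 0⟩, 0⟩ 0 0) (.pos 13 .mp ⟨2662490605, 0, 0, 0, 0, 0, 0, 0, 0, ⟨0, 0⟩, 0⟩ 0 0)) (.void 14 ⟨100000, 0, 0, 0, 0, 0, 0, 0, 0, ⟨0, 0⟩, 0⟩ 0 0)) (.cut .v 20971520 (.cut .v 18874368 (.cut .v 17825792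 (.cut .l 7801405 (.cut .d (-131072) (.pos 17 .mp ⟨2053391453, 0, 0, 0, 0, 0, 0, 0, 0, ⟨0, 0⟩, 0⟩ 0 0) (.cut .l 4991221 (.cut .d (-65536) (.cut .s 15400960 (.pos 17 .mp ⟨841792355, 0, 0, 0, 0, 1621829205, 0, 0, 0, ⟨0, 0⟩, 0⟩ 0 0) (.pos 17 .mp ⟨1025798569, 0, 0, 0, 0, 1632885407, 0, 0, 0, ⟨0, 0⟩, 0⟩ 0 0)) (.cut .d (-32768) (.pos 17 .mp ⟨329095538, 0, 0, 0, 0, 2395286738, 0, 0, 0, ⟨0, 0⟩, 0⟩ 0 0) (.pos 17 .mp ⟨329095538, 0, 0, 0, 0, 0, 0, 0, 0, ⟨0, 0⟩, 0⟩ 0 0))) (.pos 17 .mp ⟨1543359322, 0, 0, 0, 0, 0, 0, 0, 0, ⟨0, 0⟩, 0⟩ 0 0))) (.pos 17 .mp ⟨1707394481, 0, 0, 0, 0, 0, 0, 0, 0, ⟨0, 0⟩, 0⟩ 0 0)) (.pos 18 .mp ⟨2061586500, 0, 0, 0, 0, 0, 0, 0, 0, ⟨0, 0⟩, 0⟩ 0 0))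 (.pos 16 .mp ⟨2256002704, 0, 0, 0, 0, 0, 0, 0, 0, ⟨0, 0⟩, 0⟩ 0 0)) (.pos 14 .mp ⟨2718725953, 0, 0, 0, 0, 0, 0, 0, 0, ⟨0, 0⟩, 0⟩ 0 0))) (.pos 12 .mp ⟨4471293000, 0, 0, 0, 0, 0, 0, 0, 0, ⟨0, 0⟩, 0⟩ 0 0))) (.pos 10 .mp ⟨14643431914, 0, 0, 0, 0, 0, 0, 0, 0, ⟨0, 0⟩, 0⟩ 0 0)))))) (.void 49 ⟨100000, 0, 0, 0, 0, 0, 0, 0, 0, ⟨0, 0⟩, 0⟩ 0 0)) (.void 66 ⟨92237, 0, 0, 7763, 0, 0, 0, 0, 0, ⟨0, 0⟩, 0⟩ 0 0))) (.cut .v 16777216 (.cut .v 8388608 (.cut .v 4194304 (.cut .v 2097152 (.cut .v 1048576 (.cut .v 524288 (.cut .v 262144 (.pos 137 .pm ⟨0, 0, 15404636, 0, 0, 0, 0, 0, 0, ⟨0, 0⟩, 0⟩ 0 0) (.pos 138 .pm ⟨0, 0, 31204001, 0, 0, 0, 0, 0, 0, ⟨0, 0⟩, 0⟩ 0 0)) (.pos 118 .pm ⟨0,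 0, 49768297, 0, 0, 0, 0, 0, 0, ⟨0, 0⟩, 0⟩ 0 0)) (.pos 102 .pm ⟨0, 0, 78237373, 0, 0, 0, 0, 0, 0, ⟨0, 0⟩, 0⟩ 0 0)) (.pos 72 .pm ⟨0, 0, 133988237, 0, 0, 0, 0, 0, 0, ⟨0, 0⟩, 0⟩ 0 0)) (.pos 5 .pm ⟨0, 0, 313554422, 0, 0, 0, 0, 0, 0, ⟨0, 0⟩, 0⟩ 0 0)) (.pos 3 .pm ⟨0, 0, 52385336, 0, 0, 0, 0, 0, 0, ⟨0, 0⟩, 0⟩ 0 0)) (.cut .v 268435456 (.cut .v 67108864 (.cut .d 828061 (.cut .d 414030 (.cut .v 33554432 (.cut .v 25165824 (.pos 11 .pp ⟨696392093, 0, 0, 0, 0, 0, 0, 0, 0, ⟨0, 0⟩, 0⟩ 0 0) (.pos 12 .pp ⟨2384895537, 0, 0, 0, 0, 0, 0, 0, 0, ⟨0, 0⟩, 0⟩ 0 0)) (.cut .v 50331648 (.cut .v 41943040 (.pos 25 .pp ⟨4067907399, 0, 0, 0, 0, 0, 0, 0, 0, ⟨0, 0⟩, 0⟩ 0 0) (.pos 26 .pp ⟨6014911840,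 0, 0, 0, 0, 0, 0, 0, 0, ⟨0, 0⟩, 0⟩ 0 0)) (.cut .d 207015 (.pos 24 .pp ⟨11304395279, 0, 0, 0, 0, 0, 0, 0, 0, ⟨0, 0⟩, 0⟩ 0 0) (.cut .v 58720256 (.pos 95 .pp ⟨7351674957, 0, 0, 0, 0, 0, 0, 0, 0, ⟨0, 0⟩, 0⟩ 0 0) (.pos 96 .pp ⟨9560819811, 0, 0, 0, 0, 0, 0, 0, 0, ⟨0, 0⟩, 0⟩ 0 0))))) (.pos 8 .pp ⟨798310012, 0, 0, 0, 0, 0, 0, 0, 0, ⟨0, 0⟩, 0⟩ 0 0)) (.pos 8 .pp ⟨0, 0, 0, 0, 0, 0, 0, 0, 0, ⟨0, 0⟩, 0⟩ 0 0)) (.cut .v 134217728 (.cut .v 100663296 (.cut .d 828061 (.cut .v 83886080 (.cut .d 414030 (.cut .d 207015 (.pos 107 .pp ⟨22701309720, 1494301605, 0, 0, 0, 0, 0, 0, 0, ⟨0, 0⟩, 0⟩ 0 0) (.cut .v 75497472 (.cut .d 310522 (.pos 109 .pp ⟨13234947036, 538561774, 0, 0, 0, 0,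 0, 0, 0, ⟨0, 0⟩, 0⟩ 0 0) (.pos 109 .pp ⟨11226744325, 3888095187, 0, 0, 0, 0, 0, 0, 0, ⟨0, 0⟩, 0⟩ 0 0)) (.pos 110 .pp ⟨15403745614, 7021270487, 0, 0, 0, 0, 0, 0, 0, ⟨0, 0⟩, 0⟩ 0 0))) (.void 107 ⟨0, 100000, 0, 0, 0, 0, 0, 0, 0, ⟨0, 0⟩, 0⟩ 0 0)) (.void 108 ⟨79754, 7140, 0, 13107, 0, 0, 0, 0, 0, ⟨0, 0⟩, 0⟩ 0 0)) (.void 97 ⟨0, 0, 0, 100000, 0, 0, 0, 0, 0, ⟨0, 0⟩, 0⟩ 0 0)) (.void 98 ⟨0, 0, 0, 100000, 0, 0, 0, 0, 0, ⟨0, 0⟩, 0⟩ 0 0)) (.void 88 ⟨0, 0, 0, 100000, 0, 0, 0, 0, 0, ⟨0, 0⟩, 0⟩ 0 0))) (.void 66 ⟨0, 0, 0, 100000, 0, 0, 0, 0, 0, ⟨0, 0⟩, 0⟩ 0 0)))),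
    by decide +kernel⟩

def covers27 : cell.Covers table row27.1 :=
  ⟨(.cut .d 0 (.cut .v 16777216 (.cut .d (-8388608) (.void 1 ⟨0, 0, 0, 0, 0, 100000, 0, 0, 0, ⟨0, 0⟩, 0⟩ 0 0) (.cut .v 8388608 (.void 2 ⟨0, 0, 100000, 0, 0, 0, 0, 0, 0, ⟨0, 0⟩, 0⟩ 0 0) (.cut .d (-4194304) (.void 3 ⟨100000, 0, 0, 0, 0, 0, 0, 0, 0, ⟨0, 0⟩, 0⟩ 0 0) (.cut .d (-2097152) (.void 3 ⟨100000, 0, 0, 0, 0, 0, 0, 0, 0, ⟨0, 0⟩, 0⟩ 0 0) (.cut .d (-1048576) (.void 3 ⟨70922, 0, 29078, 0, 0, 0, 0, 0, 0, ⟨0, 0⟩, 0⟩ 0 0) (.cut .d (-524288) (.void 3 ⟨0, 0, 0, 0, 0, 100000, 0, 0, 0, ⟨0, 0⟩, 0⟩ 0 0) (.cut .d (-262144) (.cut .d (-393216) (.void 3 ⟨0, 0, 0, 0, 0, 100000, 0, 0, 0, ⟨0, 0⟩, 0⟩ 0 0) (.cut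 .d (-327680) (.void 3 ⟨0, 0, 0, 0, 0, 100000, 0, 0, 0, ⟨0, 0⟩, 0⟩ 0 0) (.cut .l 7801405 (.void 3 ⟨0, 0, 0, 0, 0, 100000, 0, 0, 0, ⟨0, 0⟩, 0⟩ 0 0) (.cut .l 10611589 (.void 3 ⟨0, 0, 0, 0, 0, 100000, 0, 0, 0, ⟨0, 0⟩, 0⟩ 0 0) (.cut .v 12582912 (.cut .s 15654912 (.cut .v 10485760 (.void 62 ⟨0, 0, 100000, 0, 0, 0, 0, 0, 0, ⟨0, 0⟩, 0⟩ 0 0) (.pos 63 .mm ⟨0, 0, 5857308, 0, 0, 3159424775, 0, 0, 0, ⟨0, 0⟩, 0⟩ 0 0)) (.pos 6 .mm ⟨0, 0, 75559234, 0, 0, 3699315762, 0, 0, 0, ⟨0, 0⟩, 0⟩ 0 0)) (.cut .l 12016681 (.pos 7 .mm ⟨132691105, 0, 0, 0, 0, 4985267043, 0, 0, 0, ⟨0, 0⟩, 0⟩ 0 0) (.cut .d (-294912) (.cut .v 14680064 (.pos 35 .mm ⟨0, 0, 0, 0, 0, 4698865862, 0, 0, 0, ⟨0, 0⟩,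 0⟩ 0 0) (.pos 36 .mm ⟨295026995, 0, 0, 0, 0, 4780813949, 0, 0, 0, ⟨0, 0⟩, 0⟩ 0 0)) (.cut .v 14680064 (.cut .s 15654912 (.pos 35 .mm ⟨0, 0, 0, 0, 0, 3884921419, 0, 0, 0, ⟨0, 0⟩, 0⟩ 0 0) (.pos 35 .mm ⟨0, 0, 0, 0, 0, 4306627257, 0, 0, 0, ⟨0, 0⟩, 0⟩ 0 0)) (.cut .v 15728640 (.cut .l 12719227 (.pos 37 .mm ⟨107830274, 0, 0, 0, 0, 4484760532, 0, 0, 0, ⟨0, 0⟩, 0⟩ 0 0) (.cut .s 15654912 (.cut .v 15204352 (.pos 58 .mm ⟨0, 0, 0, 0, 0, 4137776173, 0, 0, 0, ⟨0, 0⟩, 0⟩ 0 0) (.pos 59 .mm ⟨504699848, 0, 0, 0, 0, 3211536417, 0, 0, 0, ⟨0, 0⟩, 0⟩ 0 0)) (.cut .d (-278528) (.void 37 ⟨0, 0, 0, 0, 0, 100000, 0, 0, 0, ⟨0, 0⟩, 0⟩ 0 0) (.cut .d (-270336) (.pos 37 .mm ⟨274129198, 0,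 0, 0, 0, 4016561384, 0, 0, 0, ⟨0, 0⟩, 0⟩ 0 0) (.cut .v 15204352 (.pos 58 .mm ⟨0, 0, 0, 0, 0, 4273748477, 0, 0, 0, ⟨0, 0⟩, 0⟩ 0 0) (.cut .s 15716352 (.pos 59 .mm ⟨425128892, 0, 0, 0, 0, 3450353753, 0, 0, 0, ⟨0, 0⟩, 0⟩ 0 0) (.void 59 ⟨0, 0, 0, 0, 0, 100000, 0, 0, 0, ⟨0, 0⟩, 0⟩ 0 0))))))) (.pos 38 .mm ⟨2497677508, 0, 0, 0, 0, 0, 0, 0, 0, ⟨0, 0⟩, 0⟩ 0 0)))))))))) (.cut .d (-131072) (.cut .v 12582912 (.cut .v 10485760 (.cut .l 7801405 (.pos 62 .mm ⟨0, 0, 149084809, 0, 0, 2737206094, 0, 0, 0, ⟨0, 0⟩, 0⟩ 0 0) (.cut .d (-196608) (.pos 62 .mm ⟨0, 0, 1015401207, 0, 0, 2308695159, 0, 0, 0, ⟨0, 0⟩, 0⟩ 0 0) (.pos 62 .mm ⟨0, 0, 349795872, 0, 0, 2332636342, 0, 0, 0, ⟨0,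 0⟩, 0⟩ 0 0))) (.cut .l 7801405 (.pos 63 .mm ⟨0, 0, 0, 0, 0, 3270244220, 0, 0, 0, ⟨0, 0⟩, 0⟩ 0 0) (.cut .d (-196608) (.cut .l 10611589 (.pos 63 .mm ⟨0, 0, 0, 0, 0, 3268041668, 0, 0, 0, ⟨0, 0⟩, 0⟩ 0 0) (.cut .d (-229376) (.cut .v 11534336 (.pos 129 .mm ⟨0, 0, 33501281, 0, 0, 2934545987, 0, 0, 0, ⟨0, 0⟩, 0⟩ 0 0) (.pos 130 .mm ⟨0, 0, 0, 0, 0, 3208221669, 0, 0, 0, ⟨0, 0⟩, 0⟩ 0 0)) (.pos 63 .mm ⟨0, 0, 0, 0, 0, 2708777326, 0, 0, 0, ⟨0, 0⟩, 0⟩ 0 0))) (.cut .s 15654912 (.pos 63 .mm ⟨0, 0, 0, 0, 0, 2421822883, 0, 0, 0, ⟨0, 0⟩, 0⟩ 0 0) (.pos 63 .mm ⟨0, 0, 0, 0, 0, 2674669122, 0, 0, 0, ⟨0, 0⟩, 0⟩ 0 0))))) (.cut .l 7801405 (.cut .v 14680064 (.pos 35 .mm ⟨0, 0, 0, 0, 0,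 3911239908, 0, 0, 0, ⟨0, 0⟩, 0⟩ 0 0) (.pos 36 .mm ⟨0, 0, 0, 0, 0, 4619487261, 0, 0, 0, ⟨0, 0⟩, 0⟩ 0 0)) (.cut .d (-196608) (.cut .l 10611589 (.cut .s 15654912 (.cut .v 14680064 (.pos 35 .mm ⟨0, 0, 0, 0, 0, 3628185950, 0, 0, 0, ⟨0, 0⟩, 0⟩ 0 0) (.pos 36 .mm ⟨17352840, 0, 0, 0, 0, 4365906389, 0, 0, 0, ⟨0, 0⟩, 0⟩ 0 0)) (.pos 7 .mm ⟨17890669, 0, 0, 0, 0, 4780237100, 0, 0, 0, ⟨0, 0⟩, 0⟩ 0 0)) (.cut .v 14680064 (.cut .d (-229376) (.cut .v 13631488 (.pos 60 .mm ⟨0, 0, 0, 0, 0, 3493566337, 0, 0, 0, ⟨0, 0⟩, 0⟩ 0 0) (.cut .d (-245760) (.pos 61 .mm ⟨0, 0, 0, 0, 0, 3863193570, 0, 0, 0, ⟨0, 0⟩, 0⟩ 0 0) (.pos 61 .mm ⟨0, 0, 0, 0, 0, 3690648693, 0, 0, 0, ⟨0, 0⟩, 0⟩ 0 0)))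 (.pos 35 .mm ⟨0, 0, 0, 0, 0, 3292902962, 0, 0, 0, ⟨0, 0⟩, 0⟩ 0 0)) (.cut .v 15728640 (.cut .s 15654912 (.pos 37 .mm ⟨61606381, 0, 0, 0, 0, 3597355994, 0, 0, 0, ⟨0, 0⟩, 0⟩ 0 0) (.cut .d (-229376) (.cut .s 15716352 (.pos 37 .mm ⟨286648928, 0, 0, 0, 0, 3429991978, 0, 0, 0, ⟨0, 0⟩, 0⟩ 0 0) (.pos 37 .mm ⟨302165810, 0, 0, 0, 0, 3649261803, 0, 0, 0, ⟨0, 0⟩, 0⟩ 0 0)) (.pos 37 .mm ⟨0, 0, 0, 0, 0, 3881644350, 0, 0, 0, ⟨0, 0⟩, 0⟩ 0 0))) (.pos 38 .mm ⟨2296153391, 0, 0, 0, 0, 0, 0, 0, 0, ⟨0, 0⟩, 0⟩ 0 0)))) (.cut .l 10611589 (.cut .v 14680064 (.pos 35 .mm ⟨0, 0, 0, 0, 0, 3241604547, 0, 0, 0, ⟨0, 0⟩, 0⟩ 0 0) (.cut .v 15728640 (.pos 37 .mm ⟨0, 0, 0, 0, 0, 3678741143, 0, 0,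 0, ⟨0, 0⟩, 0⟩ 0 0) (.pos 38 .mm ⟨806279415, 0, 0, 0, 0, 2367737908, 0, 0, 0, ⟨0, 0⟩, 0⟩ 0 0))) (.pos 7 .mm ⟨119094538, 0, 0, 0, 0, 2651383446, 0, 0, 0, ⟨0, 0⟩, 0⟩ 0 0))))) (.cut .l 7801405 (.cut .v 12582912 (.cut .d (-65536) (.cut .v 10485760 (.cut .v 9437184 (.pos 133 .mm ⟨0, 0, 764024953, 0, 0, 2077825643, 0, 0, 0, ⟨0, 0⟩, 0⟩ 0 0) (.cut .l 4991221 (.cut .s 15654912 (.pos 134 .mm ⟨0, 0, 0, 0, 0, 2224915223, 0, 0, 0, ⟨0, 0⟩, 0⟩ 0 0) (.pos 134 .mm ⟨0, 0, 0, 0, 0, 2501811583, 0, 0, 0, ⟨0, 0⟩, 0⟩ 0 0)) (.pos 134 .mm ⟨0, 0, 29565959, 0, 0, 2189623075, 0, 0, 0, ⟨0, 0⟩, 0⟩ 0 0))) (.cut .l 4991221 (.pos 63 .mm ⟨0, 0, 0, 0, 0, 2823428419, 0, 0, 0, ⟨0, 0⟩, 0⟩ 0 0)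 (.pos 63 .mm ⟨0, 0, 0, 0, 0, 2426627576, 0, 0, 0, ⟨0, 0⟩, 0⟩ 0 0))) (.cut .v 10485760 (.cut .l 4991221 (.cut .l 3586129 (.cut .d (-32768) (.cut .v 9437184 (.cut .s 15654912 (.pos 133 .mm ⟨0, 0, 107453899, 0, 0, 1880623390, 0, 0, 0, ⟨0, 0⟩, 0⟩ 0 0) (.pos 133 .mm ⟨0, 0, 158719144, 0, 0, 2129407777, 0, 0, 0, ⟨0, 0⟩, 0⟩ 0 0)) (.pos 134 .mm ⟨0, 0, 0, 0, 0, 2167675797, 0, 0, 0, ⟨0, 0⟩, 0⟩ 0 0)) (.cut .v 9437184 (.pos 133 .mm ⟨0, 0, 159840321, 0, 0, 1180184891, 0, 0, 0, ⟨0, 0⟩, 0⟩ 0 0) (.pos 134 .mm ⟨0, 0, 0, 0, 0, 1601187804, 0, 0, 0, ⟨0, 0⟩, 0⟩ 0 0))) (.pos 62 .mm ⟨0, 0, 138147451, 0, 0, 1642184806, 0, 0, 0, ⟨0, 0⟩, 0⟩ 0 0)) (.pos 62 .mm ⟨0, 0, 198266587, 0, 0,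 0, 0, 0, 0, ⟨0, 0⟩, 0⟩ 0 0)) (.pos 63 .mm ⟨0, 0, 0, 0, 0, 2192336301, 0, 0, 0, ⟨0, 0⟩, 0⟩ 0 0))) (.cut .d (-65536) (.cut .l 4991221 (.pos 7 .mm ⟨0, 0, 0, 0, 0, 3823243594, 0, 0, 0, ⟨0, 0⟩, 0⟩ 0 0) (.pos 7 .mm ⟨0, 0, 0, 0, 0, 3154882018, 0, 0, 0, ⟨0, 0⟩, 0⟩ 0 0)) (.pos 7 .mm ⟨0, 0, 0, 0, 0, 2832603872, 0, 0, 0, ⟨0, 0⟩, 0⟩ 0 0))) (.pos 3 .mm ⟨0, 0, 83468815, 0, 0, 0, 0, 0, 0, ⟨0, 0⟩, 0⟩ 0 0)))))))))) (.cut .v 268435456 (.cut .v 67108864 (.cut .d (-8388608) (.void 8 ⟨100000, 0, 0, 0, 0, 0, 0, 0, 0, ⟨0, 0⟩, 0⟩ 0 0) (.cut .d (-4194304) (.void 8 ⟨100000, 0, 0, 0, 0, 0, 0, 0, 0, ⟨0, 0⟩, 0⟩ 0 0) (.cut .d (-2097152) (.void 8 ⟨100000, 0, 0, 0, 0, 0, 0, 0, 0, ⟨0, 0⟩,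 0⟩ 0 0) (.cut .v 33554432 (.cut .d (-1048576) (.void 9 ⟨100000, 0, 0, 0, 0, 0, 0, 0, 0, ⟨0, 0⟩, 0⟩ 0 0) (.cut .d (-524288) (.void 9 ⟨100000, 0, 0, 0, 0, 0, 0, 0, 0, ⟨0, 0⟩, 0⟩ 0 0) (.cut .v 25165824 (.cut .d (-262144) (.pos 11 .mp ⟨4082424906, 0, 0, 0, 0, 0, 0, 0, 0, ⟨0, 0⟩, 0⟩ 0 0) (.cut .v 20971520 (.cut .d (-131072) (.cut .l 7801405 (.pos 13 .mp ⟨2824492383, 0, 0, 0, 0, 0, 0, 0, 0, ⟨0, 0⟩, 0⟩ 0 0) (.pos 13 .mp ⟨2463602067, 0, 0, 0, 0, 0, 0, 0, 0, ⟨0, 0⟩, 0⟩ 0 0)) (.pos 13 .mp ⟨1766430602, 0, 0, 0, 0, 636185327, 0, 0, 0, ⟨0, 0⟩, 0⟩ 0 0)) (.pos 14 .mp ⟨3437451969, 0, 0, 0, 0, 0, 0, 0, 0, ⟨0, 0⟩, 0⟩ 0 0))) (.pos 12 .mp ⟨5697203960, 0, 0, 0, 0, 0, 0, 0, 0,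 ⟨0, 0⟩, 0⟩ 0 0)))) (.pos 10 .mp ⟨22916846597, 0, 0, 0, 0, 0, 0, 0, 0, ⟨0, 0⟩, 0⟩ 0 0))))) (.void 49 ⟨100000, 0, 0, 0, 0, 0, 0, 0, 0, ⟨0, 0⟩, 0⟩ 0 0)) (.void 66 ⟨92124, 0, 0, 7876, 0, 0, 0, 0, 0, ⟨0, 0⟩, 0⟩ 0 0))) (.cut .v 16777216 (.cut .v 8388608 (.cut .v 4194304 (.cut .v 2097152 (.cut .v 1048576 (.cut .v 524288 (.cut .v 262144 (.pos 137 .pm ⟨0, 0, 21612697, 0, 0, 0, 0, 0, 0, ⟨0, 0⟩, 0⟩ 0 0) (.pos 138 .pm ⟨0, 0, 46817624, 0, 0, 0, 0, 0, 0, ⟨0, 0⟩, 0⟩ 0 0)) (.pos 118 .pm ⟨0, 0, 75904935, 0, 0, 0, 0, 0, 0, ⟨0, 0⟩, 0⟩ 0 0)) (.pos 102 .pm ⟨0, 0, 126341231, 0, 0, 0, 0, 0, 0, ⟨0, 0⟩, 0⟩ 0 0)) (.pos 72 .pm ⟨0, 0, 226584324, 0, 0, 0, 0, 0, 0, ⟨0, 0⟩, 0⟩ 0 0)) (.pos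 5 .pm ⟨0, 0, 505456946, 0, 0, 0, 0, 0, 0, ⟨0, 0⟩, 0⟩ 0 0)) (.pos 3 .pm ⟨0, 0, 93466939, 0, 0, 0, 0, 0, 0, ⟨0, 0⟩, 0⟩ 0 0)) (.cut .v 268435456 (.cut .v 67108864 (.cut .d 672505 (.cut .d 336252 (.cut .v 33554432 (.pos 9 .pp ⟨1640863362, 0, 0, 0, 0, 0, 0, 0, 0, ⟨0, 0⟩, 0⟩ 0 0) (.cut .v 50331648 (.pos 23 .pp ⟨5863891328, 0, 0, 0, 0, 0, 0, 0, 0, ⟨0, 0⟩, 0⟩ 0 0) (.cut .d 168126 (.pos 24 .pp ⟨13532756640, 0, 0, 0, 0, 0, 0, 0, 0, ⟨0, 0⟩, 0⟩ 0 0) (.pos 24 .pp ⟨10275704106, 0, 0, 0, 0, 0, 0, 0, 0, ⟨0, 0⟩, 0⟩ 0 0)))) (.pos 8 .pp ⟨792821410, 0, 0, 0, 0, 0, 0, 0, 0, ⟨0, 0⟩, 0⟩ 0 0)) (.pos 8 .pp ⟨0, 0, 0, 0, 0, 0, 0, 0, 0, ⟨0, 0⟩, 0⟩ 0 0)) (.cut .v 134217728 (.cut .v 100663296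 (.cut .v 83886080 (.cut .d 672505 (.cut .d 336252 (.cut .d 168126 (.pos 107 .pp ⟨26894329426, 2658198563, 0, 0, 0, 0, 0, 0, 0, ⟨0, 0⟩, 0⟩ 0 0) (.cut .v 75497472 (.pos 109 .pp ⟨14680098752, 0, 0, 0, 0, 0, 0, 0, 0, ⟨0, 0⟩, 0⟩ 0 0) (.pos 110 .pp ⟨18632267923, 8266539398, 0, 0, 0, 0, 0, 0, 0, ⟨0, 0⟩, 0⟩ 0 0))) (.pos 107 .pp ⟨12830900242, 5919455964, 0, 0, 0, 0, 0, 0, 0, ⟨0, 0⟩, 0⟩ 0 0)) (.void 107 ⟨0, 0, 0, 100000, 0, 0, 0, 0, 0, ⟨0, 0⟩, 0⟩ 0 0)) (.void 108 ⟨84901, 0, 0, 15099, 0, 0, 0, 0, 0, ⟨0, 0⟩, 0⟩ 0 0)) (.void 98 ⟨0, 0, 0, 100000, 0, 0, 0, 0, 0, ⟨0, 0⟩, 0⟩ 0 0)) (.void 88 ⟨0, 0, 0, 100000, 0, 0, 0, 0, 0, ⟨0, 0⟩, 0⟩ 0 0))) (.void 66 ⟨0, 0, 0, 100000, 0, 0,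 0, 0, 0, ⟨0, 0⟩, 0⟩ 0 0)))),
    by decide +kernel⟩

def covers28 : cell.Covers table row28.1 :=
  ⟨(.cut .d 0 (.cut .v 16777216 (.cut .d (-8388608) (.void 1 ⟨0, 0, 0, 0, 0, 100000, 0, 0, 0, ⟨0, 0⟩, 0⟩ 0 0) (.cut .v 8388608 (.void 2 ⟨0, 0, 100000, 0, 0, 0, 0, 0, 0, ⟨0, 0⟩, 0⟩ 0 0) (.cut .d (-4194304) (.void 3 ⟨100000, 0, 0, 0, 0, 0, 0, 0, 0, ⟨0, 0⟩, 0⟩ 0 0) (.cut .d (-2097152) (.void 3 ⟨100000, 0, 0, 0, 0, 0, 0, 0, 0, ⟨0, 0⟩, 0⟩ 0 0) (.cut .d (-1048576) (.void 3 ⟨70653, 0, 29347, 0, 0, 0, 0, 0, 0, ⟨0, 0⟩, 0⟩ 0 0) (.cut .d (-524288) (.void 3 ⟨70653, 0, 29347, 0, 0, 0, 0, 0, 0, ⟨0, 0⟩, 0⟩ 0 0) (.cut .d (-262144) (.void 3 ⟨0, 0, 0, 0, 0, 100000, 0, 0, 0, ⟨0,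 0⟩, 0⟩ 0 0) (.cut .d (-131072) (.cut .l 7801405 (.cut .v 12582912 (.pos 6 .mm ⟨0, 0, 137535822, 0, 0, 4479158924, 0, 0, 0, ⟨0, 0⟩, 0⟩ 0 0) (.pos 7 .mm ⟨0, 0, 0, 0, 0, 6182724674, 0, 0, 0, ⟨0, 0⟩, 0⟩ 0 0)) (.cut .v 12582912 (.cut .v 10485760 (.cut .s 15876096 (.pos 62 .mm ⟨0, 0, 641735822, 0, 0, 2769489510, 0, 0, 0, ⟨0, 0⟩, 0⟩ 0 0) (.pos 62 .mm ⟨0, 0, 840060033, 0, 0, 3046161617, 0, 0, 0, ⟨0, 0⟩, 0⟩ 0 0)) (.cut .d (-196608) (.cut .l 10611589 (.void 63 ⟨0, 0, 0, 0, 0, 100000, 0, 0, 0, ⟨0, 0⟩, 0⟩ 0 0) (.cut .d (-229376) (.cut .v 11534336 (.pos 129 .mm ⟨0, 0, 106391174, 0, 0, 4121000534, 0, 0, 0, ⟨0, 0⟩, 0⟩ 0 0) (.pos 130 .mm ⟨0, 0, 0, 0, 0, 4470828554, 0, 0,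 0, ⟨0, 0⟩, 0⟩ 0 0)) (.cut .s 15876096 (.cut .v 11534336 (.cut .v 11010048 (.pos 143 .mm ⟨0, 0, 330483654, 0, 0, 3198469698, 0, 0, 0, ⟨0, 0⟩, 0⟩ 0 0) (.cut .d (-212992) (.cut .d (-221184) (.pos 144 .mm ⟨0, 0, 57753370, 0, 0, 3692573182, 0, 0, 0, ⟨0, 0⟩, 0⟩ 0 0) (.pos 144 .mm ⟨0, 0, 75371491, 0, 0, 3535614587, 0, 0, 0, ⟨0, 0⟩, 0⟩ 0 0)) (.pos 144 .mm ⟨0, 0, 104055427, 0, 0, 3350777779, 0, 0, 0, ⟨0, 0⟩, 0⟩ 0 0))) (.pos 130 .mm ⟨0, 0, 0, 0, 0, 3692278566, 0, 0, 0, ⟨0, 0⟩, 0⟩ 0 0)) (.cut .l 12016681 (.void 63 ⟨0, 0, 0, 0, 0, 100000, 0, 0, 0, ⟨0, 0⟩, 0⟩ 0 0) (.cut .v 11534336 (.cut .v 11010048 (.pos 143 .mm ⟨0, 0, 725173268, 0, 0, 3198469698, 0, 0, 0, ⟨0, 0⟩, 0⟩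 0 0) (.cut .d (-212992) (.cut .v 11272192 (.pos 145 .mm ⟨0, 0, 107705432, 0, 0, 3767783998, 0, 0, 0, ⟨0, 0⟩, 0⟩ 0 0) (.pos 146 .mm ⟨0, 0, 0, 0, 0, 3882157784, 0, 0, 0, ⟨0, 0⟩, 0⟩ 0 0)) (.pos 144 .mm ⟨0, 0, 7723984, 0, 0, 3615474022, 0, 0, 0, ⟨0, 0⟩, 0⟩ 0 0))) (.pos 130 .mm ⟨0, 0, 0, 0, 0, 4046852001, 0, 0, 0, ⟨0, 0⟩, 0⟩ 0 0)))))) (.cut .l 10611589 (.cut .d (-163840) (.cut .s 15876096 (.pos 63 .mm ⟨0, 0, 0, 0, 0, 3465915602, 0, 0, 0, ⟨0, 0⟩, 0⟩ 0 0) (.pos 63 .mm ⟨0, 0, 133191935, 0, 0, 4174878899, 0, 0, 0, ⟨0, 0⟩, 0⟩ 0 0)) (.cut .s 15876096 (.pos 63 .mm ⟨0, 0, 779838, 0, 0, 3046161617, 0, 0, 0, ⟨0, 0⟩, 0⟩ 0 0) (.pos 63 .mm ⟨0, 0, 0, 0, 0, 3462154349, 0, 0,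 0, ⟨0, 0⟩, 0⟩ 0 0))) (.cut .s 15876096 (.pos 63 .mm ⟨0, 0, 20559630, 0, 0, 3018972296, 0, 0, 0, ⟨0, 0⟩, 0⟩ 0 0) (.cut .l 12016681 (.cut .s 15925248 (.pos 63 .mm ⟨0, 0, 7496925, 0, 0, 3356276636, 0, 0, 0, ⟨0, 0⟩, 0⟩ 0 0) (.pos 63 .mm ⟨0, 0, 0, 0, 0, 3615739124, 0, 0, 0, ⟨0, 0⟩, 0⟩ 0 0)) (.pos 63 .mm ⟨0, 0, 49750662, 0, 0, 3241331517, 0, 0, 0, ⟨0, 0⟩, 0⟩ 0 0)))))) (.cut .d (-196608) (.cut .l 10611589 (.void 7 ⟨0, 0, 0, 0, 0, 100000, 0, 0, 0, ⟨0, 0⟩, 0⟩ 0 0) (.cut .d (-229376) (.cut .v 14680064 (.pos 35 .mm ⟨0, 0, 0, 0, 0, 5188717046, 0, 0, 0, ⟨0, 0⟩, 0⟩ 0 0) (.cut .v 15728640 (.pos 37 .mm ⟨104569941, 0, 0, 0, 0, 5411631209, 0, 0, 0, ⟨0, 0⟩, 0⟩ 0 0) (.pos 38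 .mm ⟨3097169028, 0, 0, 0, 0, 0, 0, 0, 0, ⟨0, 0⟩, 0⟩ 0 0))) (.cut .s 15876096 (.cut .v 14680064 (.pos 35 .mm ⟨0, 0, 0, 0, 0, 4194675059, 0, 0, 0, ⟨0, 0⟩, 0⟩ 0 0) (.cut .v 15728640 (.pos 37 .mm ⟨294379939, 0, 0, 0, 0, 4092699117, 0, 0, 0, ⟨0, 0⟩, 0⟩ 0 0) (.pos 38 .mm ⟨2745601775, 0, 0, 0, 0, 0, 0, 0, 0, ⟨0, 0⟩, 0⟩ 0 0))) (.cut .v 14680064 (.pos 35 .mm ⟨0, 0, 0, 0, 0, 4740203035, 0, 0, 0, ⟨0, 0⟩, 0⟩ 0 0) (.pos 36 .mm ⟨155554858, 0, 0, 0, 0, 5243718570, 0, 0, 0, ⟨0, 0⟩, 0⟩ 0 0))))) (.cut .l 10611589 (.cut .d (-163840) (.pos 7 .mm ⟨0, 0, 0, 0, 0, 5232132102, 0, 0, 0, ⟨0, 0⟩, 0⟩ 0 0) (.cut .v 14680064 (.pos 35 .mm ⟨0, 0, 0, 0, 0, 4030051160, 0, 0, 0, ⟨0, 0⟩, 0⟩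 0 0) (.pos 36 .mm ⟨0, 0, 0, 0, 0, 4752678764, 0, 0, 0, ⟨0, 0⟩, 0⟩ 0 0))) (.cut .v 14680064 (.cut .s 15876096 (.pos 35 .mm ⟨0, 0, 0, 0, 0, 3711383837, 0, 0, 0, ⟨0, 0⟩, 0⟩ 0 0) (.pos 35 .mm ⟨0, 0, 0, 0, 0, 4155359697, 0, 0, 0, ⟨0, 0⟩, 0⟩ 0 0)) (.pos 36 .mm ⟨663555642, 0, 0, 0, 0, 3130358811, 0, 0, 0, ⟨0, 0⟩, 0⟩ 0 0)))))) (.cut .l 7801405 (.cut .d (-65536) (.cut .v 12582912 (.cut .v 10485760 (.cut .l 4991221 (.pos 62 .mm ⟨0, 0, 198202150, 0, 0, 3335962813, 0, 0, 0, ⟨0, 0⟩, 0⟩ 0 0) (.cut .d (-98304) (.pos 62 .mm ⟨0, 0, 238200054, 0, 0, 3172849297, 0, 0, 0, ⟨0, 0⟩, 0⟩ 0 0) (.cut .s 15876096 (.pos 62 .mm ⟨0, 0, 120852477, 0, 0, 2324993984, 0, 0, 0, ⟨0, 0⟩, 0⟩ 0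 0) (.pos 62 .mm ⟨0, 0, 340322105, 0, 0, 2980073007, 0, 0, 0, ⟨0, 0⟩, 0⟩ 0 0)))) (.cut .l 4991221 (.pos 63 .mm ⟨0, 0, 0, 0, 0, 3815332994, 0, 0, 0, ⟨0, 0⟩, 0⟩ 0 0) (.cut .d (-98304) (.pos 63 .mm ⟨0, 0, 0, 0, 0, 3427039019, 0, 0, 0, ⟨0, 0⟩, 0⟩ 0 0) (.pos 63 .mm ⟨0, 0, 0, 0, 0, 3031965042, 0, 0, 0, ⟨0, 0⟩, 0⟩ 0 0)))) (.cut .d (-98304) (.pos 7 .mm ⟨0, 0, 0, 0, 0, 4835434801, 0, 0, 0, ⟨0, 0⟩, 0⟩ 0 0) (.pos 7 .mm ⟨0, 0, 0, 0, 0, 4180147239, 0, 0, 0, ⟨0, 0⟩, 0⟩ 0 0))) (.cut .v 12582912 (.cut .l 4991221 (.cut .v 10485760 (.cut .d (-32768) (.cut .v 9437184 (.cut .s 15876096 (.pos 133 .mm ⟨0, 0, 280660207, 0, 0, 2539025194, 0, 0, 0, ⟨0, 0⟩, 0⟩ 0 0) (.pos 133 .mm ⟨0,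 0, 365741553, 0, 0, 2782903188, 0, 0, 0, ⟨0, 0⟩, 0⟩ 0 0)) (.cut .s 15876096 (.pos 134 .mm ⟨0, 0, 85645901, 0, 0, 2590500702, 0, 0, 0, ⟨0, 0⟩, 0⟩ 0 0) (.cut .s 15925248 (.pos 134 .mm ⟨0, 0, 92967132, 0, 0, 2800218348, 0, 0, 0, ⟨0, 0⟩, 0⟩ 0 0) (.pos 134 .mm ⟨0, 0, 101229327, 0, 0, 3004399846, 0, 0, 0, ⟨0, 0⟩, 0⟩ 0 0)))) (.cut .v 9437184 (.cut .s 15876096 (.pos 133 .mm ⟨0, 0, 236652734, 0, 0, 2212827393, 0, 0, 0, ⟨0, 0⟩, 0⟩ 0 0) (.cut .s 15925248 (.pos 133 .mm ⟨0, 0, 289216118, 0, 0, 2414611804, 0, 0, 0, ⟨0, 0⟩, 0⟩ 0 0) (.cut .d (-16384) (.pos 133 .mm ⟨0, 0, 290581557, 0, 0, 2666139333, 0, 0, 0, ⟨0, 0⟩, 0⟩ 0 0) (.pos 133 .mm ⟨0, 0, 299937461, 0, 0, 0, 0, 0, 0,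 ⟨0, 0⟩, 0⟩ 0 0)))) (.pos 134 .mm ⟨0, 0, 0, 0, 0, 2541758458, 0, 0, 0, ⟨0, 0⟩, 0⟩ 0 0))) (.pos 63 .mm ⟨0, 0, 0, 0, 0, 2967239445, 0, 0, 0, ⟨0, 0⟩, 0⟩ 0 0)) (.pos 6 .mm ⟨0, 0, 234573219, 0, 0, 1236792584, 0, 0, 0, ⟨0, 0⟩, 0⟩ 0 0)) (.pos 7 .mm ⟨0, 0, 0, 0, 0, 3480254272, 0, 0, 0, ⟨0, 0⟩, 0⟩ 0 0))) (.cut .v 12582912 (.cut .v 10485760 (.cut .d (-65536) (.pos 62 .mm ⟨0, 0, 456436449, 0, 0, 2530154808, 0, 0, 0, ⟨0, 0⟩, 0⟩ 0 0) (.pos 62 .mm ⟨0, 0, 415758694, 0, 0, 0, 0, 0, 0, ⟨0, 0⟩, 0⟩ 0 0)) (.pos 63 .mm ⟨0, 0, 0, 0, 0, 2835320773, 0, 0, 0, ⟨0, 0⟩, 0⟩ 0 0)) (.pos 7 .mm ⟨0, 0, 0, 0, 0, 3395083379, 0, 0, 0, ⟨0, 0⟩, 0⟩ 0 0))))))))))) (.cut .v 268435456 (.cut .v 67108864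 (.cut .d (-8388608) (.void 8 ⟨100000, 0, 0, 0, 0, 0, 0, 0, 0, ⟨0, 0⟩, 0⟩ 0 0) (.cut .d (-4194304) (.void 8 ⟨100000, 0, 0, 0, 0, 0, 0, 0, 0, ⟨0, 0⟩, 0⟩ 0 0) (.cut .d (-2097152) (.void 8 ⟨100000, 0, 0, 0, 0, 0, 0, 0, 0, ⟨0, 0⟩, 0⟩ 0 0) (.cut .v 33554432 (.cut .d (-1048576) (.void 9 ⟨100000, 0, 0, 0, 0, 0, 0, 0, 0, ⟨0, 0⟩, 0⟩ 0 0) (.cut .d (-524288) (.void 9 ⟨100000, 0, 0, 0, 0, 0, 0, 0, 0, ⟨0, 0⟩, 0⟩ 0 0) (.cut .v 25165824 (.cut .d (-262144) (.void 11 ⟨100000, 0, 0, 0, 0, 0, 0, 0, 0, ⟨0, 0⟩, 0⟩ 0 0) (.cut .d (-131072) (.cut .v 20971520 (.pos 13 .mp ⟨3517290833, 0, 0, 0, 0, 0, 0, 0, 0, ⟨0, 0⟩, 0⟩ 0 0) (.pos 14 .mp ⟨4792378698, 0, 0, 0, 0, 0, 0, 0, 0, ⟨0, 0⟩,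 0⟩ 0 0)) (.pos 11 .mp ⟨2908328383, 0, 0, 0, 0, 0, 0, 0, 0, ⟨0, 0⟩, 0⟩ 0 0))) (.pos 12 .mp ⟨7270546025, 0, 0, 0, 0, 0, 0, 0, 0, ⟨0, 0⟩, 0⟩ 0 0)))) (.pos 10 .mp ⟨28968498115, 0, 0, 0, 0, 0, 0, 0, 0, ⟨0, 0⟩, 0⟩ 0 0))))) (.void 49 ⟨100000, 0, 0, 0, 0, 0, 0, 0, 0, ⟨0, 0⟩, 0⟩ 0 0)) (.void 66 ⟨92034, 0, 0, 7966, 0, 0, 0, 0, 0, ⟨0, 0⟩, 0⟩ 0 0))) (.cut .v 16777216 (.cut .v 8388608 (.cut .v 4194304 (.cut .v 2097152 (.cut .v 1048576 (.cut .v 524288 (.cut .v 262144 (.cut .v 131072 (.pos 147 .pm ⟨0, 0, 19344758, 0, 0, 0, 0, 0, 0, ⟨0, 0⟩, 0⟩ 0 0) (.pos 148 .pm ⟨0, 0, 42068231, 0, 0, 0, 0, 0, 0, ⟨0, 0⟩, 0⟩ 0 0)) (.pos 138 .pm ⟨0, 0, 70026973, 0, 0, 0, 0, 0, 0, ⟨0, 0⟩, 0⟩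 0 0)) (.pos 118 .pm ⟨0, 0, 118492807, 0, 0, 0, 0, 0, 0, ⟨0, 0⟩, 0⟩ 0 0)) (.pos 102 .pm ⟨0, 0, 205304690, 0, 0, 0, 0, 0, 0, ⟨0, 0⟩, 0⟩ 0 0)) (.pos 72 .pm ⟨0, 0, 374208251, 0, 0, 0, 0, 0, 0, ⟨0, 0⟩, 0⟩ 0 0)) (.pos 5 .pm ⟨0, 0, 817587085, 0, 0, 0, 0, 0, 0, ⟨0, 0⟩, 0⟩ 0 0)) (.pos 3 .pm ⟨0, 0, 189981441, 0, 0, 0, 0, 0, 0, ⟨0, 0⟩, 0⟩ 0 0)) (.cut .v 268435456 (.cut .v 67108864 (.cut .v 33554432 (.pos 9 .pp ⟨1418831310, 0, 0, 0, 0, 0, 0, 0, 0, ⟨0, 0⟩, 0⟩ 0 0) (.cut .d 531367 (.cut .d 265683 (.cut .v 50331648 (.pos 23 .pp ⟨7078446843, 0, 0, 0, 0, 0, 0, 0, 0, ⟨0, 0⟩, 0⟩ 0 0) (.cut .d 132841 (.pos 24 .pp ⟨16472535616, 0, 0, 0, 0, 0, 0, 0, 0, ⟨0, 0⟩, 0⟩ 0 0) (.pos 24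 .pp ⟨12441926734, 0, 0, 0, 0, 0, 0, 0, 0, ⟨0, 0⟩, 0⟩ 0 0))) (.pos 10 .pp ⟨0, 0, 0, 0, 0, 0, 0, 0, 0, ⟨0, 0⟩, 0⟩ 0 0)) (.pos 10 .pp ⟨0, 0, 0, 0, 0, 0, 0, 0, 0, ⟨0, 0⟩, 0⟩ 0 0))) (.cut .v 134217728 (.cut .v 100663296 (.cut .v 83886080 (.cut .d 531367 (.cut .d 265683 (.cut .v 75497472 (.pos 109 .pp ⟨18881446351, 0, 0, 0, 0, 0, 0, 0, 0, ⟨0, 0⟩, 0⟩ 0 0) (.pos 110 .pp ⟨28752500329, 20991113394, 0, 0, 0, 0, 0, 0, 0, ⟨0, 0⟩, 0⟩ 0 0)) (.pos 107 .pp ⟨15173095527, 8313353657, 0, 0, 0, 0, 0, 0, 0, ⟨0, 0⟩, 0⟩ 0 0)) (.void 107 ⟨0, 0, 0, 100000, 0, 0, 0, 0, 0, ⟨0, 0⟩, 0⟩ 0 0)) (.void 108 ⟨84846, 0, 0, 15154, 0, 0, 0, 0, 0, ⟨0, 0⟩, 0⟩ 0 0)) (.void 98 ⟨0, 0, 0, 100000, 0,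 0, 0, 0, 0, ⟨0, 0⟩, 0⟩ 0 0)) (.void 88 ⟨0, 0, 0, 100000, 0, 0, 0, 0, 0, ⟨0, 0⟩, 0⟩ 0 0))) (.void 66 ⟨0, 0, 0, 100000, 0, 0, 0, 0, 0, ⟨0, 0⟩, 0⟩ 0 0)))),
    by decide +kernel⟩

def covers29 : cell.Covers table row29.1 :=
  ⟨(.cut .d 0 (.cut .v 16777216 (.cut .d (-8388608) (.void 1 ⟨0, 0, 0, 0, 0, 100000, 0, 0, 0, ⟨0, 0⟩, 0⟩ 0 0) (.cut .v 8388608 (.void 2 ⟨0, 0, 100000, 0, 0, 0, 0, 0, 0, ⟨0, 0⟩, 0⟩ 0 0) (.cut .d (-4194304) (.void 3 ⟨100000, 0, 0, 0, 0, 0, 0, 0, 0, ⟨0, 0⟩, 0⟩ 0 0) (.cut .d (-2097152) (.void 3 ⟨100000, 0, 0, 0, 0, 0, 0, 0, 0, ⟨0, 0⟩, 0⟩ 0 0) (.cut .d (-1048576) (.void 3 ⟨100000, 0, 0, 0, 0, 0, 0, 0, 0, ⟨0, 0⟩, 0⟩ 0 0) (.cut .d (-524288) (.void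 3 ⟨70439, 0, 29561, 0, 0, 0, 0, 0, 0, ⟨0, 0⟩, 0⟩ 0 0) (.cut .d (-262144) (.void 3 ⟨0, 0, 0, 0, 0, 100000, 0, 0, 0, ⟨0, 0⟩, 0⟩ 0 0) (.cut .d (-131072) (.cut .d (-196608) (.void 3 ⟨0, 0, 0, 0, 0, 100000, 0, 0, 0, ⟨0, 0⟩, 0⟩ 0 0) (.cut .l 7801405 (.void 3 ⟨0, 0, 0, 0, 0, 100000, 0, 0, 0, ⟨0, 0⟩, 0⟩ 0 0) (.cut .v 12582912 (.cut .v 10485760 (.pos 62 .mm ⟨0, 0, 1772940760, 0, 0, 3545775624, 0, 0, 0, ⟨0, 0⟩, 0⟩ 0 0) (.cut .l 10611589 (.cut .s 16056320 (.pos 63 .mm ⟨0, 0, 0, 0, 0, 4685319464, 0, 0, 0, ⟨0, 0⟩, 0⟩ 0 0) (.pos 63 .mm ⟨0, 0, 245756735, 0, 0, 5627205974, 0, 0, 0, ⟨0, 0⟩, 0⟩ 0 0)) (.cut .d (-163840) (.cut .l 12016681 (.pos 63 .mm ⟨0, 0, 195230205, 0, 0,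 5602736521, 0, 0, 0, ⟨0, 0⟩, 0⟩ 0 0) (.cut .v 11534336 (.cut .d (-180224) (.pos 129 .mm ⟨0, 0, 214915474, 0, 0, 5153278557, 0, 0, 0, ⟨0, 0⟩, 0⟩ 0 0) (.cut .s 16056320 (.cut .d (-172032) (.pos 129 .mm ⟨0, 0, 225277397, 0, 0, 4654134204, 0, 0, 0, ⟨0, 0⟩, 0⟩ 0 0) (.pos 129 .mm ⟨0, 0, 222288727, 0, 0, 4268487594, 0, 0, 0, ⟨0, 0⟩, 0⟩ 0 0)) (.pos 129 .mm ⟨0, 0, 248201728, 0, 0, 4796185824, 0, 0, 0, ⟨0, 0⟩, 0⟩ 0 0))) (.cut .s 16056320 (.pos 130 .mm ⟨0, 0, 0, 0, 0, 4881192079, 0, 0, 0, ⟨0, 0⟩, 0⟩ 0 0) (.pos 130 .mm ⟨0, 0, 0, 0, 0, 5367740368, 0, 0, 0, ⟨0, 0⟩, 0⟩ 0 0)))) (.cut .v 11534336 (.cut .s 16056320 (.cut .l 12016681 (.pos 129 .mm ⟨0, 0, 127874186, 0, 0, 4102901028,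 0, 0, 0, ⟨0, 0⟩, 0⟩ 0 0) (.pos 129 .mm ⟨0, 0, 172613455, 0, 0, 3920703519, 0, 0, 0, ⟨0, 0⟩, 0⟩ 0 0)) (.cut .v 11010048 (.pos 143 .mm ⟨0, 0, 434757285, 0, 0, 4316675758, 0, 0, 0, ⟨0, 0⟩, 0⟩ 0 0) (.pos 144 .mm ⟨0, 0, 42561836, 0, 0, 4571654792, 0, 0, 0, ⟨0, 0⟩, 0⟩ 0 0))) (.pos 130 .mm ⟨0, 0, 0, 0, 0, 4615609506, 0, 0, 0, ⟨0, 0⟩, 0⟩ 0 0))))) (.cut .l 10611589 (.pos 7 .mm ⟨0, 0, 0, 0, 0, 7056007912, 0, 0, 0, ⟨0, 0⟩, 0⟩ 0 0) (.cut .d (-163840) (.cut .v 14680064 (.pos 35 .mm ⟨0, 0, 0, 0, 0, 5978586500, 0, 0, 0, ⟨0, 0⟩, 0⟩ 0 0) (.pos 36 .mm ⟨0, 0, 0, 0, 0, 6985980449, 0, 0, 0, ⟨0, 0⟩, 0⟩ 0 0)) (.cut .v 14680064 (.pos 35 .mm ⟨0, 0, 0, 0, 0, 5097150838, 0, 0, 0, ⟨0,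 0⟩, 0⟩ 0 0) (.pos 36 .mm ⟨642833611, 0, 0, 0, 0, 4536815719, 0, 0, 0, ⟨0, 0⟩, 0⟩ 0 0))))))) (.cut .d (-65536) (.cut .l 7801405 (.cut .v 12582912 (.cut .d (-98304) (.pos 6 .mm ⟨0, 0, 266207901, 0, 0, 5183648871, 0, 0, 0, ⟨0, 0⟩, 0⟩ 0 0) (.cut .v 10485760 (.cut .s 16056320 (.pos 62 .mm ⟨0, 0, 415523769, 0, 0, 3684874722, 0, 0, 0, ⟨0, 0⟩, 0⟩ 0 0) (.pos 62 .mm ⟨0, 0, 461635171, 0, 0, 4165374156, 0, 0, 0, ⟨0, 0⟩, 0⟩ 0 0)) (.pos 63 .mm ⟨0, 0, 0, 0, 0, 4366855190, 0, 0, 0, ⟨0, 0⟩, 0⟩ 0 0))) (.pos 7 .mm ⟨0, 0, 0, 0, 0, 6154068912, 0, 0, 0, ⟨0, 0⟩, 0⟩ 0 0)) (.cut .v 12582912 (.cut .d (-98304) (.cut .l 10611589 (.cut .v 10485760 (.cut .s 16056320 (.pos 62 .mm ⟨0, 0,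 436740644, 0, 0, 3674502844, 0, 0, 0, ⟨0, 0⟩, 0⟩ 0 0) (.pos 62 .mm ⟨0, 0, 772935241, 0, 0, 3880443267, 0, 0, 0, ⟨0, 0⟩, 0⟩ 0 0)) (.pos 63 .mm ⟨0, 0, 0, 0, 0, 4163296862, 0, 0, 0, ⟨0, 0⟩, 0⟩ 0 0)) (.pos 6 .mm ⟨0, 0, 266747978, 0, 0, 3097933371, 0, 0, 0, ⟨0, 0⟩, 0⟩ 0 0)) (.pos 6 .mm ⟨0, 0, 302607394, 0, 0, 2974215433, 0, 0, 0, ⟨0, 0⟩, 0⟩ 0 0)) (.pos 7 .mm ⟨0, 0, 0, 0, 0, 4801449608, 0, 0, 0, ⟨0, 0⟩, 0⟩ 0 0))) (.cut .v 12582912 (.cut .l 7801405 (.cut .v 10485760 (.cut .l 4991221 (.cut .d (-32768) (.cut .d (-49152) (.pos 62 .mm ⟨0, 0, 326671810, 0, 0, 3928461829, 0, 0, 0, ⟨0, 0⟩, 0⟩ 0 0) (.cut .l 3586129 (.pos 62 .mm ⟨0, 0, 314098814, 0, 0, 3654215130, 0, 0, 0,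 ⟨0, 0⟩, 0⟩ 0 0) (.pos 62 .mm ⟨0, 0, 327659485, 0, 0, 3079739231, 0, 0, 0, ⟨0, 0⟩, 0⟩ 0 0))) (.cut .v 9437184 (.cut .d (-16384) (.pos 133 .mm ⟨0, 0, 360380004, 0, 0, 2980700458, 0, 0, 0, ⟨0, 0⟩, 0⟩ 0 0) (.pos 133 .mm ⟨0, 0, 439743240, 0, 0, 0, 0, 0, 0, ⟨0, 0⟩, 0⟩ 0 0)) (.pos 134 .mm ⟨0, 0, 0, 0, 0, 3223697091, 0, 0, 0, ⟨0, 0⟩, 0⟩ 0 0))) (.pos 62 .mm ⟨0, 0, 339844403, 0, 0, 2744782904, 0, 0, 0, ⟨0, 0⟩, 0⟩ 0 0)) (.pos 63 .mm ⟨0, 0, 0, 0, 0, 3776287687, 0, 0, 0, ⟨0, 0⟩, 0⟩ 0 0)) (.pos 6 .mm ⟨0, 0, 507651972, 0, 0, 0, 0, 0, 0, ⟨0, 0⟩, 0⟩ 0 0)) (.pos 7 .mm ⟨0, 0, 0, 0, 0, 4400766302, 0, 0, 0, ⟨0, 0⟩, 0⟩ 0 0))))))))))) (.cut .v 268435456 (.cut .v 67108864 (.cut .d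 (-8388608) (.void 8 ⟨100000, 0, 0, 0, 0, 0, 0, 0, 0, ⟨0, 0⟩, 0⟩ 0 0) (.cut .d (-4194304) (.void 8 ⟨100000, 0, 0, 0, 0, 0, 0, 0, 0, ⟨0, 0⟩, 0⟩ 0 0) (.cut .d (-2097152) (.void 8 ⟨100000, 0, 0, 0, 0, 0, 0, 0, 0, ⟨0, 0⟩, 0⟩ 0 0) (.cut .v 33554432 (.cut .d (-1048576) (.void 9 ⟨100000, 0, 0, 0, 0, 0, 0, 0, 0, ⟨0, 0⟩, 0⟩ 0 0) (.cut .d (-524288) (.void 9 ⟨100000, 0, 0, 0, 0, 0, 0, 0, 0, ⟨0, 0⟩, 0⟩ 0 0) (.cut .v 25165824 (.cut .d (-262144) (.void 11 ⟨100000, 0, 0, 0, 0, 0, 0, 0, 0, ⟨0, 0⟩, 0⟩ 0 0) (.cut .d (-131072) (.pos 11 .mp ⟨5404874772, 0, 0, 0, 0, 0, 0, 0, 0, ⟨0, 0⟩, 0⟩ 0 0) (.pos 11 .mp ⟨3805044335, 0, 0, 0, 0, 0, 0, 0, 0, ⟨0, 0⟩, 0⟩ 0 0))) (.pos 12 .mp ⟨9479511529,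 0, 0, 0, 0, 0, 0, 0, 0, ⟨0, 0⟩, 0⟩ 0 0)))) (.pos 10 .mp ⟨37096425051, 0, 0, 0, 0, 0, 0, 0, 0, ⟨0, 0⟩, 0⟩ 0 0))))) (.void 49 ⟨100000, 0, 0, 0, 0, 0, 0, 0, 0, ⟨0, 0⟩, 0⟩ 0 0)) (.void 66 ⟨35207, 0, 0, 3989, 0, 39664, 0, 0, 0, ⟨0, 0⟩, 0⟩ 0 0))) (.cut .v 16777216 (.cut .v 8388608 (.cut .v 4194304 (.cut .v 2097152 (.cut .v 1048576 (.cut .v 524288 (.cut .v 262144 (.cut .v 131072 (.pos 147 .pm ⟨0, 0, 27057880, 0, 0, 0, 0, 0, 0, ⟨0, 0⟩, 0⟩ 0 0) (.pos 148 .pm ⟨0, 0, 60632016, 0, 0, 0, 0, 0, 0, ⟨0, 0⟩, 0⟩ 0 0)) (.pos 138 .pm ⟨0, 0, 104059600, 0, 0, 0, 0, 0, 0, ⟨0, 0⟩, 0⟩ 0 0)) (.pos 118 .pm ⟨0, 0, 181141672, 0, 0, 0, 0, 0, 0, ⟨0, 0⟩, 0⟩ 0 0)) (.pos 102 .pm ⟨0, 0, 320479691,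 0, 0, 0, 0, 0, 0, ⟨0, 0⟩, 0⟩ 0 0)) (.pos 72 .pm ⟨0, 0, 574886602, 0, 0, 0, 0, 0, 0, ⟨0, 0⟩, 0⟩ 0 0)) (.pos 5 .pm ⟨0, 0, 1226952054, 0, 0, 0, 0, 0, 0, ⟨0, 0⟩, 0⟩ 0 0)) (.pos 3 .pm ⟨0, 0, 292367315, 0, 0, 0, 0, 0, 0, ⟨0, 0⟩, 0⟩ 0 0)) (.cut .v 268435456 (.cut .v 67108864 (.cut .v 33554432 (.pos 9 .pp ⟨1318670267, 0, 0, 0, 0, 0, 0, 0, 0, ⟨0, 0⟩, 0⟩ 0 0) (.cut .d 421582 (.cut .v 50331648 (.pos 23 .pp ⟨7280799917, 0, 0, 0, 0, 0, 0, 0, 0, ⟨0, 0⟩, 0⟩ 0 0) (.cut .d 210791 (.pos 24 .pp ⟨17289946356, 0, 0, 0, 0, 0, 0, 0, 0, ⟨0, 0⟩, 0⟩ 0 0) (.pos 24 .pp ⟨0, 0, 0, 0, 0, 0, 0, 0, 0, ⟨0, 0⟩, 0⟩ 0 0))) (.pos 10 .pp ⟨0, 0, 0, 0, 0, 0, 0, 0, 0, ⟨0, 0⟩, 0⟩ 0 0))) (.cut .v 134217728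 (.cut .v 100663296 (.cut .v 83886080 (.cut .d 421582 (.cut .d 210791 (.cut .v 75497472 (.pos 109 .pp ⟨23394568659, 0, 0, 0, 0, 0, 0, 0, 0, ⟨0, 0⟩, 0⟩ 0 0) (.pos 110 .pp ⟨35536477387, 27077926610, 0, 0, 0, 0, 0, 0, 0, ⟨0, 0⟩, 0⟩ 0 0)) (.pos 107 .pp ⟨19252300009, 11261330911, 0, 0, 0, 0, 0, 0, 0, ⟨0, 0⟩, 0⟩ 0 0)) (.void 107 ⟨0, 0, 0, 100000, 0, 0, 0, 0, 0, ⟨0, 0⟩, 0⟩ 0 0)) (.void 108 ⟨84797, 0, 0, 15203, 0, 0, 0, 0, 0, ⟨0, 0⟩, 0⟩ 0 0)) (.void 98 ⟨0, 0, 0, 100000, 0, 0, 0, 0, 0, ⟨0, 0⟩, 0⟩ 0 0)) (.void 88 ⟨0, 0, 0, 100000, 0, 0, 0, 0, 0, ⟨0, 0⟩, 0⟩ 0 0))) (.void 66 ⟨0, 0, 0, 100000, 0, 0, 0, 0, 0, ⟨0, 0⟩, 0⟩ 0 0)))),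
    by decide +kernel⟩

def covers30 : cell.Covers table row30.1 :=
  ⟨(.cut .d 0 (.cut .v 16777216 (.cut .d (-8388608) (.pos 1 .mm ⟨0, 0, 0, 0, 0, 167772160000, 0, 0, 0, ⟨0, 0⟩, 0⟩ 0 0) (.cut .v 8388608 (.pos 2 .mm ⟨0, 0, 167772160000, 0, 0, 0, 0, 0, 0, ⟨0, 0⟩, 0⟩ 0 0) (.cut .d (-4194304) (.void 3 ⟨100000, 0, 0, 0, 0, 0, 0, 0, 0, ⟨0, 0⟩, 0⟩ 0 0) (.cut .d (-2097152) (.void 3 ⟨100000, 0, 0, 0, 0, 0, 0, 0, 0, ⟨0, 0⟩, 0⟩ 0 0) (.cut .d (-1048576) (.void 3 ⟨100000, 0, 0, 0, 0, 0, 0, 0, 0, ⟨0, 0⟩, 0⟩ 0 0) (.cut .d (-524288) (.void 3 ⟨70262, 0, 29738, 0, 0, 0, 0, 0, 0, ⟨0, 0⟩, 0⟩ 0 0) (.cut .d (-262144) (.void 3 ⟨0, 0, 0, 0, 0, 100000, 0, 0, 0, ⟨0, 0⟩, 0⟩ 0 0) (.cut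 .d (-131072) (.cut .d (-196608) (.void 3 ⟨0, 0, 0, 0, 0, 100000, 0, 0, 0, ⟨0, 0⟩, 0⟩ 0 0) (.cut .d (-163840) (.void 3 ⟨0, 0, 0, 0, 0, 100000, 0, 0, 0, ⟨0, 0⟩, 0⟩ 0 0) (.cut .l 7801405 (.void 3 ⟨0, 0, 0, 0, 0, 100000, 0, 0, 0, ⟨0, 0⟩, 0⟩ 0 0) (.cut .v 12582912 (.cut .v 10485760 (.void 62 ⟨0, 0, 100000, 0, 0, 0, 0, 0, 0, ⟨0, 0⟩, 0⟩ 0 0) (.cut .v 11534336 (.cut .s 16203776 (.pos 129 .mm ⟨0, 0, 423955962, 0, 0, 6020286618, 0, 0, 0, ⟨0, 0⟩, 0⟩ 0 0) (.pos 129 .mm ⟨0, 0, 403151640, 0, 0, 6653041542, 0, 0, 0, ⟨0, 0⟩, 0⟩ 0 0)) (.pos 130 .mm ⟨0, 0, 0, 0, 0, 7113099389, 0, 0, 0, ⟨0, 0⟩, 0⟩ 0 0))) (.pos 7 .mm ⟨0, 0, 0, 0, 0, 8920548926, 0, 0, 0, ⟨0, 0⟩, 0⟩ 0 0))))) (.cut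 .d (-65536) (.cut .v 12582912 (.cut .l 7801405 (.cut .v 10485760 (.cut .s 16203776 (.pos 62 .mm ⟨0, 0, 549601756, 0, 0, 5051577981, 0, 0, 0, ⟨0, 0⟩, 0⟩ 0 0) (.pos 62 .mm ⟨0, 0, 572342441, 0, 0, 5885328327, 0, 0, 0, ⟨0, 0⟩, 0⟩ 0 0)) (.pos 63 .mm ⟨0, 0, 0, 0, 0, 6799010516, 0, 0, 0, ⟨0, 0⟩, 0⟩ 0 0)) (.cut .v 10485760 (.cut .s 16203776 (.pos 62 .mm ⟨0, 0, 1053664269, 0, 0, 4532389368, 0, 0, 0, ⟨0, 0⟩, 0⟩ 0 0) (.cut .s 16236544 (.pos 62 .mm ⟨0, 0, 994567011, 0, 0, 5015940197, 0, 0, 0, ⟨0, 0⟩, 0⟩ 0 0) (.pos 62 .mm ⟨0, 0, 1050038801, 0, 0, 5420318072, 0, 0, 0, ⟨0, 0⟩, 0⟩ 0 0))) (.cut .s 16203776 (.cut .d (-98304) (.cut .l 10611589 (.pos 63 .mm ⟨0, 0, 75534449, 0,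 0, 5622953393, 0, 0, 0, ⟨0, 0⟩, 0⟩ 0 0) (.cut .l 12016681 (.pos 63 .mm ⟨0, 0, 202203640, 0, 0, 5354904657, 0, 0, 0, ⟨0, 0⟩, 0⟩ 0 0) (.pos 63 .mm ⟨0, 0, 284887864, 0, 0, 5107681613, 0, 0, 0, ⟨0, 0⟩, 0⟩ 0 0))) (.pos 63 .mm ⟨0, 0, 0, 0, 0, 4922067991, 0, 0, 0, ⟨0, 0⟩, 0⟩ 0 0)) (.cut .d (-98304) (.cut .l 10611589 (.pos 63 .mm ⟨0, 0, 465546843, 0, 0, 6992949988, 0, 0, 0, ⟨0, 0⟩, 0⟩ 0 0) (.cut .d (-114688) (.cut .v 11534336 (.cut .v 11010048 (.pos 143 .mm ⟨0, 0, 1493118796, 0, 0, 5292465133, 0, 0, 0, ⟨0, 0⟩, 0⟩ 0 0) (.pos 144 .mm ⟨0, 0, 95375764, 0, 0, 6053549375, 0, 0, 0, ⟨0, 0⟩, 0⟩ 0 0)) (.pos 130 .mm ⟨0, 0, 0, 0, 0, 6369733143, 0, 0, 0, ⟨0, 0⟩, 0⟩ 0 0)) (.pos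 63 .mm ⟨0, 0, 282553389, 0, 0, 5398765172, 0, 0, 0, ⟨0, 0⟩, 0⟩ 0 0))) (.pos 63 .mm ⟨0, 0, 216169537, 0, 0, 5393904743, 0, 0, 0, ⟨0, 0⟩, 0⟩ 0 0))))) (.cut .l 7801405 (.pos 7 .mm ⟨0, 0, 0, 0, 0, 8876939991, 0, 0, 0, ⟨0, 0⟩, 0⟩ 0 0) (.cut .l 10611589 (.cut .d (-98304) (.pos 7 .mm ⟨0, 0, 0, 0, 0, 8207225519, 0, 0, 0, ⟨0, 0⟩, 0⟩ 0 0) (.pos 7 .mm ⟨0, 0, 0, 0, 0, 6379547270, 0, 0, 0, ⟨0, 0⟩, 0⟩ 0 0)) (.pos 7 .mm ⟨0, 0, 0, 0, 0, 6558907075, 0, 0, 0, ⟨0, 0⟩, 0⟩ 0 0)))) (.cut .v 12582912 (.cut .l 7801405 (.cut .v 10485760 (.cut .d (-32768) (.cut .v 9437184 (.void 133 ⟨0, 0, 100000, 0, 0, 0, 0, 0, 0, ⟨0, 0⟩, 0⟩ 0 0) (.cut .l 4991221 (.cut .s 16203776 (.pos 134 .mm ⟨0,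 0, 460912036, 0, 0, 4785195261, 0, 0, 0, ⟨0, 0⟩, 0⟩ 0 0) (.pos 134 .mm ⟨0, 0, 617101242, 0, 0, 5540528530, 0, 0, 0, ⟨0, 0⟩, 0⟩ 0 0)) (.cut .s 16203776 (.pos 134 .mm ⟨0, 0, 343664361, 0, 0, 4297548876, 0, 0, 0, ⟨0, 0⟩, 0⟩ 0 0) (.cut .v 9961472 (.pos 141 .mm ⟨0, 0, 837614821, 0, 0, 4785401166, 0, 0, 0, ⟨0, 0⟩, 0⟩ 0 0) (.pos 142 .mm ⟨0, 0, 361256659, 0, 0, 5068439097, 0, 0, 0, ⟨0, 0⟩, 0⟩ 0 0))))) (.cut .l 4991221 (.cut .l 3586129 (.cut .d (-16384) (.cut .d (-24576) (.pos 62 .mm ⟨0, 0, 540515282, 0, 0, 5090822718, 0, 0, 0, ⟨0, 0⟩, 0⟩ 0 0) (.pos 62 .mm ⟨0, 0, 570042617, 0, 0, 4534612254, 0, 0, 0, ⟨0, 0⟩, 0⟩ 0 0)) (.pos 62 .mm ⟨0, 0, 591801219, 0, 0, 3943123874,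 0, 0, 0, ⟨0, 0⟩, 0⟩ 0 0)) (.pos 62 .mm ⟨0, 0, 608963939, 0, 0, 3789388617, 0, 0, 0, ⟨0, 0⟩, 0⟩ 0 0)) (.pos 62 .mm ⟨0, 0, 741253283, 0, 0, 0, 0, 0, 0, ⟨0, 0⟩, 0⟩ 0 0))) (.cut .s 16203776 (.pos 63 .mm ⟨0, 0, 0, 0, 0, 4877522730, 0, 0, 0, ⟨0, 0⟩, 0⟩ 0 0) (.pos 63 .mm ⟨0, 0, 0, 0, 0, 5572528332, 0, 0, 0, ⟨0, 0⟩, 0⟩ 0 0))) (.pos 6 .mm ⟨0, 0, 637817719, 0, 0, 0, 0, 0, 0, ⟨0, 0⟩, 0⟩ 0 0)) (.pos 7 .mm ⟨0, 0, 0, 0, 0, 6022122611, 0, 0, 0, ⟨0, 0⟩, 0⟩ 0 0))))))))))) (.cut .v 268435456 (.cut .v 67108864 (.cut .d (-8388608) (.void 8 ⟨100000, 0, 0, 0, 0, 0, 0, 0, 0, ⟨0, 0⟩, 0⟩ 0 0) (.cut .d (-4194304) (.void 8 ⟨100000, 0, 0, 0, 0, 0, 0, 0, 0, ⟨0, 0⟩, 0⟩ 0 0) (.cut .d (-2097152)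 (.void 8 ⟨100000, 0, 0, 0, 0, 0, 0, 0, 0, ⟨0, 0⟩, 0⟩ 0 0) (.cut .v 33554432 (.cut .d (-1048576) (.void 9 ⟨100000, 0, 0, 0, 0, 0, 0, 0, 0, ⟨0, 0⟩, 0⟩ 0 0) (.cut .v 25165824 (.cut .d (-524288) (.void 11 ⟨100000, 0, 0, 0, 0, 0, 0, 0, 0, ⟨0, 0⟩, 0⟩ 0 0) (.cut .d (-262144) (.void 11 ⟨100000, 0, 0, 0, 0, 0, 0, 0, 0, ⟨0, 0⟩, 0⟩ 0 0) (.cut .d (-131072) (.pos 11 .mp ⟨7658613981, 0, 0, 0, 0, 0, 0, 0, 0, ⟨0, 0⟩, 0⟩ 0 0) (.cut .d (-65536) (.pos 11 .mp ⟨5563347808, 0, 0, 0, 0, 0, 0, 0, 0, ⟨0, 0⟩, 0⟩ 0 0) (.pos 11 .mp ⟨4567777876, 0, 0, 0, 0, 0, 0, 0, 0, ⟨0, 0⟩, 0⟩ 0 0))))) (.pos 12 .mp ⟨15708932624, 0, 0, 0, 0, 0, 0, 0, 0, ⟨0, 0⟩, 0⟩ 0 0))) (.pos 10 .mp ⟨47854970517, 0,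 0, 0, 0, 0, 0, 0, 0, ⟨0, 0⟩, 0⟩ 0 0))))) (.void 49 ⟨100000, 0, 0, 0, 0, 0, 0, 0, 0, ⟨0, 0⟩, 0⟩ 0 0)) (.void 66 ⟨91899, 0, 0, 8101, 0, 0, 0, 0, 0, ⟨0, 0⟩, 0⟩ 0 0))) (.cut .v 16777216 (.cut .v 8388608 (.cut .v 4194304 (.cut .v 2097152 (.cut .v 1048576 (.cut .v 524288 (.cut .v 262144 (.cut .v 131072 (.pos 147 .pm ⟨0, 0, 38379929, 0, 0, 0, 0, 0, 0, ⟨0, 0⟩, 0⟩ 0 0) (.pos 148 .pm ⟨0, 0, 88421202, 0, 0, 0, 0, 0, 0, ⟨0, 0⟩, 0⟩ 0 0)) (.pos 138 .pm ⟨0, 0, 155568437, 0, 0, 0, 0, 0, 0, ⟨0, 0⟩, 0⟩ 0 0)) (.pos 118 .pm ⟨0, 0, 276270760, 0, 0, 0, 0, 0, 0, ⟨0, 0⟩, 0⟩ 0 0)) (.pos 102 .pm ⟨0, 0, 487598658, 0, 0, 0, 0, 0, 0, ⟨0, 0⟩, 0⟩ 0 0)) (.pos 72 .pm ⟨0, 0, 889559260, 0,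 0, 0, 0, 0, 0, ⟨0, 0⟩, 0⟩ 0 0)) (.pos 5 .pm ⟨0, 0, 1891194822, 0, 0, 0, 0, 0, 0, ⟨0, 0⟩, 0⟩ 0 0)) (.pos 3 .pm ⟨0, 0, 514112475, 0, 0, 0, 0, 0, 0, ⟨0, 0⟩, 0⟩ 0 0)) (.cut .v 268435456 (.cut .v 67108864 (.cut .v 33554432 (.pos 9 .pp ⟨814601761, 0, 0, 0, 0, 0, 0, 0, 0, ⟨0, 0⟩, 0⟩ 0 0) (.cut .v 50331648 (.pos 23 .pp ⟨7534534678, 0, 0, 0, 0, 0, 0, 0, 0, ⟨0, 0⟩, 0⟩ 0 0) (.cut .d 332139 (.cut .d 166069 (.pos 24 .pp ⟨22212311471, 0, 0, 0, 0, 0, 0, 0, 0, ⟨0, 0⟩, 0⟩ 0 0) (.pos 24 .pp ⟨0, 0, 0, 0, 0, 0, 0, 0, 0, ⟨0, 0⟩, 0⟩ 0 0)) (.void 24 ⟨0, 0, 0, 100000, 0, 0, 0, 0, 0, ⟨0, 0⟩, 0⟩ 0 0)))) (.cut .v 134217728 (.cut .v 100663296 (.cut .v 83886080 (.cut .d 332139 (.cut .d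 166069 (.cut .v 75497472 (.pos 109 .pp ⟨30036803477, 253086824, 0, 0, 0, 0, 0, 0, 0, ⟨0, 0⟩, 0⟩ 0 0) (.pos 110 .pp ⟨45221138095, 35797840847, 0, 0, 0, 0, 0, 0, 0, ⟨0, 0⟩, 0⟩ 0 0)) (.pos 107 .pp ⟨0, 25309568677, 0, 0, 0, 0, 0, 0, 0, ⟨0, 0⟩, 0⟩ 0 0)) (.void 107 ⟨0, 0, 0, 100000, 0, 0, 0, 0, 0, ⟨0, 0⟩, 0⟩ 0 0)) (.void 108 ⟨84760, 0, 0, 15240, 0, 0, 0, 0, 0, ⟨0, 0⟩, 0⟩ 0 0)) (.void 98 ⟨0, 0, 0, 100000, 0, 0, 0, 0, 0, ⟨0, 0⟩, 0⟩ 0 0)) (.void 88 ⟨0, 0, 0, 100000, 0, 0, 0, 0, 0, ⟨0, 0⟩, 0⟩ 0 0))) (.void 66 ⟨0, 0, 0, 100000, 0, 0, 0, 0, 0, ⟨0, 0⟩, 0⟩ 0 0)))),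
    by decide +kernel⟩

def covers31 : cell.Covers table row31.1 :=
  ⟨(.cut .d 0 (.cut .v 16777216 (.cut .d (-8388608) (.void 1 ⟨0, 0, 111209, 8926, 0, 0, 0, 0, 0, ⟨0, 0⟩, 0⟩ 0 0) (.cut .v 8388608 (.void 2 ⟨0, 0, 100000, 0, 0, 0, 0, 0, 0, ⟨0, 0⟩, 0⟩ 0 0) (.cut .d (-4194304) (.void 3 ⟨100000, 0, 0, 0, 0, 0, 0, 0, 0, ⟨0, 0⟩, 0⟩ 0 0) (.cut .d (-2097152) (.void 3 ⟨100000, 0, 0, 0, 0, 0, 0, 0, 0, ⟨0, 0⟩, 0⟩ 0 0) (.cut .d (-1048576) (.void 3 ⟨100000, 0, 0, 0, 0, 0, 0, 0, 0, ⟨0, 0⟩, 0⟩ 0 0) (.cut .d (-524288) (.void 3 ⟨100000, 0, 0, 0, 0, 0, 0, 0, 0, ⟨0, 0⟩, 0⟩ 0 0) (.cut .d (-262144) (.void 3 ⟨70121, 0, 29879, 0, 0, 0, 0, 0, 0, ⟨0, 0⟩, 0⟩ 0 0) (.cut .d (-131072)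 (.void 3 ⟨0, 0, 0, 0, 0, 100000, 0, 0, 0, ⟨0, 0⟩, 0⟩ 0 0) (.cut .s 16318464 (.cut .s 16293888 (.cut .s 16281600 (.cut .v 12582912 (.cut .v 10485760 (.cut .v 9437184 (.pos 133 .mm ⟨0, 0, 908703471, 0, 0, 4866723153, 0, 0, 0, ⟨0, 0⟩, 0⟩ 0 0) (.cut .d (-65536) (.pos 134 .mm ⟨0, 0, 1148241403, 0, 0, 6013435839, 0, 0, 0, ⟨0, 0⟩, 0⟩ 0 0) (.pos 134 .mm ⟨0, 0, 167579102, 0, 0, 5450436038, 0, 0, 0, ⟨0, 0⟩, 0⟩ 0 0))) (.cut .v 11534336 (.pos 129 .mm ⟨0, 0, 33107416, 0, 0, 6424656512, 0, 0, 0, ⟨0, 0⟩, 0⟩ 0 0) (.pos 130 .mm ⟨0, 0, 0, 0, 0, 7148338836, 0, 0, 0, ⟨0, 0⟩, 0⟩ 0 0))) (.cut .v 14680064 (.pos 35 .mm ⟨0, 0, 0, 0, 0, 7970377800, 0, 0, 0, ⟨0, 0⟩, 0⟩ 0 0) (.pos 36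 .mm ⟨0, 0, 0, 0, 0, 9360108836, 0, 0, 0, ⟨0, 0⟩, 0⟩ 0 0))) (.pos 3 .mm ⟨0, 0, 0, 0, 0, 7205593620, 0, 0, 0, ⟨0, 0⟩, 0⟩ 0 0)) (.pos 3 .mm ⟨0, 0, 961410526, 0, 0, 9271772980, 0, 0, 0, ⟨0, 0⟩, 0⟩ 0 0)) (.pos 3 .mm ⟨0, 0, 1765132446, 0, 0, 10019855392, 0, 0, 0, ⟨0, 0⟩, 0⟩ 0 0)))))))))) (.cut .v 268435456 (.cut .v 67108864 (.cut .d (-8388608) (.void 8 ⟨100000, 0, 0, 0, 0, 0, 0, 0, 0, ⟨0, 0⟩, 0⟩ 0 0) (.cut .d (-4194304) (.void 8 ⟨100000, 0, 0, 0, 0, 0, 0, 0, 0, ⟨0, 0⟩, 0⟩ 0 0) (.cut .v 33554432 (.cut .d (-2097152) (.void 9 ⟨100000, 0, 0, 0, 0, 0, 0, 0, 0, ⟨0, 0⟩, 0⟩ 0 0) (.cut .d (-1048576) (.void 9 ⟨100000, 0, 0, 0, 0, 0, 0, 0, 0, ⟨0, 0⟩, 0⟩ 0 0) (.cut .d (-524288)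 (.void 9 ⟨100000, 0, 0, 0, 0, 0, 0, 0, 0, ⟨0, 0⟩, 0⟩ 0 0) (.cut .d (-262144) (.void 9 ⟨100000, 0, 0, 0, 0, 0, 0, 0, 0, ⟨0, 0⟩, 0⟩ 0 0) (.cut .v 25165824 (.cut .d (-131072) (.void 11 ⟨100000, 0, 0, 0, 0, 0, 0, 0, 0, ⟨0, 0⟩, 0⟩ 0 0) (.pos 11 .mp ⟨5948621257, 0, 0, 0, 0, 0, 0, 0, 0, ⟨0, 0⟩, 0⟩ 0 0)) (.pos 12 .mp ⟨11350795728, 0, 0, 0, 0, 0, 0, 0, 0, ⟨0, 0⟩, 0⟩ 0 0)))))) (.pos 10 .mp ⟨91503058731, 0, 0, 0, 0, 0, 0, 0, 0, ⟨0, 0⟩, 0⟩ 0 0)))) (.void 49 ⟨100000, 0, 0, 0, 0, 0, 0, 0, 0, ⟨0, 0⟩, 0⟩ 0 0)) (.void 66 ⟨91854, 0, 0, 8146, 0, 0, 0, 0, 0, ⟨0, 0⟩, 0⟩ 0 0))) (.cut .v 16777216 (.cut .v 8388608 (.cut .v 4194304 (.cut .v 2097152 (.cut .v 1048576 (.cut .v 524288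 (.cut .v 262144 (.cut .v 131072 (.cut .v 65536 (.pos 151 .pm ⟨0, 0, 26822822, 0, 0, 0, 0, 0, 0, ⟨0, 0⟩, 0⟩ 0 0) (.pos 152 .pm ⟨0, 0, 57663016, 0, 0, 0, 0, 0, 0, ⟨0, 0⟩, 0⟩ 0 0)) (.pos 148 .pm ⟨0, 0, 101996953, 0, 0, 0, 0, 0, 0, ⟨0, 0⟩, 0⟩ 0 0)) (.pos 138 .pm ⟨0, 0, 179188536, 0, 0, 0, 0, 0, 0, ⟨0, 0⟩, 0⟩ 0 0)) (.pos 118 .pm ⟨0, 0, 316919859, 0, 0, 0, 0, 0, 0, ⟨0, 0⟩, 0⟩ 0 0)) (.pos 102 .pm ⟨0, 0, 571129669, 0, 0, 0, 0, 0, 0, ⟨0, 0⟩, 0⟩ 0 0)) (.pos 72 .pm ⟨0, 0, 1103717703, 0, 0, 0, 0, 0, 0, ⟨0, 0⟩, 0⟩ 0 0)) (.pos 5 .pm ⟨0, 0, 2742137772, 0, 0, 0, 0, 0, 0, ⟨0, 0⟩, 0⟩ 0 0)) (.pos 3 .pm ⟨0, 0, 654917068, 0, 0, 0, 0, 0, 0, ⟨0, 0⟩, 0⟩ 0 0)) (.cut .v 268435456 (.cut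 .v 67108864 (.cut .v 33554432 (.pos 9 .pp ⟨285858809, 0, 0, 0, 0, 0, 0, 0, 0, ⟨0, 0⟩, 0⟩ 0 0) (.cut .v 50331648 (.pos 23 .pp ⟨9975664159, 0, 0, 0, 0, 0, 0, 0, 0, ⟨0, 0⟩, 0⟩ 0 0) (.cut .d 261881 (.pos 24 .pp ⟨21994800529, 0, 0, 0, 0, 0, 0, 0, 0, ⟨0, 0⟩, 0⟩ 0 0) (.void 24 ⟨0, 0, 0, 100000, 0, 0, 0, 0, 0, ⟨0, 0⟩, 0⟩ 0 0)))) (.cut .v 134217728 (.cut .v 100663296 (.cut .v 83886080 (.cut .d 261881 (.cut .d 130940 (.pos 107 .pp ⟨40135008237, 9197444351, 0, 0, 0, 0, 0, 0, 0, ⟨0, 0⟩, 0⟩ 0 0) (.pos 107 .pp ⟨0, 35349446894, 0, 0, 0, 0, 0, 0, 0, ⟨0, 0⟩, 0⟩ 0 0)) (.void 107 ⟨0, 0, 0, 100000, 0, 0, 0, 0, 0, ⟨0, 0⟩, 0⟩ 0 0)) (.void 108 ⟨84735, 0, 0, 15265, 0, 0, 0, 0, 0,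 ⟨0, 0⟩, 0⟩ 0 0)) (.void 98 ⟨0, 0, 0, 100000, 0, 0, 0, 0, 0, ⟨0, 0⟩, 0⟩ 0 0)) (.void 88 ⟨0, 0, 0, 100000, 0, 0, 0, 0, 0, ⟨0, 0⟩, 0⟩ 0 0))) (.void 66 ⟨0, 0, 0, 100000, 0, 0, 0, 0, 0, ⟨0, 0⟩, 0⟩ 0 0)))),
    by decide +kernel⟩

def covers32 : cell.Covers table row32.1 :=
  ⟨(.cut .d 0 (.cut .v 16777216 (.cut .d (-8388608) (.pos 1 .mm ⟨0, 0, 0, 0, 0, 167772160000, 0, 0, 0, ⟨0, 0⟩, 0⟩ 0 0) (.cut .v 8388608 (.void 2 ⟨0, 0, 100000, 0, 0, 0, 0, 0, 0, ⟨0, 0⟩, 0⟩ 0 0) (.cut .d (-4194304) (.void 3 ⟨100000, 0, 0, 0, 0, 0, 0, 0, 0, ⟨0, 0⟩, 0⟩ 0 0) (.cut .d (-2097152) (.void 3 ⟨100000, 0, 0, 0, 0, 0, 0, 0, 0, ⟨0, 0⟩, 0⟩ 0 0) (.pos 3 .mm ⟨0, 0, 3998028829, 0, 0, 29429669619,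 0, 0, 0, ⟨0, 0⟩, 0⟩ 0 0))))) (.cut .v 4294967296 (.cut .v 268435456 (.cut .v 67108864 (.cut .d (-8388608) (.void 8 ⟨100000, 0, 0, 0, 0, 0, 0, 0, 0, ⟨0, 0⟩, 0⟩ 0 0) (.cut .d (-4194304) (.void 8 ⟨100000, 0, 0, 0, 0, 0, 0, 0, 0, ⟨0, 0⟩, 0⟩ 0 0) (.cut .v 33554432 (.cut .d (-2097152) (.void 9 ⟨100000, 0, 0, 0, 0, 0, 0, 0, 0, ⟨0, 0⟩, 0⟩ 0 0) (.pos 9 .mp ⟨36217691465, 0, 0, 0, 0, 0, 0, 0, 0, ⟨0, 0⟩, 0⟩ 0 0)) (.pos 10 .mp ⟨120747645196, 0, 0, 0, 0, 0, 0, 0, 0, ⟨0, 0⟩, 0⟩ 0 0)))) (.void 49 ⟨100000, 0, 0, 0, 0, 0, 0, 0, 0, ⟨0, 0⟩, 0⟩ 0 0)) (.void 66 ⟨91816, 0, 0, 8184, 0, 0, 0, 0, 0, ⟨0, 0⟩, 0⟩ 0 0)) (.void 155 ⟨91816, 0, 0, 8184, 0, 0, 0, 0, 0, ⟨0, 0⟩, 0⟩ 0 0))) (.cut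 .v 16777216 (.cut .v 8388608 (.cut .v 4194304 (.cut .v 2097152 (.cut .v 1048576 (.cut .v 524288 (.cut .v 262144 (.cut .v 131072 (.cut .v 65536 (.pos 151 .pm ⟨0, 0, 35924227, 0, 0, 0, 0, 0, 0, ⟨0, 0⟩, 0⟩ 0 0) (.pos 152 .pm ⟨0, 0, 82718000, 0, 0, 0, 0, 0, 0, ⟨0, 0⟩, 0⟩ 0 0)) (.pos 148 .pm ⟨0, 0, 144932606, 0, 0, 0, 0, 0, 0, ⟨0, 0⟩, 0⟩ 0 0)) (.pos 138 .pm ⟨0, 0, 245243106, 0, 0, 0, 0, 0, 0, ⟨0, 0⟩, 0⟩ 0 0)) (.pos 118 .pm ⟨0, 0, 429461449, 0, 0, 0, 0, 0, 0, ⟨0, 0⟩, 0⟩ 0 0)) (.pos 102 .pm ⟨0, 0, 788099682, 0, 0, 0, 0, 0, 0, ⟨0, 0⟩, 0⟩ 0 0)) (.pos 72 .pm ⟨0, 0, 1492949470, 0, 0, 0, 0, 0, 0, ⟨0, 0⟩, 0⟩ 0 0)) (.pos 5 .pm ⟨0, 0, 2790791070, 0, 0, 0, 0, 0, 0, ⟨0, 0⟩,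 0⟩ 0 0)) (.pos 3 .pm ⟨0, 0, 3160759741, 0, 0, 0, 0, 0, 0, ⟨0, 0⟩, 0⟩ 0 0)) (.cut .v 4294967296 (.cut .v 268435456 (.cut .v 67108864 (.pos 8 .pp ⟨1342162667, 0, 0, 0, 0, 0, 0, 0, 0, ⟨0, 0⟩, 0⟩ 0 0) (.cut .v 134217728 (.pos 87 .pp ⟨87011887204, 77446219582, 0, 3314053214, 0, 0, 0, 0, 0, ⟨0, 0⟩, 0⟩ 0 0) (.void 88 ⟨0, 0, 0, 100000, 0, 0, 0, 0, 0, ⟨0, 0⟩, 0⟩ 0 0))) (.void 66 ⟨0, 0, 0, 100000, 0, 0, 0, 0, 0, ⟨0, 0⟩, 0⟩ 0 0)) (.void 155 ⟨0, 0, 0, 100000, 0, 0, 0, 0, 0, ⟨0, 0⟩, 0⟩ 0 0)))),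
    by decide +kernel⟩

def covers33 : cell.Covers table row33.1 :=
  ⟨(.cut .d 0 (.cut .v 16777216 (.cut .d (-8388608) (.void 1 ⟨0, 0, 0, 0, 0, 100000, 0, 0, 0, ⟨0, 0⟩, 0⟩ 0 0) (.cut .v 8388608 (.pos 2 .mm ⟨0, 0, 167772160000, 0, 0, 0, 0, 0, 0, ⟨0, 0⟩, 0⟩ 0 0) (.cut .d (-4194304) (.void 3 ⟨100000, 0, 0, 0, 0, 0, 0, 0, 0, ⟨0, 0⟩, 0⟩ 0 0) (.cut .v 12582912 (.pos 6 .mm ⟨0, 0, 6318915957, 0, 0, 42217697000, 0, 0, 0, ⟨0, 0⟩, 0⟩ 0 0) (.pos 7 .mm ⟨0, 0, 0, 0, 0, 64774117549, 0, 0, 0, ⟨0, 0⟩, 0⟩ 0 0))))) (.cut .v 4294967296 (.cut .v 268435456 (.cut .v 67108864 (.cut .d (-8388608) (.void 8 ⟨100000, 0, 0, 0, 0, 0, 0, 0, 0, ⟨0, 0⟩, 0⟩ 0 0) (.cut .d (-4194304) (.void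 8 ⟨100000, 0, 0, 0, 0, 0, 0, 0, 0, ⟨0, 0⟩, 0⟩ 0 0) (.cut .v 33554432 (.cut .v 25165824 (.pos 11 .mp ⟨56462078861, 0, 0, 0, 0, 0, 0, 0, 0, ⟨0, 0⟩, 0⟩ 0 0) (.pos 12 .mp ⟨78477256839, 0, 0, 0, 0, 0, 0, 0, 0, ⟨0, 0⟩, 0⟩ 0 0)) (.pos 10 .mp ⟨157810199860, 0, 0, 0, 0, 0, 0, 0, 0, ⟨0, 0⟩, 0⟩ 0 0)))) (.void 49 ⟨100000, 0, 0, 0, 0, 0, 0, 0, 0, ⟨0, 0⟩, 0⟩ 0 0)) (.void 66 ⟨46516, 0, 0, 11776, 0, 209189, 0, 0, 0, ⟨0, 0⟩, 0⟩ 0 0)) (.void 155 ⟨91786, 0, 0, 8214, 0, 0, 0, 0, 0, ⟨0, 0⟩, 0⟩ 0 0))) (.cut .v 16777216 (.cut .v 8388608 (.cut .v 4194304 (.cut .v 2097152 (.cut .v 1048576 (.cut .v 524288 (.cut .v 262144 (.cut .v 131072 (.cut .v 65536 (.pos 151 .pm ⟨0, 0, 49054826,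 0, 0, 0, 0, 0, 0, ⟨0, 0⟩, 0⟩ 0 0) (.pos 152 .pm ⟨0, 0, 117167484, 0, 0, 0, 0, 0, 0, ⟨0, 0⟩, 0⟩ 0 0)) (.pos 148 .pm ⟨0, 0, 205929696, 0, 0, 0, 0, 0, 0, ⟨0, 0⟩, 0⟩ 0 0)) (.pos 138 .pm ⟨0, 0, 350976711, 0, 0, 0, 0, 0, 0, ⟨0, 0⟩, 0⟩ 0 0)) (.pos 118 .pm ⟨0, 0, 623079392, 0, 0, 0, 0, 0, 0, ⟨0, 0⟩, 0⟩ 0 0)) (.pos 102 .pm ⟨0, 0, 1144882954, 0, 0, 0, 0, 0, 0, ⟨0, 0⟩, 0⟩ 0 0)) (.pos 72 .pm ⟨0, 0, 2174775890, 0, 0, 0, 0, 0, 0, ⟨0, 0⟩, 0⟩ 0 0)) (.pos 5 .pm ⟨0, 0, 4062284921, 0, 0, 0, 0, 0, 0, ⟨0, 0⟩, 0⟩ 0 0)) (.pos 3 .pm ⟨0, 0, 4502660964, 0, 0, 0, 0, 0, 0, ⟨0, 0⟩, 0⟩ 0 0)) (.cut .v 4294967296 (.cut .v 268435456 (.cut .v 67108864 (.pos 8 .pp ⟨0, 0, 0, 0, 0, 0, 0, 0, 0,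 ⟨0, 0⟩, 0⟩ 0 0) (.cut .v 134217728 (.pos 87 .pp ⟨118656280373, 38290235892, 0, 10825643735, 0, 0, 0, 0, 0, ⟨0, 0⟩, 0⟩ 0 0) (.void 88 ⟨0, 0, 0, 100000, 0, 0, 0, 0, 0, ⟨0, 0⟩, 0⟩ 0 0))) (.void 66 ⟨0, 0, 0, 100000, 0, 0, 0, 0, 0, ⟨0, 0⟩, 0⟩ 0 0)) (.void 155 ⟨0, 0, 0, 100000, 0, 0, 0, 0, 0, ⟨0, 0⟩, 0⟩ 0 0)))),
    by decide +kernel⟩

def covers34 : cell.Covers table row34.1 :=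
  ⟨(.cut .d 0 (.cut .v 16777216 (.cut .d (-8388608) (.void 1 ⟨0, 0, 0, 0, 0, 100000, 0, 0, 0, ⟨0, 0⟩, 0⟩ 0 0) (.cut .v 8388608 (.pos 2 .mm ⟨0, 0, 167772160000, 0, 0, 0, 0, 0, 0, ⟨0, 0⟩, 0⟩ 0 0) (.cut .d (-4194304) (.void 3 ⟨100000, 0, 0, 0, 0, 0, 0, 0, 0, ⟨0, 0⟩, 0⟩ 0 0) (.cut .v 12582912 (.pos 6 .mm ⟨0, 0, 6643967049, 0, 0, 56611473311, 0, 0, 0, ⟨0, 0⟩, 0⟩ 0 0) (.pos 7 .mm ⟨0, 0, 0, 0, 0, 84484454079, 0, 0, 0, ⟨0, 0⟩, 0⟩ 0 0))))) (.cut .v 4294967296 (.cut .v 268435456 (.cut .v 67108864 (.cut .d (-8388608) (.void 8 ⟨100000, 0, 0, 0, 0, 0, 0, 0, 0, ⟨0, 0⟩, 0⟩ 0 0) (.cut .d (-4194304) (.void 8 ⟨100000, 0, 0, 0, 0, 0, 0, 0, 0, ⟨0, 0⟩, 0⟩ 0 0) (.cut .d (-2097152)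 (.void 8 ⟨100000, 0, 0, 0, 0, 0, 0, 0, 0, ⟨0, 0⟩, 0⟩ 0 0) (.cut .v 33554432 (.pos 9 .mp ⟨28400788570, 0, 0, 0, 0, 66579465093, 0, 0, 0, ⟨0, 0⟩, 0⟩ 0 0) (.pos 10 .mp ⟨167772160000, 0, 0, 0, 0, 0, 0, 0, 0, ⟨0, 0⟩, 0⟩ 0 0))))) (.void 49 ⟨100000, 0, 0, 0, 0, 0, 0, 0, 0, ⟨0, 0⟩, 0⟩ 0 0)) (.void 66 ⟨91764, 0, 0, 8236, 0, 0, 0, 0, 0, ⟨0, 0⟩, 0⟩ 0 0)) (.void 155 ⟨91764, 0, 0, 8236, 0, 0, 0, 0, 0, ⟨0, 0⟩, 0⟩ 0 0))) (.cut .v 16777216 (.cut .v 8388608 (.cut .v 4194304 (.cut .v 2097152 (.cut .v 1048576 (.cut .v 524288 (.cut .v 262144 (.cut .v 131072 (.cut .v 65536 (.cut .v 32768 (.pos 156 .pm ⟨0, 0, 38189174, 0, 0, 0, 0, 0, 0, ⟨0, 0⟩, 0⟩ 0 0) (.pos 157 .pm ⟨0, 0, 91114119,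 0, 0, 0, 0, 0, 0, ⟨0, 0⟩, 0⟩ 0 0)) (.pos 152 .pm ⟨0, 0, 163034870, 0, 0, 0, 0, 0, 0, ⟨0, 0⟩, 0⟩ 0 0)) (.pos 148 .pm ⟨0, 0, 286444808, 0, 0, 0, 0, 0, 0, ⟨0, 0⟩, 0⟩ 0 0)) (.pos 138 .pm ⟨0, 0, 494272973, 0, 0, 0, 0, 0, 0, ⟨0, 0⟩, 0⟩ 0 0)) (.pos 118 .pm ⟨0, 0, 881310940, 0, 0, 0, 0, 0, 0, ⟨0, 0⟩, 0⟩ 0 0)) (.pos 102 .pm ⟨0, 0, 1637621567, 0, 0, 0, 0, 0, 0, ⟨0, 0⟩, 0⟩ 0 0)) (.pos 72 .pm ⟨0, 0, 3128572212, 0, 0, 0, 0, 0, 0, ⟨0, 0⟩, 0⟩ 0 0)) (.pos 5 .pm ⟨0, 0, 5872775982, 0, 0, 0, 0, 0, 0, ⟨0, 0⟩, 0⟩ 0 0)) (.pos 3 .pm ⟨0, 0, 6406977966, 0, 0, 0, 0, 0, 0, ⟨0, 0⟩, 0⟩ 0 0)) (.cut .v 4294967296 (.cut .v 268435456 (.cut .v 67108864 (.pos 8 .pp ⟨0, 0, 0, 0, 0, 0, 0, 0,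 0, ⟨0, 0⟩, 0⟩ 0 0) (.cut .v 134217728 (.pos 87 .pp ⟨147932778173, 0, 0, 19839381827, 0, 0, 0, 0, 0, ⟨0, 0⟩, 0⟩ 0 0) (.void 88 ⟨0, 0, 0, 100000, 0, 0, 0, 0, 0, ⟨0, 0⟩, 0⟩ 0 0))) (.void 66 ⟨0, 0, 0, 100000, 0, 0, 0, 0, 0, ⟨0, 0⟩, 0⟩ 0 0)) (.void 155 ⟨0, 0, 0, 100000, 0, 0, 0, 0, 0, ⟨0, 0⟩, 0⟩ 0 0)))),
    by decide +kernel⟩

def covers35 : cell.Covers table row35.1 :=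
  ⟨(.cut .d 0 (.cut .v 16777216 (.cut .v 8388608 (.void 2 ⟨0, 0, 100000, 0, 0, 0, 0, 0, 0, ⟨0, 0⟩, 0⟩ 0 0) (.cut .d (-8388608) (.void 3 ⟨87552, 0, 0, 0, 0, 0, 0, 0, 0, ⟨0, 0⟩, 0⟩ 0 0) (.cut .d (-4194304) (.void 3 ⟨100000, 0, 0, 0, 0, 0, 0, 0, 0, ⟨0, 0⟩, 0⟩ 0 0) (.cut .v 12582912 (.pos 6 .mm ⟨0, 0, 9200277244, 0, 0, 79330125849, 0, 0, 0, ⟨0, 0⟩, 0⟩ 0 0) (.pos 7 .mm ⟨0, 0, 0, 0, 0, 118180522530, 0, 0, 0, ⟨0, 0⟩, 0⟩ 0 0))))) (.cut .v 4294967296 (.cut .d (-8388608) (.void 65 ⟨100000, 0, 0, 0, 0, 0, 0, 0, 0, ⟨0, 0⟩, 0⟩ 0 0) (.cut .v 268435456 (.cut .v 67108864 (.cut .d (-4194304) (.void 8 ⟨100000, 0, 0, 0, 0, 0, 0, 0, 0, ⟨0, 0⟩, 0⟩ 0 0) (.cut .d (-2097152) (.void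 8 ⟨100000, 0, 0, 0, 0, 0, 0, 0, 0, ⟨0, 0⟩, 0⟩ 0 0) (.cut .d (-1048576) (.void 8 ⟨100000, 0, 0, 0, 0, 0, 0, 0, 0, ⟨0, 0⟩, 0⟩ 0 0) (.cut .v 33554432 (.pos 9 .mp ⟨0, 0, 0, 0, 0, 134887070399, 0, 0, 0, ⟨0, 0⟩, 0⟩ 0 0) (.pos 10 .mp ⟨167772160000, 0, 0, 0, 0, 0, 0, 0, 0, ⟨0, 0⟩, 0⟩ 0 0))))) (.void 49 ⟨100000, 0, 0, 0, 0, 0, 0, 0, 0, ⟨0, 0⟩, 0⟩ 0 0)) (.void 66 ⟨88103, 0, 0, 11897, 0, 0, 0, 0, 0, ⟨0, 0⟩, 0⟩ 0 0))) (.void 155 ⟨91741, 0, 0, 8259, 0, 0, 0, 0, 0, ⟨0, 0⟩, 0⟩ 0 0))) (.cut .v 16777216 (.cut .v 8388608 (.cut .v 4194304 (.cut .v 2097152 (.cut .v 1048576 (.cut .v 524288 (.cut .v 262144 (.cut .v 131072 (.cut .v 65536 (.cut .v 32768 (.pos 156 .pm ⟨0, 0, 53721228,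 0, 0, 0, 0, 0, 0, ⟨0, 0⟩, 0⟩ 0 0) (.pos 157 .pm ⟨0, 0, 133079442, 0, 0, 0, 0, 0, 0, ⟨0, 0⟩, 0⟩ 0 0)) (.pos 152 .pm ⟨0, 0, 238677571, 0, 0, 0, 0, 0, 0, ⟨0, 0⟩, 0⟩ 0 0)) (.pos 148 .pm ⟨0, 0, 417307114, 0, 0, 0, 0, 0, 0, ⟨0, 0⟩, 0⟩ 0 0)) (.pos 138 .pm ⟨0, 0, 723358918, 0, 0, 0, 0, 0, 0, ⟨0, 0⟩, 0⟩ 0 0)) (.pos 118 .pm ⟨0, 0, 1303350985, 0, 0, 0, 0, 0, 0, ⟨0, 0⟩, 0⟩ 0 0)) (.pos 102 .pm ⟨0, 0, 2415929902, 0, 0, 0, 0, 0, 0, ⟨0, 0⟩, 0⟩ 0 0)) (.pos 72 .pm ⟨0, 0, 4562361569, 0, 0, 0, 0, 0, 0, ⟨0, 0⟩, 0⟩ 0 0)) (.pos 5 .pm ⟨0, 0, 8403008100, 0, 0, 0, 0, 0, 0, ⟨0, 0⟩, 0⟩ 0 0)) (.pos 3 .pm ⟨0, 0, 8876561332, 0, 0, 0, 0, 0, 0, ⟨0, 0⟩, 0⟩ 0 0)) (.cut .v 4294967296 (.cut .v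 268435456 (.cut .v 67108864 (.pos 8 .pp ⟨0, 0, 0, 0, 0, 0, 0, 0, 0, ⟨0, 0⟩, 0⟩ 0 0) (.cut .v 134217728 (.cut .v 100663296 (.pos 97 .pp ⟨148166022107, 0, 0, 19606137893, 0, 0, 0, 0, 0, ⟨0, 0⟩, 0⟩ 0 0) (.void 98 ⟨0, 0, 0, 100000, 0, 0, 0, 0, 0, ⟨0, 0⟩, 0⟩ 0 0)) (.void 88 ⟨0, 0, 0, 100000, 0, 0, 0, 0, 0, ⟨0, 0⟩, 0⟩ 0 0))) (.void 66 ⟨0, 0, 0, 100000, 0, 0, 0, 0, 0, ⟨0, 0⟩, 0⟩ 0 0)) (.void 155 ⟨0, 0, 0, 100000, 0, 0, 0, 0, 0, ⟨0, 0⟩, 0⟩ 0 0)))),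
    by decide +kernel⟩

def covers36 : cell.Covers table row36.1 :=
  ⟨(.cut .d 0 (.cut .v 16777216 (.cut .v 8388608 (.void 2 ⟨0, 0, 100000, 0, 0, 0, 0, 0, 0, ⟨0, 0⟩, 0⟩ 0 0) (.cut .d (-8388608) (.cut .d (-12582912) (.void 3 ⟨100192, 0, 0, 0, 0, 0, 0, 0, 0, ⟨0, 0⟩, 0⟩ 0 0) (.void 3 ⟨100000, 0, 0, 0, 0, 0, 0, 0, 0, ⟨0, 0⟩, 0⟩ 0 0)) (.cut .d (-4194304) (.void 3 ⟨100000, 0, 0, 0, 0, 0, 0, 0, 0, ⟨0, 0⟩, 0⟩ 0 0) (.pos 3 .mm ⟨0, 0, 17624553874, 0, 0, 139896099501, 0, 0, 0, ⟨0, 0⟩, 0⟩ 0 0)))) (.cut .v 4294967296 (.cut .v 268435456 (.cut .v 67108864 (.cut .d (-8388608) (.void 8 ⟨100000, 0, 0, 0, 0, 0, 0, 0, 0, ⟨0, 0⟩, 0⟩ 0 0) (.cut .d (-4194304) (.void 8 ⟨100000,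 0, 0, 0, 0, 0, 0, 0, 0, ⟨0, 0⟩, 0⟩ 0 0) (.cut .d (-2097152) (.void 8 ⟨100000, 0, 0, 0, 0, 0, 0, 0, 0, ⟨0, 0⟩, 0⟩ 0 0) (.cut .d (-1048576) (.void 8 ⟨100000, 0, 0, 0, 0, 0, 0, 0, 0, ⟨0, 0⟩, 0⟩ 0 0) (.cut .d (-524288) (.void 8 ⟨100000, 0, 0, 0, 0, 0, 0, 0, 0, ⟨0, 0⟩, 0⟩ 0 0) (.pos 8 .mp ⟨163425562879, 0, 0, 0, 0, 0, 0, 0, 0, ⟨0, 0⟩, 0⟩ 0 0)))))) (.void 49 ⟨100000, 0, 0, 0, 0, 0, 0, 0, 0, ⟨0, 0⟩, 0⟩ 0 0)) (.void 66 ⟨1, 0, 0, 8315, 0, 91442, 0, 0, 0, ⟨0, 0⟩, 0⟩ 0 0)) (.void 155 ⟨91726, 0, 0, 8274, 0, 0, 0, 0, 0, ⟨0, 0⟩, 0⟩ 0 0))) (.cut .v 16777216 (.cut .v 8388608 (.cut .v 4194304 (.cut .v 2097152 (.cut .v 1048576 (.cut .v 524288 (.cut .v 262144 (.cut .v 131072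 (.cut .v 65536 (.cut .v 32768 (.cut .v 16384 (.pos 158 .pm ⟨0, 0, 42259421, 0, 0, 0, 0, 0, 0, ⟨0, 0⟩, 0⟩ 0 0) (.pos 159 .pm ⟨0, 0, 104172415, 0, 0, 0, 0, 0, 0, ⟨0, 0⟩, 0⟩ 0 0)) (.pos 157 .pm ⟨0, 0, 189810763, 0, 0, 0, 0, 0, 0, ⟨0, 0⟩, 0⟩ 0 0)) (.pos 152 .pm ⟨0, 0, 341583095, 0, 0, 0, 0, 0, 0, ⟨0, 0⟩, 0⟩ 0 0)) (.pos 148 .pm ⟨0, 0, 604496554, 0, 0, 0, 0, 0, 0, ⟨0, 0⟩, 0⟩ 0 0)) (.pos 138 .pm ⟨0, 0, 1058585835, 0, 0, 0, 0, 0, 0, ⟨0, 0⟩, 0⟩ 0 0)) (.pos 118 .pm ⟨0, 0, 1913300103, 0, 0, 0, 0, 0, 0, ⟨0, 0⟩, 0⟩ 0 0)) (.pos 102 .pm ⟨0, 0, 3594531520, 0, 0, 0, 0, 0, 0, ⟨0, 0⟩, 0⟩ 0 0)) (.pos 72 .pm ⟨0, 0, 6860408185, 0, 0, 0, 0, 0, 0, ⟨0, 0⟩, 0⟩ 0 0)) (.pos 5 .pm ⟨0,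 0, 12806564886, 0, 0, 0, 0, 0, 0, ⟨0, 0⟩, 0⟩ 0 0)) (.pos 3 .pm ⟨0, 0, 13371322366, 0, 0, 0, 0, 0, 0, ⟨0, 0⟩, 0⟩ 0 0)) (.cut .v 4294967296 (.cut .v 268435456 (.cut .v 67108864 (.pos 8 .pp ⟨0, 0, 0, 0, 0, 0, 0, 0, 0, ⟨0, 0⟩, 0⟩ 0 0) (.cut .v 134217728 (.cut .v 100663296 (.pos 97 .pp ⟨139522664901, 0, 0, 28249495099, 0, 0, 0, 0, 0, ⟨0, 0⟩, 0⟩ 0 0) (.void 98 ⟨0, 0, 0, 100000, 0, 0, 0, 0, 0, ⟨0, 0⟩, 0⟩ 0 0)) (.void 88 ⟨0, 0, 0, 100000, 0, 0, 0, 0, 0, ⟨0, 0⟩, 0⟩ 0 0))) (.void 66 ⟨0, 0, 0, 100000, 0, 0, 0, 0, 0, ⟨0, 0⟩, 0⟩ 0 0)) (.void 155 ⟨0, 0, 0, 100000, 0, 0, 0, 0, 0, ⟨0, 0⟩, 0⟩ 0 0)))),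
    by decide +kernel⟩

def covers37 : cell.Covers table row37.1 :=
  ⟨(.cut .d 0 (.cut .v 16777216 (.cut .d (-8388608) (.void 1 ⟨0, 0, 101536, 0, 0, 0, 0, 0, 0, ⟨0, 0⟩, 0⟩ 0 0) (.cut .d (-4194304) (.void 1 ⟨0, 0, 0, 0, 0, 100000, 0, 0, 0, ⟨0, 0⟩, 0⟩ 0 0) (.cut .v 8388608 (.pos 2 .mm ⟨0, 0, 167772160000, 0, 0, 0, 0, 0, 0, ⟨0, 0⟩, 0⟩ 0 0) (.pos 3 .mm ⟨26207520517, 0, 29093247922, 0, 0, 112471391561, 0, 0, 0, ⟨0, 0⟩, 0⟩ 0 0)))) (.cut .v 4294967296 (.cut .v 268435456 (.cut .v 67108864 (.cut .d (-8388608) (.void 8 ⟨100000, 0, 0, 0, 0, 0, 0, 0, 0, ⟨0, 0⟩, 0⟩ 0 0) (.cut .d (-4194304) (.void 8 ⟨100000, 0, 0, 0, 0, 0, 0, 0, 0, ⟨0, 0⟩, 0⟩ 0 0) (.cut .d (-2097152) (.void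 8 ⟨100000, 0, 0, 0, 0, 0, 0, 0, 0, ⟨0, 0⟩, 0⟩ 0 0) (.cut .d (-1048576) (.void 8 ⟨100000, 0, 0, 0, 0, 0, 0, 0, 0, ⟨0, 0⟩, 0⟩ 0 0) (.cut .d (-524288) (.void 8 ⟨100000, 0, 0, 0, 0, 0, 0, 0, 0, ⟨0, 0⟩, 0⟩ 0 0) (.cut .d (-262144) (.void 8 ⟨100000, 0, 0, 0, 0, 0, 0, 0, 0, ⟨0, 0⟩, 0⟩ 0 0) (.cut .d (-131072) (.void 8 ⟨100000, 0, 0, 0, 0, 0, 0, 0, 0, ⟨0, 0⟩, 0⟩ 0 0) (.pos 8 .mp ⟨152186103280, 0, 0, 0, 0, 0, 0, 0, 0, ⟨0, 0⟩, 0⟩ 0 0)))))))) (.void 49 ⟨100000, 0, 0, 0, 0, 0, 0, 0, 0, ⟨0, 0⟩, 0⟩ 0 0)) (.void 66 ⟨91719, 0, 0, 8281, 0, 0, 0, 0, 0, ⟨0, 0⟩, 0⟩ 0 0)) (.void 155 ⟨91719, 0, 0, 8281, 0, 0, 0, 0, 0, ⟨0, 0⟩, 0⟩ 0 0))) (.cut .v 16777216 (.cut .v 8388608 (.cut .v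 4194304 (.cut .v 2097152 (.cut .v 1048576 (.cut .v 524288 (.cut .v 262144 (.cut .v 131072 (.cut .v 65536 (.cut .v 32768 (.cut .v 16384 (.pos 158 .pm ⟨0, 0, 52528260, 0, 0, 0, 0, 0, 0, ⟨0, 0⟩, 0⟩ 0 0) (.pos 159 .pm ⟨0, 0, 131288730, 0, 0, 0, 0, 0, 0, ⟨0, 0⟩, 0⟩ 0 0)) (.pos 157 .pm ⟨0, 0, 239770500, 0, 0, 0, 0, 0, 0, ⟨0, 0⟩, 0⟩ 0 0)) (.pos 152 .pm ⟨0, 0, 435931791, 0, 0, 0, 0, 0, 0, ⟨0, 0⟩, 0⟩ 0 0)) (.pos 148 .pm ⟨0, 0, 778729452, 0, 0, 0, 0, 0, 0, ⟨0, 0⟩, 0⟩ 0 0)) (.pos 138 .pm ⟨0, 0, 1364694279, 0, 0, 0, 0, 0, 0, ⟨0, 0⟩, 0⟩ 0 0)) (.pos 118 .pm ⟨0, 0, 2504923278, 0, 0, 0, 0, 0, 0, ⟨0, 0⟩, 0⟩ 0 0)) (.pos 102 .pm ⟨0, 0, 4790198226, 0, 0, 0, 0, 0, 0, ⟨0, 0⟩, 0⟩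 0 0)) (.pos 72 .pm ⟨0, 0, 9329241459, 0, 0, 0, 0, 0, 0, ⟨0, 0⟩, 0⟩ 0 0)) (.pos 5 .pm ⟨0, 0, 17931877428, 0, 0, 0, 0, 0, 0, ⟨0, 0⟩, 0⟩ 0 0)) (.pos 3 .pm ⟨0, 0, 18910553806, 0, 0, 0, 0, 0, 0, ⟨0, 0⟩, 0⟩ 0 0)) (.cut .v 4294967296 (.cut .v 268435456 (.cut .v 67108864 (.pos 8 .pp ⟨0, 0, 0, 0, 0, 0, 0, 0, 0, ⟨0, 0⟩, 0⟩ 0 0) (.cut .v 134217728 (.cut .v 100663296 (.cut .v 83886080 (.pos 107 .pp ⟨167772160000, 0, 0, 0, 0, 0, 0, 0, 0, ⟨0, 0⟩, 0⟩ 0 0) (.void 108 ⟨84653, 0, 0, 15347, 0, 0, 0, 0, 0, ⟨0, 0⟩, 0⟩ 0 0)) (.void 98 ⟨0, 0, 0, 100000, 0, 0, 0, 0, 0, ⟨0, 0⟩, 0⟩ 0 0)) (.void 88 ⟨0, 0, 0, 100000, 0, 0, 0, 0, 0, ⟨0, 0⟩, 0⟩ 0 0))) (.void 66 ⟨0, 0, 0, 100000, 0, 0,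 0, 0, 0, ⟨0, 0⟩, 0⟩ 0 0)) (.void 155 ⟨0, 0, 0, 100000, 0, 0, 0, 0, 0, ⟨0, 0⟩, 0⟩ 0 0)))),
    by decide +kernel⟩

def covers38 : cell.Covers table row38.1 :=
  ⟨(.cut .d 0 (.cut .v 16777216 (.cut .d (-8388608) (.void 1 ⟨0, 0, 0, 0, 0, 100000, 0, 0, 0, ⟨0, 0⟩, 0⟩ 0 0) (.cut .d (-4194304) (.void 1 ⟨0, 0, 0, 0, 0, 100952, 0, 0, 0, ⟨0, 0⟩, 0⟩ 0 0) (.cut .v 8388608 (.pos 2 .mm ⟨0, 0, 167772160000, 0, 0, 0, 0, 0, 0, ⟨0, 0⟩, 0⟩ 0 0) (.cut .d (-2097152) (.void 3 ⟨100000, 0, 0, 0, 0, 0, 0, 0, 0, ⟨0, 0⟩, 0⟩ 0 0) (.cut .v 12582912 (.pos 6 .mm ⟨0, 0, 24064682312, 0, 0, 140574623566, 0, 0, 0, ⟨0, 0⟩, 0⟩ 0 0) (.pos 7 .mm ⟨59123067890, 0, 0, 0, 0, 108649092110, 0, 0, 0,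 ⟨0, 0⟩, 0⟩ 0 0)))))) (.cut .v 4294967296 (.cut .v 268435456 (.cut .v 67108864 (.cut .d (-8388608) (.void 8 ⟨100000, 0, 0, 0, 0, 0, 0, 0, 0, ⟨0, 0⟩, 0⟩ 0 0) (.cut .d (-4194304) (.void 8 ⟨100000, 0, 0, 0, 0, 0, 0, 0, 0, ⟨0, 0⟩, 0⟩ 0 0) (.cut .d (-2097152) (.void 8 ⟨100000, 0, 0, 0, 0, 0, 0, 0, 0, ⟨0, 0⟩, 0⟩ 0 0) (.cut .d (-1048576) (.void 8 ⟨100000, 0, 0, 0, 0, 0, 0, 0, 0, ⟨0, 0⟩, 0⟩ 0 0) (.cut .d (-524288) (.void 8 ⟨100000, 0, 0, 0, 0, 0, 0, 0, 0, ⟨0, 0⟩, 0⟩ 0 0) (.cut .d (-262144) (.void 8 ⟨100000, 0, 0, 0, 0, 0, 0, 0, 0, ⟨0, 0⟩, 0⟩ 0 0) (.cut .d (-131072) (.void 8 ⟨100000, 0, 0, 0, 0, 0, 0, 0, 0, ⟨0, 0⟩, 0⟩ 0 0) (.cut .d (-65536) (.void 8 ⟨100000, 0, 0, 0,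 0, 0, 0, 0, 0, ⟨0, 0⟩, 0⟩ 0 0) (.cut .d (-32768) (.void 8 ⟨100000, 0, 0, 0, 0, 0, 0, 0, 0, ⟨0, 0⟩, 0⟩ 0 0) (.pos 8 .mp ⟨167772160000, 0, 0, 0, 0, 0, 0, 0, 0, ⟨0, 0⟩, 0⟩ 0 0)))))))))) (.void 49 ⟨100000, 0, 0, 0, 0, 0, 0, 0, 0, ⟨0, 0⟩, 0⟩ 0 0)) (.void 66 ⟨98000, 0, 0, 5973, 0, 3973, 0, 0, 0, ⟨0, 0⟩, 0⟩ 0 0)) (.void 155 ⟨91704, 0, 0, 8296, 0, 0, 0, 0, 0, ⟨0, 0⟩, 0⟩ 0 0))) (.cut .v 16777216 (.cut .v 8388608 (.cut .v 4194304 (.cut .v 2097152 (.cut .v 1048576 (.cut .v 524288 (.cut .v 262144 (.cut .v 131072 (.cut .v 65536 (.cut .v 32768 (.cut .v 16384 (.cut .v 8192 (.pos 160 .pm ⟨0, 0, 43536863, 0, 0, 0, 0, 0, 0, ⟨0, 0⟩, 0⟩ 0 0) (.pos 161 .pm ⟨0, 0, 109931752, 0,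 0, 0, 0, 0, 0, ⟨0, 0⟩, 0⟩ 0 0)) (.pos 159 .pm ⟨0, 0, 203380396, 0, 0, 0, 0, 0, 0, ⟨0, 0⟩, 0⟩ 0 0)) (.pos 157 .pm ⟨0, 0, 365550805, 0, 0, 0, 0, 0, 0, ⟨0, 0⟩, 0⟩ 0 0)) (.pos 152 .pm ⟨0, 0, 654388323, 0, 0, 0, 0, 0, 0, ⟨0, 0⟩, 0⟩ 0 0)) (.pos 148 .pm ⟨0, 0, 1162303205, 0, 0, 0, 0, 0, 0, ⟨0, 0⟩, 0⟩ 0 0)) (.pos 138 .pm ⟨0, 0, 2035951754, 0, 0, 0, 0, 0, 0, ⟨0, 0⟩, 0⟩ 0 0)) (.pos 118 .pm ⟨0, 0, 3767927802, 0, 0, 0, 0, 0, 0, ⟨0, 0⟩, 0⟩ 0 0)) (.pos 102 .pm ⟨0, 0, 7014024046, 0, 0, 0, 0, 0, 0, ⟨0, 0⟩, 0⟩ 0 0)) (.pos 72 .pm ⟨0, 0, 13062777472, 0, 0, 0, 0, 0, 0, ⟨0, 0⟩, 0⟩ 0 0)) (.pos 5 .pm ⟨0, 0, 23478177065, 0, 0, 0, 0, 0, 0, ⟨0, 0⟩, 0⟩ 0 0)) (.pos 3 .pm ⟨0, 0, 23244832667,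 0, 0, 0, 0, 0, 0, ⟨0, 0⟩, 0⟩ 0 0)) (.cut .v 4294967296 (.cut .v 268435456 (.cut .v 67108864 (.pos 8 .pp ⟨0, 0, 0, 0, 0, 0, 0, 0, 0, ⟨0, 0⟩, 0⟩ 0 0) (.cut .v 134217728 (.cut .v 100663296 (.cut .v 83886080 (.pos 107 .pp ⟨167772160000, 0, 0, 0, 0, 0, 0, 0, 0, ⟨0, 0⟩, 0⟩ 0 0) (.void 108 ⟨84634, 0, 0, 15366, 0, 0, 0, 0, 0, ⟨0, 0⟩, 0⟩ 0 0)) (.void 98 ⟨0, 0, 0, 100000, 0, 0, 0, 0, 0, ⟨0, 0⟩, 0⟩ 0 0)) (.void 88 ⟨0, 0, 0, 100000, 0, 0, 0, 0, 0, ⟨0, 0⟩, 0⟩ 0 0))) (.void 66 ⟨0, 0, 0, 100000, 0, 0, 0, 0, 0, ⟨0, 0⟩, 0⟩ 0 0)) (.void 155 ⟨0, 0, 0, 100000, 0, 0, 0, 0, 0, ⟨0, 0⟩, 0⟩ 0 0)))),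
    by decide +kernel⟩

def covers39 : cell.Covers table row39.1 :=
  ⟨(.cut .d 0 (.cut .v 16777216 (.cut .d (-8388608) (.void 1 ⟨0, 0, 0, 0, 0, 99984, 0, 0, 0, ⟨0, 0⟩, 0⟩ 0 0) (.cut .d (-4194304) (.void 1 ⟨0, 0, 0, 0, 0, 1000000000, 0, 0, 0, ⟨0, 0⟩, 0⟩ 0 0) (.cut .d (-2097152) (.void 1 ⟨0, 0, 0, 0, 0, 100000, 0, 0, 0, ⟨0, 0⟩, 0⟩ 0 0) (.cut .v 8388608 (.pos 2 .mm ⟨0, 0, 167772160000, 0, 0, 0, 0, 0, 0, ⟨0, 0⟩, 0⟩ 0 0) (.cut .v 12582912 (.pos 6 .mm ⟨65653546692, 0, 70801695621, 0, 0, 31316917687, 0, 0, 0, ⟨0, 0⟩, 0⟩ 0 0) (.pos 7 .mm ⟨150997524438, 0, 0, 0, 0, 16774635562, 0, 0, 0, ⟨0, 0⟩, 0⟩ 0 0)))))) (.cut .v 4294967296 (.cut .v 268435456 (.cut .v 67108864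 (.cut .d (-8388608) (.void 8 ⟨100000, 0, 0, 0, 0, 0, 0, 0, 0, ⟨0, 0⟩, 0⟩ 0 0) (.cut .d (-4194304) (.void 8 ⟨100000, 0, 0, 0, 0, 0, 0, 0, 0, ⟨0, 0⟩, 0⟩ 0 0) (.cut .d (-2097152) (.void 8 ⟨100000, 0, 0, 0, 0, 0, 0, 0, 0, ⟨0, 0⟩, 0⟩ 0 0) (.cut .d (-1048576) (.void 8 ⟨100000, 0, 0, 0, 0, 0, 0, 0, 0, ⟨0, 0⟩, 0⟩ 0 0) (.cut .d (-524288) (.void 8 ⟨100000, 0, 0, 0, 0, 0, 0, 0, 0, ⟨0, 0⟩, 0⟩ 0 0) (.cut .d (-262144) (.void 8 ⟨100000, 0, 0, 0, 0, 0, 0, 0, 0, ⟨0, 0⟩, 0⟩ 0 0) (.cut .d (-131072) (.void 8 ⟨100000, 0, 0, 0, 0, 0, 0, 0, 0, ⟨0, 0⟩, 0⟩ 0 0) (.cut .d (-65536) (.void 8 ⟨100000, 0, 0, 0, 0, 0, 0, 0, 0, ⟨0, 0⟩, 0⟩ 0 0) (.cut .d (-32768) (.void 8 ⟨100000, 0, 0, 0,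 0, 0, 0, 0, 0, ⟨0, 0⟩, 0⟩ 0 0) (.cut .d (-16384) (.void 8 ⟨100000, 0, 0, 0, 0, 0, 0, 0, 0, ⟨0, 0⟩, 0⟩ 0 0) (.pos 8 .mp ⟨167772160000, 0, 0, 0, 0, 0, 0, 0, 0, ⟨0, 0⟩, 0⟩ 0 0))))))))))) (.void 49 ⟨100000, 0, 0, 0, 0, 0, 0, 0, 0, ⟨0, 0⟩, 0⟩ 0 0)) (.void 66 ⟨91697, 0, 0, 8303, 0, 0, 0, 0, 0, ⟨0, 0⟩, 0⟩ 0 0)) (.void 155 ⟨91697, 0, 0, 8303, 0, 0, 0, 0, 0, ⟨0, 0⟩, 0⟩ 0 0))) (.cut .v 16777216 (.cut .v 8388608 (.cut .v 4194304 (.cut .v 2097152 (.cut .v 1048576 (.cut .v 524288 (.cut .v 262144 (.cut .v 131072 (.cut .v 65536 (.cut .v 32768 (.cut .v 16384 (.cut .v 8192 (.pos 160 .pm ⟨0, 0, 61780826, 0, 0, 0, 0, 0, 0, ⟨0, 0⟩, 0⟩ 0 0) (.pos 161 .pm ⟨0, 0, 159418145, 0, 0,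 0, 0, 0, 0, ⟨0, 0⟩, 0⟩ 0 0)) (.pos 159 .pm ⟨0, 0, 296262536, 0, 0, 0, 0, 0, 0, ⟨0, 0⟩, 0⟩ 0 0)) (.pos 157 .pm ⟨0, 0, 544412404, 0, 0, 0, 0, 0, 0, ⟨0, 0⟩, 0⟩ 0 0)) (.pos 152 .pm ⟨0, 0, 987107110, 0, 0, 0, 0, 0, 0, ⟨0, 0⟩, 0⟩ 0 0)) (.pos 148 .pm ⟨0, 0, 1772745130, 0, 0, 0, 0, 0, 0, ⟨0, 0⟩, 0⟩ 0 0)) (.pos 138 .pm ⟨0, 0, 3129144133, 0, 0, 0, 0, 0, 0, ⟨0, 0⟩, 0⟩ 0 0)) (.pos 118 .pm ⟨0, 0, 5779391945, 0, 0, 0, 0, 0, 0, ⟨0, 0⟩, 0⟩ 0 0)) (.pos 102 .pm ⟨0, 0, 11002935336, 0, 0, 0, 0, 0, 0, ⟨0, 0⟩, 0⟩ 0 0)) (.pos 72 .pm ⟨0, 0, 21046046704, 0, 0, 0, 0, 0, 0, ⟨0, 0⟩, 0⟩ 0 0)) (.pos 5 .pm ⟨0, 0, 39306407896, 0, 0, 0, 0, 0, 0, ⟨0, 0⟩, 0⟩ 0 0)) (.pos 3 .pm ⟨0, 0, 39058242246,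 0, 0, 0, 0, 0, 0, ⟨0, 0⟩, 0⟩ 0 0)) (.cut .v 4294967296 (.cut .v 268435456 (.cut .v 67108864 (.pos 8 .pp ⟨0, 0, 0, 0, 0, 0, 0, 0, 0, ⟨0, 0⟩, 0⟩ 0 0) (.cut .v 134217728 (.cut .v 100663296 (.cut .v 83886080 (.pos 107 .pp ⟨167772160000, 0, 0, 0, 0, 0, 0, 0, 0, ⟨0, 0⟩, 0⟩ 0 0) (.void 108 ⟨84634, 0, 0, 15366, 0, 0, 0, 0, 0, ⟨0, 0⟩, 0⟩ 0 0)) (.void 98 ⟨0, 0, 0, 100000, 0, 0, 0, 0, 0, ⟨0, 0⟩, 0⟩ 0 0)) (.void 88 ⟨0, 0, 0, 100000, 0, 0, 0, 0, 0, ⟨0, 0⟩, 0⟩ 0 0))) (.void 66 ⟨0, 0, 0, 100000, 0, 0, 0, 0, 0, ⟨0, 0⟩, 0⟩ 0 0)) (.void 155 ⟨0, 0, 0, 100000, 0, 0, 0, 0, 0, ⟨0, 0⟩, 0⟩ 0 0)))),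
    by decide +kernel⟩

def covers40 : cell.Covers table row40.1 :=
  ⟨(.cut .d 0 (.cut .v 16777216 (.cut .d (-8388608) (.void 1 ⟨0, 0, 0, 0, 0, 100002, 0, 0, 0, ⟨0, 0⟩, 0⟩ 0 0) (.cut .d (-4194304) (.void 1 ⟨0, 0, 134859, 0, 0, 0, 0, 0, 0, ⟨0, 0⟩, 0⟩ 0 0) (.cut .d (-2097152) (.void 1 ⟨0, 0, 100000, 0, 0, 0, 0, 0, 0, ⟨0, 0⟩, 0⟩ 0 0) (.cut .d (-1048576) (.void 1 ⟨0, 0, 0, 0, 0, 101312, 0, 0, 0, ⟨0, 0⟩, 0⟩ 0 0) (.cut .v 8388608 (.void 2 ⟨0, 0, 100000, 0, 0, 0, 0, 0, 0, ⟨0, 0⟩, 0⟩ 0 0) (.cut .d (-524288) (.void 3 ⟨100000, 0, 0, 0, 0, 0, 0, 0, 0, ⟨0, 0⟩, 0⟩ 0 0) (.cut .d (-262144) (.void 3 ⟨100000, 0, 0, 0, 0, 0, 0, 0, 0, ⟨0, 0⟩, 0⟩ 0 0) (.cut .v 12582912 (.pos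 6 .mm ⟨86658159784, 0, 81114000216, 0, 0, 0, 0, 0, 0, ⟨0, 0⟩, 0⟩ 0 0) (.pos 7 .mm ⟨166521088764, 0, 0, 0, 0, 1251071236, 0, 0, 0, ⟨0, 0⟩, 0⟩ 0 0))))))))) (.cut .v 4294967296 (.cut .v 268435456 (.cut .v 67108864 (.cut .d (-8388608) (.void 8 ⟨100000, 0, 0, 0, 0, 0, 0, 0, 0, ⟨0, 0⟩, 0⟩ 0 0) (.cut .d (-4194304) (.void 8 ⟨100000, 0, 0, 0, 0, 0, 0, 0, 0, ⟨0, 0⟩, 0⟩ 0 0) (.cut .d (-2097152) (.void 8 ⟨100000, 0, 0, 0, 0, 0, 0, 0, 0, ⟨0, 0⟩, 0⟩ 0 0) (.cut .d (-1048576) (.void 8 ⟨100000, 0, 0, 0, 0, 0, 0, 0, 0, ⟨0, 0⟩, 0⟩ 0 0) (.cut .d (-524288) (.void 8 ⟨100000, 0, 0, 0, 0, 0, 0, 0, 0, ⟨0, 0⟩, 0⟩ 0 0) (.cut .d (-262144) (.void 8 ⟨100000, 0, 0, 0, 0, 0, 0, 0, 0, ⟨0,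 0⟩, 0⟩ 0 0) (.cut .d (-131072) (.void 8 ⟨100000, 0, 0, 0, 0, 0, 0, 0, 0, ⟨0, 0⟩, 0⟩ 0 0) (.cut .d (-65536) (.void 8 ⟨100000, 0, 0, 0, 0, 0, 0, 0, 0, ⟨0, 0⟩, 0⟩ 0 0) (.cut .d (-32768) (.void 8 ⟨100000, 0, 0, 0, 0, 0, 0, 0, 0, ⟨0, 0⟩, 0⟩ 0 0) (.cut .d (-16384) (.void 8 ⟨100000, 0, 0, 0, 0, 0, 0, 0, 0, ⟨0, 0⟩, 0⟩ 0 0) (.cut .d (-8192) (.cut .v 33554432 (.pos 9 .mp ⟨167772160000, 0, 0, 0, 0, 0, 0, 0, 0, ⟨0, 0⟩, 0⟩ 0 0) (.void 10 ⟨100000, 0, 0, 0, 0, 0, 0, 0, 0, ⟨0, 0⟩, 0⟩ 0 0)) (.pos 8 .mp ⟨167772160000, 0, 0, 0, 0, 0, 0, 0, 0, ⟨0, 0⟩, 0⟩ 0 0)))))))))))) (.void 49 ⟨100000, 0, 0, 0, 0, 0, 0, 0, 0, ⟨0, 0⟩, 0⟩ 0 0)) (.void 66 ⟨199679, 0, 0, 6995, 0, 826, 0, 0, 0,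 ⟨0, 0⟩, 0⟩ 0 0)) (.void 155 ⟨91689, 0, 0, 8311, 0, 0, 0, 0, 0, ⟨0, 0⟩, 0⟩ 0 0))) (.cut .v 16777216 (.cut .v 8388608 (.cut .v 4194304 (.cut .v 2097152 (.cut .v 1048576 (.cut .v 524288 (.cut .v 262144 (.cut .v 131072 (.cut .v 65536 (.cut .v 32768 (.cut .v 16384 (.cut .v 8192 (.cut .v 4096 (.pos 162 .pm ⟨0, 0, 49819654, 0, 0, 0, 0, 0, 0, ⟨0, 0⟩, 0⟩ 0 0) (.pos 163 .pm ⟨0, 0, 128459055, 0, 0, 0, 0, 0, 0, ⟨0, 0⟩, 0⟩ 0 0)) (.pos 161 .pm ⟨0, 0, 239934804, 0, 0, 0, 0, 0, 0, ⟨0, 0⟩, 0⟩ 0 0)) (.pos 159 .pm ⟨0, 0, 445354858, 0, 0, 0, 0, 0, 0, ⟨0, 0⟩, 0⟩ 0 0)) (.pos 157 .pm ⟨0, 0, 813681300, 0, 0, 0, 0, 0, 0, ⟨0, 0⟩, 0⟩ 0 0)) (.pos 152 .pm ⟨0, 0, 1477666506, 0, 0, 0, 0,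 0, 0, ⟨0, 0⟩, 0⟩ 0 0)) (.pos 148 .pm ⟨0, 0, 2654344999, 0, 0, 0, 0, 0, 0, ⟨0, 0⟩, 0⟩ 0 0)) (.pos 138 .pm ⟨0, 0, 4708229782, 0, 0, 0, 0, 0, 0, ⟨0, 0⟩, 0⟩ 0 0)) (.pos 118 .pm ⟨0, 0, 8732967164, 0, 0, 0, 0, 0, 0, ⟨0, 0⟩, 0⟩ 0 0)) (.pos 102 .pm ⟨0, 0, 16530688013, 0, 0, 0, 0, 0, 0, ⟨0, 0⟩, 0⟩ 0 0)) (.pos 72 .pm ⟨0, 0, 31194036102, 0, 0, 0, 0, 0, 0, ⟨0, 0⟩, 0⟩ 0 0)) (.pos 5 .pm ⟨0, 0, 57058160610, 0, 0, 0, 0, 0, 0, ⟨0, 0⟩, 0⟩ 0 0)) (.pos 3 .pm ⟨0, 0, 55011594919, 0, 0, 0, 0, 0, 0, ⟨0, 0⟩, 0⟩ 0 0)) (.cut .v 4294967296 (.cut .v 268435456 (.cut .v 67108864 (.pos 8 .pp ⟨9389996814, 0, 0, 0, 0, 0, 0, 0, 0, ⟨0, 0⟩, 0⟩ 0 0) (.cut .v 134217728 (.cut .v 100663296 (.cut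 .v 83886080 (.cut .d 32898 (.cut .d 16449 (.cut .d 8224 (.cut .d 4112 (.void 107 ⟨100000, 0, 0, 0, 0, 0, 0, 0, 0, ⟨0, 0⟩, 0⟩ 0 0) (.pos 107 .pp ⟨167772160000, 0, 0, 0, 0, 0, 0, 0, 0, ⟨0, 0⟩, 0⟩ 0 0)) (.pos 107 .pp ⟨101978011416, 0, 0, 65794148584, 0, 0, 0, 0, 0, ⟨0, 0⟩, 0⟩ 0 0)) (.pos 107 .pp ⟨0, 0, 0, 55780320004, 0, 0, 0, 0, 0, ⟨0, 0⟩, 0⟩ 0 0)) (.void 107 ⟨0, 0, 0, 100000, 0, 0, 0, 0, 0, ⟨0, 0⟩, 0⟩ 0 0)) (.void 108 ⟨84628, 0, 0, 15372, 0, 0, 0, 0, 0, ⟨0, 0⟩, 0⟩ 0 0)) (.void 98 ⟨0, 0, 0, 100000, 0, 0, 0, 0, 0, ⟨0, 0⟩, 0⟩ 0 0)) (.void 88 ⟨0, 0, 0, 100000, 0, 0, 0, 0, 0, ⟨0, 0⟩, 0⟩ 0 0))) (.void 66 ⟨0, 0, 0, 100000, 0, 0, 0, 0, 0, ⟨0, 0⟩, 0⟩ 0 0)) (.void 155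 ⟨0, 0, 0, 100000, 0, 0, 0, 0, 0, ⟨0, 0⟩, 0⟩ 0 0)))),
    by decide +kernel⟩

def covers41 : cell.Covers table row41.1 :=
  ⟨(.cut .d 0 (.cut .v 16777216 (.cut .d (-8388608) (.void 1 ⟨0, 0, 0, 0, 0, 100000, 0, 0, 0, ⟨0, 0⟩, 0⟩ 0 0) (.cut .d (-4194304) (.void 1 ⟨0, 0, 0, 0, 0, 100000, 0, 0, 0, ⟨0, 0⟩, 0⟩ 0 0) (.cut .d (-2097152) (.void 1 ⟨0, 0, 0, 0, 0, 100000, 0, 0, 0, ⟨0, 0⟩, 0⟩ 0 0) (.cut .d (-1048576) (.void 1 ⟨0, 0, 0, 0, 0, 100000, 0, 0, 0, ⟨0, 0⟩, 0⟩ 0 0) (.cut .d (-524288) (.void 1 ⟨0, 0, 0, 4999, 0, 93873, 0, 0, 0, ⟨0, 0⟩, 0⟩ 0 0) (.cut .d (-262144) (.void 1 ⟨0, 0, 0, 0, 0, 100000, 0, 0, 0, ⟨0, 0⟩, 0⟩ 0 0) (.cut .v 8388608 (.cut .v 4194304 (.pos 4 .mm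 ⟨0, 0, 167772160000, 0, 0, 0, 0, 0, 0, ⟨0, 0⟩, 0⟩ 0 0) (.void 5 ⟨0, 0, 100000, 0, 0, 0, 0, 0, 0, ⟨0, 0⟩, 0⟩ 0 0)) (.cut .d (-131072) (.void 3 ⟨100000, 0, 0, 0, 0, 0, 0, 0, 0, ⟨0, 0⟩, 0⟩ 0 0) (.cut .d (-65536) (.void 3 ⟨100000, 0, 0, 0, 0, 0, 0, 0, 0, ⟨0, 0⟩, 0⟩ 0 0) (.cut .d (-32768) (.void 3 ⟨69653, 0, 30347, 0, 0, 0, 0, 0, 0, ⟨0, 0⟩, 0⟩ 0 0) (.cut .d (-16384) (.void 3 ⟨0, 0, 0, 0, 0, 100000, 0, 0, 0, ⟨0, 0⟩, 0⟩ 0 0) (.pos 3 .mm ⟨72048360035, 0, 14777602507, 0, 0, 80946197458, 0, 0, 0, ⟨0, 0⟩, 0⟩ 0 0)))))))))))) (.cut .v 4294967296 (.cut .v 268435456 (.cut .v 67108864 (.cut .d (-8388608) (.void 8 ⟨100000, 0, 0, 0, 0, 0, 0, 0, 0, ⟨0, 0⟩, 0⟩ 0 0) (.cut .d (-4194304)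 (.void 8 ⟨100000, 0, 0, 0, 0, 0, 0, 0, 0, ⟨0, 0⟩, 0⟩ 0 0) (.cut .d (-2097152) (.void 8 ⟨100000, 0, 0, 0, 0, 0, 0, 0, 0, ⟨0, 0⟩, 0⟩ 0 0) (.cut .d (-1048576) (.void 8 ⟨100000, 0, 0, 0, 0, 0, 0, 0, 0, ⟨0, 0⟩, 0⟩ 0 0) (.cut .d (-524288) (.void 8 ⟨100000, 0, 0, 0, 0, 0, 0, 0, 0, ⟨0, 0⟩, 0⟩ 0 0) (.cut .d (-262144) (.void 8 ⟨100000, 0, 0, 0, 0, 0, 0, 0, 0, ⟨0, 0⟩, 0⟩ 0 0) (.cut .d (-131072) (.void 8 ⟨100000, 0, 0, 0, 0, 0, 0, 0, 0, ⟨0, 0⟩, 0⟩ 0 0) (.cut .d (-65536) (.void 8 ⟨100000, 0, 0, 0, 0, 0, 0, 0, 0, ⟨0, 0⟩, 0⟩ 0 0) (.cut .d (-32768) (.void 8 ⟨100000, 0, 0, 0, 0, 0, 0, 0, 0, ⟨0, 0⟩, 0⟩ 0 0) (.cut .d (-16384) (.void 8 ⟨100000, 0, 0, 0, 0, 0, 0, 0, 0, ⟨0, 0⟩,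 0⟩ 0 0) (.cut .v 33554432 (.pos 9 .mp ⟨167772160000, 0, 0, 0, 0, 0, 0, 0, 0, ⟨0, 0⟩, 0⟩ 0 0) (.cut .l 7801405 (.void 10 ⟨100000, 0, 0, 0, 0, 0, 0, 0, 0, ⟨0, 0⟩, 0⟩ 0 0) (.pos 10 .mp ⟨167772160000, 0, 0, 0, 0, 0, 0, 0, 0, ⟨0, 0⟩, 0⟩ 0 0))))))))))))) (.void 49 ⟨100000, 0, 0, 0, 0, 0, 0, 0, 0, ⟨0, 0⟩, 0⟩ 0 0)) (.void 66 ⟨36, 0, 0, 8327, 0, 91582, 0, 0, 0, ⟨0, 0⟩, 0⟩ 0 0)) (.void 155 ⟨91682, 0, 0, 8318, 0, 0, 0, 0, 0, ⟨0, 0⟩, 0⟩ 0 0))) (.cut .v 16777216 (.cut .v 8388608 (.cut .v 4194304 (.cut .v 2097152 (.cut .v 1048576 (.cut .v 524288 (.cut .v 262144 (.cut .v 131072 (.cut .v 65536 (.cut .v 32768 (.cut .v 16384 (.cut .v 8192 (.cut .v 4096 (.cut .v 2048 (.pos 164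 .pm ⟨0, 0, 46058760, 0, 0, 0, 0, 0, 0, ⟨0, 0⟩, 0⟩ 0 0) (.pos 165 .pm ⟨0, 0, 119622470, 0, 0, 0, 0, 0, 0, ⟨0, 0⟩, 0⟩ 0 0)) (.pos 163 .pm ⟨0, 0, 225037782, 0, 0, 0, 0, 0, 0, ⟨0, 0⟩, 0⟩ 0 0)) (.pos 161 .pm ⟨0, 0, 414365032, 0, 0, 0, 0, 0, 0, ⟨0, 0⟩, 0⟩ 0 0)) (.pos 159 .pm ⟨0, 0, 760073821, 0, 0, 0, 0, 0, 0, ⟨0, 0⟩, 0⟩ 0 0)) (.pos 157 .pm ⟨0, 0, 1390523338, 0, 0, 0, 0, 0, 0, ⟨0, 0⟩, 0⟩ 0 0)) (.pos 152 .pm ⟨0, 0, 2522144159, 0, 0, 0, 0, 0, 0, ⟨0, 0⟩, 0⟩ 0 0)) (.pos 148 .pm ⟨0, 0, 4514963341, 0, 0, 0, 0, 0, 0, ⟨0, 0⟩, 0⟩ 0 0)) (.pos 138 .pm ⟨0, 0, 7989684193, 0, 0, 0, 0, 0, 0, ⟨0, 0⟩, 0⟩ 0 0)) (.pos 118 .pm ⟨0, 0, 15015572221, 0, 0, 0, 0, 0, 0, ⟨0, 0⟩, 0⟩ 0 0))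 (.pos 102 .pm ⟨0, 0, 28442082191, 0, 0, 0, 0, 0, 0, ⟨0, 0⟩, 0⟩ 0 0)) (.pos 72 .pm ⟨0, 0, 52282551842, 0, 0, 0, 0, 0, 0, ⟨0, 0⟩, 0⟩ 0 0)) (.pos 5 .pm ⟨0, 0, 91965770162, 0, 0, 0, 0, 0, 0, ⟨0, 0⟩, 0⟩ 0 0)) (.pos 3 .pm ⟨0, 0, 85412059336, 0, 0, 0, 0, 0, 0, ⟨0, 0⟩, 0⟩ 0 0)) (.cut .v 4294967296 (.cut .v 268435456 (.cut .v 67108864 (.pos 8 .pp ⟨37691129234, 0, 0, 0, 0, 0, 0, 0, 0, ⟨0, 0⟩, 0⟩ 0 0) (.cut .v 134217728 (.cut .v 100663296 (.cut .v 83886080 (.cut .d 24649 (.cut .d 12324 (.cut .d 6162 (.cut .d 3081 (.void 107 ⟨100000, 0, 0, 0, 0, 0, 0, 0, 0, ⟨0, 0⟩, 0⟩ 0 0) (.pos 107 .pp ⟨167772160000, 0, 0, 0, 0, 0, 0, 0, 0, ⟨0, 0⟩, 0⟩ 0 0)) (.pos 107 .pp ⟨57826105489,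 0, 0, 109946054511, 0, 0, 0, 0, 0, ⟨0, 0⟩, 0⟩ 0 0)) (.pos 107 .pp ⟨0, 0, 0, 91056608308, 0, 0, 0, 0, 0, ⟨0, 0⟩, 0⟩ 0 0)) (.void 107 ⟨0, 0, 0, 100000, 0, 0, 0, 0, 0, ⟨0, 0⟩, 0⟩ 0 0)) (.void 108 ⟨84622, 0, 0, 15378, 0, 0, 0, 0, 0, ⟨0, 0⟩, 0⟩ 0 0)) (.void 98 ⟨0, 0, 0, 100000, 0, 0, 0, 0, 0, ⟨0, 0⟩, 0⟩ 0 0)) (.void 88 ⟨0, 0, 0, 100000, 0, 0, 0, 0, 0, ⟨0, 0⟩, 0⟩ 0 0))) (.void 66 ⟨0, 0, 0, 100000, 0, 0, 0, 0, 0, ⟨0, 0⟩, 0⟩ 0 0)) (.void 155 ⟨0, 0, 0, 100000, 0, 0, 0, 0, 0, ⟨0, 0⟩, 0⟩ 0 0)))),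
    by decide +kernel⟩

def covers42 : cell.Covers table row42.1 :=
  ⟨(.cut .d 0 (.cut .v 16777216 (.cut .d (-8388608) (.void 1 ⟨0, 0, 0, 0, 0, 100000, 0, 0, 0, ⟨0, 0⟩, 0⟩ 0 0) (.cut .d (-4194304) (.void 1 ⟨0, 0, 100001, 0, 0, 0, 0, 0, 0, ⟨0, 0⟩, 0⟩ 0 0) (.cut .d (-2097152) (.void 1 ⟨0, 0, 0, 0, 0, 100000, 0, 0, 0, ⟨0, 0⟩, 0⟩ 0 0) (.cut .d (-1048576) (.void 1 ⟨0, 0, 0, 0, 0, 100000, 0, 0, 0, ⟨0, 0⟩, 0⟩ 0 0) (.cut .d (-524288) (.void 1 ⟨0, 0, 0, 0, 0, 100000, 0, 0, 0, ⟨0, 0⟩, 0⟩ 0 0) (.cut .d (-262144) (.void 1 ⟨0, 0, 0, 0, 0, 100000, 0, 0, 0, ⟨0, 0⟩, 0⟩ 0 0) (.cut .d (-131072) (.void 1 ⟨0, 0, 0, 0, 0, 100000, 0, 0, 0, ⟨0, 0⟩, 0⟩ 0 0) (.cut .v 8388608 (.void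 2 ⟨0, 0, 290331, 0, 0, 5312, 0, 1, 0, ⟨6485302, 0⟩, 0⟩ 342 353) (.cut .d (-65536) (.void 3 ⟨100000, 0, 0, 0, 0, 0, 0, 0, 0, ⟨0, 0⟩, 0⟩ 0 0) (.cut .d (-32768) (.void 3 ⟨1000000000, 0, 0, 0, 0, 0, 0, 0, 0, ⟨0, 0⟩, 0⟩ 0 0) (.cut .d (-16384) (.void 3 ⟨69652, 0, 30348, 0, 0, 0, 0, 0, 0, ⟨0, 0⟩, 0⟩ 0 0) (.cut .d (-8192) (.void 3 ⟨0, 0, 0, 0, 0, 100000, 0, 0, 0, ⟨0, 0⟩, 0⟩ 0 0) (.pos 3 .mm ⟨92972814476, 0, 74799345524, 0, 0, 0, 0, 0, 0, ⟨0, 0⟩, 0⟩ 0 0))))))))))))) (.cut .v 4294967296 (.cut .v 268435456 (.cut .v 67108864 (.cut .d (-8388608) (.void 8 ⟨100000, 0, 0, 0, 0, 0, 0, 0, 0, ⟨0, 0⟩, 0⟩ 0 0) (.cut .d (-4194304) (.void 8 ⟨100000, 0, 0, 0, 0, 0, 0, 0, 0, ⟨0, 0⟩,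 0⟩ 0 0) (.cut .d (-2097152) (.void 8 ⟨100000, 0, 0, 0, 0, 0, 0, 0, 0, ⟨0, 0⟩, 0⟩ 0 0) (.cut .d (-1048576) (.void 8 ⟨100000, 0, 0, 0, 0, 0, 0, 0, 0, ⟨0, 0⟩, 0⟩ 0 0) (.cut .d (-524288) (.void 8 ⟨100000, 0, 0, 0, 0, 0, 0, 0, 0, ⟨0, 0⟩, 0⟩ 0 0) (.cut .d (-262144) (.void 8 ⟨100000, 0, 0, 0, 0, 0, 0, 0, 0, ⟨0, 0⟩, 0⟩ 0 0) (.cut .d (-131072) (.void 8 ⟨100000, 0, 0, 0, 0, 0, 0, 0, 0, ⟨0, 0⟩, 0⟩ 0 0) (.cut .d (-65536) (.void 8 ⟨100000, 0, 0, 0, 0, 0, 0, 0, 0, ⟨0, 0⟩, 0⟩ 0 0) (.cut .d (-32768) (.void 8 ⟨100000, 0, 0, 0, 0, 0, 0, 0, 0, ⟨0, 0⟩, 0⟩ 0 0) (.cut .d (-16384) (.void 8 ⟨100000, 0, 0, 0, 0, 0, 0, 0, 0, ⟨0, 0⟩, 0⟩ 0 0) (.cut .d (-8192) (.void 8 ⟨100000, 0, 0,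 0, 0, 0, 0, 0, 0, ⟨0, 0⟩, 0⟩ 0 0) (.cut .v 33554432 (.pos 9 .mp ⟨167772160000, 0, 0, 0, 0, 0, 0, 0, 0, ⟨0, 0⟩, 0⟩ 0 0) (.cut .l 7801405 (.void 10 ⟨100000, 0, 0, 0, 0, 0, 0, 0, 0, ⟨0, 0⟩, 0⟩ 0 0) (.pos 10 .mp ⟨167772160000, 0, 0, 0, 0, 0, 0, 0, 0, ⟨0, 0⟩, 0⟩ 0 0)))))))))))))) (.void 49 ⟨100000, 0, 0, 0, 0, 0, 0, 0, 0, ⟨0, 0⟩, 0⟩ 0 0)) (.void 66 ⟨91682, 0, 0, 8318, 0, 0, 0, 0, 0, ⟨0, 0⟩, 0⟩ 0 0)) (.void 155 ⟨91546, 0, 0, 8454, 0, 0, 0, 0, 0, ⟨0, 0⟩, 0⟩ 0 0))) (.cut .v 16777216 (.cut .v 8388608 (.cut .v 4194304 (.cut .v 2097152 (.cut .v 1048576 (.cut .v 524288 (.cut .v 262144 (.cut .v 131072 (.cut .v 65536 (.cut .v 32768 (.cut .v 16384 (.cut .v 8192 (.cut .v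 4096 (.cut .v 2048 (.cut .v 1024 (.pos 166 .pm ⟨0, 0, 49108468, 0, 0, 0, 0, 0, 0, ⟨0, 0⟩, 0⟩ 0 0) (.pos 167 .pm ⟨0, 0, 123630874, 0, 0, 0, 0, 0, 0, ⟨0, 0⟩, 0⟩ 0 0)) (.pos 165 .pm ⟨0, 0, 234113229, 0, 0, 0, 0, 0, 0, ⟨0, 0⟩, 0⟩ 0 0)) (.pos 163 .pm ⟨0, 0, 430313796, 0, 0, 0, 0, 0, 0, ⟨0, 0⟩, 0⟩ 0 0)) (.pos 161 .pm ⟨0, 0, 794686277, 0, 0, 0, 0, 0, 0, ⟨0, 0⟩, 0⟩ 0 0)) (.pos 159 .pm ⟨0, 0, 1466885264, 0, 0, 0, 0, 0, 0, ⟨0, 0⟩, 0⟩ 0 0)) (.pos 157 .pm ⟨0, 0, 2690344182, 0, 0, 0, 0, 0, 0, ⟨0, 0⟩, 0⟩ 0 0)) (.pos 152 .pm ⟨0, 0, 4880478445, 0, 0, 0, 0, 0, 0, ⟨0, 0⟩, 0⟩ 0 0)) (.pos 148 .pm ⟨0, 0, 8722384671, 0, 0, 0, 0, 0, 0, ⟨0, 0⟩, 0⟩ 0 0)) (.pos 138 .pm ⟨0, 0, 15434573214,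 0, 0, 0, 0, 0, 0, ⟨0, 0⟩, 0⟩ 0 0)) (.pos 118 .pm ⟨0, 0, 28996520154, 0, 0, 0, 0, 0, 0, ⟨0, 0⟩, 0⟩ 0 0)) (.pos 102 .pm ⟨0, 0, 55913263897, 0, 0, 0, 0, 0, 0, ⟨0, 0⟩, 0⟩ 0 0)) (.pos 72 .pm ⟨0, 0, 101616021604, 0, 0, 0, 0, 0, 0, ⟨0, 0⟩, 0⟩ 0 0)) (.pos 5 .pm ⟨0, 0, 167772160000, 0, 0, 0, 0, 0, 0, ⟨0, 0⟩, 0⟩ 0 0)) (.pos 3 .pm ⟨0, 0, 158410343822, 0, 0, 0, 0, 0, 0, ⟨0, 0⟩, 0⟩ 0 0)) (.cut .v 4294967296 (.cut .v 268435456 (.cut .v 67108864 (.pos 8 .pp ⟨143606326691, 0, 0, 0, 0, 0, 0, 0, 0, ⟨0, 0⟩, 0⟩ 0 0) (.cut .v 134217728 (.cut .v 100663296 (.cut .v 83886080 (.cut .d 16417 (.cut .d 8208 (.cut .d 4104 (.cut .d 2052 (.void 107 ⟨100000, 0, 0, 0, 0, 0, 0, 0, 0, ⟨0, 0⟩,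 0⟩ 0 0) (.cut .d 3078 (.cut .s 16750592 (.void 107 ⟨100000, 0, 0, 0, 0, 0, 0, 0, 0, ⟨0, 0⟩, 0⟩ 0 0) (.cut .l 7801405 (.void 107 ⟨100000, 0, 0, 0, 0, 0, 0, 0, 0, ⟨0, 0⟩, 0⟩ 0 0) (.pos 107 .pp ⟨167772160000, 0, 0, 0, 0, 0, 0, 0, 0, ⟨0, 0⟩, 0⟩ 0 0))) (.pos 107 .pp ⟨167772160000, 0, 0, 0, 0, 0, 0, 0, 0, ⟨0, 0⟩, 0⟩ 0 0))) (.pos 107 .pp ⟨0, 0, 0, 167772160000, 0, 0, 0, 0, 0, ⟨0, 0⟩, 0⟩ 0 0)) (.pos 107 .pp ⟨0, 0, 0, 167772160000, 0, 0, 0, 0, 0, ⟨0, 0⟩, 0⟩ 0 0)) (.void 107 ⟨0, 0, 0, 100000, 0, 0, 0, 0, 0, ⟨0, 0⟩, 0⟩ 0 0)) (.void 108 ⟨84619, 0, 0, 15381, 0, 0, 0, 0, 0, ⟨0, 0⟩, 0⟩ 0 0)) (.void 98 ⟨84619, 0, 0, 15381, 0, 0, 0, 0, 0, ⟨0, 0⟩, 0⟩ 0 0)) (.void 88 ⟨84619,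 0, 0, 15381, 0, 0, 0, 0, 0, ⟨0, 0⟩, 0⟩ 0 0))) (.void 66 ⟨84619, 0, 0, 15381, 0, 0, 0, 0, 0, ⟨0, 0⟩, 0⟩ 0 0)) (.void 155 ⟨84619, 0, 0, 15381, 0, 0, 0, 0, 0, ⟨0, 0⟩, 0⟩ 0 0)))),
    by decide +kernel⟩

def covers43 : cell.Covers table row43.1 :=
  ⟨(.cut .d 0 (.cut .v 16777216 (.cut .d (-8388608) (.void 1 ⟨0, 0, 0, 0, 0, 100001, 0, 0, 0, ⟨0, 0⟩, 0⟩ 0 0) (.cut .d (-4194304) (.void 1 ⟨0, 0, 0, 0, 0, 100000, 0, 0, 0, ⟨0, 0⟩, 0⟩ 0 0) (.cut .d (-2097152) (.void 1 ⟨0, 0, 0, 0, 0, 100000, 0, 0, 0, ⟨0, 0⟩, 0⟩ 0 0) (.cut .d (-1048576) (.void 1 ⟨0, 0, 0, 0, 0, 100000, 0, 0, 0, ⟨0, 0⟩, 0⟩ 0 0) (.cut .d (-524288) (.void 1 ⟨0, 0, 0, 0, 0, 100000, 0, 0, 0, ⟨0, 0⟩, 0⟩ 0 0)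 (.cut .d (-262144) (.void 1 ⟨0, 0, 0, 0, 0, 100000, 0, 0, 0, ⟨0, 0⟩, 0⟩ 0 0) (.cut .d (-131072) (.void 1 ⟨0, 0, 0, 0, 0, 100000, 0, 0, 0, ⟨0, 0⟩, 0⟩ 0 0) (.cut .d (-65536) (.void 1 ⟨0, 0, 0, 0, 0, 100000, 0, 0, 0, ⟨0, 0⟩, 0⟩ 0 0) (.cut .v 8388608 (.void 2 ⟨0, 0, 100000, 0, 0, 0, 0, 0, 0, ⟨0, 0⟩, 0⟩ 0 0) (.cut .d (-32768) (.void 3 ⟨1000000000, 0, 0, 0, 0, 0, 0, 0, 0, ⟨0, 0⟩, 0⟩ 0 0) (.cut .d (-16384) (.void 3 ⟨1000000000, 0, 0, 0, 0, 0, 0, 0, 0, ⟨0, 0⟩, 0⟩ 0 0) (.cut .l 7801405 (.cut .d (-8192) (.void 3 ⟨1000000000, 0, 0, 0, 0, 0, 0, 0, 0, ⟨0, 0⟩, 0⟩ 0 0) (.pos 3 .mm ⟨96026749728, 0, 71745410272, 0, 0, 0, 0, 0, 0, ⟨0, 0⟩, 0⟩ 0 0)) (.cut .s 16760832 (.pos 3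 .mm ⟨167772160000, 0, 0, 0, 0, 0, 0, 0, 0, ⟨0, 0⟩, 0⟩ 0 0) (.pos 3 .mm ⟨167772160000, 0, 0, 0, 0, 0, 0, 0, 0, ⟨0, 0⟩, 0⟩ 0 0)))))))))))))) (.cut .v 4294967296 (.cut .v 268435456 (.cut .d (-8388608) (.void 48 ⟨0, 0, 0, 0, 0, 1000000000, 0, 0, 0, ⟨0, 0⟩, 0⟩ 0 0) (.cut .v 67108864 (.cut .d (-4194304) (.void 8 ⟨1000000000, 0, 0, 0, 0, 0, 0, 0, 0, ⟨0, 0⟩, 0⟩ 0 0) (.cut .d (-2097152) (.void 8 ⟨1000000000, 0, 0, 0, 0, 0, 0, 0, 0, ⟨0, 0⟩, 0⟩ 0 0) (.cut .d (-1048576) (.void 8 ⟨1000000000, 0, 0, 0, 0, 0, 0, 0, 0, ⟨0, 0⟩, 0⟩ 0 0) (.cut .d (-524288) (.void 8 ⟨1000000000, 0, 0, 0, 0, 0, 0, 0, 0, ⟨0, 0⟩, 0⟩ 0 0) (.cut .d (-262144) (.void 8 ⟨1000000000, 0, 0, 0, 0, 0, 0,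 0, 0, ⟨0, 0⟩, 0⟩ 0 0) (.cut .d (-131072) (.void 8 ⟨1000000000, 0, 0, 0, 0, 0, 0, 0, 0, ⟨0, 0⟩, 0⟩ 0 0) (.cut .d (-65536) (.void 8 ⟨1000000000, 0, 0, 0, 0, 0, 0, 0, 0, ⟨0, 0⟩, 0⟩ 0 0) (.cut .d (-32768) (.void 8 ⟨1000000000, 0, 0, 0, 0, 0, 0, 0, 0, ⟨0, 0⟩, 0⟩ 0 0) (.cut .d (-16384) (.void 8 ⟨1000000000, 0, 0, 0, 0, 0, 0, 0, 0, ⟨0, 0⟩, 0⟩ 0 0) (.cut .d (-8192) (.void 8 ⟨1000000000, 0, 0, 0, 0, 0, 0, 0, 0, ⟨0, 0⟩, 0⟩ 0 0) (.cut .d (-4096) (.void 8 ⟨100000, 0, 0, 0, 0, 0, 0, 0, 0, ⟨0, 0⟩, 0⟩ 0 0) (.cut .s 16760832 (.cut .s 16758784 (.cut .v 33554432 (.pos 9 .mp ⟨167772160000, 0, 0, 0, 0, 0, 0, 0, 0, ⟨0, 0⟩, 0⟩ 0 0) (.cut .v 50331648 (.pos 23 .mp ⟨167772160000,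 0, 0, 0, 0, 0, 0, 0, 0, ⟨0, 0⟩, 0⟩ 0 0) (.void 24 ⟨1000000000, 0, 0, 0, 0, 0, 0, 0, 0, ⟨0, 0⟩, 0⟩ 0 0))) (.pos 8 .mp ⟨167772160000, 0, 0, 0, 0, 0, 0, 0, 0, ⟨0, 0⟩, 0⟩ 0 0)) (.pos 8 .mp ⟨167772160000, 0, 0, 0, 0, 0, 0, 0, 0, ⟨0, 0⟩, 0⟩ 0 0))))))))))))) (.void 49 ⟨1000000000, 0, 0, 0, 0, 0, 0, 0, 0, ⟨0, 0⟩, 0⟩ 0 0))) (.void 66 ⟨91631, 0, 0, 8328, 0, 0, 0, 0, 0, ⟨0, 0⟩, 0⟩ 0 0)) (.void 155 ⟨91631, 0, 0, 8328, 0, 0, 0, 0, 0, ⟨0, 0⟩, 0⟩ 0 0))) (.cut .v 16777216 (.cut .v 8388608 (.cut .v 4194304 (.cut .v 2097152 (.cut .v 1048576 (.cut .v 524288 (.cut .v 262144 (.cut .v 131072 (.cut .v 65536 (.cut .v 32768 (.cut .v 16384 (.cut .v 8192 (.cut .v 4096 (.cut .v 2048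 (.cut .v 1024 (.pos 166 .pm ⟨0, 0, 65572024, 0, 0, 0, 0, 0, 0, ⟨0, 0⟩, 0⟩ 0 0) (.pos 167 .pm ⟨0, 0, 165328488, 0, 0, 0, 0, 0, 0, ⟨0, 0⟩, 0⟩ 0 0)) (.pos 165 .pm ⟨0, 0, 278067618, 0, 0, 0, 0, 0, 0, ⟨0, 0⟩, 0⟩ 0 0)) (.pos 163 .pm ⟨0, 0, 520238172, 0, 0, 0, 0, 0, 0, ⟨0, 0⟩, 0⟩ 0 0)) (.pos 161 .pm ⟨0, 0, 978182073, 0, 0, 0, 0, 0, 0, ⟨0, 0⟩, 0⟩ 0 0)) (.pos 159 .pm ⟨0, 0, 1829009485, 0, 0, 0, 0, 0, 0, ⟨0, 0⟩, 0⟩ 0 0)) (.pos 157 .pm ⟨0, 0, 3392432249, 0, 0, 0, 0, 0, 0, ⟨0, 0⟩, 0⟩ 0 0)) (.pos 152 .pm ⟨0, 0, 6229143358, 0, 0, 0, 0, 0, 0, ⟨0, 0⟩, 0⟩ 0 0)) (.pos 148 .pm ⟨0, 0, 11306672949, 0, 0, 0, 0, 0, 0, ⟨0, 0⟩, 0⟩ 0 0)) (.pos 138 .pm ⟨0, 0, 20407901169, 0, 0, 0, 0,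 0, 0, ⟨0, 0⟩, 0⟩ 0 0)) (.pos 118 .pm ⟨0, 0, 39307612839, 0, 0, 0, 0, 0, 0, ⟨0, 0⟩, 0⟩ 0 0)) (.pos 102 .pm ⟨0, 0, 77868592106, 0, 0, 0, 0, 0, 0, ⟨0, 0⟩, 0⟩ 0 0)) (.pos 72 .pm ⟨0, 0, 155741620765, 0, 0, 0, 0, 0, 0, ⟨0, 0⟩, 0⟩ 0 0)) (.pos 5 .pm ⟨0, 0, 167772160000, 0, 0, 0, 0, 0, 0, ⟨0, 0⟩, 0⟩ 0 0)) (.pos 3 .pm ⟨0, 0, 167772160000, 0, 0, 0, 0, 0, 0, ⟨0, 0⟩, 0⟩ 0 0)) (.cut .v 4294967296 (.cut .v 268435456 (.cut .v 67108864 (.pos 8 .pp ⟨167772160000, 0, 0, 0, 0, 0, 0, 0, 0, ⟨0, 0⟩, 0⟩ 0 0) (.cut .v 134217728 (.cut .v 100663296 (.cut .d 10254 (.cut .v 83886080 (.cut .s 16760832 (.cut .s 16758784 (.cut .d 5127 (.cut .d 2563 (.cut .l 7801405 (.void 107 ⟨1000000000,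 0, 0, 0, 0, 0, 0, 0, 0, ⟨0, 0⟩, 0⟩ 0 0) (.pos 107 .pp ⟨167772160000, 0, 0, 0, 0, 0, 0, 0, 0, ⟨0, 0⟩, 0⟩ 0 0)) (.pos 107 .pp ⟨0, 0, 0, 167772160000, 0, 0, 0, 0, 0, ⟨0, 0⟩, 0⟩ 0 0)) (.pos 107 .pp ⟨0, 0, 0, 167772160000, 0, 0, 0, 0, 0, ⟨0, 0⟩, 0⟩ 0 0)) (.pos 107 .pp ⟨167772160000, 0, 0, 0, 0, 0, 0, 0, 0, ⟨0, 0⟩, 0⟩ 0 0)) (.pos 107 .pp ⟨167772160000, 0, 0, 0, 0, 0, 0, 0, 0, ⟨0, 0⟩, 0⟩ 0 0)) (.void 108 ⟨80666, 0, 0, 19334, 0, 0, 0, 0, 0, ⟨0, 0⟩, 0⟩ 0 0)) (.void 97 ⟨0, 0, 0, 100000, 0, 0, 0, 0, 0, ⟨0, 0⟩, 0⟩ 0 0)) (.void 98 ⟨0, 0, 0, 208732, 0, 0, 0, 0, 0, ⟨0, 0⟩, 0⟩ 0 0)) (.void 88 ⟨0, 0, 0, 208732, 0, 0, 0, 0, 0, ⟨0, 0⟩, 0⟩ 0 0))) (.void 66 ⟨0, 0, 0, 208732, 0,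 0, 0, 0, 0, ⟨0, 0⟩, 0⟩ 0 0)) (.void 155 ⟨0, 0, 0, 208732, 0, 0, 0, 0, 0, ⟨0, 0⟩, 0⟩ 0 0)))),
    by decide +kernel⟩

def covers44 : cell.Covers table row44.1 :=
  ⟨(.cut .d 0 (.cut .v 16777216 (.cut .d (-8388608) (.void 1 ⟨0, 0, 100000, 0, 0, 0, 0, 0, 0, ⟨0, 0⟩, 0⟩ 0 0) (.cut .d (-4194304) (.void 1 ⟨0, 0, 0, 0, 0, 99890, 0, 0, 0, ⟨0, 0⟩, 0⟩ 0 0) (.cut .d (-2097152) (.void 1 ⟨0, 0, 0, 0, 0, 100000, 0, 0, 0, ⟨0, 0⟩, 0⟩ 0 0) (.cut .d (-1048576) (.void 1 ⟨0, 0, 0, 0, 0, 100000, 0, 0, 0, ⟨0, 0⟩, 0⟩ 0 0) (.cut .d (-524288) (.void 1 ⟨0, 0, 0, 0, 0, 100000, 0, 0, 0, ⟨0, 0⟩, 0⟩ 0 0) (.cut .d (-262144) (.void 1 ⟨0, 0, 100000, 0, 0, 0, 0, 0, 0, ⟨0, 0⟩, 0⟩ 0 0) (.cut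 .d (-131072) (.void 1 ⟨0, 0, 0, 0, 0, 100000, 0, 0, 0, ⟨0, 0⟩, 0⟩ 0 0) (.cut .d (-65536) (.void 1 ⟨0, 0, 100000, 0, 0, 0, 0, 0, 0, ⟨0, 0⟩, 0⟩ 0 0) (.cut .d (-32768) (.void 1 ⟨0, 0, 100000, 0, 0, 0, 0, 0, 0, ⟨0, 0⟩, 0⟩ 0 0) (.cut .d (-16384) (.void 1 ⟨0, 0, 0, 0, 0, 100000, 0, 0, 0, ⟨0, 0⟩, 0⟩ 0 0) (.cut .v 8388608 (.void 2 ⟨0, 0, 100000, 0, 0, 0, 0, 0, 0, ⟨0, 0⟩, 0⟩ 0 0) (.cut .d (-8192) (.void 3 ⟨100000, 0, 0, 0, 0, 0, 0, 0, 0, ⟨0, 0⟩, 0⟩ 0 0) (.pos 3 .mm ⟨167772160000, 0, 0, 0, 0, 0, 0, 0, 0, ⟨0, 0⟩, 0⟩ 0 0))))))))))))) (.cut .v 4294967296 (.cut .v 268435456 (.cut .v 67108864 (.cut .d (-8388608) (.void 8 ⟨0, 0, 0, 0, 0, 1000000000, 0, 0, 0, ⟨0, 0⟩, 0⟩ 0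 0) (.cut .d (-4194304) (.void 8 ⟨1000000000, 0, 0, 0, 0, 0, 0, 0, 0, ⟨0, 0⟩, 0⟩ 0 0) (.cut .d (-2097152) (.void 8 ⟨1000000000, 0, 0, 0, 0, 0, 0, 0, 0, ⟨0, 0⟩, 0⟩ 0 0) (.cut .d (-1048576) (.void 8 ⟨1000000000, 0, 0, 0, 0, 0, 0, 0, 0, ⟨0, 0⟩, 0⟩ 0 0) (.cut .d (-524288) (.void 8 ⟨1000000000, 0, 0, 0, 0, 0, 0, 0, 0, ⟨0, 0⟩, 0⟩ 0 0) (.cut .d (-262144) (.void 8 ⟨1000000000, 0, 0, 0, 0, 0, 0, 0, 0, ⟨0, 0⟩, 0⟩ 0 0) (.cut .d (-131072) (.void 8 ⟨1000000000, 0, 0, 0, 0, 0, 0, 0, 0, ⟨0, 0⟩, 0⟩ 0 0) (.cut .d (-65536) (.void 8 ⟨1000000000, 0, 0, 0, 0, 0, 0, 0, 0, ⟨0, 0⟩, 0⟩ 0 0) (.cut .d (-32768) (.void 8 ⟨1000000000, 0, 0, 0, 0, 0, 0, 0, 0, ⟨0, 0⟩, 0⟩ 0 0) (.cut .d (-16384)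 (.void 8 ⟨1000000000, 0, 0, 0, 0, 0, 0, 0, 0, ⟨0, 0⟩, 0⟩ 0 0) (.cut .d (-8192) (.void 8 ⟨1000000000, 0, 0, 0, 0, 0, 0, 0, 0, ⟨0, 0⟩, 0⟩ 0 0) (.cut .d (-4096) (.void 8 ⟨1000000000, 0, 0, 0, 0, 0, 0, 0, 0, ⟨0, 0⟩, 0⟩ 0 0) (.pos 8 .mp ⟨167772160000, 0, 0, 0, 0, 0, 0, 0, 0, ⟨0, 0⟩, 0⟩ 0 0))))))))))))) (.void 49 ⟨100000, 0, 0, 0, 0, 0, 0, 0, 0, ⟨0, 0⟩, 0⟩ 0 0)) (.void 66 ⟨91841, 0, 0, 8318, 0, 0, 0, 0, 0, ⟨0, 0⟩, 0⟩ 0 0)) (.void 155 ⟨91660, 0, 0, 8326, 0, 0, 0, 0, 0, ⟨0, 0⟩, 0⟩ 0 0))) (.cut .v 16777216 (.cut .v 8388608 (.cut .v 4194304 (.cut .v 2097152 (.cut .v 1048576 (.cut .v 524288 (.cut .v 262144 (.cut .v 131072 (.cut .v 65536 (.cut .v 32768 (.cut .v 16384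 (.cut .v 8192 (.cut .v 4096 (.cut .v 2048 (.cut .s 16766976 (.pos 164 .pm ⟨0, 0, 163421830, 0, 0, 0, 0, 0, 0, ⟨0, 0⟩, 0⟩ 0 0) (.pos 164 .pm ⟨0, 0, 39293725, 0, 0, 0, 0, 0, 0, ⟨0, 0⟩, 0⟩ 0 0)) (.pos 165 .pm ⟨0, 0, 431798816, 0, 0, 0, 0, 0, 0, ⟨0, 0⟩, 0⟩ 0 0)) (.pos 163 .pm ⟨0, 0, 801330288, 0, 0, 0, 0, 0, 0, ⟨0, 0⟩, 0⟩ 0 0)) (.pos 161 .pm ⟨0, 0, 1474864192, 0, 0, 0, 0, 0, 0, ⟨0, 0⟩, 0⟩ 0 0)) (.pos 159 .pm ⟨0, 0, 2773488458, 0, 0, 0, 0, 0, 0, ⟨0, 0⟩, 0⟩ 0 0)) (.pos 157 .pm ⟨0, 0, 5448507636, 0, 0, 0, 0, 0, 0, ⟨0, 0⟩, 0⟩ 0 0)) (.pos 152 .pm ⟨0, 0, 10891554282, 0, 0, 0, 0, 0, 0, ⟨0, 0⟩, 0⟩ 0 0)) (.pos 148 .pm ⟨0, 0, 21777676720, 0, 0, 0, 0, 0, 0, ⟨0, 0⟩, 0⟩ 0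 0)) (.pos 138 .pm ⟨0, 0, 43550038182, 0, 0, 0, 0, 0, 0, ⟨0, 0⟩, 0⟩ 0 0)) (.pos 118 .pm ⟨0, 0, 87095227450, 0, 0, 0, 0, 0, 0, ⟨0, 0⟩, 0⟩ 0 0)) (.pos 102 .pm ⟨0, 0, 167772160000, 0, 0, 0, 0, 0, 0, ⟨0, 0⟩, 0⟩ 0 0)) (.pos 72 .pm ⟨0, 0, 167772160000, 0, 0, 0, 0, 0, 0, ⟨0, 0⟩, 0⟩ 0 0)) (.pos 5 .pm ⟨0, 0, 167772160000, 0, 0, 0, 0, 0, 0, ⟨0, 0⟩, 0⟩ 0 0)) (.pos 3 .pm ⟨0, 0, 167772160000, 0, 0, 0, 0, 0, 0, ⟨0, 0⟩, 0⟩ 0 0)) (.cut .v 4294967296 (.cut .v 268435456 (.cut .v 67108864 (.pos 8 .pp ⟨0, 0, 0, 0, 0, 0, 0, 0, 0, ⟨0, 0⟩, 0⟩ 0 0) (.cut .v 134217728 (.cut .v 100663296 (.pos 97 .pp ⟨0, 0, 0, 167772160000, 0, 0, 0, 0, 0, ⟨0, 0⟩, 0⟩ 0 0) (.void 98 ⟨0, 0, 0, 100000,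 0, 0, 0, 0, 0, ⟨0, 0⟩, 0⟩ 0 0)) (.void 88 ⟨0, 0, 0, 100000, 0, 0, 0, 0, 0, ⟨0, 0⟩, 0⟩ 0 0))) (.void 66 ⟨0, 0, 0, 100000, 0, 0, 0, 0, 0, ⟨0, 0⟩, 0⟩ 0 0)) (.void 155 ⟨0, 0, 0, 100000, 0, 0, 0, 0, 0, ⟨0, 0⟩, 0⟩ 0 0)))),
    by decide +kernel⟩

def covers45 : cell.Covers table row45.1 :=
  ⟨(.cut .d 0 (.cut .v 16777216 (.cut .d (-8388608) (.void 1 ⟨0, 0, 13726, 0, 0, 86274, 0, 0, 0, ⟨0, 0⟩, 0⟩ 0 0) (.cut .d (-4194304) (.void 1 ⟨0, 0, 18072, 0, 0, 81928, 0, 0, 0, ⟨0, 0⟩, 0⟩ 0 0) (.cut .d (-2097152) (.void 1 ⟨0, 0, 20245, 0, 0, 79755, 0, 0, 0, ⟨0, 0⟩, 0⟩ 0 0) (.cut .d (-1048576) (.void 1 ⟨0, 0, 21331, 0, 0, 78669, 0, 0, 0, ⟨0, 0⟩, 0⟩ 0 0) (.cut .d (-524288) (.void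 1 ⟨0, 0, 21875, 0, 0, 78125, 0, 0, 0, ⟨0, 0⟩, 0⟩ 0 0) (.cut .d (-262144) (.void 1 ⟨0, 0, 22146, 0, 0, 77854, 0, 0, 0, ⟨0, 0⟩, 0⟩ 0 0) (.cut .d (-131072) (.void 1 ⟨0, 0, 22282, 0, 0, 77718, 0, 0, 0, ⟨0, 0⟩, 0⟩ 0 0) (.cut .d (-65536) (.void 1 ⟨0, 0, 1931, 0, 0, 98069, 0, 0, 0, ⟨0, 0⟩, 0⟩ 0 0) (.cut .d (-32768) (.void 1 ⟨0, 0, 1915, 0, 0, 98085, 0, 0, 0, ⟨0, 0⟩, 0⟩ 0 0) (.cut .d (-16384) (.void 1 ⟨0, 0, 1906, 0, 0, 98094, 0, 0, 0, ⟨0, 0⟩, 0⟩ 0 0) (.cut .d (-8192) (.void 1 ⟨0, 0, 0, 0, 0, 100000, 0, 0, 0, ⟨0, 0⟩, 0⟩ 0 0) (.cut .v 8388608 (.void 2 ⟨0, 0, 100000, 0, 0, 0, 0, 0, 0, ⟨0, 0⟩, 0⟩ 0 0) (.cut .d (-4096) (.void 3 ⟨75587, 0, 24413, 0, 0, 0, 0, 0, 0, ⟨0,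 0⟩, 0⟩ 0 0) (.pos 3 .mm ⟨167772160000, 0, 0, 0, 0, 0, 0, 0, 0, ⟨0, 0⟩, 0⟩ 0 0)))))))))))))) (.cut .v 4294967296 (.cut .d (-8388608) (.void 65 ⟨100000, 0, 0, 0, 0, 0, 0, 0, 0, ⟨0, 0⟩, 0⟩ 0 0) (.cut .v 268435456 (.cut .v 67108864 (.cut .d (-4194304) (.void 8 ⟨100000, 0, 0, 0, 0, 0, 0, 0, 0, ⟨0, 0⟩, 0⟩ 0 0) (.cut .d (-2097152) (.void 8 ⟨100000, 0, 0, 0, 0, 0, 0, 0, 0, ⟨0, 0⟩, 0⟩ 0 0) (.cut .d (-1048576) (.void 8 ⟨100000, 0, 0, 0, 0, 0, 0, 0, 0, ⟨0, 0⟩, 0⟩ 0 0) (.cut .d (-524288) (.void 8 ⟨100000, 0, 0, 0, 0, 0, 0, 0, 0, ⟨0, 0⟩, 0⟩ 0 0) (.cut .d (-262144) (.void 8 ⟨100000, 0, 0, 0, 0, 0, 0, 0, 0, ⟨0, 0⟩, 0⟩ 0 0) (.cut .d (-131072) (.void 8 ⟨100000, 0, 0, 0, 0,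 0, 0, 0, 0, ⟨0, 0⟩, 0⟩ 0 0) (.cut .d (-65536) (.void 8 ⟨100000, 0, 0, 0, 0, 0, 0, 0, 0, ⟨0, 0⟩, 0⟩ 0 0) (.cut .d (-32768) (.void 8 ⟨100000, 0, 0, 0, 0, 0, 0, 0, 0, ⟨0, 0⟩, 0⟩ 0 0) (.cut .d (-16384) (.void 8 ⟨100000, 0, 0, 0, 0, 0, 0, 0, 0, ⟨0, 0⟩, 0⟩ 0 0) (.cut .d (-8192) (.void 8 ⟨100000, 0, 0, 0, 0, 0, 0, 0, 0, ⟨0, 0⟩, 0⟩ 0 0) (.cut .d (-4096) (.void 8 ⟨100000, 0, 0, 0, 0, 0, 0, 0, 0, ⟨0, 0⟩, 0⟩ 0 0) (.pos 8 .mp ⟨167772160000, 0, 0, 0, 0, 0, 0, 0, 0, ⟨0, 0⟩, 0⟩ 0 0)))))))))))) (.void 49 ⟨100000, 0, 0, 0, 0, 0, 0, 0, 0, ⟨0, 0⟩, 0⟩ 0 0)) (.void 66 ⟨88004, 0, 0, 11996, 0, 0, 0, 0, 0, ⟨0, 0⟩, 0⟩ 0 0))) (.void 155 ⟨91880, 0, 0, 8411, 0, 0, 0, 0, 0, ⟨0, 0⟩, 0⟩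 0 0))) (.cut .v 16777216 (.cut .v 8388608 (.cut .v 4194304 (.cut .v 2097152 (.cut .d 4099 (.cut .d 2049 (.void 71 ⟨0, 0, 100000, 0, 0, 0, 0, 0, 0, ⟨0, 0⟩, 0⟩ 0 0) (.pos 71 .pm ⟨0, 0, 5466712, 0, 0, 0, 0, 0, 0, ⟨0, 0⟩, 0⟩ 0 0)) (.pos 71 .pm ⟨0, 0, 0, 3964405, 0, 0, 0, 0, 0, ⟨0, 0⟩, 0⟩ 0 0)) (.pos 72 .pm ⟨0, 0, 167772160000, 0, 0, 0, 0, 0, 0, ⟨0, 0⟩, 0⟩ 0 0)) (.pos 5 .pm ⟨0, 0, 167772160000, 0, 0, 0, 0, 0, 0, ⟨0, 0⟩, 0⟩ 0 0)) (.pos 3 .pm ⟨0, 0, 167772160000, 0, 0, 0, 0, 0, 0, ⟨0, 0⟩, 0⟩ 0 0)) (.cut .v 4294967296 (.cut .v 268435456 (.cut .v 67108864 (.pos 8 .pp ⟨0, 0, 0, 0, 0, 0, 0, 0, 0, ⟨0, 0⟩, 0⟩ 0 0) (.cut .v 134217728 (.pos 87 .pp ⟨0, 0, 0, 167772160000,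 0, 0, 0, 0, 0, ⟨0, 0⟩, 0⟩ 0 0) (.void 88 ⟨0, 0, 0, 100000, 0, 0, 0, 0, 0, ⟨0, 0⟩, 0⟩ 0 0))) (.cut .s 16771072 (.void 66 ⟨0, 0, 36873, 63127, 0, 0, 0, 0, 0, ⟨0, 0⟩, 0⟩ 0 0) (.void 66 ⟨0, 0, 0, 100000, 0, 0, 0, 0, 0, ⟨0, 0⟩, 0⟩ 0 0))) (.void 155 ⟨0, 0, 0, 100000, 0, 0, 0, 0, 0, ⟨0, 0⟩, 0⟩ 0 0)))),
    by decide +kernel⟩

end Vale.Agent.P237.Petty.Cor.Grid.N10.Mid
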